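import Vale.Agent.P219.TP.Defs

/-! # Linear algebra of area elements (task A5) -/

open MeasureTheory Set Metric
open scoped ENNReal ContDiff

namespace Vale.Agent.P219.TP

variable {n : ℕ}

theorem linAlg_det_adjoint (M : E n →L[ℝ] E n) : (ContinuousLinearMap.adjoint M).det = M.det := by
  have h1 : (ContinuousLinearMap.adjoint M).det =
      LinearMap.det (LinearMap.adjoint (M : E n →ₗ[ℝ] E n)) := by
    rfl
  have h2 := LinearMap.toMatrix_adjoint (EuclideanSpace.basisFun (Fin n) ℝ)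
    (EuclideanSpace.basisFun (Fin n) ℝ) (M : E n →ₗ[ℝ] E n)
  rw [h1, ← LinearMap.det_toMatrix (EuclideanSpace.basisFun (Fin n) ℝ).toBasis, h2,
    Matrix.det_conjTranspose, LinearMap.det_toMatrix]
  rfl

/-- Hadamard for a contraction -/
theorem linAlg_hadamard (T : E n →L[ℝ] E n) (hT : ∀ ξ, ‖T ξ‖ ≤ ‖ξ‖) (y : E n) :
    |T.det| * ‖y‖ ≤ ‖T y‖ := by
  rcases eq_or_ne y 0 with h0 | h0
  · rw [h0, map_zero, norm_zero, mul_zero]
  have hn0 : 0 < ‖y‖ := norm_pos_iff.2 h0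
  have hn : 0 < n := by
    by_contra hcon
    have hn' : n = 0 := by omega
    subst hn'
    exact h0 (Subsingleton.elim _ _)
  obtain ⟨i₀⟩ : Nonempty (Fin n) := ⟨⟨0, hn⟩⟩
  have hfr : Module.finrank ℝ (E n) = n := by simp
  have : Fact (Module.finrank ℝ (E n) = n) := ⟨hfr⟩
  have hon : Orthonormal ℝ (({i₀} : Set (Fin n)).domRestrict fun _ : Fin n => ‖y‖⁻¹ • y) := by
    rw [orthonormal_iff_ite]
    rintro ⟨i, hi⟩ ⟨j, hj⟩
    rw [mem_singleton_iff] at hi hj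
    subst hi hj
    simp only [Set.domRestrict_apply, if_true]
    rw [real_inner_self_eq_norm_sq, norm_smul, norm_inv, norm_norm, inv_mul_cancel₀ hn0.ne',
      one_pow]
  obtain ⟨b, hb⟩ := hon.exists_orthonormalBasis_extension_of_card_eq (by simp)
  have hb0 : b i₀ = ‖y‖⁻¹ • y := hb i₀ rfl
  have h1 := (b.toBasis.orientation).abs_volumeForm_apply_le (T ∘ b)
  rw [(b.toBasis.orientation).volumeForm_robust b rfl] at h1
  have h2 : b.toBasis.det (T ∘ b) = T.det := by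
    have := b.toBasis.det_comp (T : E n →ₗ[ℝ] E n) b
    have h3 : b.toBasis.det b = 1 := by
      have := b.toBasis.det_self
      rwa [b.coe_toBasis] at this
    rw [h3, mul_one] at this
    exact this
  rw [h2] at h1
  have h3 : ∏ i, ‖(T ∘ b) i‖ ≤ ‖T (b i₀)‖ := by
    rw [← Finset.mul_prod_erase Finset.univ _ (Finset.mem_univ i₀)]
    calc ‖(T ∘ b) i₀‖ * ∏ i ∈ Finset.univ.erase i₀, ‖(T ∘ b) i‖ ≤ ‖(T ∘ b) i₀‖ * 1 := by
          apply mul_le_mul_of_nonneg_left _ (norm_nonneg _)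
          apply Finset.prod_le_one (fun i _ => norm_nonneg _)
          intro i _
          refine (hT (b i)).trans ?_
          rw [b.norm_eq_one]
      _ = ‖T (b i₀)‖ := mul_one _
  have h4 := h1.trans h3
  rw [hb0, map_smul, norm_smul, norm_inv, norm_norm] at h4
  calc |T.det| * ‖y‖ ≤ ‖y‖⁻¹ * ‖T y‖ * ‖y‖ := mul_le_mul_of_nonneg_right h4 hn0.le
    _ = ‖T y‖ := by field_simp

/-- Hadamard: if `M` is a contraction then `|det M| ‖y‖ ≤ ‖Mᵀ y‖`; consequence. -/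
theorem det_mul_norm_le {B C : E n →L[ℝ] E n} (hB : B.det ≠ 0) (hC : C.det ≠ 0)
    (hBC : ∀ ξ, ‖B ξ‖ ≤ ‖C ξ‖) {N y z : E n} (hy : ∀ ξ, inner ℝ y (B ξ) = inner ℝ N ξ)
    (hz : ∀ ξ, inner ℝ z (C ξ) = inner ℝ N ξ) : |B.det| * ‖y‖ ≤ |C.det| * ‖z‖ := by
  have _ := hB
  set e := C.toContinuousLinearEquivOfDetNeZero hC with he
  have heC : ∀ ξ, e ξ = C ξ := fun ξ => rfl
  set M : E n →L[ℝ] E n := B.comp (e.symm : E n →L[ℝ] E n) with hM
  have hMC : ∀ ξ, M (C ξ) = B ξ := by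
    intro ξ
    rw [hM, ContinuousLinearMap.comp_apply, ← heC]
    congr 1
    exact e.symm_apply_apply ξ
  have hMle : ∀ ξ, ‖M ξ‖ ≤ ‖ξ‖ := by
    intro ξ
    have h1 : ξ = C (e.symm ξ) := by
      rw [← heC]
      exact (e.apply_symm_apply ξ).symm
    rw [h1, hMC]
    exact hBC _
  have hdet : B.det = M.det * C.det := by
    have h1 : (B : E n →ₗ[ℝ] E n) = (M : E n →ₗ[ℝ] E n) ∘ₗ (C : E n →ₗ[ℝ] E n) := by
      ext1 ξ
      exact (hMC ξ).symm
    have h2 : LinearMap.det (B : E n →ₗ[ℝ] E n) =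
        LinearMap.det (M : E n →ₗ[ℝ] E n) * LinearMap.det (C : E n →ₗ[ℝ] E n) := by
      rw [h1, LinearMap.det_comp]
    exact h2
  set T := ContinuousLinearMap.adjoint M with hT
  have hTle : ∀ ξ, ‖T ξ‖ ≤ ‖ξ‖ := by
    intro ξ
    have h1 : ‖T‖ ≤ 1 := by
      rw [hT, LinearIsometryEquiv.norm_map]
      exact M.opNorm_le_bound zero_le_one fun ξ => by rw [one_mul]; exact hMle ξ
    calc ‖T ξ‖ ≤ ‖T‖ * ‖ξ‖ := T.le_opNorm ξ
      _ ≤ 1 * ‖ξ‖ := mul_le_mul_of_nonneg_right h1 (norm_nonneg _)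
      _ = ‖ξ‖ := one_mul _
  have hTy : T y = z := by
    refine ext_inner_right ℝ fun ξ => ?_
    have h1 : ξ = C (e.symm ξ) := by
      rw [← heC]
      exact (e.apply_symm_apply ξ).symm
    rw [hT, ContinuousLinearMap.adjoint_inner_left, h1, hMC, hy, hz]
  have hTd : T.det = M.det := linAlg_det_adjoint M
  have h1 := linAlg_hadamard T hTle y
  rw [hTd, hTy] at h1
  rw [hdet, abs_mul]
  calc |M.det| * |C.det| * ‖y‖ = |C.det| * (|M.det| * ‖y‖) := by ring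
    _ ≤ |C.det| * ‖z‖ := mul_le_mul_of_nonneg_left h1 (abs_nonneg _)

/-- the comparison map -/
noncomputable def linAlgC (e ζ : E n) (α β : ℝ) : E n →L[ℝ] E n :=
  LinearMap.toContinuousLinearMap (β • LinearMap.transvection
    (β⁻¹ • ((α - β) • (innerₗ (E n) e) - innerₗ (E n) ζ) : Module.Dual ℝ (E n)) e)

theorem linAlgC_apply (e ζ : E n) (α : ℝ) {β : ℝ} (hβ : 0 < β) (ξ : E n) :
    linAlgC e ζ α β ξ = (α * inner ℝ e ξ - inner ℝ ζ ξ) • e + β • (ξ - inner ℝ e ξ • e) := by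
  have h1 : linAlgC e ζ α β ξ = β • (ξ + (β⁻¹ * ((α - β) * inner ℝ e ξ - inner ℝ ζ ξ)) • e) := rfl
  rw [h1, smul_add, smul_smul, smul_sub, smul_smul, ← mul_assoc, mul_inv_cancel₀ hβ.ne', one_mul,
    sub_mul, sub_smul, sub_smul, sub_smul]
  abel

theorem linAlgC_det (hn : 2 ≤ n) {e ζ : E n} {α β : ℝ} (he : ‖e‖ = 1) (hζ : inner ℝ e ζ = 0)
    (hβ : 0 < β) : (linAlgC e ζ α β).det = α * β ^ (n - 1) := by
  have h1 : (linAlgC e ζ α β).det = LinearMap.det (β • LinearMap.transvection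
      (β⁻¹ • ((α - β) • (innerₗ (E n) e) - innerₗ (E n) ζ) : Module.Dual ℝ (E n)) e) := rfl
  have h2 : (β⁻¹ • ((α - β) • (innerₗ (E n) e) - innerₗ (E n) ζ) : Module.Dual ℝ (E n)) e =
      β⁻¹ * ((α - β) * inner ℝ e e - inner ℝ ζ e) := rfl
  rw [h1, LinearMap.det_smul, LinearMap.transvection.det, h2, real_inner_self_eq_norm_sq, he,
    real_inner_comm, hζ]
  have h3 : Module.finrank ℝ (E n) = n := by simp
  rw [h3]
  obtain ⟨m, rfl⟩ : ∃ m, n = m + 1 := ⟨n - 1, by omega⟩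
  rw [Nat.add_sub_cancel, pow_succ]
  field_simp
  ring

/-- Area element. Apply `det_mul_norm_le` with
`C ξ = (α ⟨e,ξ⟩ - ⟨ζ,ξ⟩) e + β (ξ - ⟨e,ξ⟩ e)`, `det C = α β^{n-1}`,
`z = (N_e/α) e + β⁻¹ (N_⊥ + (N_e/α) ζ)`. -/
theorem area_linear (hn : 2 ≤ n) {B : E n →L[ℝ] E n} (hB : B.det ≠ 0) {e ζ N y : E n} {α β : ℝ}
    (he : ‖e‖ = 1) (hζ : inner ℝ e ζ = 0) (hα : 0 < α) (hβ : 0 < β)
    (hBξ : ∀ ξ, ‖B ξ‖ ^ 2 ≤ (α * inner ℝ e ξ - inner ℝ ζ ξ) ^ 2 +
      β ^ 2 * (‖ξ‖ ^ 2 - inner ℝ e ξ ^ 2))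
    (hy : ∀ ξ, inner ℝ y (B ξ) = inner ℝ N ξ) :
    |B.det| * ‖y‖ ≤ β ^ (n - 2) * √(β ^ 2 * inner ℝ e N ^ 2 +
      (α * √(‖N‖ ^ 2 - inner ℝ e N ^ 2) + |inner ℝ e N| * ‖ζ‖) ^ 2) := by
  set C := linAlgC e ζ α β with hC
  have hCd : C.det = α * β ^ (n - 1) := linAlgC_det hn he hζ hβ
  have hee : inner ℝ e e = 1 := by rw [real_inner_self_eq_norm_sq, he, one_pow]
  have hζe : inner ℝ ζ e = 0 := by rw [real_inner_comm]; exact hζ
  have hCn : ∀ ξ, ‖C ξ‖ ^ 2 = (α * inner ℝ e ξ - inner ℝ ζ ξ) ^ 2 +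
      β ^ 2 * (‖ξ‖ ^ 2 - inner ℝ e ξ ^ 2) := by
    intro ξ
    rw [hC, linAlgC_apply e ζ α hβ]
    have hee' : inner ℝ ξ e = inner ℝ e ξ := real_inner_comm _ _
    rw [← real_inner_self_eq_norm_sq, ← real_inner_self_eq_norm_sq ξ]
    simp only [inner_add_left, inner_add_right, inner_sub_left, inner_sub_right,
      real_inner_smul_left, real_inner_smul_right, hee, hee']
    ring
  set Ne := inner ℝ e N with hNe
  set Np : E n := N - Ne • e with hNp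
  have heNp : inner ℝ e Np = 0 := by
    rw [hNp, inner_sub_right, real_inner_smul_right, hee, mul_one, sub_self]
  have hNpe : inner ℝ Np e = 0 := by rw [real_inner_comm]; exact heNp
  set z : E n := (Ne / α) • e + β⁻¹ • (Np + (Ne / α) • ζ) with hz
  have hzC : ∀ ξ, inner ℝ z (C ξ) = inner ℝ N ξ := by
    intro ξ
    rw [hC, linAlgC_apply e ζ α hβ, hz]
    have h1 : inner ℝ N ξ = Ne * inner ℝ e ξ + inner ℝ Np ξ := by
      rw [hNp, inner_sub_left, real_inner_smul_left]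
      ring
    rw [h1]
    simp only [inner_add_left, inner_add_right, inner_sub_right,
      real_inner_smul_left, real_inner_smul_right, hee, hζe, hNpe]
    field_simp
    ring
  have h1 := det_mul_norm_le hB (C := C) (by rw [hCd]; positivity) (fun ξ => by
    have h2 := hBξ ξ
    rw [← hCn] at h2
    exact (pow_le_pow_iff_left₀ (norm_nonneg _) (norm_nonneg _) (by norm_num)).1 h2) hy hzC
  refine h1.trans ?_
  rw [hCd, abs_of_pos (by positivity)]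
  have hNpn : ‖Np‖ ^ 2 = ‖N‖ ^ 2 - Ne ^ 2 := by
    rw [← real_inner_self_eq_norm_sq, ← real_inner_self_eq_norm_sq, hNp]
    have hee' : inner ℝ N e = Ne := real_inner_comm _ _
    simp only [inner_sub_left, inner_sub_right, real_inner_smul_left, real_inner_smul_right, hee,
      hee', ← hNe]
    ring
  have hNpn' : √(‖N‖ ^ 2 - Ne ^ 2) = ‖Np‖ := by
    rw [← hNpn, Real.sqrt_sq (norm_nonneg _)]
  rw [hNpn']
  have hzn : (α * β * ‖z‖) ^ 2 = β ^ 2 * Ne ^ 2 + ‖α • Np + Ne • ζ‖ ^ 2 := by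
    rw [mul_pow, ← real_inner_self_eq_norm_sq z, ← real_inner_self_eq_norm_sq (α • Np + Ne • ζ), hz]
    have hζζ : inner ℝ ζ Np = inner ℝ Np ζ := real_inner_comm _ _
    simp only [inner_add_left, inner_add_right, real_inner_smul_left, real_inner_smul_right, hee,
      hζe, hNpe, heNp, hζ, hζζ]
    field_simp
    ring
  have hle : ‖α • Np + Ne • ζ‖ ≤ α * ‖Np‖ + |Ne| * ‖ζ‖ := by
    refine (norm_add_le _ _).trans (le_of_eq ?_)
    rw [norm_smul, norm_smul, Real.norm_eq_abs, Real.norm_eq_abs, abs_of_pos hα]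
  have hfin : α * β * ‖z‖ ≤ √(β ^ 2 * Ne ^ 2 + (α * ‖Np‖ + |Ne| * ‖ζ‖) ^ 2) := by
    apply Real.le_sqrt_of_sq_le
    rw [hzn]
    have := pow_le_pow_left₀ (norm_nonneg _) hle 2
    linarith
  obtain ⟨m, rfl⟩ : ∃ m, n = m + 2 := ⟨n - 2, by omega⟩
  have e1 : m + 2 - 1 = m + 1 := by omega
  have e2 : m + 2 - 2 = m := by omega
  rw [e1, e2, pow_succ]
  calc α * (β ^ m * β) * ‖z‖ = β ^ m * (α * β * ‖z‖) := by ring
    _ ≤ _ := mul_le_mul_of_nonneg_left hfin (by positivity)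

end Vale.Agent.P219.TP
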