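import Vale.Agent.P219.TP.Basic
import Vale.Agent.P219.TP.LinAlg

/-! # Area element of a radial contraction (task A6) -/

open MeasureTheory Set Metric
open scoped ENNReal ContDiff

namespace Vale.Agent.P219.TP

variable {n : ℕ} (G : Geo n)

/-- The radial map towards `p` with rate `θ`. -/
noncomputable def Geo.rad (G : Geo n) (θ : E n → ℝ) (p : E n) (t : ℝ) (x : E n) : E n :=
  G.ex p ((1 - t * θ (G.lg p x)) • G.lg p x)

theorem Geo.Psi_eq_rad (Φ : ℝ × ℝ → ℝ) (R : ℝ) (ν p : E n) (t : ℝ) :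
    G.Psi Φ R ν p t = G.rad (th Φ R ν) p t := rfl

/-! ### Derivative of `th` -/

theorem th_pair_fderiv (R : ℝ) (ν v : E n) :
    HasFDerivAt (fun v : E n => (‖v‖ ^ 2 / R ^ 2, inner ℝ v ν / R))
      ((((R ^ 2)⁻¹ : ℝ) • ((2 : ℝ) • innerSL ℝ v)).prod ((R⁻¹ : ℝ) • innerSL ℝ ν)) v := by
  have h1 : HasFDerivAt (fun v : E n => ‖v‖ ^ 2) ((2 : ℝ) • innerSL ℝ v) v := by
    have h0 := (hasStrictFDerivAt_norm_sq v).hasFDerivAt
    rw [two_smul ℕ] at h0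
    rw [two_smul ℝ]
    exact h0
  have h2 : HasFDerivAt (fun v : E n => inner ℝ v ν) (innerSL ℝ ν) v := by
    have h3 : (fun v : E n => inner ℝ v ν) = fun v => innerSL ℝ ν v := by
      funext v
      rw [innerSL_apply_apply, real_inner_comm]
    rw [h3]
    exact (innerSL ℝ ν).hasFDerivAt
  have h4 := (h1.const_smul ((R ^ 2)⁻¹ : ℝ)).prodMk (h2.const_smul (R⁻¹ : ℝ))
  refine h4.congr_of_eventuallyEq (Filter.Eventually.of_forall fun z => ?_)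
  simp only [Pi.smul_apply, smul_eq_mul]
  rw [div_eq_inv_mul, div_eq_inv_mul]

theorem th_perp {ν v z : E n} (hν : ‖ν‖ = 1) (hz : inner ℝ v z = 0) :
    |inner ℝ ν z| ≤ √(1 - (inner ℝ v ν / ‖v‖) ^ 2) * ‖z‖ := by
  set c : ℝ := inner ℝ v ν / ‖v‖ with hc
  have h1 : inner ℝ (ν - (c / ‖v‖) • v) z = inner ℝ ν z := by
    rw [inner_sub_left, real_inner_smul_left, hz, mul_zero, sub_zero]
  have h2 : ‖ν - (c / ‖v‖) • v‖ ^ 2 = 1 - c ^ 2 := by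
    rw [norm_sub_sq_real, hν, real_inner_smul_right, norm_smul, real_inner_comm, mul_pow,
      Real.norm_eq_abs, sq_abs]
    by_cases hv : ‖v‖ = 0
    · rw [hc, hv]
      simp
    · rw [hc]
      field_simp
      ring
  rw [← h1]
  refine (abs_real_inner_le_norm _ _).trans ?_
  rw [← h2, Real.sqrt_sq (norm_nonneg _)]

/-- First order quantities of `th Φ R ν`. -/
theorem th_deriv {Φ : ℝ × ℝ → ℝ} {δ : ℝ} (hδ : 0 < δ) (hΦ : ContDiffOn ℝ ∞ Φ {p | -δ < p.1})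
    {R : ℝ} (hR : 0 < R) (ν v : E n) :
    ContDiffAt ℝ ∞ (th Φ R ν) v ∧
    fderiv ℝ (th Φ R ν) v v = R⁻¹ *
      (2 * (‖v‖ / R) ^ 2 * fderiv ℝ Φ (‖v‖ ^ 2 / R ^ 2, inner ℝ v ν / R) (1, 0) +
        inner ℝ v ν / R * fderiv ℝ Φ (‖v‖ ^ 2 / R ^ 2, inner ℝ v ν / R) (0, 1)) ∧
    (‖ν‖ = 1 → ∀ z, inner ℝ v z = 0 → |fderiv ℝ (th Φ R ν) v z| ≤
      R⁻¹ * (R⁻¹ * |fderiv ℝ Φ (‖v‖ ^ 2 / R ^ 2, inner ℝ v ν / R) (0, 1)|) *
        √(1 - (inner ℝ v ν / ‖v‖) ^ 2) * ‖z‖) := by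
  have hopen : IsOpen {p : ℝ × ℝ | -δ < p.1} := isOpen_lt continuous_const continuous_fst
  have hmem : (‖v‖ ^ 2 / R ^ 2, inner ℝ v ν / R) ∈ {p : ℝ × ℝ | -δ < p.1} := by
    have : 0 ≤ ‖v‖ ^ 2 / R ^ 2 := by positivity
    show -δ < ‖v‖ ^ 2 / R ^ 2
    linarith
  have hΦat : ContDiffAt ℝ ∞ Φ (‖v‖ ^ 2 / R ^ 2, inner ℝ v ν / R) :=
    hΦ.contDiffAt (hopen.mem_nhds hmem)
  have hsm : ContDiffAt ℝ ∞ (fun v : E n => (‖v‖ ^ 2 / R ^ 2, inner ℝ v ν / R)) v := by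
    refine ContDiffAt.prodMk ?_ ?_
    · exact ((contDiff_norm_sq ℝ).contDiffAt).div_const _
    · exact (ContDiffAt.inner ℝ contDiffAt_id contDiffAt_const).div_const _
  have hth : ContDiffAt ℝ ∞ (th Φ R ν) v :=
    contDiffAt_const.mul (ContDiffAt.comp v hΦat hsm)
  set P : ℝ × ℝ := (‖v‖ ^ 2 / R ^ 2, inner ℝ v ν / R) with hP
  have hΦd : HasFDerivAt Φ (fderiv ℝ Φ P) P := (hΦat.differentiableAt (by simp)).hasFDerivAt
  have hd : HasFDerivAt (th Φ R ν) ((R⁻¹ : ℝ) • ((fderiv ℝ Φ P).comp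
      ((((R ^ 2)⁻¹ : ℝ) • ((2 : ℝ) • innerSL ℝ v)).prod ((R⁻¹ : ℝ) • innerSL ℝ ν)))) v :=
    (HasFDerivAt.comp v hΦd (th_pair_fderiv R ν v)).const_smul (R⁻¹ : ℝ)
  have hz : ∀ z, fderiv ℝ (th Φ R ν) v z = R⁻¹ * (2 * inner ℝ v z / R ^ 2 * fderiv ℝ Φ P (1, 0) +
      inner ℝ ν z / R * fderiv ℝ Φ P (0, 1)) := by
    intro z
    rw [hd.fderiv]
    have h1 : ((((R ^ 2)⁻¹ : ℝ) • ((2 : ℝ) • innerSL ℝ v)).prod ((R⁻¹ : ℝ) • innerSL ℝ ν)) z =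
        (2 * inner ℝ v z / R ^ 2) • ((1, 0) : ℝ × ℝ) + (inner ℝ ν z / R) • ((0, 1) : ℝ × ℝ) := by
      ext
      · simp [innerSL_apply_apply]
        ring
      · simp [innerSL_apply_apply]
        ring
    rw [smul_apply, ContinuousLinearMap.comp_apply, h1, map_add, map_smul,
      map_smul]
    simp only [smul_eq_mul]
  refine ⟨hth, ?_, fun hν z hvz => ?_⟩
  · rw [hz, real_inner_self_eq_norm_sq, real_inner_comm]
    ring
  · rw [hz, hvz, abs_mul, abs_of_pos (inv_pos.2 hR)]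
    have h1 := th_perp hν hvz
    have h2 : 2 * 0 / R ^ 2 * fderiv ℝ Φ P (1, 0) + inner ℝ ν z / R * fderiv ℝ Φ P (0, 1) =
        inner ℝ ν z * (R⁻¹ * fderiv ℝ Φ P (0, 1)) := by ring
    rw [h2, abs_mul, abs_mul, abs_of_pos (inv_pos.2 hR)]
    have h3 : 0 ≤ R⁻¹ * |fderiv ℝ Φ P (0, 1)| := by positivity
    calc R⁻¹ * (|inner ℝ ν z| * (R⁻¹ * |fderiv ℝ Φ P (0, 1)|))
        ≤ R⁻¹ * ((√(1 - (inner ℝ v ν / ‖v‖) ^ 2) * ‖z‖) * (R⁻¹ * |fderiv ℝ Φ P (0, 1)|)) := by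
          gcongr
      _ = R⁻¹ * (R⁻¹ * |fderiv ℝ Φ P (0, 1)|) * √(1 - (inner ℝ v ν / ‖v‖) ^ 2) * ‖z‖ := by ring

/-! ### The area element -/

namespace Geo

theorem T_inj (p v : E n) {z : E n} (h : G.T p v z = 0) : z = 0 := by
  have := G.norm_le_T p v z
  rw [h, norm_zero] at this
  exact norm_le_zero_iff.1 this

theorem exists_T_inv (p v : E n) : ∃ Ti : E n →L[ℝ] E n, (∀ z, Ti (G.T p v z) = z) ∧
    ∀ ξ, G.T p v (Ti ξ) = ξ := by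
  have hinj : Function.Injective ((G.T p v : E n →L[ℝ] E n) : E n →ₗ[ℝ] E n) := by
    rw [injective_iff_map_eq_zero]
    exact fun z hz => G.T_inj p v hz
  let Te := LinearEquiv.ofInjectiveEndo ((G.T p v : E n →L[ℝ] E n) : E n →ₗ[ℝ] E n) hinj
  refine ⟨LinearMap.toContinuousLinearMap (Te.symm : E n →ₗ[ℝ] E n), fun z => ?_, fun ξ => ?_⟩
  · exact Te.symm_apply_apply z
  · exact Te.apply_symm_apply ξ

theorem differentiable_ex (p : E n) : Differentiable ℝ (G.ex p) := by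
  have h : ContDiff ℝ ∞ (fun v => G.ex p v) :=
    G.ex_smooth.comp (contDiff_const.prodMk contDiff_id)
  exact h.differentiable (by simp)

theorem differentiable_lg_ae (p : E n) : Differentiable ℝ (G.lg p) := by
  have h : ContDiff ℝ ∞ (fun v => G.lg p v) :=
    G.lg_smooth.comp (contDiff_const.prodMk contDiff_id)
  exact h.differentiable (by simp)

end Geo

/-- the differential of `v ↦ (1 - t θ(v)) v` -/
noncomputable def radF (θ : E n → ℝ) (t : ℝ) (v : E n) : E n →L[ℝ] E n :=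
  (1 - t * θ v) • ContinuousLinearMap.id ℝ (E n) - t • (fderiv ℝ θ v).smulRight v

theorem radF_apply (θ : E n → ℝ) (t : ℝ) (v z : E n) :
    radF θ t v z = (1 - t * θ v) • z - (t * fderiv ℝ θ v z) • v := by
  simp [radF, smul_smul]

theorem hasFDerivAt_radF {θ : E n → ℝ} {v : E n} (t : ℝ) (hθ : DifferentiableAt ℝ θ v) :
    HasFDerivAt (fun u => (1 - t * θ u) • u) (radF θ t v) v := by
  have h1 : HasFDerivAt (fun u => 1 - t * θ u) (-(t • fderiv ℝ θ v)) v := by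
    have := (hθ.hasFDerivAt.const_mul t).const_sub 1
    exact this
  have h2 := h1.smul (hasFDerivAt_id v)
  refine h2.congr_fderiv ?_
  ext1 z
  rw [radF_apply]
  simp
  abel

/-- the frame matrix of the differential of `rad` -/
noncomputable def Geo.radB (θ : E n → ℝ) (p : E n) (t : ℝ) (v : E n) (Ti : E n →L[ℝ] E n) :
    E n →L[ℝ] E n :=
  (G.T p ((1 - t * θ v) • v)).comp ((radF θ t v).comp Ti)

theorem Geo.fderiv_rad {θ : E n → ℝ} {p x : E n} {t : ℝ} (hθ : DifferentiableAt ℝ θ (G.lg p x))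
    {Ti : E n →L[ℝ] E n} (hTi : ∀ ξ, G.T p (G.lg p x) (Ti ξ) = ξ) (ξ : E n) :
    G.A (G.rad θ p t x) (G.radB θ p t (G.lg p x) Ti ξ) =
      fderiv ℝ (G.rad θ p t) x (G.A x ξ) := by
  have h1 : HasFDerivAt (G.rad θ p t)
      ((fderiv ℝ (G.ex p) ((1 - t * θ (G.lg p x)) • G.lg p x)).comp
        ((radF θ t (G.lg p x)).comp (fderiv ℝ (G.lg p) x))) x :=
    HasFDerivAt.comp x
      (G.differentiable_ex p ((1 - t * θ (G.lg p x)) • G.lg p x)).hasFDerivAt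
      (HasFDerivAt.comp x (hasFDerivAt_radF t hθ) (G.differentiable_lg_ae p x).hasFDerivAt)
  have hx : G.ex p (G.lg p x) = x := G.ex_lg p x
  have h2 : G.A x ξ = fderiv ℝ (G.ex p) (G.lg p x) (Ti ξ) := by
    rw [← G.T_spec, hx, hTi]
  have h3 : fderiv ℝ (G.lg p) x (G.A x ξ) = Ti ξ := by
    have h4 := G.fderiv_lg p (G.lg p x) (Ti ξ)
    rw [hx] at h4
    rw [h2, h4]
  rw [h1.fderiv]
  show _ = fderiv ℝ (G.ex p) ((1 - t * θ (G.lg p x)) • G.lg p x)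
    (radF θ t (G.lg p x) (fderiv ℝ (G.lg p) x (G.A x ξ)))
  rw [h3, ← G.T_spec]
  rfl

theorem det_ne_of_inj {B : E n →L[ℝ] E n} (h : ∀ ξ, B ξ = 0 → ξ = 0) : B.det ≠ 0 := by
  intro hdet
  have h1 := LinearMap.bot_lt_ker_of_det_eq_zero (f := (B : E n →ₗ[ℝ] E n)) hdet
  have h2 : LinearMap.ker (B : E n →ₗ[ℝ] E n) = ⊥ := by
    rw [LinearMap.ker_eq_bot']
    exact h
  rw [h2] at h1
  exact lt_irrefl _ h1

/-- Pythagoras for `T p v` -/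
theorem Geo.pyth {p v z : E n} (hv : v ≠ 0) :
    ‖G.T p v z‖ ^ 2 = (inner ℝ v z / ‖v‖) ^ 2 +
      ‖G.T p v (z - (inner ℝ v z / ‖v‖ ^ 2) • v)‖ ^ 2 := by
  have hr : ‖v‖ ≠ 0 := norm_ne_zero_iff.2 hv
  have h1 : inner ℝ (G.T p v v) (G.T p v (z - (inner ℝ v z / ‖v‖ ^ 2) • v)) = 0 := by
    rw [G.gauss, inner_sub_right, real_inner_smul_right, real_inner_self_eq_norm_sq]
    field_simp
    ring
  have h2 : ‖G.T p v v‖ ^ 2 = ‖v‖ ^ 2 := by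
    rw [← real_inner_self_eq_norm_sq, G.gauss, real_inner_self_eq_norm_sq]
  have h3 : G.T p v z = (inner ℝ v z / ‖v‖ ^ 2) • G.T p v v +
      G.T p v (z - (inner ℝ v z / ‖v‖ ^ 2) • v) := by
    rw [← map_smul, ← map_add]
    congr 1
    abel
  rw [h3, norm_add_sq_real, real_inner_smul_left, h1, norm_smul, mul_pow, h2, Real.norm_eq_abs,
    sq_abs]
  field_simp
  ring

theorem Geo.gauss_smul {p v w : E n} {c : ℝ} (hc : c ≠ 0) :
    inner ℝ (G.T p (c • v) v) (G.T p (c • v) w) = inner ℝ v w := by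
  have h := G.gauss p (c • v) w
  rw [map_smul, real_inner_smul_left, real_inner_smul_left] at h
  exact mul_left_cancel₀ hc h

/-- The norm of the frame matrix. -/
theorem Geo.norm_radB {θ : E n → ℝ} {p v : E n} {t : ℝ} (hv : v ≠ 0)
    (hβ : 1 - t * θ v ≠ 0) (z : E n) :
    ‖G.T p ((1 - t * θ v) • v) (radF θ t v z)‖ ^ 2 =
      ((1 - t * (θ v + fderiv ℝ θ v v)) * (inner ℝ v z / ‖v‖) -
        t * ‖v‖ * fderiv ℝ θ v (z - (inner ℝ v z / ‖v‖ ^ 2) • v)) ^ 2 +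
      (1 - t * θ v) ^ 2 *
        ‖G.T p ((1 - t * θ v) • v) (z - (inner ℝ v z / ‖v‖ ^ 2) • v)‖ ^ 2 := by
  have hr : ‖v‖ ≠ 0 := norm_ne_zero_iff.2 hv
  set z' : E n := z - (inner ℝ v z / ‖v‖ ^ 2) • v with hz'
  have h1 : inner ℝ v z' = 0 := by
    rw [hz', inner_sub_right, real_inner_smul_right, real_inner_self_eq_norm_sq]
    field_simp
    ring
  have hz : z = z' + (inner ℝ v z / ‖v‖ ^ 2) • v := by rw [hz']; abel
  have h2 : fderiv ℝ θ v z' = fderiv ℝ θ v z - (inner ℝ v z / ‖v‖ ^ 2) * fderiv ℝ θ v v := by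
    rw [hz', map_sub, map_smul, smul_eq_mul]
  have h3 : radF θ t v z = (((1 - t * (θ v + fderiv ℝ θ v v)) * (inner ℝ v z / ‖v‖) -
        t * ‖v‖ * fderiv ℝ θ v z') / ‖v‖) • v + (1 - t * θ v) • z' := by
    have h4 : ((1 - t * (θ v + fderiv ℝ θ v v)) * (inner ℝ v z / ‖v‖) -
        t * ‖v‖ * (fderiv ℝ θ v z - (inner ℝ v z / ‖v‖ ^ 2) * fderiv ℝ θ v v)) / ‖v‖ =
        (1 - t * θ v) * (inner ℝ v z / ‖v‖ ^ 2) - t * fderiv ℝ θ v z := by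
      field_simp
      ring
    rw [radF_apply, h2, h4, hz']
    module
  rw [h3, map_add, map_smul, map_smul, norm_add_sq_real, real_inner_smul_left,
    real_inner_smul_right, G.gauss_smul hβ, h1, norm_smul, norm_smul, mul_pow, mul_pow,
    Real.norm_eq_abs, Real.norm_eq_abs, sq_abs, sq_abs,
    ← real_inner_self_eq_norm_sq (G.T p ((1 - t * θ v) • v) v), G.gauss_smul hβ,
    real_inner_self_eq_norm_sq]
  field_simp
  ring

theorem area_final {α β b z s N : ℝ} (hα : 0 ≤ α) (hN : 0 ≤ N) (hz : 0 ≤ z) (hzs : z ≤ s) :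
    √(β ^ 2 * (-(b * N)) ^ 2 + (α * (N * √(1 - b ^ 2)) + |b| * N * z) ^ 2) ≤
      √(β ^ 2 * b ^ 2 + (α * √(1 - b ^ 2) + |b| * s) ^ 2) * N := by
  refine Real.sqrt_le_iff.2 ⟨by positivity, ?_⟩
  rw [mul_pow, Real.sq_sqrt (by positivity)]
  have h2 : α * (N * √(1 - b ^ 2)) + |b| * N * z ≤ (α * √(1 - b ^ 2) + |b| * s) * N := by
    have h3 : |b| * N * z ≤ |b| * N * s := by gcongr
    linarith
  have h4 : 0 ≤ α * (N * √(1 - b ^ 2)) + |b| * N * z := by positivity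
  have h5 := pow_le_pow_left₀ h4 h2 2
  calc β ^ 2 * (-(b * N)) ^ 2 + (α * (N * √(1 - b ^ 2)) + |b| * N * z) ^ 2
      ≤ β ^ 2 * (-(b * N)) ^ 2 + ((α * √(1 - b ^ 2) + |b| * s) * N) ^ 2 := by gcongr
    _ = (β ^ 2 * b ^ 2 + (α * √(1 - b ^ 2) + |b| * s) ^ 2) * N ^ 2 := by ring

/-- Change of the volume density: `w (rad x) |det| = w x |det B|`. -/
theorem Geo.w_det_rad {x y : E n} {D B : E n →L[ℝ] E n} (hAB : ∀ ξ, G.A y (B ξ) = D (G.A x ξ)) :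
    G.w y * |D.det| = G.w x * |B.det| := by
  have hdet : |D.det| * |(G.A x).det| = |(G.A y).det| * |B.det| := by
    rw [← abs_mul, ← abs_mul]
    congr 1
    have h1 : (D.comp (G.A x) : E n →L[ℝ] E n) = (G.A y).comp B := by
      ext1 ξ
      exact (hAB ξ).symm
    have h2 := congrArg ContinuousLinearMap.det h1
    unfold ContinuousLinearMap.det at h2 ⊢
    rw [ContinuousLinearMap.toLinearMap_comp, ContinuousLinearMap.toLinearMap_comp,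
      LinearMap.det_comp, LinearMap.det_comp] at h2
    exact h2
  have h1 := G.w_det x
  have h2 := G.w_det y
  calc G.w y * |D.det| = G.w y * |D.det| * (G.w x * |(G.A x).det|) := by rw [h1, mul_one]
    _ = G.w x * (G.w y * (|D.det| * |(G.A x).det|)) := by ring
    _ = G.w x * (G.w y * |(G.A y).det| * |B.det|) := by rw [hdet]; ring
    _ = G.w x * |B.det| := by rw [h2, one_mul]

theorem area_elem (hn : 2 ≤ n) {θ : E n → ℝ} {p x : E n} {t τ : ℝ} (hx : x ≠ p)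
    (hθ : DifferentiableAt ℝ θ (G.lg p x)) (ht : 0 ≤ t) (hτ : 0 ≤ τ)
    (hτ' : ∀ z, inner ℝ (G.lg p x) z = 0 → |fderiv ℝ θ (G.lg p x) z| ≤ τ * ‖z‖)
    (hθ0 : 0 ≤ θ (G.lg p x)) (hβ : 0 < 1 - t * θ (G.lg p x))
    (hα : 0 < 1 - t * (θ (G.lg p x) + fderiv ℝ θ (G.lg p x) (G.lg p x))) {N y : E n}
    (hy : ∀ ξ η, G.A (G.rad θ p t x) η = fderiv ℝ (G.rad θ p t) x (G.A x ξ) →
      inner ℝ y η = inner ℝ N ξ) {b : ℝ}
    (hb : b = inner ℝ (G.lg x p) N / (‖G.lg x p‖ * ‖N‖)) :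
    G.w (G.rad θ p t x) * |(fderiv ℝ (G.rad θ p t) x).det| * ‖y‖ ≤
      G.w x * ((1 - t * θ (G.lg p x)) ^ (n - 2) *
        √((1 - t * θ (G.lg p x)) ^ 2 * b ^ 2 +
          ((1 - t * (θ (G.lg p x) + fderiv ℝ θ (G.lg p x) (G.lg p x))) * √(1 - b ^ 2) +
            |b| * (t * (‖G.lg p x‖ * τ))) ^ 2)) * ‖N‖ := by
  set v : E n := G.lg p x with hvdef
  have hv : v ≠ 0 := by
    rw [hvdef, Ne, G.lg_eq_zero]
    exact fun h => hx h.symm
  have hr : 0 < ‖v‖ := norm_pos_iff.2 hv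
  have hr0 : ‖v‖ ≠ 0 := hr.ne'
  obtain ⟨Ti, hTi1, hTi2⟩ := G.exists_T_inv p v
  -- the frame matrix
  set B : E n →L[ℝ] E n := G.radB θ p t v Ti with hBdef
  have hBapp : ∀ ξ, B ξ = G.T p ((1 - t * θ v) • v) (radF θ t v (Ti ξ)) := fun ξ => rfl
  have hAB : ∀ ξ, G.A (G.rad θ p t x) (B ξ) = fderiv ℝ (G.rad θ p t) x (G.A x ξ) :=
    fun ξ => G.fderiv_rad hθ hTi2 ξ
  have hB2 := fun ξ => G.norm_radB (p := p) hv hβ.ne' (Ti ξ)
  have hT2 : ∀ ξ, ‖ξ‖ ^ 2 = (inner ℝ v (Ti ξ) / ‖v‖) ^ 2 +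
      ‖G.T p v (Ti ξ - (inner ℝ v (Ti ξ) / ‖v‖ ^ 2) • v)‖ ^ 2 := fun ξ => by
    have := G.pyth (p := p) (z := Ti ξ) hv
    rwa [hTi2] at this
  have hperp : ∀ z : E n, inner ℝ v (z - (inner ℝ v z / ‖v‖ ^ 2) • v) = 0 := fun z => by
    rw [inner_sub_right, real_inner_smul_right, real_inner_self_eq_norm_sq]
    field_simp
    ring
  -- injectivity
  have hBdet : B.det ≠ 0 := by
    refine det_ne_of_inj fun ξ hξ => ?_
    have h1 := hB2 ξ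
    rw [← hBapp, hξ, norm_zero] at h1
    have h2 : ‖G.T p ((1 - t * θ v) • v)
        (Ti ξ - (inner ℝ v (Ti ξ) / ‖v‖ ^ 2) • v)‖ ^ 2 = 0 := by
      have h3 := sq_nonneg ((1 - t * (θ v + fderiv ℝ θ v v)) * (inner ℝ v (Ti ξ) / ‖v‖) -
        t * ‖v‖ * fderiv ℝ θ v (Ti ξ - (inner ℝ v (Ti ξ) / ‖v‖ ^ 2) • v))
      have h4 := sq_nonneg (‖G.T p ((1 - t * θ v) • v)
        (Ti ξ - (inner ℝ v (Ti ξ) / ‖v‖ ^ 2) • v)‖)
      have h5 : 0 < (1 - t * θ v) ^ 2 := by positivity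
      nlinarith
    have h3 : Ti ξ - (inner ℝ v (Ti ξ) / ‖v‖ ^ 2) • v = 0 :=
      G.T_inj _ _ (norm_eq_zero.1 (pow_eq_zero_iff (two_ne_zero)|>.1 h2))
    rw [h3, map_zero, map_zero, norm_zero, mul_zero, sub_zero] at h1
    have h4 : (1 - t * (θ v + fderiv ℝ θ v v)) * (inner ℝ v (Ti ξ) / ‖v‖) = 0 := by
      have h5 : ((1 - t * (θ v + fderiv ℝ θ v v)) * (inner ℝ v (Ti ξ) / ‖v‖)) ^ 2 = 0 := by
        linarith
      exact pow_eq_zero_iff (two_ne_zero) |>.1 h5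
    have h5 : inner ℝ v (Ti ξ) = 0 := by
      rcases mul_eq_zero.1 h4 with h | h
      · exact absurd h hα.ne'
      · rcases div_eq_zero_iff.1 h with h | h
        · exact h
        · exact absurd h hr0
    rw [h5, zero_div, zero_smul, sub_zero] at h3
    rw [← hTi2 ξ, h3, map_zero]
  -- the vectors
  set e : E n := ‖v‖⁻¹ • G.T p v v with hedef
  have hTvv : ‖G.T p v v‖ = ‖v‖ := by
    have h1 : ‖G.T p v v‖ ^ 2 = ‖v‖ ^ 2 := by
      rw [← real_inner_self_eq_norm_sq, G.gauss, real_inner_self_eq_norm_sq]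
    exact (pow_left_inj₀ (norm_nonneg _) (norm_nonneg _) two_ne_zero).1 h1
  have he : ‖e‖ = 1 := by
    rw [hedef, norm_smul, norm_inv, norm_norm, hTvv]
    field_simp
  have heξ : ∀ ξ, inner ℝ e ξ = inner ℝ v (Ti ξ) / ‖v‖ := fun ξ => by
    rw [hedef, real_inner_smul_left, ← G.gauss p v (Ti ξ), hTi2]
    field_simp
  set l : E n →L[ℝ] ℝ := (t * ‖v‖) • (fderiv ℝ θ v).comp
    (Ti - ((‖v‖ ^ 2)⁻¹ • (innerSL ℝ v).comp Ti).smulRight v) with hl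
  have hlapp : ∀ ξ, l ξ = t * ‖v‖ *
      fderiv ℝ θ v (Ti ξ - (inner ℝ v (Ti ξ) / ‖v‖ ^ 2) • v) := fun ξ => by
    rw [hl]
    simp only [smul_apply, ContinuousLinearMap.comp_apply, sub_apply,
      ContinuousLinearMap.smulRight_apply, innerSL_apply_apply, smul_eq_mul]
    rw [div_eq_inv_mul]
  set ζ : E n := (InnerProductSpace.toDual ℝ (E n)).symm l with hζdef
  have hζξ : ∀ ξ, inner ℝ ζ ξ = l ξ := fun ξ => by
    rw [hζdef, InnerProductSpace.toDual_symm_apply]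
  have heζ : inner ℝ e ζ = 0 := by
    rw [real_inner_comm, hζξ, hlapp]
    have h1 : Ti e = ‖v‖⁻¹ • v := by rw [hedef, map_smul, hTi1]
    rw [h1, real_inner_smul_right, real_inner_self_eq_norm_sq]
    have h2 : ‖v‖⁻¹ • v - (‖v‖⁻¹ * ‖v‖ ^ 2 / ‖v‖ ^ 2) • v = 0 := by
      rw [mul_div_assoc, div_self (pow_ne_zero 2 hr0), mul_one, sub_self]
    rw [h2, map_zero, mul_zero]
  have hζn : ‖ζ‖ ≤ t * (‖v‖ * τ) := by
    rw [hζdef, LinearIsometryEquiv.norm_map]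
    refine ContinuousLinearMap.opNorm_le_bound _ (by positivity) fun ξ => ?_
    rw [hlapp, Real.norm_eq_abs, abs_mul, abs_of_nonneg (by positivity : 0 ≤ t * ‖v‖)]
    have h1 := hτ' _ (hperp (Ti ξ))
    have h2 := G.norm_le_T p v (Ti ξ - (inner ℝ v (Ti ξ) / ‖v‖ ^ 2) • v)
    have h3 : ‖G.T p v (Ti ξ - (inner ℝ v (Ti ξ) / ‖v‖ ^ 2) • v)‖ ≤ ‖ξ‖ := by
      have h4 := hT2 ξ
      have h5 := sq_nonneg (inner ℝ v (Ti ξ) / ‖v‖)
      exact le_of_sq_le_sq (by linarith) (norm_nonneg _)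
    calc t * ‖v‖ * |fderiv ℝ θ v (Ti ξ - (inner ℝ v (Ti ξ) / ‖v‖ ^ 2) • v)|
        ≤ t * ‖v‖ * (τ * ‖Ti ξ - (inner ℝ v (Ti ξ) / ‖v‖ ^ 2) • v‖) := by gcongr
      _ ≤ t * ‖v‖ * (τ * ‖ξ‖) := by
          have := h2.trans h3
          gcongr
      _ = t * (‖v‖ * τ) * ‖ξ‖ := by ring
  have hBξ : ∀ ξ, ‖B ξ‖ ^ 2 ≤ ((1 - t * (θ v + fderiv ℝ θ v v)) * inner ℝ e ξ -
      inner ℝ ζ ξ) ^ 2 + (1 - t * θ v) ^ 2 * (‖ξ‖ ^ 2 - inner ℝ e ξ ^ 2) := by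
    intro ξ
    have h1 := G.mono p v (Ti ξ - (inner ℝ v (Ti ξ) / ‖v‖ ^ 2) • v) (1 - t * θ v)
      (hperp (Ti ξ)) hβ.le (by have := mul_nonneg ht hθ0; linarith)
    rw [hBapp, hB2 ξ, hζξ, hlapp, heξ, hT2 ξ]
    have h2 : ‖G.T p ((1 - t * θ v) • v) (Ti ξ - (inner ℝ v (Ti ξ) / ‖v‖ ^ 2) • v)‖ ^ 2 ≤
        ‖G.T p v (Ti ξ - (inner ℝ v (Ti ξ) / ‖v‖ ^ 2) • v)‖ ^ 2 := by gcongr
    have h3 : (0 : ℝ) ≤ (1 - t * θ v) ^ 2 := sq_nonneg _
    nlinarith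
  have hyB : ∀ ξ, inner ℝ y (B ξ) = inner ℝ N ξ := fun ξ => hy ξ (B ξ) (hAB ξ)
  have hmain := area_linear hn hBdet he heζ hα hβ hBξ hyB
  -- determinants
  have hw : G.w (G.rad θ p t x) * |(fderiv ℝ (G.rad θ p t) x).det| = G.w x * |B.det| :=
    G.w_det_rad hAB
  -- the angle
  have heN : inner ℝ e N = -(b * ‖N‖) := by
    have h1 : e = -(‖v‖⁻¹ • G.lg x p) := by
      rw [hedef, G.T_self, hvdef, G.lg_back', smul_neg]
    have h2 : ‖G.lg x p‖ = ‖v‖ := by rw [hvdef, G.norm_lg_comm]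
    rw [h1, inner_neg_left, real_inner_smul_left, hb, h2]
    by_cases hN : ‖N‖ = 0
    · rw [norm_eq_zero.1 hN]
      simp
    · field_simp
  have hb1 : b ^ 2 ≤ 1 := by
    by_cases hN : ‖N‖ = 0
    · rw [hb, hN]
      simp
    · have h1 := abs_real_inner_le_norm e N
      rw [heN, he, one_mul, abs_neg, abs_mul, abs_norm] at h1
      have h2 : 0 < ‖N‖ := lt_of_le_of_ne (norm_nonneg _) (Ne.symm hN)
      have h3 : |b| ≤ 1 := by
        by_contra h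
        push Not at h
        nlinarith
      exact (sq_le_one_iff_abs_le_one b).2 h3
  have hsq : √(‖N‖ ^ 2 - inner ℝ e N ^ 2) = ‖N‖ * √(1 - b ^ 2) := by
    rw [heN]
    have h1 : ‖N‖ ^ 2 - (-(b * ‖N‖)) ^ 2 = ‖N‖ ^ 2 * (1 - b ^ 2) := by ring
    rw [h1, Real.sqrt_mul (sq_nonneg _), Real.sqrt_sq (norm_nonneg _)]
  rw [hw]
  calc G.w x * |B.det| * ‖y‖ = G.w x * (|B.det| * ‖y‖) := by ring
    _ ≤ G.w x * ((1 - t * θ v) ^ (n - 2) * √((1 - t * θ v) ^ 2 * inner ℝ e N ^ 2 +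
        ((1 - t * (θ v + fderiv ℝ θ v v)) * √(‖N‖ ^ 2 - inner ℝ e N ^ 2) +
          |inner ℝ e N| * ‖ζ‖) ^ 2)) := by
        have := (G.w_pos x).le
        gcongr
    _ ≤ G.w x * ((1 - t * θ v) ^ (n - 2) * (√((1 - t * θ v) ^ 2 * b ^ 2 +
        ((1 - t * (θ v + fderiv ℝ θ v v)) * √(1 - b ^ 2) +
          |b| * (t * (‖v‖ * τ))) ^ 2) * ‖N‖)) := by
        have h0 := (G.w_pos x).le
        have h1 : √((1 - t * θ v) ^ 2 * inner ℝ e N ^ 2 +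
            ((1 - t * (θ v + fderiv ℝ θ v v)) * √(‖N‖ ^ 2 - inner ℝ e N ^ 2) +
              |inner ℝ e N| * ‖ζ‖) ^ 2) ≤ √((1 - t * θ v) ^ 2 * b ^ 2 +
            ((1 - t * (θ v + fderiv ℝ θ v v)) * √(1 - b ^ 2) +
              |b| * (t * (‖v‖ * τ))) ^ 2) * ‖N‖ := by
          rw [hsq, heN, abs_neg, abs_mul, abs_norm]
          exact area_final hα.le (norm_nonneg _) (norm_nonneg _) hζn
        have h6 : (0 : ℝ) ≤ (1 - t * θ v) ^ (n - 2) := by positivity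
        gcongr
    _ = _ := by ring

end Vale.Agent.P219.TP
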