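import Vale.Agent.P219.TP.Basic

/-! # Nonexpansive logarithm, convexity of balls (task A1c) -/

open MeasureTheory Set Metric
open scoped ENNReal ContDiff

namespace Vale.Agent.P219.TP

variable {n : ℕ} (G : Geo n)

namespace Geo

/-- Derivative of the logarithm along a curve of known velocity. -/
theorem lg_velocity_bound (x p u : E n) :
    ‖fderiv ℝ (G.lg x) p (G.A p u)‖ ≤ ‖u‖ := by
  have hdet := G.det_T_ne x (G.lg x p)
  have hsurj : Function.Surjective (G.T x (G.lg x p)) := by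
    have hu : IsUnit ((G.T x (G.lg x p) : E n →L[ℝ] E n) : E n →ₗ[ℝ] E n) := by
      rw [LinearMap.isUnit_iff_isUnit_det]
      exact isUnit_iff_ne_zero.mpr hdet
    have hb := (Module.End.isUnit_iff _).mp hu
    exact hb.2
  obtain ⟨ζ, hζ⟩ := hsurj u
  have h1 := G.fderiv_lg x (G.lg x p) ζ
  have h2 := G.T_spec x (G.lg x p) ζ
  rw [← h2, G.ex_lg, hζ] at h1
  rw [h1, ← hζ]
  exact G.norm_le_T x (G.lg x p) ζ

theorem differentiable_lg (x : E n) : Differentiable ℝ (G.lg x) := by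
  have h : ContDiff ℝ ∞ (G.lg x) :=
    G.lg_smooth.comp (contDiff_const.prodMk contDiff_id)
  exact h.differentiable (by simp)

/-- `lg x` is `1`-Lipschitz. -/
theorem lg_nonexp (x y z : E n) : ‖G.lg x y - G.lg x z‖ ≤ ‖G.lg y z‖ := by
  have hd : ∀ t ∈ Icc (0 : ℝ) 1, HasDerivWithinAt (fun s : ℝ => G.lg x (G.ex y (s • G.lg y z)))
      (fderiv ℝ (G.lg x) (G.ex y (t • G.lg y z))
        (G.A (G.ex y (t • G.lg y z)) (G.V t y (G.lg y z)))) (Icc 0 1) t := by
    intro t _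
    have h1 := (G.differentiable_lg x (G.ex y (t • G.lg y z))).hasFDerivAt
    exact (h1.comp_hasDerivAt t (G.ex_deriv t y (G.lg y z))).hasDerivWithinAt
  have hb : ∀ t ∈ Ico (0 : ℝ) 1, ‖fderiv ℝ (G.lg x) (G.ex y (t • G.lg y z))
        (G.A (G.ex y (t • G.lg y z)) (G.V t y (G.lg y z)))‖ ≤ ‖G.lg y z‖ := by
    intro t _
    refine (G.lg_velocity_bound x _ _).trans ?_
    rw [G.norm_V]
  have h := norm_image_sub_le_of_norm_deriv_le_segment_01' hd hb
  simp only [one_smul, zero_smul, G.ex_lg, G.ex_zero] at h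
  rw [norm_sub_rev]
  exact h

/-- Geodesic balls are convex. -/
theorem ball_convex {o x y : E n} {ρ : ℝ} (hx : ‖G.lg o x‖ ≤ ρ) (hy : ‖G.lg o y‖ ≤ ρ) {s : ℝ}
    (h0 : 0 ≤ s) (h1 : s ≤ 1) : ‖G.lg o (G.ex x (s • G.lg x y))‖ ≤ ρ := by
  have e1 : G.lg (G.ex x (s • G.lg x y)) x = -(s • G.V s x (G.lg x y)) := by
    have h := G.ex_flow s (-s) x (G.lg x y)
    rw [add_neg_cancel, zero_smul, G.ex_zero] at h
    have h' := G.lg_ex (G.ex x (s • G.lg x y)) ((-s) • G.V s x (G.lg x y))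
    rw [h] at h'
    rw [h', neg_smul]
  have e2 : G.lg (G.ex x (s • G.lg x y)) y = (1 - s) • G.V s x (G.lg x y) := by
    have h := G.ex_flow s (1 - s) x (G.lg x y)
    rw [add_sub_cancel, one_smul, G.ex_lg] at h
    have h' := G.lg_ex (G.ex x (s • G.lg x y)) ((1 - s) • G.V s x (G.lg x y))
    rw [h] at h'
    exact h'
  have n1 := G.lg_nonexp (G.ex x (s • G.lg x y)) o x
  have n2 := G.lg_nonexp (G.ex x (s • G.lg x y)) o y
  rw [e1] at n1
  rw [e2] at n2
  rw [G.norm_lg_comm]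
  have key : G.lg (G.ex x (s • G.lg x y)) o =
      (1 - s) • (G.lg (G.ex x (s • G.lg x y)) o - -(s • G.V s x (G.lg x y))) +
      s • (G.lg (G.ex x (s • G.lg x y)) o - (1 - s) • G.V s x (G.lg x y)) := by
    module
  rw [key]
  refine (norm_add_le _ _).trans ?_
  rw [norm_smul, norm_smul, Real.norm_of_nonneg h0, Real.norm_of_nonneg (sub_nonneg.mpr h1)]
  have m1 := mul_le_mul_of_nonneg_left (n1.trans hx) (sub_nonneg.mpr h1)
  have m2 := mul_le_mul_of_nonneg_left (n2.trans hy) h0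
  linarith

theorem isCompact_gball (o : E n) (ρ : ℝ) : IsCompact {x | ‖G.lg o x‖ ≤ ρ} := by
  have hc : Continuous (G.ex o) :=
    (G.ex_smooth.comp (contDiff_const.prodMk contDiff_id)).continuous
  have himg : {x | ‖G.lg o x‖ ≤ ρ} = G.ex o '' closedBall 0 ρ := by
    ext x
    constructor
    · intro hx
      exact ⟨G.lg o x, by simpa using hx, G.ex_lg o x⟩
    · rintro ⟨v, hv, rfl⟩
      simpa [G.lg_ex] using hv
  rw [himg]
  exact (isCompact_closedBall 0 ρ).image hc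

end Geo

end Vale.Agent.P219.TP
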