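import Vale.Agent.P219.TP.XfDefs

/-! # Divergence theorem (task A8c) -/

open MeasureTheory Set Metric
open scoped ENNReal ContDiff

namespace Vale.Agent.P219.TP

variable {n : ℕ} (G : Geo n)

theorem ibp_contDiff_th {Φ : ℝ × ℝ → ℝ} {δ : ℝ} (hδ : 0 < δ)
    (hΦ : ContDiffOn ℝ ∞ Φ {p | -δ < p.1}) (R : ℝ) (ν : E n) : ContDiff ℝ ∞ (th Φ R ν) := by
  have h1 : ContDiff ℝ ∞ (fun v : E n => ((‖v‖ ^ 2 / R ^ 2, inner ℝ v ν / R) : ℝ × ℝ)) := by
    refine ContDiff.prodMk ?_ ?_
    · exact (contDiff_norm_sq ℝ).div_const _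
    · exact (contDiff_id.inner ℝ contDiff_const).div_const _
  have h2 : ContDiff ℝ ∞ (fun v : E n => Φ (‖v‖ ^ 2 / R ^ 2, inner ℝ v ν / R)) := by
    rw [← contDiffOn_univ]
    refine hΦ.comp h1.contDiffOn ?_
    intro v _
    simp only [mem_ofPred_eq]
    have : 0 ≤ ‖v‖ ^ 2 / R ^ 2 := by positivity
    linarith
  exact contDiff_const.mul h2

theorem ibp_contDiff_lg_left (G : Geo n) (p : E n) : ContDiff ℝ ∞ (G.lg p) :=
  G.lg_smooth.comp (contDiff_const.prodMk contDiff_id)

theorem ibp_contDiff_lg_right (G : Geo n) (p : E n) : ContDiff ℝ ∞ (fun x => G.lg x p) :=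
  G.lg_smooth.comp (contDiff_id.prodMk contDiff_const)

theorem ibp_contDiff_Xf {Φ : ℝ × ℝ → ℝ} {δ : ℝ} (hδ : 0 < δ)
    (hΦ : ContDiffOn ℝ ∞ Φ {p | -δ < p.1}) (R : ℝ) (ν p : E n) :
    ContDiff ℝ ∞ (G.Xf Φ R ν p) := by
  unfold Geo.Xf
  refine ContDiff.smul (G.w_smooth.mul ((ibp_contDiff_th hδ hΦ R ν).comp
    (ibp_contDiff_lg_left G p))) ?_
  exact G.A_smooth.clm_apply (ibp_contDiff_lg_right G p).neg

/-- Integrals with respect to `vol`. -/
theorem ibp_integral_vol (F : E n → ℝ) : ∫ x, F x ∂G.vol = ∫ x, G.w x * F x := by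
  unfold Geo.vol
  rw [integral_withDensity_eq_integral_toReal_smul₀]
  · refine integral_congr_ae (Filter.Eventually.of_forall fun x => ?_)
    simp only [smul_eq_mul]
    rw [ENNReal.toReal_ofReal (G.w_pos x).le]
  · exact (G.w_smooth.continuous.measurable.ennreal_ofReal).aemeasurable
  · exact Filter.Eventually.of_forall fun x => ENNReal.ofReal_lt_top

/-- Euclidean divergence theorem for a field times a compactly supported function. -/
theorem ibp_euclid {X : E n → E n} (hX : ContDiff ℝ ∞ X) {h : E n → ℝ} (hh : ContDiff ℝ 1 h)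
    (hc : HasCompactSupport h) :
    ∫ x, h x * ∑ i, fderiv ℝ X x (EuclideanSpace.single i 1) i = - ∫ x, fderiv ℝ h x (X x) := by
  have hXi : ∀ i, ContDiff ℝ ∞ (fun x => X x i) := fun i =>
    (contDiff_euclidean.1 hX) i
  have hXi' : ∀ i x, fderiv ℝ (fun x => X x i) x (EuclideanSpace.single i 1) =
      fderiv ℝ X x (EuclideanSpace.single i 1) i := by
    intro i x
    have hd : HasFDerivAt X (fderiv ℝ X x) x := (hX.differentiable (by simp) x).hasFDerivAt
    have := (EuclideanSpace.proj (𝕜 := ℝ) i).hasFDerivAt.comp x hd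
    have h2 : fderiv ℝ (fun x => X x i) x = (EuclideanSpace.proj (𝕜 := ℝ) i).comp (fderiv ℝ X x) :=
      this.fderiv
    rw [h2]
    rfl
  have hcont1 : ∀ i, Continuous (fun x => fderiv ℝ (fun x => X x i) x
      (EuclideanSpace.single i 1)) := fun i =>
    ((hXi i).continuous_fderiv (by simp)).clm_apply continuous_const
  have hcont2 : ∀ v : E n, Continuous (fun x => fderiv ℝ h x v) := fun v =>
    (hh.continuous_fderiv (by simp)).clm_apply continuous_const
  have hs : HasCompactSupport (fun x => fderiv ℝ h x) := hc.fderiv ℝ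
  have hint1 : ∀ i, Integrable (fun x => h x * fderiv ℝ (fun x => X x i) x
      (EuclideanSpace.single i 1)) := by
    intro i
    exact (hh.continuous.mul (hcont1 i)).integrable_of_hasCompactSupport hc.mul_right
  have hint2 : ∀ i, Integrable (fun x => fderiv ℝ h x (EuclideanSpace.single i 1) * X x i) := by
    intro i
    refine ((hcont2 _).mul (hXi i).continuous).integrable_of_hasCompactSupport ?_
    refine HasCompactSupport.mul_right ?_
    refine hs.comp_left (g := fun L : E n →L[ℝ] ℝ => L (EuclideanSpace.single i 1)) ?_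
    simp
  have hint3 : ∀ i, Integrable (fun x => h x * X x i) := by
    intro i
    exact (hh.continuous.mul (hXi i).continuous).integrable_of_hasCompactSupport hc.mul_right
  have key : ∀ i, ∫ x, h x * fderiv ℝ X x (EuclideanSpace.single i 1) i =
      - ∫ x, fderiv ℝ h x (EuclideanSpace.single i 1) * X x i := by
    intro i
    have := integral_mul_fderiv_eq_neg_fderiv_mul_of_integrable (μ := (volume : Measure (E n)))
      (f := h) (g := fun x => X x i) (v := EuclideanSpace.single i 1) (hint2 i) (hint1 i) (hint3 i)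
      (fun x _ => hh.differentiable (by simp) x)
      (fun x _ => (hXi i).differentiable (by simp) x)
    rw [← this]
    refine integral_congr_ae (Filter.Eventually.of_forall fun x => ?_)
    simp only
    rw [hXi']
  have e1 : (fun x => h x * ∑ i, fderiv ℝ X x (EuclideanSpace.single i 1) i) =
      fun x => ∑ i, h x * fderiv ℝ X x (EuclideanSpace.single i 1) i := by
    funext x
    rw [Finset.mul_sum]
  have e2 : (fun x => fderiv ℝ h x (X x)) =
      fun x => ∑ i, fderiv ℝ h x (EuclideanSpace.single i 1) * X x i := by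
    funext x
    have hx : X x = ∑ i, X x i • (EuclideanSpace.single i (1 : ℝ) : E n) := by
      have := (EuclideanSpace.basisFun (Fin n) ℝ).sum_repr (X x)
      simpa using this.symm
    conv_lhs => rw [hx]
    rw [map_sum]
    refine Finset.sum_congr rfl fun i _ => ?_
    rw [map_smul, smul_eq_mul, mul_comm]
  rw [e1, e2, integral_finsetSum, integral_finsetSum, ← Finset.sum_neg_distrib]
  · exact Finset.sum_congr rfl fun i _ => key i
  · exact fun i _ => hint2 i
  · intro i _
    refine (hint1 i).congr (Filter.Eventually.of_forall fun x => ?_)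
    simp only
    rw [hXi']

/-- Divergence theorem. -/
theorem dvX_ibp {Φ : ℝ × ℝ → ℝ} {δ : ℝ} (hδ : 0 < δ) (hΦ : ContDiffOn ℝ ∞ Φ {p | -δ < p.1})
    {R : ℝ} (hR : 0 < R) (ν p : E n) {h : E n → ℝ} (hh : ContDiff ℝ 1 h)
    (hc : HasCompactSupport h) :
    ∫ x, h x * G.dvX Φ R ν p x =
      ∫ x, th Φ R ν (G.lg p x) * inner ℝ (G.lg x p) (G.D h x) ∂G.vol := by
  rw [ibp_integral_vol]
  have h1 := ibp_euclid (ibp_contDiff_Xf G hδ hΦ R ν p) hh hc
  unfold Geo.dvX
  rw [h1, ← integral_neg]
  refine integral_congr_ae (Filter.Eventually.of_forall fun x => ?_)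
  simp only [Geo.Xf, Geo.D]
  rw [real_inner_comm, InnerProductSpace.toDual_symm_apply]
  simp only [map_smul, map_neg, smul_eq_mul, ContinuousLinearMap.comp_apply]
  ring

end Vale.Agent.P219.TP
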