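import Vale.Agent.P219.TP.Defs

/-! # Polar coordinates (task A3a) -/

open MeasureTheory Set Metric
open scoped ENNReal ContDiff

namespace Vale.Agent.P219.TP

variable {n : ℕ}

/-- Polar coordinates in `E n`. -/
theorem polar (hn : 1 ≤ n) {F : E n → ℝ≥0∞} (hF : Measurable F) :
    ∫⁻ v, F v = ∫⁻ u : sphere (0 : E n) 1, ∫⁻ r in Ioi (0 : ℝ),
      ENNReal.ofReal (r ^ (n - 1)) * F (r • (u : E n)) ∂volume
        ∂((volume : Measure (E n)).toSphere) := by
  have hdim : Module.finrank ℝ (E n) = n := by simp
  have hnt : Nontrivial (E n) := by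
    apply Module.nontrivial_of_finrank_pos (R := ℝ)
    omega
  have hmp := (volume : Measure (E n)).measurePreserving_homeomorphUnitSphereProd
  rw [hdim] at hmp
  have hG : Measurable (fun p : sphere (0 : E n) 1 × Ioi (0 : ℝ) => F (p.2.1 • p.1.1)) := by
    refine hF.comp ?_
    fun_prop
  calc ∫⁻ v, F v = ∫⁻ v in ({0}ᶜ : Set (E n)), F v := by
        rw [restrict_compl_singleton]
    _ = ∫⁻ v : ({0}ᶜ : Set (E n)), F v ∂(Measure.comap (Subtype.val : ({0}ᶜ : Set (E n)) → E n) volume) :=
        (lintegral_subtype_comap (measurableSet_singleton (0 : E n)).compl F).symm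
    _ = ∫⁻ v : ({0}ᶜ : Set (E n)), (fun p : sphere (0 : E n) 1 × Ioi (0 : ℝ) =>
          F (p.2.1 • p.1.1)) (homeomorphUnitSphereProd (E n) v) ∂(Measure.comap (Subtype.val : ({0}ᶜ : Set (E n)) → E n) volume) := by
        refine lintegral_congr fun v => ?_
        have h := congrArg Subtype.val ((homeomorphUnitSphereProd (E n)).symm_apply_apply v)
        rw [homeomorphUnitSphereProd_symm_apply_coe] at h
        change F v = F (((homeomorphUnitSphereProd (E n) v).2 : ℝ) •
          ((homeomorphUnitSphereProd (E n) v).1 : E n))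
        rw [h]
    _ = ∫⁻ p : sphere (0 : E n) 1 × Ioi (0 : ℝ), F (p.2.1 • p.1.1)
          ∂((volume : Measure (E n)).toSphere.prod (Measure.volumeIoiPow (n - 1))) :=
        hmp.lintegral_comp hG
    _ = ∫⁻ u : sphere (0 : E n) 1, ∫⁻ r : Ioi (0 : ℝ), F (r.1 • u.1)
          ∂(Measure.volumeIoiPow (n - 1)) ∂((volume : Measure (E n)).toSphere) :=
        lintegral_prod _ hG.aemeasurable
    _ = _ := by
        refine lintegral_congr fun u => ?_
        have hm : Measurable (fun r : Ioi (0 : ℝ) => F (r.1 • (u : E n))) := by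
          refine hF.comp ?_
          fun_prop
        rw [Measure.volumeIoiPow, lintegral_withDensity_eq_lintegral_mul _ (by fun_prop) hm]
        exact lintegral_subtype_comap measurableSet_Ioi
          (fun r : ℝ => ENNReal.ofReal (r ^ (n - 1)) * F (r • (u : E n)))

end Vale.Agent.P219.TP
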