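import Vale.Agent.P219.TP.Sq
import Vale.Agent.P219.TP.Polar

/-! # Polar coordinates and invariance of the Liouville measure (task A3) -/

open MeasureTheory Set Metric
open scoped ENNReal ContDiff

namespace Vale.Agent.P219.TP

variable {n : ℕ}

namespace Geo

variable (G : Geo n)

theorem w_measurable : Measurable fun x => ENNReal.ofReal (G.w x) :=
  G.w_smooth.continuous.measurable.ennreal_ofReal

theorem lintegral_vol {F : E n → ℝ≥0∞} (hF : Measurable F) :
    ∫⁻ x, F x ∂G.vol = ∫⁻ x, ENNReal.ofReal (G.w x) * F x := by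
  unfold vol
  rw [lintegral_withDensity_eq_lintegral_mul _ G.w_measurable hF]
  rfl

theorem vol_apply {K : Set (E n)} (hK : MeasurableSet K) :
    G.vol K = ∫⁻ x in K, ENNReal.ofReal (G.w x) :=
  withDensity_apply (fun x : E n => ENNReal.ofReal (G.w x)) hK

theorem vol_le_bdd {K : Set (E n)} (hK : MeasurableSet K) {C : ℝ} (hC : ∀ x ∈ K, G.w x ≤ C) :
    G.vol K ≤ ENNReal.ofReal C * (volume : Measure (E n)) K := by
  rw [G.vol_apply hK, ← setLIntegral_const]
  exact setLIntegral_mono measurable_const fun x hx => ENNReal.ofReal_le_ofReal (hC x hx)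

theorem vol_compact_lt_top {K : Set (E n)} (hK : IsCompact K) : G.vol K < ⊤ := by
  have hb : BddAbove (G.w '' K) := (hK.image G.w_smooth.continuous).bddAbove
  obtain ⟨C, hC⟩ := hb
  refine lt_of_le_of_lt (G.vol_le_bdd hK.measurableSet
    fun x hx => hC (mem_image_of_mem _ hx)) ?_
  exact ENNReal.mul_lt_top ENNReal.ofReal_lt_top hK.measure_lt_top

instance isFiniteMeasureOnCompacts_vol : IsFiniteMeasureOnCompacts G.vol :=
  ⟨fun _ hK => G.vol_compact_lt_top hK⟩

instance sigmaFinite_vol : SigmaFinite G.vol := inferInstance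

/-- Change of variables `y = ex x v`. -/
theorem lintegral_vol_ex (x : E n) {F : E n → ℝ≥0∞} (hF : Measurable F) :
    ∫⁻ y, F y ∂G.vol = ∫⁻ v, ENNReal.ofReal |(G.T x v).det| * F (G.ex x v) := by
  rw [G.lintegral_vol hF]
  have hinj : InjOn (G.ex x) univ := fun v _ v' _ h => by
    rw [← G.lg_ex x v, ← G.lg_ex x v', h]
  have him : G.ex x '' univ = univ := by
    rw [image_univ]
    exact Set.range_eq_univ.2 fun y => ⟨G.lg x y, G.ex_lg x y⟩
  have hd : ∀ v ∈ (univ : Set (E n)), HasFDerivWithinAt (G.ex x) (fderiv ℝ (G.ex x) v) univ v :=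
    fun v _ => ((G.ex_smooth_right x).differentiable (by simp) v).hasFDerivAt.hasFDerivWithinAt
  have h := lintegral_image_eq_lintegral_abs_det_fderiv_mul volume MeasurableSet.univ hd hinj
    (fun y => ENNReal.ofReal (G.w y) * F y)
  rw [him, Measure.restrict_univ] at h
  rw [h]
  refine lintegral_congr fun v => ?_
  rw [← mul_assoc, ← ENNReal.ofReal_mul (abs_nonneg _), mul_comm |_| _, G.w_J]

/-- The map `(x,v) ↦ (ex x v, - V 1 x v)` preserves `vol ⊗ Lebesgue`. -/
theorem liouville {F : E n × E n → ℝ≥0∞} (hF : Measurable F) :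
    ∫⁻ x, ∫⁻ v, F (G.ex x v, -G.V 1 x v) ∂volume ∂G.vol =
      ∫⁻ x, ∫⁻ v, F (x, v) ∂volume ∂G.vol := by
  set J : E n → E n → ℝ≥0∞ := fun x v => ENNReal.ofReal |(G.T x v).det| with hJ
  have hJc : Continuous fun z : E n × E n => (G.T z.1 z.2).det :=
    ContinuousLinearMap.continuous_det.comp G.T_smooth.continuous
  have hJm : Measurable fun z : E n × E n => J z.1 z.2 := hJc.abs.measurable.ennreal_ofReal
  have hJ1 : ∀ x v, 1 ≤ J x v := by
    intro x v
    rw [hJ, ← ENNReal.ofReal_one]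
    exact ENNReal.ofReal_le_ofReal (G.one_le_J x v)
  have hJt : ∀ x v, J x v ≠ ⊤ := fun x v => ENNReal.ofReal_ne_top
  have hJ0 : ∀ x v, J x v ≠ 0 := fun x v h => by
    have := hJ1 x v
    rw [h] at this
    exact absurd this (by simp)
  have hlg : Continuous fun z : E n × E n => G.lg z.1 z.2 := G.lg_smooth.continuous
  -- general formula
  have key : ∀ (x : E n) (H : E n → E n → ℝ≥0∞), Measurable (Function.uncurry H) →
      ∫⁻ v, H (G.ex x v) v = ∫⁻ y, (J x (G.lg x y))⁻¹ * H y (G.lg x y) ∂G.vol := by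
    intro x H hH
    have hm : Measurable fun y => (J x (G.lg x y))⁻¹ * H y (G.lg x y) := by
      have h1 : Continuous fun y : E n => (x, G.lg x y) :=
        continuous_const.prodMk (hlg.comp (continuous_const.prodMk continuous_id))
      have h2 : Continuous fun y : E n => (y, G.lg x y) :=
        continuous_id.prodMk (hlg.comp (continuous_const.prodMk continuous_id))
      exact (hJm.comp h1.measurable).inv.mul (hH.comp h2.measurable)
    rw [G.lintegral_vol_ex x hm]
    refine lintegral_congr fun v => ?_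
    rw [G.lg_ex, ← mul_assoc]
    have : ENNReal.ofReal |(G.T x v).det| * (J x v)⁻¹ = 1 :=
      ENNReal.mul_inv_cancel (hJ0 x v) (hJt x v)
    rw [this, one_mul]
  have e1 : ∀ x, ∫⁻ v, F (G.ex x v, -G.V 1 x v) =
      ∫⁻ y, (J x (G.lg x y))⁻¹ * F (y, G.lg y x) ∂G.vol := by
    intro x
    have hH : Measurable (Function.uncurry fun y v : E n => F (y, -G.V 1 x v)) := by
      refine hF.comp ?_
      have h1 : Continuous fun z : E n × E n => (z.1, -G.V 1 x z.2) := by
        refine continuous_fst.prodMk (Continuous.neg ?_)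
        exact G.V_smooth.continuous.comp (continuous_const.prodMk
          (continuous_const.prodMk continuous_snd))
      exact h1.measurable
    rw [key x (fun y v => F (y, -G.V 1 x v)) hH]
    refine lintegral_congr fun y => ?_
    simp only [G.lg_back', neg_neg]
  have e2 : ∀ y, ∫⁻ v, F (y, v) = ∫⁻ x, (J y (G.lg y x))⁻¹ * F (y, G.lg y x) ∂G.vol := by
    intro y
    have hH : Measurable (Function.uncurry fun _x v : E n => F (y, v)) :=
      hF.comp (measurable_const.prodMk measurable_snd)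
    exact key y (fun _ v => F (y, v)) hH
  simp only [e1, e2]
  have hm2 : Measurable (Function.uncurry fun x y : E n =>
      (J x (G.lg x y))⁻¹ * F (y, G.lg y x)) := by
    have h1 : Continuous fun z : E n × E n => (z.1, G.lg z.1 z.2) := continuous_fst.prodMk hlg
    have h2 : Continuous fun z : E n × E n => (z.2, G.lg z.2 z.1) :=
      continuous_snd.prodMk (hlg.comp (continuous_snd.prodMk continuous_fst))
    exact (hJm.comp h1.measurable).inv.mul (hF.comp h2.measurable)
  rw [lintegral_lintegral_swap hm2.aemeasurable]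
  refine lintegral_congr fun y => lintegral_congr fun x => ?_
  congr 2
  simp only [hJ]
  rw [G.J_symm x y]

theorem V_eq (r : ℝ) (x u : E n) : G.V 1 x (r • u) = r • G.V r x u := by
  rw [G.V_smul, mul_one]

/-- polar coordinates on the tangent bundle -/
theorem lintegral_polar (hn : 1 ≤ n) {k : E n → E n → ℝ → ℝ≥0∞}
    (hk : Measurable fun q : E n × E n × ℝ => k q.1 q.2.1 q.2.2) :
    ∫⁻ x, ∫⁻ u : sphere (0 : E n) 1, ∫⁻ r in Ioi (0 : ℝ), k x u r
        ∂volume ∂((volume : Measure (E n)).toSphere) ∂G.vol =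
      ∫⁻ x, ∫⁻ v, ENNReal.ofReal ((‖v‖ ^ (n - 1))⁻¹) * k x (‖v‖⁻¹ • v) ‖v‖ ∂volume ∂G.vol := by
  refine lintegral_congr fun x => ?_
  have hm : Measurable fun v : E n => ENNReal.ofReal ((‖v‖ ^ (n - 1))⁻¹) * k x (‖v‖⁻¹ • v) ‖v‖ := by
    refine Measurable.mul (by fun_prop) ?_
    exact hk.comp (measurable_const.prodMk ((by fun_prop : Measurable fun v : E n =>
      ‖v‖⁻¹ • v).prodMk measurable_norm))
  rw [polar hn hm]
  refine lintegral_congr fun u => ?_
  refine setLIntegral_congr_fun measurableSet_Ioi fun r hr => ?_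
  have hr0 : (0 : ℝ) < r := hr
  have hu : ‖(u : E n)‖ = 1 := by simp
  have h1 : ‖r • (u : E n)‖ = r := by rw [norm_smul, hu, mul_one, Real.norm_of_nonneg hr0.le]
  simp only [h1]
  rw [smul_smul, inv_mul_cancel₀ hr0.ne', one_smul, ← mul_assoc, ← ENNReal.ofReal_mul
    (by positivity), mul_inv_cancel₀ (by positivity), ENNReal.ofReal_one, one_mul]

/-- invariance of the measure of the unit tangent bundle under the flow, general form -/
theorem flow_gen (hn : 1 ≤ n) {k : E n → E n → ℝ → ℝ≥0∞}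
    (hk : Measurable fun q : E n × E n × ℝ => k q.1 q.2.1 q.2.2) :
    ∫⁻ x, ∫⁻ u : sphere (0 : E n) 1, ∫⁻ r in Ioi (0 : ℝ),
        k (G.ex x (r • (u : E n))) (G.V r x u) r
        ∂volume ∂((volume : Measure (E n)).toSphere) ∂G.vol =
      ∫⁻ x, ∫⁻ u : sphere (0 : E n) 1, ∫⁻ r in Ioi (0 : ℝ), k x u r
        ∂volume ∂((volume : Measure (E n)).toSphere) ∂G.vol := by
  have hk1 : Measurable fun q : E n × E n × ℝ => k (G.ex q.1 (q.2.2 • q.2.1))
      (G.V q.2.2 q.1 q.2.1) q.2.2 := by
    have h1 : Continuous fun q : E n × E n × ℝ => G.ex q.1 (q.2.2 • q.2.1) :=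
      G.ex_smooth.continuous.comp (continuous_fst.prodMk (continuous_snd.snd.smul
        continuous_snd.fst))
    have h2 : Continuous fun q : E n × E n × ℝ => G.V q.2.2 q.1 q.2.1 :=
      G.V_smooth.continuous.comp (continuous_snd.snd.prodMk (continuous_fst.prodMk
        continuous_snd.fst))
    exact hk.comp (h1.measurable.prodMk (h2.measurable.prodMk (measurable_snd.comp
      measurable_snd)))
  rw [G.lintegral_polar hn (k := fun x u r => k (G.ex x (r • u)) (G.V r x u) r) hk1,
    G.lintegral_polar hn hk]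
  -- the function `(x,v) ↦ k x (-v/|v|) |v| |v|^{1-n}`
  set Fk : E n × E n → ℝ≥0∞ := fun z =>
    ENNReal.ofReal ((‖z.2‖ ^ (n - 1))⁻¹) * k z.1 (-(‖z.2‖⁻¹ • z.2)) ‖z.2‖ with hFk
  have hFm : Measurable Fk := by
    refine Measurable.mul (by fun_prop) ?_
    exact hk.comp (measurable_fst.prodMk ((by fun_prop : Measurable fun z : E n × E n =>
      -(‖z.2‖⁻¹ • z.2)).prodMk (by fun_prop)))
  have h3 := G.liouville hFm
  have h4 : ∀ x v, v ≠ 0 → Fk (G.ex x v, -G.V 1 x v) = ENNReal.ofReal ((‖v‖ ^ (n - 1))⁻¹) *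
      k (G.ex x (‖v‖ • ‖v‖⁻¹ • v)) (G.V ‖v‖ x (‖v‖⁻¹ • v)) ‖v‖ := by
    intro x v hv
    have hv0 : ‖v‖ ≠ 0 := norm_ne_zero_iff.2 hv
    have h5 : ‖v‖ • ‖v‖⁻¹ • v = v := by rw [smul_smul, mul_inv_cancel₀ hv0, one_smul]
    have h6 : G.V 1 x v = ‖v‖ • G.V ‖v‖ x (‖v‖⁻¹ • v) := by
      rw [← G.V_eq, h5]
    simp only [hFk, norm_neg, G.norm_V, h5]
    congr 2
    rw [h6, smul_neg, neg_neg, smul_smul, inv_mul_cancel₀ hv0, one_smul]
  have hne : ∀ᵐ v : E n, v ≠ 0 := by
    have : Nonempty (Fin n) := ⟨⟨0, by omega⟩⟩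
    exact Measure.ae_ne volume 0
  have h7 : ∫⁻ x, ∫⁻ v, ENNReal.ofReal ((‖v‖ ^ (n - 1))⁻¹) *
      k (G.ex x (‖v‖ • ‖v‖⁻¹ • v)) (G.V ‖v‖ x (‖v‖⁻¹ • v)) ‖v‖ ∂volume ∂G.vol =
      ∫⁻ x, ∫⁻ v, Fk (G.ex x v, -G.V 1 x v) ∂volume ∂G.vol := by
    refine lintegral_congr fun x => lintegral_congr_ae ?_
    filter_upwards [hne] with v hv
    exact (h4 x v hv).symm
  rw [h7, h3]
  refine lintegral_congr fun x => ?_
  have h8 : ∫⁻ v : E n, Fk (x, -v) = ∫⁻ v : E n, Fk (x, v) :=
    lintegral_neg_eq_self (μ := volume) (fun v : E n => Fk (x, v))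
  rw [← h8]
  refine lintegral_congr fun v => ?_
  simp only [hFk, norm_neg, smul_neg, neg_neg]

/-- Averaged invariance of the measure of the unit tangent bundle under the geodesic flow. -/
theorem flow_avg (hn : 1 ≤ n) {F : E n × E n → ℝ≥0∞} (hF : Measurable F) {a b : ℝ} (ha : 0 ≤ a)
    (hab : a ≤ b) :
    ∫⁻ x, ∫⁻ u : sphere (0 : E n) 1, ∫⁻ r in Ioo a b,
        F (G.ex x (r • (u : E n)), G.V r x (u : E n)) ∂volume
          ∂((volume : Measure (E n)).toSphere) ∂G.vol =
      ENNReal.ofReal (b - a) * ∫⁻ x, ∫⁻ u : sphere (0 : E n) 1, F (x, (u : E n))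
          ∂((volume : Measure (E n)).toSphere) ∂G.vol := by
  have hk : Measurable fun q : E n × E n × ℝ =>
      (Ioo a b).indicator (fun _ => F (q.1, q.2.1)) q.2.2 := by
    have h1 : (fun q : E n × E n × ℝ => (Ioo a b).indicator (fun _ => F (q.1, q.2.1)) q.2.2) =
        ((fun q : E n × E n × ℝ => q.2.2) ⁻¹' (Ioo a b)).indicator
          fun q => F (q.1, q.2.1) := by
      funext q
      by_cases h : q.2.2 ∈ Ioo a b
      · rw [indicator_of_mem h, indicator_of_mem (by exact h)]
      · rw [indicator_of_notMem h, indicator_of_notMem (by exact h)]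
    rw [h1]
    refine Measurable.indicator ?_ ((measurable_snd.comp measurable_snd) measurableSet_Ioo)
    exact hF.comp (measurable_fst.prodMk (measurable_fst.comp measurable_snd))
  have h := G.flow_gen hn (k := fun x u r => (Ioo a b).indicator (fun _ => F (x, u)) r) hk
  have hsub : ∀ g : ℝ → ℝ≥0∞, ∫⁻ r in Ioi (0 : ℝ), (Ioo a b).indicator g r =
      ∫⁻ r in Ioo a b, g r := by
    intro g
    have hs : Ioo a b ∩ Ioi (0 : ℝ) = Ioo a b :=
      inter_eq_left.2 (fun r hr => lt_of_le_of_lt ha hr.1)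
    rw [lintegral_indicator measurableSet_Ioo, Measure.restrict_restrict measurableSet_Ioo, hs]
  have h1 : ∀ x (u : sphere (0 : E n) 1), ∫⁻ r in Ioi (0 : ℝ),
      (Ioo a b).indicator (fun _ => F (G.ex x (r • (u : E n)), G.V r x u)) r =
      ∫⁻ r in Ioo a b, F (G.ex x (r • (u : E n)), G.V r x (u : E n)) := by
    intro x u
    rw [← hsub]
    refine lintegral_congr fun r => ?_
    by_cases hr : r ∈ Ioo a b
    · rw [indicator_of_mem hr, indicator_of_mem hr]
    · rw [indicator_of_notMem hr, indicator_of_notMem hr]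
  simp only [h1] at h
  rw [h]
  have h2 : ∀ x (u : sphere (0 : E n) 1), ∫⁻ r in Ioi (0 : ℝ),
      (Ioo a b).indicator (fun _ => F (x, (u : E n))) r =
      ENNReal.ofReal (b - a) * F (x, (u : E n)) := by
    intro x u
    rw [hsub, lintegral_const, Measure.restrict_apply_univ, Real.volume_Ioo, mul_comm]
  simp only [h2]
  have hFm : ∀ x, Measurable fun u : sphere (0 : E n) 1 => F (x, (u : E n)) := fun x =>
    hF.comp (measurable_const.prodMk measurable_subtype_coe)
  have h3 : ∀ x, ∫⁻ u : sphere (0 : E n) 1, ENNReal.ofReal (b - a) * F (x, (u : E n))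
      ∂((volume : Measure (E n)).toSphere) = ENNReal.ofReal (b - a) *
        ∫⁻ u : sphere (0 : E n) 1, F (x, (u : E n)) ∂((volume : Measure (E n)).toSphere) :=
    fun x => lintegral_const_mul _ (hFm x)
  simp only [h3]
  refine lintegral_const_mul _ ?_
  have h4 : Measurable fun z : E n × sphere (0 : E n) 1 => F (z.1, (z.2 : E n)) :=
    hF.comp (measurable_fst.prodMk (measurable_subtype_coe.comp measurable_snd))
  exact h4.lintegral_prod_right'

end Geo

end Vale.Agent.P219.TP
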