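import Mathlib

/-! # Uniform Taylor formula (task A8a) -/

open MeasureTheory Set Metric
open scoped ENNReal ContDiff

namespace Vale.Agent.P219.TP

/-- One variable Taylor inequality from a Lipschitz bound on the derivative. -/
theorem taylor_one {g g' : ℝ → ℝ} {t₀ C : ℝ} (hC : 0 ≤ C)
    (hg : ∀ t ∈ Icc (0 : ℝ) t₀, HasDerivAt g (g' t) t)
    (hb : ∀ t ∈ Icc (0 : ℝ) t₀, |g' t - g' 0| ≤ C * t) {t : ℝ} (ht : t ∈ Icc (0 : ℝ) t₀) :
    |g t - g 0 - t * g' 0| ≤ C * t ^ 2 := by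
  have hsub : ∀ s ∈ Icc (0 : ℝ) t, s ∈ Icc (0 : ℝ) t₀ := fun s hs => ⟨hs.1, hs.2.trans ht.2⟩
  have h1 : ∀ s ∈ Icc (0 : ℝ) t,
      HasDerivWithinAt (fun s => g s - s * g' 0) (g' s - g' 0) (Icc 0 t) s := by
    intro s hs
    have h := (hg s (hsub s hs)).sub ((hasDerivAt_id s).mul_const (g' 0))
    simp only [id, one_mul] at h
    exact h.hasDerivWithinAt
  have h2 : ∀ s ∈ Icc (0 : ℝ) t, ‖g' s - g' 0‖ ≤ C * t := by
    intro s hs
    refine (hb s (hsub s hs)).trans ?_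
    exact mul_le_mul_of_nonneg_left hs.2 hC
  have h3 := (convex_Icc (0 : ℝ) t).norm_image_sub_le_of_norm_hasDerivWithin_le h1 h2
    (left_mem_Icc.2 ht.1) (right_mem_Icc.2 ht.1)
  have e1 : (fun s => g s - s * g' 0) t - (fun s => g s - s * g' 0) 0
      = g t - g 0 - t * g' 0 := by
    simp only []
    ring
  rw [e1, sub_zero, Real.norm_eq_abs, Real.norm_eq_abs, abs_of_nonneg ht.1] at h3
  calc |g t - g 0 - t * g' 0| ≤ C * t * t := h3
    _ = C * t ^ 2 := by ring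

/-- Taylor formula with a uniform constant on a compact set of parameters. -/
theorem taylor_uniform {Z : Type*} [NormedAddCommGroup Z] [NormedSpace ℝ Z]
    [FiniteDimensional ℝ Z] {U : Set (ℝ × Z)} (hU : IsOpen U) {f : ℝ × Z → ℝ}
    (hf : ContDiffOn ℝ ∞ f U) {K : Set Z} (hK : IsCompact K) (hKU : ∀ z ∈ K, (0, z) ∈ U) :
    ∃ C t₀ : ℝ, 0 ≤ C ∧ 0 < t₀ ∧ ∀ z ∈ K, ∀ t ∈ Icc 0 t₀,
      |f (t, z) - f (0, z) - t * fderiv ℝ f (0, z) (1, 0)| ≤ C * t ^ 2 := by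
  -- the tube
  obtain ⟨u, v, hu, hv, h0u, hKv, huv⟩ := generalized_tube_lemma (isCompact_singleton (x := (0:ℝ)))
    hK hU (by
      rintro ⟨a, z⟩ ⟨ha, hz⟩
      rw [mem_singleton_iff] at ha
      simp only at ha hz
      subst ha
      exact hKU z hz)
  obtain ⟨t₀, ht₀, hball⟩ := Metric.nhds_basis_closedBall.mem_iff.1
    (hu.mem_nhds (h0u (mem_singleton (0:ℝ))))
  have hmem : ∀ z ∈ K, ∀ t ∈ Icc 0 t₀, (t, z) ∈ U := by
    intro z hz t ht
    refine huv ⟨hball ?_, hKv hz⟩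
    rw [mem_closedBall, Real.dist_eq, sub_zero, abs_of_nonneg ht.1]
    exact ht.2
  -- the first derivative in t
  set F1 : ℝ × Z → ℝ := fun p => fderiv ℝ f p (1, 0) with hF1
  have hF1s : ContDiffOn ℝ ∞ F1 U := by
    have h := hf.fderiv_of_isOpen hU (m := ∞) (by simp)
    exact h.clm_apply contDiffOn_const
  set F2 : ℝ × Z → ℝ := fun p => fderiv ℝ F1 p (1, 0) with hF2
  have hF2s : ContDiffOn ℝ ∞ F2 U := by
    have h := hF1s.fderiv_of_isOpen hU (m := ∞) (by simp)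
    exact h.clm_apply contDiffOn_const
  have hcomp : IsCompact (Icc (0:ℝ) t₀ ×ˢ K) := isCompact_Icc.prod hK
  have hsubU : Icc (0:ℝ) t₀ ×ˢ K ⊆ U := by
    rintro ⟨a, z⟩ ⟨ha, hz⟩
    exact hmem z hz a ha
  obtain ⟨C, hC⟩ := hcomp.exists_bound_of_continuousOn (hF2s.continuousOn.mono hsubU)
  refine ⟨max C 0, t₀, le_max_right _ _, ht₀, ?_⟩
  intro z hz t ht
  have hder : ∀ (G : ℝ × Z → ℝ), ContDiffOn ℝ ∞ G U → ∀ s ∈ Icc (0:ℝ) t₀,
      HasDerivAt (fun s => G (s, z)) (fderiv ℝ G (s, z) (1, 0)) s := by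
    intro G hG s hs
    have hd : DifferentiableAt ℝ G (s, z) :=
      ((hG.contDiffAt (hU.mem_nhds (hmem z hz s hs))).differentiableAt (by simp))
    have h1 : HasDerivAt (fun s : ℝ => (s, z)) ((1 : ℝ), (0 : Z)) s :=
      (hasDerivAt_id s).prodMk (hasDerivAt_const s z)
    exact hd.hasFDerivAt.comp_hasDerivAt s h1
  have hg1 : ∀ s ∈ Icc (0:ℝ) t₀, |F1 (s, z) - F1 (0, z)| ≤ max C 0 * s := by
    intro s hs
    have h1 : ∀ r ∈ Icc (0 : ℝ) s,
        HasDerivWithinAt (fun r => F1 (r, z)) (F2 (r, z)) (Icc 0 s) r := by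
      intro r hr
      exact (hder F1 hF1s r ⟨hr.1, hr.2.trans hs.2⟩).hasDerivWithinAt
    have h2 : ∀ r ∈ Icc (0 : ℝ) s, ‖F2 (r, z)‖ ≤ max C 0 := by
      intro r hr
      exact (hC (r, z) ⟨⟨hr.1, hr.2.trans hs.2⟩, hz⟩).trans (le_max_left _ _)
    have h3 := (convex_Icc (0 : ℝ) s).norm_image_sub_le_of_norm_hasDerivWithin_le h1 h2
      (left_mem_Icc.2 hs.1) (right_mem_Icc.2 hs.1)
    rw [sub_zero, Real.norm_eq_abs, Real.norm_eq_abs, abs_of_nonneg hs.1] at h3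
    exact h3
  exact taylor_one (g := fun s => f (s, z)) (g' := fun s => F1 (s, z)) (le_max_right _ _)
    (fun s hs => hder f hf s hs) hg1 ht

end Vale.Agent.P219.TP
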