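import Vale.Agent.P219.TP.XfDefs
import Vale.Agent.P219.TP.Taylor
import Vale.Agent.P219.TP.Conv

/-! # Uniform expansion of the volume (task A8b) -/

open MeasureTheory Set Metric
open scoped ENNReal ContDiff

namespace Vale.Agent.P219.TP

variable {n : ℕ} (G : Geo n)

lemma volExp_det_eq (L : E n →L[ℝ] E n) :
    L.det = ∑ σ : Equiv.Perm (Fin n), ((Equiv.Perm.sign σ : ℤ) : ℝ) *
      ∏ i, (L (EuclideanSpace.single i 1)) (σ i) := by
  have h1 : L.det = (LinearMap.toMatrix (EuclideanSpace.basisFun (Fin n) ℝ).toBasis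
      (EuclideanSpace.basisFun (Fin n) ℝ).toBasis (L : E n →ₗ[ℝ] E n)).det := by
    rw [LinearMap.det_toMatrix]
  rw [h1, Matrix.det_apply']
  refine Finset.sum_congr rfl fun σ _ => ?_
  congr 1

lemma volExp_contDiff_det : ContDiff ℝ ∞ (fun L : E n →L[ℝ] E n => L.det) := by
  have e : (fun L : E n →L[ℝ] E n => L.det) = fun L => ∑ σ : Equiv.Perm (Fin n),
      ((Equiv.Perm.sign σ : ℤ) : ℝ) * ∏ i, (L (EuclideanSpace.single i 1)) (σ i) :=
    funext volExp_det_eq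
  rw [e]
  refine ContDiff.sum fun σ _ => contDiff_const.mul (contDiff_prod fun i _ => ?_)
  exact ((EuclideanSpace.proj (σ i)).comp
    (ContinuousLinearMap.apply ℝ (E n) (EuclideanSpace.single i (1 : ℝ)))).contDiff

/-- The derivative of the determinant at the identity is the trace. -/
lemma volExp_hasDerivAt_det {L : ℝ → E n →L[ℝ] E n} {L' : E n →L[ℝ] E n} {t : ℝ}
    (hL : HasDerivAt L L' t) (h1 : L t = ContinuousLinearMap.id ℝ (E n)) :
    HasDerivAt (fun s => (L s).det) (∑ i, (L' (EuclideanSpace.single i 1)) i) t := by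
  have e : (fun s => (L s).det) = fun s => ∑ σ : Equiv.Perm (Fin n),
      ((Equiv.Perm.sign σ : ℤ) : ℝ) * ∏ i, (L s (EuclideanSpace.single i 1)) (σ i) :=
    funext fun s => volExp_det_eq (L s)
  rw [e]
  have hent : ∀ i j, HasDerivAt (fun s => (L s (EuclideanSpace.single i 1)) j)
      ((L' (EuclideanSpace.single i 1)) j) t := by
    intro i j
    have h : HasDerivAt (fun s => L s (EuclideanSpace.single i 1))
        (L' (EuclideanSpace.single i 1)) t := by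
      simpa using hL.clm_apply (hasDerivAt_const t (EuclideanSpace.single i (1 : ℝ)))
    exact (EuclideanSpace.proj (𝕜 := ℝ) j : E n →L[ℝ] ℝ).hasFDerivAt.comp_hasDerivAt t h
  have h2 := HasDerivAt.fun_sum (u := Finset.univ) (fun (σ : Equiv.Perm (Fin n)) _ =>
    (HasDerivAt.fun_finsetProd (u := Finset.univ) (fun i _ => hent i (σ i))).const_mul
      ((Equiv.Perm.sign σ : ℤ) : ℝ))
  refine h2.congr_deriv ?_
  rw [Finset.sum_eq_single (1 : Equiv.Perm (Fin n))]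
  · simp only [Equiv.Perm.sign_one, Units.val_one, Int.cast_one, one_mul, Equiv.Perm.one_apply,
      h1, ContinuousLinearMap.id_apply]
    refine Finset.sum_congr rfl fun i _ => ?_
    rw [Finset.prod_eq_one]
    · simp
    · intro j _
      simp
  · intro σ _ hσ
    have h3 : ∀ i, ∃ j, j ≠ i ∧ σ j ≠ j := by
      intro i
      by_contra hcon
      push Not at hcon
      apply hσ
      ext j
      by_cases hj : j = i
      · subst hj
        by_contra hne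
        have h4 : σ (σ j) = σ j := hcon (σ j) (fun h => hne (by rw [h]; rfl))
        exact hne (by rw [σ.injective h4]; rfl)
      · rw [hcon j hj]
        rfl
    have h5 : ∀ i, ∏ j ∈ Finset.univ.erase i, (L t (EuclideanSpace.single j 1)) (σ j) = 0 := by
      intro i
      obtain ⟨j, hji, hj⟩ := h3 i
      refine Finset.prod_eq_zero (Finset.mem_erase.2 ⟨hji, Finset.mem_univ j⟩) ?_
      rw [h1, ContinuousLinearMap.id_apply]
      simp [hj]
    simp [h5]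
  · intro h
    exact absurd (Finset.mem_univ _) h

lemma volExp_comp_deriv {X Y Z : Type*} [NormedAddCommGroup X] [NormedSpace ℝ X]
    [NormedAddCommGroup Y] [NormedSpace ℝ Y] [NormedAddCommGroup Z] [NormedSpace ℝ Z]
    (I : X →L[ℝ] Y) {g : ℝ → Y →L[ℝ] Z} {g' : Y →L[ℝ] Z} {t : ℝ} (h : HasDerivAt g g' t) :
    HasDerivAt (fun s => (g s).comp I) (g'.comp I) t := by
  have h1 := h.clm_comp (hasDerivAt_const t I)
  simpa using h1

lemma volExp_apply_deriv {X Y Z : Type*} [NormedAddCommGroup X] [NormedSpace ℝ X]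
    [NormedAddCommGroup Y] [NormedSpace ℝ Y] [NormedAddCommGroup Z] [NormedSpace ℝ Z]
    {g : X → Y →L[ℝ] Z} {g' : X →L[ℝ] Y →L[ℝ] Z} {x : X} (h : HasFDerivAt g g' x) (y : Y) :
    HasFDerivAt (fun u => g u y) (g'.flip y) x := by
  have h2 := h.clm_apply (hasFDerivAt_const y x)
  refine h2.congr_fderiv ?_
  ext v
  simp

/-- Parameters: `(t, (p, ν, R, x))`. -/
abbrev volExpZ (n : ℕ) := ℝ × (E n × E n × ℝ × E n)

/-- `Psi` as a function of all parameters. -/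
noncomputable def volExpF (Φ : ℝ × ℝ → ℝ) (q : volExpZ n) : E n :=
  G.Psi Φ q.2.2.2.1 q.2.2.1 q.2.1 q.1 q.2.2.2.2

/-- Inclusion of the last coordinate. -/
noncomputable def volExpI (n : ℕ) : E n →L[ℝ] volExpZ n :=
  (ContinuousLinearMap.inr ℝ ℝ (E n × E n × ℝ × E n)).comp
    ((ContinuousLinearMap.inr ℝ (E n) (E n × ℝ × E n)).comp
      ((ContinuousLinearMap.inr ℝ (E n) (ℝ × E n)).comp (ContinuousLinearMap.inr ℝ ℝ (E n))))

lemma volExpI_apply (y : E n) : volExpI n y = (0, (0, 0, 0, y)) := rfl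

lemma volExp_open : IsOpen {q : volExpZ n | 0 < q.2.2.2.1} :=
  isOpen_lt continuous_const (by fun_prop)

lemma volExp_kappa (t : ℝ) (p ν : E n) (R : ℝ) (x : E n) :
    HasFDerivAt (fun y : E n => ((t, (p, ν, R, y)) : volExpZ n)) (volExpI n) x := by
  have h := (volExpI n).hasFDerivAt (x := x)
  have h2 := h.const_add ((t, (p, ν, R, 0)) : volExpZ n)
  refine h2.congr_of_eventuallyEq (Filter.Eventually.of_forall fun y => ?_)
  change _ = (t, (p, ν, R, 0)) + volExpI n y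
  rw [volExpI_apply]
  simp

variable {Φ : ℝ × ℝ → ℝ} {δ : ℝ}

lemma volExpF_smooth (hδ : 0 < δ) (hΦ : ContDiffOn ℝ ∞ Φ {p | -δ < p.1}) :
    ContDiffOn ℝ ∞ (volExpF G Φ) {q : volExpZ n | 0 < q.2.2.2.1} := by
  have hlg : ContDiffOn ℝ ∞ (fun q : volExpZ n => G.lg q.2.1 q.2.2.2.2)
      {q : volExpZ n | 0 < q.2.2.2.1} := by
    have h1 : ContDiff ℝ ∞ (fun q : volExpZ n => ((q.2.1, q.2.2.2.2) : E n × E n)) := by
      fun_prop
    exact (G.lg_smooth.comp h1).contDiffOn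
  have hR : ContDiffOn ℝ ∞ (fun q : volExpZ n => q.2.2.2.1⁻¹) {q : volExpZ n | 0 < q.2.2.2.1} := by
    have h1 : ContDiffOn ℝ ∞ (fun q : volExpZ n => q.2.2.2.1) {q : volExpZ n | 0 < q.2.2.2.1} := by
      fun_prop
    exact h1.inv fun q hq => (ne_of_gt hq)
  have hν : ContDiffOn ℝ ∞ (fun q : volExpZ n => q.2.2.1) {q : volExpZ n | 0 < q.2.2.2.1} := by
    fun_prop
  have ht : ContDiffOn ℝ ∞ (fun q : volExpZ n => q.1) {q : volExpZ n | 0 < q.2.2.2.1} := by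
    fun_prop
  have hp : ContDiffOn ℝ ∞ (fun q : volExpZ n => q.2.1) {q : volExpZ n | 0 < q.2.2.2.1} := by
    fun_prop
  have ha : ContDiffOn ℝ ∞ (fun q : volExpZ n => ‖G.lg q.2.1 q.2.2.2.2‖ ^ 2 / q.2.2.2.1 ^ 2)
      {q : volExpZ n | 0 < q.2.2.2.1} := by
    have := (hlg.norm_sq ℝ).mul (hR.pow 2)
    refine this.congr fun q _ => ?_
    simp [div_eq_mul_inv]
  have hb : ContDiffOn ℝ ∞ (fun q : volExpZ n => inner ℝ (G.lg q.2.1 q.2.2.2.2) q.2.2.1 / q.2.2.2.1)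
      {q : volExpZ n | 0 < q.2.2.2.1} := by
    have := (hlg.inner ℝ hν).mul hR
    refine this.congr fun q _ => ?_
    simp [div_eq_mul_inv]
  have hth : ContDiffOn ℝ ∞ (fun q : volExpZ n => th Φ q.2.2.2.1 q.2.2.1 (G.lg q.2.1 q.2.2.2.2))
      {q : volExpZ n | 0 < q.2.2.2.1} := by
    unfold th
    refine hR.mul ?_
    have h2 := hΦ.comp (ha.prodMk hb) (fun q hq => by
      change -δ < ‖G.lg q.2.1 q.2.2.2.2‖ ^ 2 / q.2.2.2.1 ^ 2
      have : 0 ≤ ‖G.lg q.2.1 q.2.2.2.2‖ ^ 2 / q.2.2.2.1 ^ 2 := by positivity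
      linarith)
    exact h2
  have harg : ContDiffOn ℝ ∞ (fun q : volExpZ n =>
      (1 - q.1 * th Φ q.2.2.2.1 q.2.2.1 (G.lg q.2.1 q.2.2.2.2)) • G.lg q.2.1 q.2.2.2.2)
      {q : volExpZ n | 0 < q.2.2.2.1} :=
    (contDiffOn_const.sub (ht.mul hth)).smul hlg
  have h3 := G.ex_smooth.comp_contDiffOn (hp.prodMk harg)
  exact h3

/-- The velocity at `t = 0`. -/
lemma volExp_velocity (hδ : 0 < δ) (hΦ : ContDiffOn ℝ ∞ Φ {p | -δ < p.1}) (p ν : E n) {R : ℝ}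
    (hR : 0 < R) (y : E n) :
    fderiv ℝ (volExpF G Φ) (0, (p, ν, R, y)) (1, 0) =
      -(th Φ R ν (G.lg p y)) • G.A y (-G.lg y p) := by
  have h1 : HasDerivAt (fun s : ℝ => G.ex p (s • G.lg p y))
      (G.A (G.ex p ((1 : ℝ) • G.lg p y)) (G.V 1 p (G.lg p y))) 1 := G.ex_deriv 1 p (G.lg p y)
  rw [one_smul, G.ex_lg, G.lg_back'] at h1
  have h2 : HasDerivAt (fun t : ℝ => 1 - t * th Φ R ν (G.lg p y)) (-(th Φ R ν (G.lg p y))) 0 := by
    have := ((hasDerivAt_id (0 : ℝ)).mul_const (th Φ R ν (G.lg p y))).const_sub 1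
    simpa using this
  have h3 : HasDerivAt (fun t : ℝ => volExpF G Φ (t, (p, ν, R, y)))
      (-(th Φ R ν (G.lg p y)) • G.A y (-G.lg y p)) 0 :=
    HasDerivAt.scomp_of_eq (0 : ℝ) h1 h2 (by simp)
  have hd : HasFDerivAt (volExpF G Φ) (fderiv ℝ (volExpF G Φ) (0, (p, ν, R, y)))
      (0, (p, ν, R, y)) :=
    (((volExpF_smooth G hδ hΦ).contDiffAt (volExp_open.mem_nhds hR)).differentiableAt
      (by simp)).hasFDerivAt
  have h4 : HasDerivAt (fun t : ℝ => ((t, (p, ν, R, y)) : volExpZ n)) (1, 0) 0 :=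
    (hasDerivAt_id (0 : ℝ)).prodMk (hasDerivAt_const _ _)
  have h5 := hd.comp_hasDerivAt (0 : ℝ) h4
  exact h5.unique h3

/-- `w(Ψ) det DΨ` as a function of all parameters. -/
noncomputable def volExpf (Φ : ℝ × ℝ → ℝ) (q : volExpZ n) : ℝ :=
  G.w (volExpF G Φ q) * ((fderiv ℝ (volExpF G Φ) q).comp (volExpI n)).det

lemma volExpf_smooth (hδ : 0 < δ) (hΦ : ContDiffOn ℝ ∞ Φ {p | -δ < p.1}) :
    ContDiffOn ℝ ∞ (volExpf G Φ) {q : volExpZ n | 0 < q.2.2.2.1} := by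
  have h1 := volExpF_smooth G hδ hΦ
  have h2 := h1.fderiv_of_isOpen (m := ∞) volExp_open (by simp)
  have h3 : ContDiffOn ℝ ∞ (fun q => (fderiv ℝ (volExpF G Φ) q).comp (volExpI n))
      {q : volExpZ n | 0 < q.2.2.2.1} := h2.clm_comp contDiffOn_const
  exact (G.w_smooth.comp_contDiffOn h1).mul (volExp_contDiff_det.comp_contDiffOn h3)

lemma volExpF_hasFDerivAt (hδ : 0 < δ) (hΦ : ContDiffOn ℝ ∞ Φ {p | -δ < p.1}) (t : ℝ)
    (p ν : E n) {R : ℝ} (hR : 0 < R) (x : E n) :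
    HasFDerivAt (volExpF G Φ) (fderiv ℝ (volExpF G Φ) (t, (p, ν, R, x))) (t, (p, ν, R, x)) :=
  (((volExpF_smooth G hδ hΦ).contDiffAt (volExp_open.mem_nhds hR)).differentiableAt
      (by simp)).hasFDerivAt

lemma volExp_fderiv_Psi (hδ : 0 < δ) (hΦ : ContDiffOn ℝ ∞ Φ {p | -δ < p.1}) (t : ℝ)
    (p ν : E n) {R : ℝ} (hR : 0 < R) (x : E n) :
    fderiv ℝ (G.Psi Φ R ν p t) x =
      (fderiv ℝ (volExpF G Φ) (t, (p, ν, R, x))).comp (volExpI n) := by
  have h0 := volExpF_hasFDerivAt G hδ hΦ t p ν hR x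
  have h := h0.comp x (volExp_kappa t p ν R x)
  exact h.fderiv

lemma volExp_Psi_zero (Φ : ℝ × ℝ → ℝ) (R : ℝ) (ν p : E n) : G.Psi Φ R ν p 0 = id := by
  funext x
  simp [Geo.Psi, G.ex_lg]

lemma volExp_L_zero (hδ : 0 < δ) (hΦ : ContDiffOn ℝ ∞ Φ {p | -δ < p.1})
    (p ν : E n) {R : ℝ} (hR : 0 < R) (x : E n) :
    (fderiv ℝ (volExpF G Φ) (0, (p, ν, R, x))).comp (volExpI n) =
      ContinuousLinearMap.id ℝ (E n) := by
  rw [← volExp_fderiv_Psi G hδ hΦ 0 p ν hR x, volExp_Psi_zero, fderiv_id]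

lemma volExpf_zero (hδ : 0 < δ) (hΦ : ContDiffOn ℝ ∞ Φ {p | -δ < p.1})
    (p ν : E n) {R : ℝ} (hR : 0 < R) (x : E n) :
    volExpf G Φ (0, (p, ν, R, x)) = G.w x := by
  rw [volExpf, volExp_L_zero G hδ hΦ p ν hR x]
  have h1 : volExpF G Φ (0, (p, ν, R, x)) = x := by
    change G.Psi Φ R ν p 0 x = x
    rw [volExp_Psi_zero]
    rfl
  have h2 : (ContinuousLinearMap.id ℝ (E n)).det = 1 := by
    rw [ContinuousLinearMap.det, ContinuousLinearMap.coe_id, LinearMap.det_id]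
  rw [h1, h2, mul_one]

/-- The derivative in `t` at `t = 0`. -/
lemma volExp_dvX (hδ : 0 < δ) (hΦ : ContDiffOn ℝ ∞ Φ {p | -δ < p.1}) (p ν : E n) {R : ℝ}
    (hR : 0 < R) (x : E n) :
    fderiv ℝ (volExpf G Φ) (0, (p, ν, R, x)) (1, 0) = -G.dvX Φ R ν p x := by
  have hF := volExpF_smooth G hδ hΦ
  have hmem : {q : volExpZ n | 0 < q.2.2.2.1} ∈ nhds ((0, (p, ν, R, x)) : volExpZ n) :=
    volExp_open.mem_nhds hR
  obtain ⟨B, hBdef⟩ : ∃ B, B = fderiv ℝ (fderiv ℝ (volExpF G Φ)) (0, (p, ν, R, x)) := ⟨_, rfl⟩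
  have hB : HasFDerivAt (fderiv ℝ (volExpF G Φ)) B (0, (p, ν, R, x)) := by
    rw [hBdef]
    exact (((hF.fderiv_of_isOpen (m := ∞) volExp_open (by simp)).contDiffAt
      hmem).differentiableAt (by simp)).hasFDerivAt
  have hsymm : ∀ v w, B v w = B w v := by
    rw [hBdef]
    exact (hF.contDiffAt hmem).isSymmSndFDerivAt (by
      rw [minSmoothness_of_isRCLikeNormedField]
      exact WithTop.coe_le_coe.2 (le_top : (2 : ℕ∞) ≤ ⊤))
  have hcurve : HasDerivAt (fun t : ℝ => ((t, (p, ν, R, x)) : volExpZ n)) (1, 0) 0 :=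
    (hasDerivAt_id (0 : ℝ)).prodMk (hasDerivAt_const _ _)
  have hL : HasDerivAt (fun t : ℝ => (fderiv ℝ (volExpF G Φ) (t, (p, ν, R, x))).comp (volExpI n))
      ((B (1, 0)).comp (volExpI n)) 0 := by
    exact volExp_comp_deriv (volExpI n) (hB.comp_hasDerivAt (0 : ℝ) hcurve)
  have hdet := volExp_hasDerivAt_det hL (volExp_L_zero G hδ hΦ p ν hR x)
  have hFx : volExpF G Φ (0, (p, ν, R, x)) = x := by
    change G.Psi Φ R ν p 0 x = x
    rw [volExp_Psi_zero]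
    rfl
  have hwd : ∀ y, HasFDerivAt G.w (fderiv ℝ G.w y) y := fun y =>
    (G.w_smooth.differentiable (by simp) y).hasFDerivAt
  have hw : HasDerivAt (fun t : ℝ => G.w (volExpF G Φ (t, (p, ν, R, x))))
      (fderiv ℝ G.w x (fderiv ℝ (volExpF G Φ) (0, (p, ν, R, x)) (1, 0))) 0 := by
    have h1 := (volExpF_hasFDerivAt G hδ hΦ 0 p ν hR x).comp_hasDerivAt (0 : ℝ) hcurve
    have h2 := hwd (volExpF G Φ (0, (p, ν, R, x)))
    have h3 := h2.comp_hasDerivAt (0 : ℝ) h1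
    rw [hFx] at h3
    exact h3
  have hprod := hw.mul hdet
  have hf : HasDerivAt (fun t : ℝ => volExpf G Φ (t, (p, ν, R, x)))
      (fderiv ℝ (volExpf G Φ) (0, (p, ν, R, x)) (1, 0)) 0 := by
    have h0 := (((volExpf_smooth G hδ hΦ).contDiffAt hmem).differentiableAt
      (by simp)).hasFDerivAt
    have h1 := h0.comp_hasDerivAt (0 : ℝ) hcurve
    exact h1
  have e1 := hf.unique hprod
  rw [volExp_L_zero G hδ hΦ p ν hR x, hFx] at e1
  have hdid : (ContinuousLinearMap.id ℝ (E n)).det = 1 := by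
    rw [ContinuousLinearMap.det, ContinuousLinearMap.coe_id, LinearMap.det_id]
  rw [hdid, mul_one] at e1
  -- the velocity field
  have hX : ∀ y, G.Xf Φ R ν p y =
      -(G.w y) • fderiv ℝ (volExpF G Φ) (0, (p, ν, R, y)) (1, 0) := by
    intro y
    rw [volExp_velocity G hδ hΦ p ν hR y, Geo.Xf, smul_smul]
    congr 1
    ring
  have hV : HasFDerivAt (fun y : E n => fderiv ℝ (volExpF G Φ) (0, (p, ν, R, y)) (1, 0))
      ((B.comp (volExpI n)).flip (1, 0)) x := by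
    have h1 : HasFDerivAt (fun y : E n => fderiv ℝ (volExpF G Φ) (0, (p, ν, R, y)))
        (B.comp (volExpI n)) x := hB.comp x (volExp_kappa 0 p ν R x)
    exact volExp_apply_deriv h1 (1, 0)
  have hXd : HasFDerivAt (G.Xf Φ R ν p) (-(G.w x) • ((B.comp (volExpI n)).flip (1, 0)) +
      (-(fderiv ℝ G.w x)).smulRight (fderiv ℝ (volExpF G Φ) (0, (p, ν, R, x)) (1, 0))) x := by
    have h1 := (hwd x).neg.smul hV
    have h2 : G.Xf Φ R ν p = fun y => -(G.w y) •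
      fderiv ℝ (volExpF G Φ) (0, (p, ν, R, y)) (1, 0) := funext hX
    rw [h2]
    exact h1
  obtain ⟨vel, hvel⟩ : ∃ vel, vel = fderiv ℝ (volExpF G Φ) (0, (p, ν, R, x)) (1, 0) := ⟨_, rfl⟩
  rw [← hvel] at e1 hXd
  have hsum : fderiv ℝ G.w x vel =
      ∑ i, fderiv ℝ G.w x (EuclideanSpace.single i 1) * vel i := by
    have h1 : vel = ∑ i, vel i • (EuclideanSpace.single i (1 : ℝ) : E n) := by
      have := (EuclideanSpace.basisFun (Fin n) ℝ).sum_repr vel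
      simpa using this.symm
    conv_lhs => rw [h1]
    rw [map_sum]
    refine Finset.sum_congr rfl fun i _ => ?_
    rw [map_smul, smul_eq_mul, mul_comm]
  rw [e1, Geo.dvX, hXd.fderiv, hsum, Finset.mul_sum, ← Finset.sum_add_distrib,
    ← Finset.sum_neg_distrib]
  refine Finset.sum_congr rfl fun i _ => ?_
  have h6 : B (1, 0) (volExpI n (EuclideanSpace.single i 1)) =
      B (volExpI n (EuclideanSpace.single i 1)) (1, 0) := hsymm _ _
  simp [h6]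

/-- The compact set of parameters. -/
lemma volExp_compact (o : E n) (ρ R₀ R₁ : ℝ) :
    IsCompact ({p | ‖G.lg o p‖ ≤ ρ} ×ˢ (sphere (0 : E n) 1 ×ˢ (Icc R₀ R₁ ×ˢ
      {x | ‖G.lg o x‖ ≤ ρ})) : Set (E n × E n × ℝ × E n)) :=
  (G.isCompact_gball o ρ).prod ((isCompact_sphere 0 1).prod (isCompact_Icc.prod
    (G.isCompact_gball o ρ)))

/-- Uniform expansion of the volume distortion of `Psi`. -/
theorem vol_exp (o : E n) (ρ : ℝ) {Φ : ℝ × ℝ → ℝ} {δ : ℝ} (hδ : 0 < δ)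
    (hΦ : ContDiffOn ℝ ∞ Φ {p | -δ < p.1}) {R₀ R₁ : ℝ} (hR₀ : 0 < R₀) :
    ∃ C t₀ : ℝ, 0 ≤ C ∧ 0 < t₀ ∧ ∀ p ν x R t, ‖G.lg o p‖ ≤ ρ → ‖ν‖ = 1 → ‖G.lg o x‖ ≤ ρ →
      R₀ ≤ R → R ≤ R₁ → 0 ≤ t → t ≤ t₀ →
      G.w x - t * G.dvX Φ R ν p x - C * t ^ 2 ≤
        G.w (G.Psi Φ R ν p t x) * |(fderiv ℝ (G.Psi Φ R ν p t) x).det| := by
  obtain ⟨C, t₀, hC, ht₀, h⟩ := taylor_uniform volExp_open (volExpf_smooth G hδ hΦ)
    (volExp_compact G o ρ R₀ R₁) (fun z hz => lt_of_lt_of_le hR₀ hz.2.2.1.1)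
  refine ⟨C, t₀, hC, ht₀, fun p ν x R t hp hν hx hR0 hR1 ht0 ht1 => ?_⟩
  have hR : 0 < R := lt_of_lt_of_le hR₀ hR0
  have h1 := h (p, ν, R, x) ⟨hp, by simpa using hν, ⟨hR0, hR1⟩, hx⟩ t ⟨ht0, ht1⟩
  rw [volExpf_zero G hδ hΦ p ν hR x, volExp_dvX G hδ hΦ p ν hR x] at h1
  have h2 := (abs_le.1 h1).1
  have h3 : volExpf G Φ (t, (p, ν, R, x)) ≤
      G.w (G.Psi Φ R ν p t x) * |(fderiv ℝ (G.Psi Φ R ν p t) x).det| := by
    rw [volExp_fderiv_Psi G hδ hΦ t p ν hR x]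
    exact mul_le_mul_of_nonneg_left (le_abs_self _) (G.w_pos _).le
  linarith

/-- Uniform bound of the divergence. -/
theorem dvX_bound (o : E n) (ρ : ℝ) {Φ : ℝ × ℝ → ℝ} {δ : ℝ} (hδ : 0 < δ)
    (hΦ : ContDiffOn ℝ ∞ Φ {p | -δ < p.1}) {R₀ R₁ : ℝ} (hR₀ : 0 < R₀) :
    ∃ C : ℝ, 0 ≤ C ∧ ∀ p ν x R, ‖G.lg o p‖ ≤ ρ → ‖ν‖ = 1 → ‖G.lg o x‖ ≤ ρ →
      R₀ ≤ R → R ≤ R₁ → |G.dvX Φ R ν p x| ≤ C * G.w x := by
  have hcont : ContinuousOn (fun z : E n × E n × ℝ × E n =>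
      fderiv ℝ (volExpf G Φ) ((0, z) : volExpZ n) (1, 0) / G.w z.2.2.2)
      ({p | ‖G.lg o p‖ ≤ ρ} ×ˢ (sphere (0 : E n) 1 ×ˢ (Icc R₀ R₁ ×ˢ
      {x | ‖G.lg o x‖ ≤ ρ}))) := by
    have h1 := ((volExpf_smooth G hδ hΦ).fderiv_of_isOpen (m := ∞) volExp_open
      (by simp)).continuousOn
    have h2 : ContinuousOn (fun z : E n × E n × ℝ × E n =>
      fderiv ℝ (volExpf G Φ) ((0, z) : volExpZ n))
      ({p | ‖G.lg o p‖ ≤ ρ} ×ˢ (sphere (0 : E n) 1 ×ˢ (Icc R₀ R₁ ×ˢ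
      {x | ‖G.lg o x‖ ≤ ρ}))) :=
      h1.comp (by fun_prop) (fun z hz => lt_of_lt_of_le hR₀ hz.2.2.1.1)
    refine (h2.clm_apply continuousOn_const).div ?_ fun z _ => (G.w_pos _).ne'
    exact (G.w_smooth.continuous.comp (by fun_prop)).continuousOn
  obtain ⟨C, hC⟩ := (volExp_compact G o ρ R₀ R₁).exists_bound_of_continuousOn hcont
  refine ⟨max C 0, le_max_right _ _, fun p ν x R hp hν hx hR0 hR1 => ?_⟩
  have hR : 0 < R := lt_of_lt_of_le hR₀ hR0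
  have h1 := hC (p, ν, R, x) ⟨hp, by simpa using hν, ⟨hR0, hR1⟩, hx⟩
  rw [volExp_dvX G hδ hΦ p ν hR x, Real.norm_eq_abs, abs_div, abs_neg,
    abs_of_pos (G.w_pos x), div_le_iff₀ (G.w_pos x)] at h1
  exact h1.trans (mul_le_mul_of_nonneg_right (le_max_left _ _) (G.w_pos x).le)

end Vale.Agent.P219.TP
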