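import Vale.Agent.P219.TP.Diffeo
import Vale.Agent.P219.TP.Conv
import Vale.Agent.P219.TP.Liou
import Vale.Agent.P219.TP.VolExp
import Vale.Agent.P219.TP.Ibp
import Vale.Agent.P219.TP.AreaElem

/-! # Volume of a contracted function (task A9c) -/

open MeasureTheory Set Metric
open scoped ENNReal ContDiff

namespace Vale.Agent.P219.TP

variable {n : ℕ} (G : Geo n)

theorem vpc_norm_lg_le {o p x : E n} {ρ : ℝ} (hp : ‖G.lg o p‖ ≤ ρ) (hx : ‖G.lg o x‖ ≤ ρ) :
    ‖G.lg p x‖ ≤ 2 * ρ := by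
  have h1 := G.lg_nonexp p x o
  rw [G.norm_lg_comm x o] at h1
  have h2 : ‖G.lg p o‖ ≤ ρ := by rw [G.norm_lg_comm]; exact hp
  calc ‖G.lg p x‖ = ‖(G.lg p x - G.lg p o) + G.lg p o‖ := by rw [sub_add_cancel]
    _ ≤ ‖G.lg p x - G.lg p o‖ + ‖G.lg p o‖ := norm_add_le _ _
    _ ≤ 2 * ρ := by linarith

theorem vpc_hasCompactSupport {o : E n} {ρ : ℝ} {h : E n → ℝ} (hh : G.Cls o ρ h) :
    HasCompactSupport h := by
  refine HasCompactSupport.of_support_subset_isCompact (G.isCompact_gball o ρ) ?_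
  intro x hx
  exact hh.supp x hx

theorem vpc_continuous_dvX {Φ : ℝ × ℝ → ℝ} {δ : ℝ} (hδ : 0 < δ)
    (hΦ : ContDiffOn ℝ ∞ Φ {p | -δ < p.1}) (R : ℝ) (ν p : E n) :
    Continuous (G.dvX Φ R ν p) := by
  unfold Geo.dvX
  refine continuous_finsetSum _ fun i _ => ?_
  have h1 : Continuous fun x => fderiv ℝ (G.Xf Φ R ν p) x (EuclideanSpace.single i 1) :=
    ((ibp_contDiff_Xf G hδ hΦ R ν p).continuous_fderiv (by simp)).clm_apply continuous_const
  exact (EuclideanSpace.proj (𝕜 := ℝ) i).continuous.comp h1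

theorem vp_contract (hn : 2 ≤ n) (o : E n) {ρ : ℝ} (hρ : 0 < ρ) {Φ : ℝ × ℝ → ℝ} {δ : ℝ}
    (hδ : 0 < δ) (hΦ : ContDiffOn ℝ ∞ Φ {p | -δ < p.1}) {R₀ R₁ : ℝ} (hR₀ : 0 < R₀) :
    ∃ C t₀ : ℝ, 0 ≤ C ∧ 0 < t₀ ∧ ∀ (p ν : E n) (R t : ℝ) (h : E n → ℝ), ‖G.lg o p‖ ≤ ρ →
      ‖ν‖ = 1 → R₀ ≤ R → R ≤ R₁ → 0 ≤ t → t ≤ t₀ → G.Cls o ρ h → ∀ θ : E n → ℝ,
      (∀ v, ‖v‖ < 2 * ρ + 1 → θ v = th Φ R ν v) → ∀ Ψ : E n ≃ₜ E n,
      (∀ x, Ψ x = G.rad θ p t x) → ContDiff ℝ ∞ Ψ → ContDiff ℝ ∞ Ψ.symm →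
      G.vp h - t * (∫ x, th Φ R ν (G.lg p x) * inner ℝ (G.lg x p) (G.D h x) ∂G.vol) -
          C * t * G.vol.real {x | 0 < h x ∧ h x < 1} - C * t ^ 2 ≤ G.vp (h ∘ Ψ.symm) := by
  obtain ⟨C₁, t₁, hC₁, ht₁, hexp⟩ := vol_exp G o ρ hδ hΦ (R₀ := R₀) (R₁ := R₁) hR₀
  obtain ⟨C₂, hC₂, hbd⟩ := dvX_bound G o ρ hδ hΦ (R₀ := R₀) (R₁ := R₁) hR₀
  set B : Set (E n) := {x | ‖G.lg o x‖ ≤ ρ} with hB
  have hBc : IsCompact B := G.isCompact_gball o ρ
  set C₃ : ℝ := (volume : Measure (E n)).real B with hC₃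
  have hC₃0 : 0 ≤ C₃ := measureReal_nonneg
  refine ⟨C₂ + C₁ * C₃, t₁, by positivity, ht₁, ?_⟩
  intro p ν R t h hp hν hR hR' ht ht' hcls θ hθ Ψ hΨ hΨs hΨs'
  have hRpos : 0 < R := lt_of_lt_of_le hR₀ hR
  have hq1 : (1 : ℝ) < n := by exact_mod_cast hn
  set q : ℝ := (n : ℝ) / ((n : ℝ) - 1) with hq
  have hqpos : 0 < q := div_pos (by linarith) (by linarith)
  have hc := vpc_hasCompactSupport G hcls
  have hcont := hcls.smooth.continuous
  have hcontq : Continuous fun x => h x ^ q := hcont.rpow_const fun x => Or.inr hqpos.le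
  have h0q : (0 : ℝ) ^ q = 0 := Real.zero_rpow hqpos.ne'
  have hcq : HasCompactSupport fun x => h x ^ q := hc.comp_left (g := fun y : ℝ => y ^ q) h0q
  have hhq0 : ∀ x, 0 ≤ h x ^ q := fun x => Real.rpow_nonneg (hcls.nonneg x) q
  have hhq1 : ∀ x, h x ^ q ≤ 1 := fun x => Real.rpow_le_one (hcls.nonneg x) (hcls.le_one x) hqpos.le
  have hdvc := vpc_continuous_dvX G hδ hΦ R ν p
  have hwc := G.w_smooth.continuous
  -- the transformed integral
  have hfd : Continuous fun x => (fderiv ℝ Ψ x).det := by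
    have : Continuous fun x => fderiv ℝ Ψ x := hΨs.continuous_fderiv (by simp)
    exact ContinuousLinearMap.continuous_det.comp this
  have e1 : G.vp (h ∘ Ψ.symm) = ∫ x, h x ^ q * (G.w (Ψ x) * |(fderiv ℝ Ψ x).det|) := by
    unfold Geo.vp
    rw [integral_vol_comp G hΨs, ibp_integral_vol]
    refine integral_congr_ae (Filter.Eventually.of_forall fun x => ?_)
    have hw := (G.w_pos x).ne'
    simp only [Function.comp_apply, Homeomorph.symm_apply_apply]
    rw [← hq]
    field_simp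
  have e2 : G.vp h = ∫ x, h x ^ q * G.w x := by
    unfold Geo.vp
    rw [ibp_integral_vol]
    refine integral_congr_ae (Filter.Eventually.of_forall fun x => ?_)
    simp only
    rw [mul_comm]
  have i1 : Integrable fun x => h x ^ q * (G.w (Ψ x) * |(fderiv ℝ Ψ x).det|) :=
    (hcontq.mul ((hwc.comp Ψ.continuous).mul hfd.abs)).integrable_of_hasCompactSupport
      hcq.mul_right
  have i2 : Integrable fun x => h x ^ q * G.w x :=
    (hcontq.mul hwc).integrable_of_hasCompactSupport hcq.mul_right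
  have i3 : Integrable fun x => h x ^ q * G.dvX Φ R ν p x :=
    (hcontq.mul hdvc).integrable_of_hasCompactSupport hcq.mul_right
  have i4 : Integrable fun x => h x ^ q := hcontq.integrable_of_hasCompactSupport hcq
  have i5 : Integrable fun x => h x * G.dvX Φ R ν p x :=
    (hcont.mul hdvc).integrable_of_hasCompactSupport hc.mul_right
  -- pointwise lower bound
  have hpt : ∀ x, h x ^ q * G.w x - t * (h x ^ q * G.dvX Φ R ν p x) - C₁ * t ^ 2 * h x ^ q ≤
      h x ^ q * (G.w (Ψ x) * |(fderiv ℝ Ψ x).det|) := by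
    intro x
    by_cases hx : h x = 0
    · rw [hx, h0q]; simp
    · have hxB : ‖G.lg o x‖ ≤ ρ := hcls.supp x hx
      have hpx := vpc_norm_lg_le G hp hxB
      have hev : ∀ᶠ y in nhds x, (Ψ : E n → E n) y = G.Psi Φ R ν p t y := by
        have ho : IsOpen {y | ‖G.lg p y‖ < 2 * ρ + 1} :=
          isOpen_lt (ibp_contDiff_lg_left G p).continuous.norm continuous_const
        filter_upwards [ho.mem_nhds (show ‖G.lg p x‖ < 2 * ρ + 1 by linarith)] with y hy
        rw [hΨ y]
        unfold Geo.rad Geo.Psi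
        rw [hθ _ hy]
      have hf : fderiv ℝ Ψ x = fderiv ℝ (G.Psi Φ R ν p t) x :=
        Filter.EventuallyEq.fderiv_eq hev
      have hv : Ψ x = G.Psi Φ R ν p t x := hev.self_of_nhds
      have := hexp p ν x R t hp hν hxB hR hR' ht ht'
      rw [hf, hv]
      have h2 := mul_le_mul_of_nonneg_left this (hhq0 x)
      linarith
  have hlow : G.vp h - t * (∫ x, h x ^ q * G.dvX Φ R ν p x) - C₁ * t ^ 2 * (∫ x, h x ^ q) ≤
      G.vp (h ∘ Ψ.symm) := by
    have i23 : Integrable fun x => h x ^ q * G.w x - t * (h x ^ q * G.dvX Φ R ν p x) :=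
      i2.sub (i3.const_mul t)
    have i24 : Integrable fun x => C₁ * t ^ 2 * h x ^ q := i4.const_mul _
    rw [e1, e2, ← integral_const_mul, ← integral_const_mul, ← integral_sub i2 (i3.const_mul t),
      ← integral_sub i23 i24]
    exact integral_mono (i23.sub i24) i1 hpt
  -- the error terms
  have hvolB : ∫ x, h x ^ q ≤ C₃ := by
    have hBm : MeasurableSet B := hBc.measurableSet
    have i6 : Integrable (B.indicator fun _ : E n => (1 : ℝ)) := by
      rw [integrable_indicator_iff hBm]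
      exact integrableOn_const hBc.measure_lt_top.ne
    have e3 : ∫ x, (B.indicator fun _ : E n => (1 : ℝ)) x = C₃ := by
      rw [integral_indicator hBm, hC₃]
      simp
    rw [← e3]
    refine integral_mono i4 i6 fun x => ?_
    by_cases hx : h x = 0
    · simp only [hx, h0q]
      exact indicator_nonneg (fun _ _ => zero_le_one) x
    · have hxB : x ∈ B := hcls.supp x hx
      simp only [indicator_of_mem hxB]
      exact hhq1 x
  set S : Set (E n) := {x | 0 < h x ∧ h x < 1} with hS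
  have hSm : MeasurableSet S :=
    ((isOpen_lt continuous_const hcont).inter (isOpen_lt hcont continuous_const)).measurableSet
  have hSB : S ⊆ B := fun x hx => hcls.supp x hx.1.ne'
  have i7 : Integrable (S.indicator fun x => C₂ * G.w x) := by
    rw [integrable_indicator_iff hSm]
    exact ((continuous_const.mul hwc).continuousOn.integrableOn_compact hBc).mono_set hSB
  have e4 : ∫ x, (S.indicator fun x => C₂ * G.w x) x = C₂ * G.vol.real S := by
    have : (S.indicator fun x => C₂ * G.w x) = fun x => G.w x * S.indicator (fun _ => C₂) x := by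
      funext x
      by_cases hx : x ∈ S
      · simp only [indicator_of_mem hx]; ring
      · simp only [indicator_of_notMem hx]; ring
    rw [this, ← ibp_integral_vol, integral_indicator hSm]
    simp [mul_comm]
  have hdiff : (∫ x, h x ^ q * G.dvX Φ R ν p x) - (∫ x, h x * G.dvX Φ R ν p x) ≤
      C₂ * G.vol.real S := by
    rw [← integral_sub i3 i5, ← e4]
    refine integral_mono (i3.sub i5) i7 fun x => ?_
    simp only
    by_cases hx : x ∈ S
    · rw [indicator_of_mem hx]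
      have hb := hbd p ν x R hp hν (hSB hx) hR hR'
      have h1 : h x ^ q * G.dvX Φ R ν p x - h x * G.dvX Φ R ν p x ≤
          |h x ^ q - h x| * |G.dvX Φ R ν p x| := by
        rw [← abs_mul, ← sub_mul]
        exact le_abs_self _
      have h2 : |h x ^ q - h x| ≤ 1 := by
        rw [abs_le]
        constructor
        · linarith [hhq0 x, hcls.le_one x]
        · linarith [hhq1 x, hcls.nonneg x]
      calc _ ≤ |h x ^ q - h x| * |G.dvX Φ R ν p x| := h1
        _ ≤ 1 * |G.dvX Φ R ν p x| := mul_le_mul_of_nonneg_right h2 (abs_nonneg _)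
        _ ≤ C₂ * G.w x := by rw [one_mul]; exact hb
    · rw [indicator_of_notMem hx]
      have hx' : h x = 0 ∨ h x = 1 := by
        by_contra hcon
        push Not at hcon
        exact hx ⟨lt_of_le_of_ne (hcls.nonneg x) (Ne.symm hcon.1),
          lt_of_le_of_ne (hcls.le_one x) hcon.2⟩
      rcases hx' with hx' | hx'
      · rw [hx', h0q]; simp
      · rw [hx', Real.one_rpow]; simp
  have hibp := dvX_ibp G hδ hΦ hRpos ν p hcls.smooth hc
  have hV : 0 ≤ G.vol.real S := measureReal_nonneg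
  have f1 : t * (∫ x, h x ^ q * G.dvX Φ R ν p x) ≤
      t * (∫ x, th Φ R ν (G.lg p x) * inner ℝ (G.lg x p) (G.D h x) ∂G.vol) +
        t * (C₂ * G.vol.real S) := by
    rw [← hibp, ← mul_add]
    exact mul_le_mul_of_nonneg_left (by linarith) ht
  have f2 : C₁ * t ^ 2 * (∫ x, h x ^ q) ≤ C₁ * t ^ 2 * C₃ :=
    mul_le_mul_of_nonneg_left hvolB (by positivity)
  have f3 : 0 ≤ C₁ * C₃ * t * G.vol.real S := by positivity
  have f4 : 0 ≤ C₂ * t ^ 2 := by positivity
  nlinarith [hlow, f1, f2, f3, f4]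

end Vale.Agent.P219.TP
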