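import Vale.Agent.P219.TP.PerContract
import Vale.Agent.P219.TP.VpContract

/-! # First variation with uniform second order bounds (task A9d) -/

open MeasureTheory Set Metric
open scoped ENNReal ContDiff

namespace Vale.Agent.P219.TP

variable {n : ℕ} (G : Geo n)

/-- For `h` in the class and `p` in the ball there is a competitor `h'` in the class, obtained by
contraction towards `p`, with controlled total variation and volume. -/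
theorem exists_contract (hn : 2 ≤ n) (o : E n) {ρ : ℝ} (hρ : 0 < ρ) {Φ : ℝ × ℝ → ℝ} {δ : ℝ}
    (hδ : 0 < δ) (hΦ : ContDiffOn ℝ ∞ Φ {p | -δ < p.1}) (hΦ0 : ∀ p : ℝ × ℝ, 0 ≤ p.1 → 0 ≤ Φ p)
    {R₀ R₁ : ℝ} (hR₀ : 0 < R₀) :
    ∃ C t₀ : ℝ, 0 ≤ C ∧ 0 < t₀ ∧ ∀ (p ν : E n) (R t : ℝ) (h : E n → ℝ), ‖G.lg o p‖ ≤ ρ →
      ‖ν‖ = 1 → R₀ ≤ R → R ≤ R₁ → 0 ≤ t → t ≤ t₀ → G.Cls o ρ h → ∃ h', G.Cls o ρ h' ∧
      G.per h' ≤ G.per h - t * (∫ x, R⁻¹ * kap (n - 1) Φ (‖G.lg p x‖ / R)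
          (inner ℝ (G.lg p x) ν / ‖G.lg p x‖) (G.ang h x p) * ‖G.D h x‖ ∂G.vol) +
          C * t ^ 2 * G.per h ∧
      G.vp h - t * (∫ x, th Φ R ν (G.lg p x) * inner ℝ (G.lg x p) (G.D h x) ∂G.vol) -
          C * t * G.vol.real {x | 0 < h x ∧ h x < 1} - C * t ^ 2 ≤ G.vp h' := by
  obtain ⟨M, hM, hcut⟩ := exists_cutoff (n := n) hδ hΦ hΦ0 R₁ hR₀ (2 * ρ + 1)
  obtain ⟨M', hM', hb⟩ := th_bounds (n := n) hδ hΦ R₁ hR₀ (2 * ρ)
  obtain ⟨C₁, t₁, hC₁, ht₁, h₁⟩ := per_contract G hn o hρ hδ hΦ hΦ0 (R₁ := R₁) hR₀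
  obtain ⟨C₂, t₂, hC₂, ht₂, h₂⟩ := vp_contract G hn o hρ hδ hΦ (R₁ := R₁) hR₀
  have hlg : ∀ p x, ‖G.lg o p‖ ≤ ρ → ‖G.lg o x‖ ≤ ρ → ‖G.lg p x‖ ≤ 2 * ρ := by
    intro p x hp hx
    have h1 := G.lg_nonexp p x o
    have h2 : ‖G.lg p x‖ ≤ ‖G.lg p x - G.lg p o‖ + ‖G.lg p o‖ := by
      calc ‖G.lg p x‖ = ‖(G.lg p x - G.lg p o) + G.lg p o‖ := by rw [sub_add_cancel]
        _ ≤ _ := norm_add_le _ _
    rw [G.norm_lg_comm x o] at h1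
    rw [G.norm_lg_comm p o] at h2
    linarith
  refine ⟨C₁ + C₂, min (min t₁ t₂) (1 / (2 * (M + M' + 1))), by positivity, by positivity, ?_⟩
  intro p ν R t h hp hν hR0 hR1 ht0 ht hh
  have ht1 : t ≤ t₁ := ht.trans ((min_le_left _ _).trans (min_le_left _ _))
  have ht2 : t ≤ t₂ := ht.trans ((min_le_left _ _).trans (min_le_right _ _))
  have ht3 : t ≤ 1 / (2 * (M + M' + 1)) := ht.trans (min_le_right _ _)
  have ht4 : t * (2 * (M + M' + 1)) ≤ 1 := by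
    rwa [le_div_iff₀ (by positivity)] at ht3
  obtain ⟨θ, hθs, hθ0, hθe, hθL⟩ := hcut ν R hν hR0 hR1
  have htM : |t| * M < 1 := by
    rw [abs_of_nonneg ht0]
    nlinarith [mul_nonneg ht0 hM, mul_nonneg ht0 hM']
  obtain ⟨Ψ, hΨ, hΨs, hΨs'⟩ := exists_diffeo_geo G hθs hM hθL htM p
  have hΨ' : ∀ x, Ψ x = G.rad θ p t x := hΨ
  refine ⟨h ∘ Ψ.symm, cls_contract G hp (t := t) (θ := θ) ?_ hΨ' hΨs' hh, ?_, ?_⟩
  · intro x hx
    have h1 := hlg p x hp hx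
    have h2 : θ (G.lg p x) = th Φ R ν (G.lg p x) := hθe _ (by linarith)
    have h3 := (hb ν (G.lg p x) R hν hR0 hR1 h1).1
    rw [← h2] at h3
    have h4 : θ (G.lg p x) ≤ M' := (le_abs_self _).trans h3
    have h5 := hθ0 (G.lg p x)
    constructor
    · nlinarith [mul_nonneg ht0 hM, mul_nonneg ht0 hM', mul_le_mul_of_nonneg_left h4 ht0]
    · nlinarith [mul_nonneg ht0 h5]
  · refine (h₁ p ν R t h hp hν hR0 hR1 ht0 ht1 hh θ hθe Ψ hΨ' hΨs hΨs').trans ?_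
    have : 0 ≤ C₂ * t ^ 2 * G.per h := by
      have : 0 ≤ G.per h := integral_nonneg fun _ => norm_nonneg _
      positivity
    linarith [show (C₁ + C₂) * t ^ 2 * G.per h = C₁ * t ^ 2 * G.per h + C₂ * t ^ 2 * G.per h by
      ring]
  · refine le_trans ?_ (h₂ p ν R t h hp hν hR0 hR1 ht0 ht2 hh θ hθe Ψ hΨ' hΨs hΨs')
    have h1 : 0 ≤ C₁ * t * G.vol.real {x | 0 < h x ∧ h x < 1} := by positivity
    have h2 : 0 ≤ C₁ * t ^ 2 := by positivity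
    linarith [show (C₁ + C₂) * t * G.vol.real {x | 0 < h x ∧ h x < 1} =
      C₁ * t * G.vol.real {x | 0 < h x ∧ h x < 1} + C₂ * t * G.vol.real {x | 0 < h x ∧ h x < 1} by
      ring, show (C₁ + C₂) * t ^ 2 = C₁ * t ^ 2 + C₂ * t ^ 2 by ring]

end Vale.Agent.P219.TP
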