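import Vale.Agent.P219.TP.Defs

/-! # Sphere moments (task A12) -/

open MeasureTheory Set Metric
open scoped ENNReal ContDiff

namespace Vale.Agent.P219.TP

variable {n : ℕ}

/-- Polar coordinates for functions that separate. -/
theorem polar_sep (hn : 1 ≤ n) (h : E n → ℝ) (F : sphere (0 : E n) 1 → ℝ) (g : ℝ → ℝ)
    (hh : ∀ (u : sphere (0 : E n) 1) (r : ℝ), 0 < r → h (r • (u : E n)) = F u * g r) :
    ∫ x, h x = (∫ u, F u ∂((volume : Measure (E n)).toSphere)) *
      ∫ r in Ioi (0 : ℝ), r ^ (n - 1) * g r := by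
  have : Nonempty (Fin n) := ⟨⟨0, by omega⟩⟩
  have : Nontrivial (E n) := inferInstance
  have hfr : Module.finrank ℝ (E n) = n := by simp
  calc
    ∫ x, h x = ∫ x : ({(0)}ᶜ : Set (E n)), h x.1 ∂((volume : Measure (E n)).comap (↑)) := by
      rw [integral_subtype_comap (measurableSet_singleton _).compl fun x ↦ h x,
        restrict_compl_singleton]
    _ = ∫ x : ({(0)}ᶜ : Set (E n)),
        (fun p : sphere (0 : E n) 1 × Ioi (0 : ℝ) => F p.1 * g p.2)
          (homeomorphUnitSphereProd (E n) x) ∂((volume : Measure (E n)).comap (↑)) := by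
      apply integral_congr_ae
      refine .of_forall fun x => ?_
      have hx : 0 < ‖(x : E n)‖ := norm_pos_iff.2 x.2
      have h1 := hh (homeomorphUnitSphereProd (E n) x).1 (homeomorphUnitSphereProd (E n) x).2
        (homeomorphUnitSphereProd (E n) x).2.2
      change h x = _
      refine Eq.trans ?_ h1
      congr 1
      simp [homeomorphUnitSphereProd, smul_smul, hx.ne']
    _ = ∫ p : sphere (0 : E n) 1 × Ioi (0 : ℝ), F p.1 * g p.2
          ∂(((volume : Measure (E n)).toSphere).prod (.volumeIoiPow (n - 1))) := by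
      have := (volume : Measure (E n)).measurePreserving_homeomorphUnitSphereProd.integral_comp
        (Homeomorph.measurableEmbedding _)
        (fun p : sphere (0 : E n) 1 × Ioi (0 : ℝ) => F p.1 * g p.2)
      rw [hfr] at this
      exact this
    _ = (∫ u, F u ∂((volume : Measure (E n)).toSphere)) *
          ∫ r : Ioi (0 : ℝ), g r ∂(.volumeIoiPow (n - 1)) := by
      exact integral_prod_mul F (fun r : Ioi (0 : ℝ) => g r)
    _ = _ := by
      congr 1
      simp only [Measure.volumeIoiPow, ENNReal.ofReal]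
      rw [integral_withDensity_eq_integral_smul,
        integral_subtype_comap measurableSet_Ioi fun a ↦ Real.toNNReal (a ^ (n - 1)) • g a,
        setIntegral_congr_fun measurableSet_Ioi fun x hx ↦ ?_]
      · rw [NNReal.smul_def, Real.coe_toNNReal _ (pow_nonneg hx.out.le _), smul_eq_mul]
      · exact (measurable_subtype_coe.pow_const _).real_toNNReal

/-- An orthonormal basis starting with `e`. -/
theorem exists_basis (m : ℕ) {e : E (m + 1)} (he : ‖e‖ = 1) :
    ∃ b : OrthonormalBasis (Fin (m + 1)) ℝ (E (m + 1)), b 0 = e := by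
  have h1 : Orthonormal ℝ (({(0 : Fin (m + 1))} : Set (Fin (m + 1))).domRestrict
      (fun _ : Fin (m + 1) => e)) := by
    constructor
    · intro i; exact he
    · intro i j hij
      exact absurd (Subsingleton.elim i j) hij
  obtain ⟨b, hb⟩ := h1.exists_orthonormalBasis_extension_of_card_eq (by simp)
  exact ⟨b, hb 0 rfl⟩

theorem integral_half_gauss {k : ℕ} :
    ∫ t : ℝ, max 0 t ^ (k + 1) * Real.exp (-t ^ 2) = Real.Gamma (((k + 1 : ℕ) + 1) / 2) / 2 := by
  have h0 : ∀ t : ℝ, max 0 t ^ (k + 1) * Real.exp (-t ^ 2) =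
      (Ioi (0 : ℝ)).indicator (fun t => t ^ (((k + 1 : ℕ)) : ℝ) * Real.exp (-t ^ (2 : ℝ))) t := by
    intro t
    by_cases ht : 0 < t
    · rw [indicator_of_mem (show t ∈ Ioi (0:ℝ) from ht), max_eq_right ht.le, Real.rpow_natCast]
      norm_num
    · rw [indicator_of_notMem (show t ∉ Ioi (0:ℝ) from ht), max_eq_left (not_lt.1 ht)]
      simp
  simp_rw [h0]
  rw [integral_indicator measurableSet_Ioi,
    integral_rpow_mul_exp_neg_rpow (by norm_num)
      ((by norm_num : (-1 : ℝ) < 0).trans_le (Nat.cast_nonneg _))]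
  ring

theorem integral_gauss_one : ∫ t : ℝ, Real.exp (-t ^ 2) = √Real.pi := by
  have := integral_gaussian 1
  simpa using this

/-- Gaussian moment in coordinates. -/
theorem gauss_moment (m : ℕ) {k : ℕ} (hk : 1 ≤ k) {e : E (m + 1)} (he : ‖e‖ = 1) :
    ∫ x : E (m + 1), max 0 (inner ℝ e x) ^ k * Real.exp (-‖x‖ ^ 2) =
      Real.pi ^ ((m : ℝ) / 2) * (Real.Gamma ((k + 1) / 2) / 2) := by
  obtain ⟨b, hb⟩ := exists_basis m he
  have h1 : ∫ x : E (m + 1), max 0 (inner ℝ e x) ^ k * Real.exp (-‖x‖ ^ 2) =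
      ∫ y : E (m + 1), max 0 (y 0) ^ k * Real.exp (-‖y‖ ^ 2) := by
    have := b.repr.measurePreserving.integral_comp
      b.repr.toHomeomorph.measurableEmbedding
      (fun y : E (m + 1) => max 0 (y 0) ^ k * Real.exp (-‖y‖ ^ 2))
    rw [← this]
    apply integral_congr_ae
    refine .of_forall fun x => ?_
    simp only [LinearIsometryEquiv.norm_map]
    rw [OrthonormalBasis.repr_apply_apply, hb]
  rw [h1]
  have h2 : ∫ y : E (m + 1), max 0 (y 0) ^ k * Real.exp (-‖y‖ ^ 2) =
      ∫ y : Fin (m + 1) → ℝ, max 0 (y 0) ^ k * Real.exp (-∑ i, y i ^ 2) := by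
    have := (PiLp.volume_preserving_ofLp (Fin (m + 1))).integral_comp
      (MeasurableEquiv.toLp 2 (Fin (m + 1) → ℝ)).symm.measurableEmbedding
      (fun y : Fin (m + 1) → ℝ => max 0 (y 0) ^ k * Real.exp (-∑ i, y i ^ 2))
    rw [← this]
    apply integral_congr_ae
    refine .of_forall fun x => ?_
    simp only [EuclideanSpace.norm_sq_eq, Real.norm_eq_abs, sq_abs]
  rw [h2]
  obtain ⟨j, rfl⟩ : ∃ j, k = j + 1 := ⟨k - 1, by omega⟩
  have h3 : ∀ y : Fin (m + 1) → ℝ, max 0 (y 0) ^ (j + 1) * Real.exp (-∑ i, y i ^ 2) =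
      ∏ i : Fin (m + 1), (if i = 0 then (fun t : ℝ => max 0 t ^ (j + 1) * Real.exp (-t ^ 2))
        else fun t : ℝ => Real.exp (-t ^ 2)) (y i) := by
    intro y
    rw [Fin.prod_univ_succ, Fin.sum_univ_succ, neg_add, Real.exp_add]
    simp only [if_true, Fin.succ_ne_zero, if_false]
    rw [← Finset.sum_neg_distrib, Real.exp_sum]
    ring
  simp_rw [h3]
  rw [integral_fintype_prod_volume_eq_prod, Fin.prod_univ_succ]
  simp only [if_true, Fin.succ_ne_zero, if_false]
  rw [integral_half_gauss, integral_gauss_one, Finset.prod_const, Finset.card_univ,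
    Fintype.card_fin, Real.sqrt_eq_rpow, ← Real.rpow_natCast, ← Real.rpow_mul Real.pi_pos.le]
  rw [show (1 : ℝ) / 2 * (m : ℝ) = m / 2 by ring]
  ring

/-- PROOF: integrate `max(0,⟨e,x⟩)^k exp(-|x|²)` over `E n` in polar coordinates
(`½ Γ((n+k)/2)` times the sphere integral), and by Fubini in an orthonormal basis containing `e`
(`π^{(n-1)/2} ½ Γ((k+1)/2)`). -/
theorem sphere_moment (hn : 1 ≤ n) {k : ℕ} (hk : 1 ≤ k) {e : E n} (he : ‖e‖ = 1) :
    ∫ u : sphere (0 : E n) 1, max 0 (inner ℝ e (u : E n)) ^ k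
      ∂((volume : Measure (E n)).toSphere) =
      Real.pi ^ (((n : ℝ) - 1) / 2) * Real.Gamma ((k + 1) / 2) / Real.Gamma ((n + k) / 2) := by
  obtain ⟨m, rfl⟩ : ∃ m, n = m + 1 := ⟨n - 1, by omega⟩
  have h1 := gauss_moment m hk he
  rw [polar_sep hn (fun x => max 0 (inner ℝ e x) ^ k * Real.exp (-‖x‖ ^ 2))
    (fun u => max 0 (inner ℝ e (u : E (m + 1))) ^ k)
    (fun r => r ^ k * Real.exp (-r ^ 2))] at h1
  · have h2 : ∫ r in Ioi (0 : ℝ), r ^ (m + 1 - 1) * (r ^ k * Real.exp (-r ^ 2)) =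
        Real.Gamma (((m + 1 : ℕ) + k) / 2) / 2 := by
      have h3 := integral_rpow_mul_exp_neg_rpow (p := 2) (q := ((m + k : ℕ) : ℝ)) (by norm_num)
        ((by norm_num : (-1 : ℝ) < 0).trans_le (Nat.cast_nonneg _))
      have h4 : ∫ r in Ioi (0 : ℝ), r ^ (m + 1 - 1) * (r ^ k * Real.exp (-r ^ 2)) =
          ∫ r in Ioi (0 : ℝ), r ^ ((m + k : ℕ) : ℝ) * Real.exp (-r ^ (2 : ℝ)) := by
        apply setIntegral_congr_fun measurableSet_Ioi
        intro r _
        simp only [Real.rpow_natCast, Nat.add_sub_cancel]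
        norm_num
        ring
      rw [h4, h3]
      push_cast
      ring_nf
    rw [h2] at h1
    have hG : 0 < Real.Gamma (((m + 1 : ℕ) + k) / 2) := by
      apply Real.Gamma_pos_of_pos; positivity
    rw [eq_div_iff hG.ne']
    have h5 : (((m + 1 : ℕ) : ℝ) - 1) / 2 = (m : ℝ) / 2 := by push_cast; ring
    rw [h5]
    linarith
  · intro u r hr
    have hu : ‖(u : E (m + 1))‖ = 1 := by simp
    rw [inner_smul_right, norm_smul, hu, Real.norm_eq_abs, abs_of_pos hr, mul_one]
    have : max 0 (r * inner ℝ e (u : E (m + 1))) = r * max 0 (inner ℝ e (u : E (m + 1))) := by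
      rw [mul_max_of_nonneg _ _ hr.le, mul_zero]
    rw [this]; ring

theorem sig_eq (hn : 1 ≤ n) : sig n = n * Geo.om n := by
  rw [sig, Measure.toSphere_real_apply_univ, Geo.om]
  simp

theorem sig_pos (hn : 1 ≤ n) : 0 < sig n := by
  rw [sig_eq hn, Geo.om]
  have : 0 < (volume : Measure (E n)).real (ball 0 1) :=
    ENNReal.toReal_pos (measure_ball_pos _ _ one_pos).ne' measure_ball_lt_top.ne
  have hn' : (0 : ℝ) < n := by exact_mod_cast hn
  positivity

/-- The total measure. -/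
theorem sig_eq_gamma (hn : 1 ≤ n) :
    sig n = 2 * Real.pi ^ ((n : ℝ) / 2) / Real.Gamma (n / 2) := by
  have : Nonempty (Fin n) := ⟨⟨0, by omega⟩⟩
  rw [sig_eq hn, Geo.om, measureReal_def, EuclideanSpace.volume_ball]
  have hn' : (0 : ℝ) < n := by exact_mod_cast hn
  have hG : 0 < Real.Gamma ((n : ℝ) / 2) := Real.Gamma_pos_of_pos (by positivity)
  have h1 : Real.Gamma ((n : ℝ) / 2 + 1) = n / 2 * Real.Gamma (n / 2) :=
    Real.Gamma_add_one (by positivity)
  simp only [Fintype.card_fin, ENNReal.ofReal_one, one_pow, one_mul]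
  rw [ENNReal.toReal_ofReal (by positivity), h1, Real.sqrt_eq_rpow, ← Real.rpow_natCast,
    ← Real.rpow_mul Real.pi_pos.le]
  rw [show (1 : ℝ) / 2 * (n : ℝ) = n / 2 by ring]
  field_simp

/-- Ratio, even exponents: `∫ max(0,u)^{2j} = σ · ½ · (2j-1)!! / (n (n+2) ⋯ (n+2j-2))`. -/
theorem sphere_moment_two (hn : 1 ≤ n) {e : E n} (he : ‖e‖ = 1) :
    ∫ u : sphere (0 : E n) 1, max 0 (inner ℝ e (u : E n)) ^ 2
      ∂((volume : Measure (E n)).toSphere) = sig n / (2 * n) := by
  rw [sphere_moment hn (by norm_num) he, sig_eq_gamma hn]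
  have hn' : (0 : ℝ) < n := by exact_mod_cast hn
  have hG : 0 < Real.Gamma ((n : ℝ) / 2) := Real.Gamma_pos_of_pos (by positivity)
  have h1 : Real.Gamma (((n : ℝ) + (2 : ℕ)) / 2) = n / 2 * Real.Gamma (n / 2) := by
    rw [← Real.Gamma_add_one (by positivity)]; congr 1; push_cast; ring
  have h2 : Real.Gamma ((((2 : ℕ) : ℝ) + 1) / 2) = 1 / 2 * √Real.pi := by
    rw [← Real.Gamma_one_half_eq, ← Real.Gamma_add_one (by norm_num)]; congr 1; push_cast; ring
  have h3 : Real.pi ^ (((n : ℝ) - 1) / 2) * √Real.pi = Real.pi ^ ((n : ℝ) / 2) := by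
    rw [Real.sqrt_eq_rpow, ← Real.rpow_add Real.pi_pos]; congr 1; ring
  rw [h1, h2, ← h3]
  field_simp

theorem sphere_moment_four (hn : 1 ≤ n) {e : E n} (he : ‖e‖ = 1) :
    ∫ u : sphere (0 : E n) 1, max 0 (inner ℝ e (u : E n)) ^ 4
      ∂((volume : Measure (E n)).toSphere) = 3 * sig n / (2 * (n * (n + 2))) := by
  rw [sphere_moment hn (by norm_num) he, sig_eq_gamma hn]
  have hn' : (0 : ℝ) < n := by exact_mod_cast hn
  have hG : 0 < Real.Gamma ((n : ℝ) / 2) := Real.Gamma_pos_of_pos (by positivity)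
  have h1 : Real.Gamma (((n : ℝ) + (4 : ℕ)) / 2) =
      (n / 2 + 1) * (n / 2 * Real.Gamma (n / 2)) := by
    rw [← Real.Gamma_add_one (by positivity), ← Real.Gamma_add_one (by positivity)]
    congr 1; push_cast; ring
  have h2 : Real.Gamma ((((4 : ℕ) : ℝ) + 1) / 2) = (1 / 2 + 1) * (1 / 2 * √Real.pi) := by
    rw [← Real.Gamma_one_half_eq, ← Real.Gamma_add_one (by norm_num),
      ← Real.Gamma_add_one (by norm_num)]; congr 1; push_cast; ring
  have h3 : Real.pi ^ (((n : ℝ) - 1) / 2) * √Real.pi = Real.pi ^ ((n : ℝ) / 2) := by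
    rw [Real.sqrt_eq_rpow, ← Real.rpow_add Real.pi_pos]; congr 1; ring
  rw [h1, h2, ← h3]
  field_simp
  ring

end Vale.Agent.P219.TP
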