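import Vale.Agent.P219.TP.Basic
import Vale.Agent.P219.TP.Liou
import Vale.Agent.P219.TP.Conv

/-! # Slicing: functions with a thin layer `{0 < h < 1}` (task A10) -/

open MeasureTheory Set Metric
open scoped ENNReal ContDiff

namespace Vale.Agent.P219.TP

/-! ### The step function -/

/-- `(max 0 z)²/2`. -/
noncomputable def sliceQ (z : ℝ) : ℝ := (max 0 z) ^ 2 / 2

theorem slice_q_of_nonneg {z : ℝ} (h : 0 ≤ z) : sliceQ z = z ^ 2 / 2 := by
  simp [sliceQ, max_eq_right h]

theorem slice_q_of_nonpos {z : ℝ} (h : z ≤ 0) : sliceQ z = 0 := by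
  simp [sliceQ, max_eq_left h]

theorem slice_hasDerivAt_q (z : ℝ) : HasDerivAt sliceQ (max 0 z) z := by
  rcases lt_trichotomy z 0 with hz | hz | hz
  · rw [max_eq_left hz.le]
    refine (hasDerivAt_const z (0 : ℝ)).congr_of_eventuallyEq ?_
    filter_upwards [gt_mem_nhds hz] with y hy
    exact slice_q_of_nonpos hy.le
  · subst hz
    rw [max_self]
    rw [hasDerivAt_iff_isLittleO]
    have h1 : (fun x : ℝ => x ^ 2) =o[nhds 0] fun x : ℝ => x := Asymptotics.isLittleO_pow_id (by norm_num)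
    have h2 : (fun x : ℝ => sliceQ x - sliceQ 0 - (x - 0) • (0 : ℝ)) =O[nhds 0] fun x : ℝ => x ^ 2 := by
      refine Asymptotics.IsBigO.of_bound 1 (Filter.Eventually.of_forall fun x => ?_)
      have h0 : sliceQ 0 = 0 := slice_q_of_nonpos le_rfl
      simp only [h0, sub_zero, smul_zero, one_mul, Real.norm_eq_abs]
      rcases le_total 0 x with hx | hx
      · rw [slice_q_of_nonneg hx, abs_of_nonneg (by positivity), abs_of_nonneg (by positivity)]
        nlinarith [sq_nonneg x]
      · rw [slice_q_of_nonpos hx, abs_zero]; positivity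
    simpa using h2.trans_isLittleO h1
  · rw [max_eq_right hz.le]
    have h1 : HasDerivAt (fun x : ℝ => x ^ 2 / 2) z z := by
      have := (hasDerivAt_pow 2 z).div_const 2
      simpa using this
    refine h1.congr_of_eventuallyEq ?_
    filter_upwards [lt_mem_nhds hz] with y hy
    exact slice_q_of_nonneg hy.le

/-- A `C¹` step: `0` for `y ≤ -1`, `1` for `y ≥ 1`. -/
noncomputable def sliceH (y : ℝ) : ℝ := sliceQ (y + 1) - 2 * sliceQ y + sliceQ (y - 1)

/-- Its derivative, the hat function. -/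
noncomputable def sliceH' (y : ℝ) : ℝ := max 0 (y + 1) - 2 * max 0 y + max 0 (y - 1)

theorem slice_hasDerivAt_H (y : ℝ) : HasDerivAt sliceH (sliceH' y) y := by
  have h1 : HasDerivAt (fun y => sliceQ (y + 1)) (max 0 (y + 1)) y :=
    (slice_hasDerivAt_q (y + 1)).comp_add_const y 1
  have h2 : HasDerivAt (fun y => sliceQ (y - 1)) (max 0 (y - 1)) y :=
    (slice_hasDerivAt_q (y - 1)).comp_sub_const y 1
  exact (h1.sub ((slice_hasDerivAt_q y).const_mul 2)).add h2

theorem slice_continuous_H' : Continuous sliceH' := by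
  unfold sliceH'
  fun_prop

theorem slice_contDiff_H : ContDiff ℝ 1 sliceH := by
  rw [contDiff_one_iff_deriv]
  refine ⟨fun y => (slice_hasDerivAt_H y).differentiableAt, ?_⟩
  have : deriv sliceH = sliceH' := funext fun y => (slice_hasDerivAt_H y).deriv
  rw [this]
  exact slice_continuous_H'

theorem slice_H_low {y : ℝ} (h : y ≤ -1) : sliceH y = 0 := by
  simp only [sliceH]
  rw [slice_q_of_nonpos (by linarith), slice_q_of_nonpos (by linarith),
    slice_q_of_nonpos (by linarith)]
  ring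

theorem slice_H_high {y : ℝ} (h : 1 ≤ y) : sliceH y = 1 := by
  simp only [sliceH]
  rw [slice_q_of_nonneg (by linarith), slice_q_of_nonneg (by linarith),
    slice_q_of_nonneg (by linarith)]
  ring

theorem slice_H_nonneg (y : ℝ) : 0 ≤ sliceH y := by
  rcases le_total y (-1) with h | h
  · exact (slice_H_low h).ge
  rcases le_total 1 y with h' | h'
  · rw [slice_H_high h']; norm_num
  simp only [sliceH]
  rw [slice_q_of_nonneg (z := y + 1) (by linarith), slice_q_of_nonpos (z := y - 1) (by linarith)]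
  rcases le_total 0 y with h0 | h0
  · rw [slice_q_of_nonneg h0]; nlinarith
  · rw [slice_q_of_nonpos h0]; nlinarith [sq_nonneg (y + 1)]

theorem slice_H_le_one (y : ℝ) : sliceH y ≤ 1 := by
  rcases le_total y (-1) with h | h
  · rw [slice_H_low h]; norm_num
  rcases le_total 1 y with h' | h'
  · rw [slice_H_high h']
  simp only [sliceH]
  rw [slice_q_of_nonneg (z := y + 1) (by linarith), slice_q_of_nonpos (z := y - 1) (by linarith)]
  rcases le_total 0 y with h0 | h0
  · rw [slice_q_of_nonneg h0]; nlinarith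
  · rw [slice_q_of_nonpos h0]; nlinarith

theorem slice_H'_nonneg (y : ℝ) : 0 ≤ sliceH' y := by
  unfold sliceH'
  rcases le_total 0 (y + 1) with h1 | h1 <;> rcases le_total 0 y with h2 | h2 <;>
    rcases le_total 0 (y - 1) with h3 | h3 <;>
    simp only [max_eq_left, max_eq_right, h1, h2, h3] <;> linarith

theorem slice_layer {y : ℝ} (h0 : 0 < sliceH y) (h1 : sliceH y < 1) : -1 < y ∧ y < 1 := by
  constructor
  · by_contra h; push Not at h; rw [slice_H_low h] at h0; exact lt_irrefl _ h0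
  · by_contra h; push Not at h; rw [slice_H_high h] at h1; exact lt_irrefl _ h1

/-- Telescoping sum. -/
theorem slice_sum_H (y : ℝ) (N : ℕ) :
    ∑ k ∈ Finset.range N, sliceH (y - (k + 1 : ℕ)) =
      (sliceQ y - sliceQ (y - 1)) - (sliceQ (y - N) - sliceQ (y - (N + 1 : ℕ))) := by
  induction N with
  | zero => simp
  | succ N ih =>
    rw [Finset.sum_range_succ, ih]
    simp only [sliceH]
    push_cast
    have e1 : y - ((N : ℝ) + 1) + 1 = y - N := by ring
    have e2 : y - ((N : ℝ) + 1) - 1 = y - (N + 1 + 1) := by ring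
    rw [e1, e2]
    ring

theorem slice_sum_H' (y : ℝ) (N : ℕ) :
    ∑ k ∈ Finset.range N, sliceH' (y - (k + 1 : ℕ)) =
      (max 0 y - max 0 (y - 1)) - (max 0 (y - N) - max 0 (y - (N + 1 : ℕ))) := by
  induction N with
  | zero => simp
  | succ N ih =>
    rw [Finset.sum_range_succ, ih]
    simp only [sliceH']
    push_cast
    have e1 : y - ((N : ℝ) + 1) + 1 = y - N := by ring
    have e2 : y - ((N : ℝ) + 1) - 1 = y - (N + 1 + 1) := by ring
    rw [e1, e2]
    ring

theorem slice_sum_H'_le (y : ℝ) (N : ℕ) :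
    ∑ k ∈ Finset.range N, sliceH' (y - (k + 1 : ℕ)) ≤ 1 := by
  rw [slice_sum_H']
  have h1 : max 0 y ≤ max 0 (y - 1) + 1 := by
    rcases le_total 0 y with h | h
    · rw [max_eq_right h]; linarith [le_max_right 0 (y - 1)]
    · rw [max_eq_left h]; linarith [le_max_left 0 (y - 1)]
  have h2 : max 0 (y - (N + 1 : ℕ)) ≤ max 0 (y - N) := by
    apply max_le_max le_rfl
    push_cast
    linarith
  linarith

/-- Lower bound of the sum of steps, `N - 1` steps for a function with values in `[0,N]`. -/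
theorem slice_sum_H_ge {y : ℝ} {N : ℕ} (h0 : 0 ≤ y) (h1 : y ≤ N + 1) :
    y - 1 ≤ ∑ k ∈ Finset.range N, sliceH (y - (k + 1 : ℕ)) := by
  rw [slice_sum_H, slice_q_of_nonneg h0,
    slice_q_of_nonpos (z := y - (N + 1 : ℕ)) (by push_cast; linarith)]
  have h2 : sliceQ (y - N) ≤ 1 / 2 := by
    rcases le_total 0 (y - N) with h | h
    · rw [slice_q_of_nonneg h]
      nlinarith
    · rw [slice_q_of_nonpos h]; norm_num
  rcases le_total 0 (y - 1) with h | h
  · rw [slice_q_of_nonneg h]; nlinarith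
  · rw [slice_q_of_nonpos h]; nlinarith


/-! ### Levels of a function of the class -/

variable {n : ℕ} (G : Geo n)

theorem slice_continuous_D {h : E n → ℝ} (hh : ContDiff ℝ 1 h) : Continuous (G.D h) := by
  unfold Geo.D
  exact (InnerProductSpace.toDual ℝ (E n)).symm.continuous.comp
    ((hh.continuous_fderiv one_ne_zero).clm_comp G.A_smooth.continuous)

theorem slice_hcs {o : E n} {ρ : ℝ} {h : E n → ℝ} (hc : G.Cls o ρ h) : HasCompactSupport h :=
  HasCompactSupport.intro (G.isCompact_gball o ρ) fun x hx => by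
    by_contra h0
    exact hx (hc.supp x h0)

theorem slice_integrable_D {o : E n} {ρ : ℝ} {h : E n → ℝ} (hc : G.Cls o ρ h) :
    Integrable (fun x => ‖G.D h x‖) G.vol := by
  apply ((slice_continuous_D G hc.smooth).norm).integrable_of_hasCompactSupport
  refine ((slice_hcs G hc).fderiv ℝ).mono ?_
  intro x hx
  rw [Function.mem_support] at hx ⊢
  intro h0
  apply hx
  simp [Geo.D, h0]

theorem slice_D_comp {h : E n → ℝ} (hh : ContDiff ℝ 1 h) (M k : ℝ) (x : E n) :
    G.D (fun x => sliceH (M * h x - k)) x = (sliceH' (M * h x - k) * M) • G.D h x := by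
  refine ext_inner_right ℝ fun v => ?_
  rw [G.inner_D, real_inner_smul_left, G.inner_D]
  have h1 : HasFDerivAt h (fderiv ℝ h x) x := (hh.differentiable one_ne_zero x).hasFDerivAt
  have h2 : HasFDerivAt (fun x => M * h x - k) (M • fderiv ℝ h x) x :=
    (h1.const_mul M).sub_const k
  have h3 := (slice_hasDerivAt_H (M * h x - k)).comp_hasFDerivAt x h2
  have h4 : fderiv ℝ (fun x => sliceH (M * h x - k)) x =
      sliceH' (M * h x - k) • M • fderiv ℝ h x := h3.fderiv
  rw [h4]
  simp [mul_assoc]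

theorem slice_cls {o : E n} {ρ : ℝ} {h : E n → ℝ} (hc : G.Cls o ρ h) (M : ℝ) (k : ℕ) :
    G.Cls o ρ (fun x => sliceH (M * h x - (k + 1 : ℕ))) where
  smooth := slice_contDiff_H.comp ((contDiff_const.mul hc.smooth).sub contDiff_const)
  nonneg x := slice_H_nonneg _
  le_one x := slice_H_le_one _
  supp x hx := by
    apply hc.supp x
    intro h0
    apply hx
    rw [h0, mul_zero]
    apply slice_H_low
    push_cast
    have : (0 : ℝ) ≤ k := k.cast_nonneg
    linarith

theorem slice_per_sum {o : E n} {ρ : ℝ} {h : E n → ℝ} (hc : G.Cls o ρ h) {M : ℝ} (hM : 0 ≤ M)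
    (N : ℕ) :
    ∑ k ∈ Finset.range N, G.per (fun x => sliceH (M * h x - (k + 1 : ℕ))) ≤ M * G.per h := by
  unfold Geo.per
  rw [← integral_finsetSum _ fun k _ => slice_integrable_D G (slice_cls G hc M k),
    ← integral_const_mul]
  apply integral_mono
  · exact integrable_finsetSum _ fun k _ => slice_integrable_D G (slice_cls G hc M k)
  · exact (slice_integrable_D G hc).const_mul M
  intro x
  simp only
  have : ∀ k : ℕ, ‖G.D (fun x => sliceH (M * h x - (k + 1 : ℕ))) x‖ =
      sliceH' (M * h x - (k + 1 : ℕ)) * (M * ‖G.D h x‖) := by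
    intro k
    rw [slice_D_comp G hc.smooth, norm_smul, Real.norm_of_nonneg
      (mul_nonneg (slice_H'_nonneg _) hM), mul_assoc]
  simp only [this]
  rw [← Finset.sum_mul]
  have h1 := slice_sum_H'_le (M * h x) N
  have h2 : 0 ≤ M * ‖G.D h x‖ := by positivity
  nlinarith

/-! ### The norm -/

/-- The exponent `n/(n-1)`. -/
noncomputable def sliceP (n : ℕ) : ℝ≥0∞ := ENNReal.ofReal ((n : ℝ) / ((n : ℝ) - 1))

theorem slice_p_real (hn : 2 ≤ n) : 1 ≤ (n : ℝ) / ((n : ℝ) - 1) := by
  have : (2 : ℝ) ≤ n := by exact_mod_cast hn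
  rw [le_div_iff₀ (by linarith)]
  linarith

theorem slice_one_le_P (hn : 2 ≤ n) : 1 ≤ sliceP n := by
  unfold sliceP
  rw [← ENNReal.ofReal_one]
  exact ENNReal.ofReal_le_ofReal (slice_p_real hn)

theorem slice_memLp {o : E n} {ρ : ℝ} {h : E n → ℝ} (hc : G.Cls o ρ h) :
    MemLp h (sliceP n) G.vol :=
  hc.smooth.continuous.memLp_of_hasCompactSupport (slice_hcs G hc)

theorem slice_nrm_eq (hn : 2 ≤ n) {o : E n} {ρ : ℝ} {h : E n → ℝ} (hc : G.Cls o ρ h) :
    G.vp h ^ (((n : ℝ) - 1) / n) = (eLpNorm h (sliceP n) G.vol).toReal := by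
  have h1 := slice_p_real hn
  have hP : (sliceP n).toReal = (n : ℝ) / ((n : ℝ) - 1) :=
    ENNReal.toReal_ofReal (by linarith)
  rw [(slice_memLp G hc).eLpNorm_eq_integral_rpow_norm
    (zero_lt_one.trans_le (slice_one_le_P hn)).ne' ENNReal.ofReal_ne_top]
  rw [ENNReal.toReal_ofReal (by positivity), hP, inv_div]
  unfold Geo.vp
  congr 1
  refine integral_congr_ae (Filter.Eventually.of_forall fun x => ?_)
  simp only
  rw [Real.norm_of_nonneg (hc.nonneg x)]

theorem slice_vol_ball_lt (o : E n) (ρ : ℝ) : G.vol {x | ‖G.lg o x‖ ≤ ρ} < ⊤ :=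
  (G.isCompact_gball o ρ).measure_lt_top

theorem slice_meas_ball (o : E n) (ρ : ℝ) : MeasurableSet {x | ‖G.lg o x‖ ≤ ρ} :=
  (G.isCompact_gball o ρ).isClosed.measurableSet

/-- Minkowski inequality for the levels. -/
theorem slice_nrm_sum (hn : 2 ≤ n) {o : E n} {ρ : ℝ} {h : E n → ℝ} (hc : G.Cls o ρ h) (N : ℕ) :
    ((N : ℝ) + 1) * (eLpNorm h (sliceP n) G.vol).toReal ≤
      (eLpNorm ({x | ‖G.lg o x‖ ≤ ρ}.indicator (1 : E n → ℝ)) (sliceP n) G.vol).toReal +
      ∑ k ∈ Finset.range N,
        (eLpNorm (fun x => sliceH (((N : ℝ) + 1) * h x - (k + 1 : ℕ))) (sliceP n) G.vol).toReal := by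
  set B : Set (E n) := {x | ‖G.lg o x‖ ≤ ρ} with hB
  set M : ℝ := (N : ℝ) + 1 with hM
  have hM0 : 0 < M := by positivity
  set hk : ℕ → E n → ℝ := fun k x => sliceH (M * h x - (k + 1 : ℕ)) with hhk
  have hcls : ∀ k, G.Cls o ρ (hk k) := fun k => slice_cls G hc M k
  have hBm : MemLp (B.indicator (1 : E n → ℝ)) (sliceP n) G.vol := by
    apply memLp_indicator_const (sliceP n) (slice_meas_ball G o ρ) (1 : ℝ)
    right
    exact (slice_vol_ball_lt G o ρ).ne
  -- pointwise bound
  have hpt : ∀ x, ‖M • h x‖ ≤ B.indicator (1 : E n → ℝ) x + ∑ k ∈ Finset.range N, hk k x := by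
    intro x
    rw [smul_eq_mul, Real.norm_of_nonneg (mul_nonneg hM0.le (hc.nonneg x))]
    by_cases hx : x ∈ B
    · rw [indicator_of_mem hx]
      have := slice_sum_H_ge (y := M * h x) (N := N) (mul_nonneg hM0.le (hc.nonneg x))
        (by have := hc.le_one x; nlinarith)
      simp only [Pi.one_apply, hhk]
      linarith
    · rw [indicator_of_notMem hx]
      have h0 : h x = 0 := by
        by_contra h0
        exact hx (hc.supp x h0)
      rw [h0, mul_zero, zero_add]
      exact Finset.sum_nonneg fun k _ => (hcls k).nonneg x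
  have h1 : eLpNorm (M • h) (sliceP n) G.vol ≤
      eLpNorm (B.indicator (1 : E n → ℝ) + ∑ k ∈ Finset.range N, hk k) (sliceP n) G.vol := by
    apply eLpNorm_mono_real
    intro x
    simpa using hpt x
  have h2 : eLpNorm (B.indicator (1 : E n → ℝ) + ∑ k ∈ Finset.range N, hk k) (sliceP n) G.vol ≤
      eLpNorm (B.indicator (1 : E n → ℝ)) (sliceP n) G.vol +
        ∑ k ∈ Finset.range N, eLpNorm (hk k) (sliceP n) G.vol := by
    refine (eLpNorm_add_le hBm.1 ?_ (slice_one_le_P hn)).trans ?_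
    · exact Finset.aestronglyMeasurable_sum _ fun k _ => (slice_memLp G (hcls k)).1
    · gcongr
      exact eLpNorm_sum_le (fun k _ => (slice_memLp G (hcls k)).1) (slice_one_le_P hn)
  have h3 : eLpNorm (M • h) (sliceP n) G.vol = ENNReal.ofReal M * eLpNorm h (sliceP n) G.vol := by
    rw [eLpNorm_const_smul, Real.enorm_eq_ofReal hM0.le]
  have hfin : eLpNorm (B.indicator (1 : E n → ℝ)) (sliceP n) G.vol +
        ∑ k ∈ Finset.range N, eLpNorm (hk k) (sliceP n) G.vol ≠ ⊤ := by
    apply ENNReal.add_ne_top.mpr ⟨hBm.2.ne, ?_⟩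
    exact (ENNReal.sum_lt_top.mpr fun k _ => (slice_memLp G (hcls k)).2).ne
  have h4 := ENNReal.toReal_mono hfin (h3 ▸ h1.trans h2)
  rw [ENNReal.toReal_mul, ENNReal.toReal_ofReal hM0.le,
    ENNReal.toReal_add hBm.2.ne
      (ENNReal.sum_lt_top.mpr fun k _ => (slice_memLp G (hcls k)).2).ne,
    ENNReal.toReal_sum fun k _ => (slice_memLp G (hcls k)).2.ne] at h4
  exact h4

/-- Each point is in at most two layers. -/
theorem slice_layer_sum {o : E n} {ρ : ℝ} {h : E n → ℝ} (hc : G.Cls o ρ h) {M : ℝ} (hM : 0 ≤ M)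
    (N : ℕ) :
    ∑ k ∈ Finset.range N, G.vol.real {x | 0 < sliceH (M * h x - (k + 1 : ℕ)) ∧
      sliceH (M * h x - (k + 1 : ℕ)) < 1} ≤ 2 * G.vol.real {x | ‖G.lg o x‖ ≤ ρ} := by
  set B : Set (E n) := {x | ‖G.lg o x‖ ≤ ρ} with hB
  set hk : ℕ → E n → ℝ := fun k x => sliceH (M * h x - (k + 1 : ℕ)) with hhk
  have hcls : ∀ k, G.Cls o ρ (hk k) := fun k => slice_cls G hc M k
  set L : ℕ → Set (E n) := fun k => {x | 0 < hk k x ∧ hk k x < 1} with hL
  have hLm : ∀ k, MeasurableSet (L k) := fun k =>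
    (measurableSet_lt measurable_const (hcls k).smooth.continuous.measurable).inter
      (measurableSet_lt (hcls k).smooth.continuous.measurable measurable_const)
  have hLB : ∀ k, L k ⊆ B := fun k x hx => (hcls k).supp x hx.1.ne'
  have hLfin : ∀ k, G.vol (L k) < ⊤ := fun k =>
    (measure_mono (hLB k)).trans_lt (slice_vol_ball_lt G o ρ)
  have hcount : ∀ x, ∑ k ∈ Finset.range N, (L k).indicator (1 : E n → ℝ) x ≤
      2 * B.indicator (1 : E n → ℝ) x := by
    intro x
    by_cases hx : x ∈ B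
    · rw [indicator_of_mem hx, Pi.one_apply, mul_one]
      set y := M * h x with hy
      have hy0 : 0 ≤ y := mul_nonneg hM (hc.nonneg x)
      have h1 : ∑ k ∈ Finset.range N, (L k).indicator (1 : E n → ℝ) x ≤
          ∑ k ∈ Finset.range N, if k ∈ Finset.Icc (⌊y⌋₊ - 1) ⌊y⌋₊ then (1 : ℝ) else 0 := by
        apply Finset.sum_le_sum
        intro k _
        by_cases hk1 : x ∈ L k
        · rw [indicator_of_mem hk1]
          have h2 := slice_layer hk1.1 hk1.2
          have h3 : (k : ℝ) < y := by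
            have := h2.1
            push_cast at this
            linarith
          have h4 : y < (k : ℝ) + 2 := by
            have := h2.2
            push_cast at this
            linarith
          have h5 : k ≤ ⌊y⌋₊ := Nat.le_floor h3.le
          have h6 : ⌊y⌋₊ < k + 2 := by
            rw [Nat.floor_lt hy0]
            push_cast
            exact h4
          rw [if_pos (Finset.mem_Icc.mpr ⟨by omega, h5⟩)]
          simp
        · rw [indicator_of_notMem hk1]
          split_ifs <;> norm_num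
      refine h1.trans ?_
      rw [← Finset.sum_filter, Finset.sum_const, nsmul_eq_mul, mul_one]
      have h7 : (Finset.filter (fun k => k ∈ Finset.Icc (⌊y⌋₊ - 1) ⌊y⌋₊) (Finset.range N)).card ≤
          2 := by
        calc _ ≤ (Finset.Icc (⌊y⌋₊ - 1) ⌊y⌋₊).card := by
              apply Finset.card_le_card
              intro k hk2
              exact (Finset.mem_filter.mp hk2).2
          _ ≤ 2 := by
              rw [Nat.card_Icc]
              omega
      exact_mod_cast h7
    · rw [indicator_of_notMem hx, mul_zero]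
      apply Finset.sum_nonpos
      intro k _
      rw [indicator_of_notMem fun hk1 => hx (hLB k hk1)]
  have hint : ∀ k, Integrable ((L k).indicator (1 : E n → ℝ)) G.vol := fun k =>
    (integrable_indicator_iff (hLm k)).mpr (integrableOn_const (hLfin k).ne)
  have hintB : Integrable (B.indicator (1 : E n → ℝ)) G.vol :=
    (integrable_indicator_iff (slice_meas_ball G o ρ)).mpr
      (integrableOn_const (slice_vol_ball_lt G o ρ).ne)
  have hfin := integral_mono (integrable_finsetSum (Finset.range N) fun k _ => hint k)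
    (hintB.const_mul 2) hcount
  rw [integral_finsetSum _ fun k _ => hint k, integral_const_mul,
    integral_indicator_one (slice_meas_ball G o ρ)] at hfin
  simpa only [integral_indicator_one (hLm _)] using hfin

/-- PROOF: `H` a `C¹` step with `H' = ` hat function on `[-1,1]`, `h_k = H(Nh - k)`, `1 ≤ k < N`;
`∑_k h_k / N ≤ h ≤ 1/N + ∑_k h_k / N`, `∑_k per h_k / N ≤ per h`, Minkowski for
`(∫ ·^{n/(n-1)})^{(n-1)/n}`; at most `2 vol(B)/η` indices have layer of volume `≥ η`. -/
theorem exists_thin (hn : 2 ≤ n) (o : E n) (ρ : ℝ) {I : ℝ}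
    (hI : ∀ h, G.Cls o ρ h → I ≤ G.def' h) (hI' : ∀ ε > 0, ∃ h, G.Cls o ρ h ∧ G.def' h < I + ε) :
    ∀ ε > 0, ∀ η > 0, ∃ h, G.Cls o ρ h ∧ G.def' h < I + ε ∧
      G.vol.real {x | 0 < h x ∧ h x < 1} < η := by
  intro ε hε η hη
  by_contra hcon
  push Not at hcon
  obtain ⟨h, hc, hd⟩ := hI' (ε / 2) (by positivity)
  set c : ℝ := n * Geo.om n ^ (1 / (n : ℝ)) with hcdef
  have hc0 : 0 ≤ c := by
    rw [hcdef]
    have : 0 ≤ Geo.om n := by unfold Geo.om; exact measureReal_nonneg
    positivity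
  set V : ℝ := G.vol.real {x | ‖G.lg o x‖ ≤ ρ} with hV
  set K : ℝ := (eLpNorm ({x | ‖G.lg o x‖ ≤ ρ}.indicator (1 : E n → ℝ)) (sliceP n) G.vol).toReal
    with hK
  obtain ⟨N, hN⟩ := exists_nat_gt ((I + ε / 2 + ε / η * (2 * V) + c * K) / (ε / 2))
  rw [div_lt_iff₀ (by positivity)] at hN
  set M : ℝ := (N : ℝ) + 1 with hM
  have hM0 : 0 < M := by positivity
  set hk : ℕ → E n → ℝ := fun k x => sliceH (M * h x - (k + 1 : ℕ)) with hhk
  have hcls : ∀ k, G.Cls o ρ (hk k) := fun k => slice_cls G hc M k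
  have hdef : ∀ f, G.Cls o ρ f → G.def' f =
      G.per f - c * (eLpNorm f (sliceP n) G.vol).toReal := by
    intro f hf
    unfold Geo.def'
    rw [slice_nrm_eq G hn hf]
  have h1 : ∑ k ∈ Finset.range N, G.def' (hk k) ≤ M * G.def' h + c * K := by
    have e1 : ∑ k ∈ Finset.range N, G.def' (hk k) = ∑ k ∈ Finset.range N, G.per (hk k) -
        c * ∑ k ∈ Finset.range N, (eLpNorm (hk k) (sliceP n) G.vol).toReal := by
      rw [Finset.mul_sum, ← Finset.sum_sub_distrib]
      exact Finset.sum_congr rfl fun k _ => hdef _ (hcls k)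
    have e2 := slice_per_sum G hc hM0.le N
    have e3 := slice_nrm_sum G hn hc N
    rw [e1, hdef h hc]
    have e4 := mul_le_mul_of_nonneg_left e3 hc0
    have e5 : M * (G.per h - c * (eLpNorm h (sliceP n) G.vol).toReal) + c * K =
        M * G.per h - (c * (M * (eLpNorm h (sliceP n) G.vol).toReal) - c * K) := by ring
    rw [e5]
    have e6 : ∑ k ∈ Finset.range N, G.per (hk k) ≤ M * G.per h := e2
    have e7 : c * (M * (eLpNorm h (sliceP n) G.vol).toReal) ≤
      c * (K + ∑ k ∈ Finset.range N, (eLpNorm (hk k) (sliceP n) G.vol).toReal) := e4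
    rw [mul_add] at e7
    linarith
  have h2 : ∀ k ∈ Finset.range N, I + ε - ε / η * G.vol.real {x | 0 < hk k x ∧ hk k x < 1} ≤
      G.def' (hk k) := by
    intro k _
    by_cases hlt : G.def' (hk k) < I + ε
    · have e1 := hcon (hk k) (hcls k) hlt
      have e2 := hI (hk k) (hcls k)
      have e3 : ε ≤ ε / η * G.vol.real {x | 0 < hk k x ∧ hk k x < 1} := by
        calc ε = ε / η * η := by field_simp
          _ ≤ _ := mul_le_mul_of_nonneg_left e1 (by positivity)
      linarith
    · push Not at hlt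
      have e3 : 0 ≤ ε / η * G.vol.real {x | 0 < hk k x ∧ hk k x < 1} :=
        mul_nonneg (by positivity) measureReal_nonneg
      linarith
  have h3 := Finset.sum_le_sum h2
  rw [Finset.sum_sub_distrib, Finset.sum_const, Finset.card_range, nsmul_eq_mul,
    ← Finset.mul_sum] at h3
  have h4 : ∑ k ∈ Finset.range N, G.vol.real {x | 0 < hk k x ∧ hk k x < 1} ≤ 2 * V :=
    slice_layer_sum G hc hM0.le N
  have h5 := mul_le_mul_of_nonneg_left h4 (by positivity : 0 ≤ ε / η)
  have h6 : M * G.def' h < M * (I + ε / 2) := mul_lt_mul_of_pos_left hd hM0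
  have h7 : M * (I + ε / 2) = N * (I + ε) - N * (ε / 2) + (I + ε / 2) := by rw [hM]; ring
  linarith

/-- The deficit is bounded below on the class. -/
theorem def_bddBelow (hn : 2 ≤ n) (o : E n) (ρ : ℝ) :
    ∃ C : ℝ, ∀ h, G.Cls o ρ h → -C ≤ G.def' h := by
  refine ⟨n * Geo.om n ^ (1 / (n : ℝ)) *
    G.vol.real {x | ‖G.lg o x‖ ≤ ρ} ^ (((n : ℝ) - 1) / n), fun h hc => ?_⟩
  unfold Geo.def'
  have hper : 0 ≤ G.per h := by
    unfold Geo.per
    exact integral_nonneg fun x => norm_nonneg _
  have h2n : (2 : ℝ) ≤ n := by exact_mod_cast hn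
  have hp := slice_p_real hn
  have hvp0 : 0 ≤ G.vp h := by
    unfold Geo.vp
    exact integral_nonneg fun x => Real.rpow_nonneg (hc.nonneg x) _
  have hvp : G.vp h ≤ G.vol.real {x | ‖G.lg o x‖ ≤ ρ} := by
    unfold Geo.vp
    rw [← integral_indicator_one (slice_meas_ball G o ρ)]
    apply integral_mono_of_nonneg
    · exact Filter.Eventually.of_forall fun x => Real.rpow_nonneg (hc.nonneg x) _
    · exact (integrable_indicator_iff (slice_meas_ball G o ρ)).mpr
        (integrableOn_const (slice_vol_ball_lt G o ρ).ne)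
    refine Filter.Eventually.of_forall fun x => ?_
    simp only
    by_cases hx : x ∈ {x | ‖G.lg o x‖ ≤ ρ}
    · rw [indicator_of_mem hx]
      exact Real.rpow_le_one (hc.nonneg x) (hc.le_one x) (by linarith)
    · rw [indicator_of_notMem hx]
      have h0 : h x = 0 := by
        by_contra h0
        exact hx (hc.supp x h0)
      rw [h0, Real.zero_rpow (by linarith)]
  have h1 : G.vp h ^ (((n : ℝ) - 1) / n) ≤
      G.vol.real {x | ‖G.lg o x‖ ≤ ρ} ^ (((n : ℝ) - 1) / n) :=
    Real.rpow_le_rpow hvp0 hvp (div_nonneg (by linarith) (by linarith))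
  have hc0 : 0 ≤ n * Geo.om n ^ (1 / (n : ℝ)) := by
    have : 0 ≤ Geo.om n := by unfold Geo.om; exact measureReal_nonneg
    positivity
  have h3 := mul_le_mul_of_nonneg_left h1 hc0
  linarith

end Vale.Agent.P219.TP
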