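import Vale.Agent.P219.TP.TPineq
import Vale.Agent.P219.TP.Contract
import Vale.Agent.P219.TP.Slice
import Vale.Agent.P219.TP.Moments

/-! # The sharp Sobolev inequality (final assembly) -/

open MeasureTheory Set Metric
open scoped ENNReal ContDiff

namespace Vale.Agent.P219.TP

variable {n : ℕ} (G : Geo n)

theorem om_pos (_hn : 1 ≤ n) : 0 < Geo.om n := by
  unfold Geo.om
  rw [measureReal_def]
  refine ENNReal.toReal_pos (measure_ball_pos _ _ one_pos).ne' measure_ball_lt_top.ne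

theorem norm_D_zero_of_notMem {h : E n → ℝ} {x : E n} (hx : x ∉ tsupport h) : G.D h x = 0 := by
  unfold Geo.D
  have : fderiv ℝ h x = 0 := by
    by_contra hne
    exact hx (support_fderiv_subset ℝ hne)
  rw [this]; simp

/-- `(1+u)^p ≥ 1 + p u - u²` for `0 ≤ p ≤ 1`, `u > -1`. -/
theorem rpow_lower {p u : ℝ} (hp0 : 0 ≤ p) (hp1 : p ≤ 1) (hu : -1 < u) :
    1 + p * u - u ^ 2 ≤ (1 + u) ^ p := by
  have h1 : (1 + u) ^ (1 - p) ≤ 1 + (1 - p) * u :=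
    rpow_one_add_le_one_add_mul_self hu.le (by linarith) (by linarith)
  have h2 : (1 + u) = (1 + u) ^ p * (1 + u) ^ (1 - p) := by
    rw [← Real.rpow_add (by linarith)]
    simp
  have h3 : 0 < 1 + (1 - p) * u := by
    rcases hp0.eq_or_lt with h | h
    · rw [← h]; linarith
    · nlinarith [mul_nonneg (sub_nonneg.2 hp1) (by linarith : 0 ≤ 1 + u)]
  have h4 : 0 < (1 + u) ^ p := Real.rpow_pos_of_pos (by linarith) _
  have h5 : 1 + u ≤ (1 + u) ^ p * (1 + (1 - p) * u) := by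
    calc 1 + u = (1 + u) ^ p * (1 + u) ^ (1 - p) := h2
      _ ≤ _ := by gcongr
  have h6 : (1 + p * u - u ^ 2) * (1 + (1 - p) * u) ≤ 1 + u := by
    have : (1 + p * u - u ^ 2) * (1 + (1 - p) * u) =
        1 + u - u ^ 2 * ((1 - p) * (1 + u) + p ^ 2) := by ring
    rw [this]
    have : 0 ≤ u ^ 2 * ((1 - p) * (1 + u) + p ^ 2) := by
      have := mul_nonneg (sub_nonneg.2 hp1) (by linarith : 0 ≤ 1 + u)
      positivity
    linarith
  by_contra hlt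
  rw [not_le] at hlt
  have : (1 + u) ^ p * (1 + (1 - p) * u) < (1 + p * u - u ^ 2) * (1 + (1 - p) * u) := by
    gcongr
  linarith

theorem continuous_Phi {Φ : ℝ × ℝ → ℝ} {δ : ℝ} (hδ : 0 < δ)
    (hΦ : ContDiffOn ℝ ∞ Φ {p | -δ < p.1}) :
    Continuous fun z : ℝ × ℝ => Φ (z.1 ^ 2, z.1 * z.2) := by
  refine hΦ.continuousOn.comp_continuous (by fun_prop) fun z => ?_
  show -δ < z.1 ^ 2
  nlinarith [sq_nonneg z.1]

theorem continuous_dPhi {Φ : ℝ × ℝ → ℝ} {δ : ℝ} (hδ : 0 < δ)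
    (hΦ : ContDiffOn ℝ ∞ Φ {p | -δ < p.1}) (v : ℝ × ℝ) :
    Continuous fun z : ℝ × ℝ => fderiv ℝ Φ (z.1 ^ 2, z.1 * z.2) v := by
  have ho : IsOpen {p : ℝ × ℝ | -δ < p.1} := isOpen_lt continuous_const continuous_fst
  have h1 : ContinuousOn (fderiv ℝ Φ) {p | -δ < p.1} :=
    hΦ.continuousOn_fderiv_of_isOpen ho (by simp)
  have h2 : Continuous fun z : ℝ × ℝ => fderiv ℝ Φ (z.1 ^ 2, z.1 * z.2) := by
    refine h1.comp_continuous (by fun_prop) fun z => ?_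
    show -δ < z.1 ^ 2
    nlinarith [sq_nonneg z.1]
  exact h2.clm_apply continuous_const

theorem continuous_ker0 {Φ : ℝ × ℝ → ℝ} {δ : ℝ} (hδ : 0 < δ)
    (hΦ : ContDiffOn ℝ ∞ Φ {p | -δ < p.1}) (m : ℕ) (lam : ℝ) :
    Continuous fun z : ℝ × ℝ × ℝ => ker0 m Φ lam z.1 z.2.1 z.2.2 := by
  unfold ker0 kap
  have c0 : Continuous fun z : ℝ × ℝ × ℝ => Φ (z.1 ^ 2, z.1 * z.2.1) :=
    (continuous_Phi hδ hΦ).comp (by fun_prop : Continuous fun z : ℝ × ℝ × ℝ => (z.1, z.2.1))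
  have c1 : Continuous fun z : ℝ × ℝ × ℝ => fderiv ℝ Φ (z.1 ^ 2, z.1 * z.2.1) (1, 0) :=
    (continuous_dPhi hδ hΦ _).comp (by fun_prop : Continuous fun z : ℝ × ℝ × ℝ => (z.1, z.2.1))
  have c2 : Continuous fun z : ℝ × ℝ × ℝ => fderiv ℝ Φ (z.1 ^ 2, z.1 * z.2.1) (0, 1) :=
    (continuous_dPhi hδ hΦ _).comp (by fun_prop : Continuous fun z : ℝ × ℝ × ℝ => (z.1, z.2.1))
  have c3 : Continuous fun z : ℝ × ℝ × ℝ => √((1 - z.2.1 ^ 2) * (1 - z.2.2 ^ 2)) :=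
    Real.continuous_sqrt.comp (by fun_prop)
  have c4 : Continuous fun z : ℝ × ℝ × ℝ => |fderiv ℝ Φ (z.1 ^ 2, z.1 * z.2.1) (0, 1)| :=
    continuous_abs.comp c2
  have c5 : Continuous fun z : ℝ × ℝ × ℝ => |z.2.2| := by fun_prop
  have c6 : Continuous fun z : ℝ × ℝ × ℝ => z.1 := by fun_prop
  have c7 : Continuous fun z : ℝ × ℝ × ℝ => z.2.1 := by fun_prop
  have c8 : Continuous fun z : ℝ × ℝ × ℝ => z.2.2 := by fun_prop
  exact (continuous_const.add (((continuous_const.mul c0).add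
    ((((continuous_const.mul (c6.pow 2)).mul c1).add ((c6.mul c7).mul c2)).mul
      (continuous_const.sub (c8.pow 2)))).sub (((c6.mul c4).mul c5).mul c3))).sub
    (continuous_const.mul ((c6.mul c8).mul c0))

theorem bounded_of_continuous {κ : ℝ → ℝ → ℝ → ℝ}
    (hκ : Continuous fun z : ℝ × ℝ × ℝ => κ z.1 z.2.1 z.2.2) (L : ℝ) :
    ∃ C, ∀ r a b, 0 ≤ r → r ≤ L → |a| ≤ 1 → |b| ≤ 1 → |κ r a b| ≤ C := by
  have hK : IsCompact (Icc (0 : ℝ) L ×ˢ (Icc (-1 : ℝ) 1 ×ˢ Icc (-1 : ℝ) 1)) :=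
    isCompact_Icc.prod (isCompact_Icc.prod isCompact_Icc)
  obtain ⟨C, hC⟩ := hK.exists_bound_of_continuousOn hκ.continuousOn
  refine ⟨C, fun r a b h0 h1 ha hb => ?_⟩
  have := hC (r, a, b) ⟨⟨h0, h1⟩, abs_le.1 ha, abs_le.1 hb⟩
  simpa using this

theorem sob_continuous_D {h : E n → ℝ} (hh : ContDiff ℝ 1 h) : Continuous fun x => G.D h x := by
  unfold Geo.D
  have h1 : Continuous fun x => (fderiv ℝ h x).comp (G.A x) :=
    (hh.continuous_fderiv (by simp)).clm_comp G.A_smooth.continuous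
  exact (InnerProductSpace.toDual ℝ (E n)).symm.continuous.comp h1

theorem hasCompactSupport_D {h : E n → ℝ} (hc : HasCompactSupport h) :
    HasCompactSupport fun x => ‖G.D h x‖ := by
  refine hc.mono' fun x hx => ?_
  by_contra hne
  exact hx (by simp [norm_D_zero_of_notMem G hne])

theorem integrable_D {h : E n → ℝ} (hh : ContDiff ℝ 1 h) (hc : HasCompactSupport h) :
    Integrable (fun x => ‖G.D h x‖) G.vol :=
  (sob_continuous_D G hh).norm.integrable_of_hasCompactSupport (hasCompactSupport_D G hc)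

theorem per_nonneg (h : E n → ℝ) : 0 ≤ G.per h := integral_nonneg fun _ => norm_nonneg _

theorem continuous_lg2 (p : E n) : Continuous fun q => G.lg p q :=
  G.lg_smooth.continuous.comp (by fun_prop : Continuous fun q : E n => (p, q))

theorem exists_lg_bound {K : Set (E n)} (hK : IsCompact K) (p : E n) :
    ∃ L, ∀ q ∈ K, ‖G.lg p q‖ ≤ L := by
  obtain ⟨C, hC⟩ := hK.exists_bound_of_continuousOn (continuous_lg2 G p).continuousOn
  exact ⟨C, hC⟩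

theorem measurable_ang_left {h : E n → ℝ} (hh : ContDiff ℝ 1 h) (p : E n) :
    Measurable fun q : E n => G.ang h p q := by
  have e1 : Measurable fun q : E n => ((p, q) : E n × E n) := by fun_prop
  have h0 := measurable_ang G hh
  have := h0.comp e1
  exact this

theorem measurable_ang_right {h : E n → ℝ} (hh : ContDiff ℝ 1 h) (p : E n) :
    Measurable fun q : E n => G.ang h q p := by
  have e1 : Measurable fun q : E n => ((q, p) : E n × E n) := by fun_prop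
  have h0 := measurable_ang G hh
  have := h0.comp e1
  exact this

theorem measurable_kslice {h : E n → ℝ} (hh : ContDiff ℝ 1 h) {κ : ℝ → ℝ → ℝ → ℝ}
    (hκ : Continuous fun z : ℝ × ℝ × ℝ => κ z.1 z.2.1 z.2.2) (p : E n) :
    Measurable fun q => κ ‖G.lg p q‖ (G.ang h p q) (G.ang h q p) := by
  have h1 := measurable_ang_left G hh p
  have h2 := measurable_ang_right G hh p
  have h3 : Measurable fun q => ‖G.lg p q‖ := (continuous_lg2 G p).norm.measurable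
  have h4 : Measurable fun q => (‖G.lg p q‖, G.ang h p q, G.ang h q p) :=
    h3.prodMk (h1.prodMk h2)
  have h5 := hκ.measurable.comp h4
  exact h5

theorem integrable_slice {h : E n → ℝ} (hh : ContDiff ℝ 1 h) (hc : HasCompactSupport h)
    {κ : ℝ → ℝ → ℝ → ℝ} (hκ : Continuous fun z : ℝ × ℝ × ℝ => κ z.1 z.2.1 z.2.2) (p : E n) :
    Integrable (fun q => κ ‖G.lg p q‖ (G.ang h p q) (G.ang h q p) * ‖G.D h q‖) G.vol := by
  obtain ⟨L, hL⟩ := exists_lg_bound G hc p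
  obtain ⟨C, hC⟩ := bounded_of_continuous hκ L
  have hm := measurable_kslice G hh hκ p
  have hD : Measurable fun q => ‖G.D h q‖ := (sob_continuous_D G hh).norm.measurable
  have hb : ∀ q, ‖κ ‖G.lg p q‖ (G.ang h p q) (G.ang h q p) * ‖G.D h q‖‖ ≤ C * ‖G.D h q‖ := by
    intro q
    rw [norm_mul, norm_norm]
    by_cases hq : q ∈ tsupport h
    · exact mul_le_mul_of_nonneg_right
        (hC _ _ _ (norm_nonneg _) (hL q hq) (abs_ang_le G h p q) (abs_ang_le G h q p))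
        (norm_nonneg _)
    · simp [norm_D_zero_of_notMem G hq]
  exact ((integrable_D G hh hc).const_mul C).mono' (hm.mul hD).aestronglyMeasurable
    (Filter.Eventually.of_forall hb)

/-- Symmetrisation. -/
theorem pairInt_symm_aux {h : E n → ℝ} (hh : ContDiff ℝ 1 h) (hc : HasCompactSupport h)
    {κ : ℝ → ℝ → ℝ → ℝ} (hκ : Continuous fun z : ℝ × ℝ × ℝ => κ z.1 z.2.1 z.2.2) :
    Integrable (fun z : E n × E n => κ ‖G.lg z.1 z.2‖ (G.ang h z.2 z.1)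
      (G.ang h z.1 z.2) * (‖G.D h z.1‖ * ‖G.D h z.2‖)) (G.vol.prod G.vol) ∧
    ∫ z : E n × E n, κ ‖G.lg z.1 z.2‖ (G.ang h z.2 z.1) (G.ang h z.1 z.2) *
      (‖G.D h z.1‖ * ‖G.D h z.2‖) ∂(G.vol.prod G.vol) = G.pairInt κ h := by
  set F : E n × E n → ℝ := fun z => κ ‖G.lg z.1 z.2‖ (G.ang h z.1 z.2) (G.ang h z.2 z.1) *
    (‖G.D h z.1‖ * ‖G.D h z.2‖) with hF
  set F' : E n × E n → ℝ := fun z => κ ‖G.lg z.1 z.2‖ (G.ang h z.2 z.1) (G.ang h z.1 z.2) *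
    (‖G.D h z.1‖ * ‖G.D h z.2‖) with hF'
  have h1 : Integrable F (G.vol.prod G.vol) :=
    integrable_pair G hh hc hκ.measurable (bounded_of_continuous hκ)
  have h0 : (fun z => F z.swap) = F' := by
    funext z
    simp only [hF, hF', Prod.fst_swap, Prod.snd_swap]
    rw [G.norm_lg_comm z.2 z.1, mul_comm ‖G.D h z.2‖]
  constructor
  · have h2 := h1.swap
    have h3 : F ∘ Prod.swap = F' := h0
    rwa [h3] at h2
  · have h2 := integral_prod_swap (μ := G.vol) (ν := G.vol) F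
    rw [h0] at h2
    exact h2

/-- Symmetrisation and Fubini. -/
theorem pairInt_ker {h : E n → ℝ} (hh : ContDiff ℝ 1 h) (hc : HasCompactSupport h)
    {κ : ℝ → ℝ → ℝ → ℝ} (hκ : Continuous fun z : ℝ × ℝ × ℝ => κ z.1 z.2.1 z.2.2) :
    G.pairInt (fun r a b => (κ r a b + κ r b a) / 2) h = G.pairInt κ h := by
  have h1 : Integrable (fun z : E n × E n => κ ‖G.lg z.1 z.2‖ (G.ang h z.1 z.2)
      (G.ang h z.2 z.1) * (‖G.D h z.1‖ * ‖G.D h z.2‖)) (G.vol.prod G.vol) :=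
    integrable_pair G hh hc hκ.measurable (bounded_of_continuous hκ)
  obtain ⟨h4, h3⟩ := pairInt_symm_aux G hh hc hκ
  have h5 : G.pairInt (fun r a b => (κ r a b + κ r b a) / 2) h =
      ∫ z : E n × E n, ((1 / 2) * (κ ‖G.lg z.1 z.2‖ (G.ang h z.1 z.2) (G.ang h z.2 z.1) *
        (‖G.D h z.1‖ * ‖G.D h z.2‖)) + (1 / 2) *
      (κ ‖G.lg z.1 z.2‖ (G.ang h z.2 z.1) (G.ang h z.1 z.2) *
        (‖G.D h z.1‖ * ‖G.D h z.2‖))) ∂(G.vol.prod G.vol) := by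
    unfold Geo.pairInt
    congr 1
    funext z
    ring
  rw [h5, integral_add (h1.const_mul _) (h4.const_mul _), integral_const_mul, integral_const_mul,
    h3]
  change 1 / 2 * G.pairInt κ h + _ = _
  ring

theorem pairInt_fubini {h : E n → ℝ} (hh : ContDiff ℝ 1 h) (hc : HasCompactSupport h)
    {κ : ℝ → ℝ → ℝ → ℝ} (hκ : Continuous fun z : ℝ × ℝ × ℝ => κ z.1 z.2.1 z.2.2) :
    G.pairInt κ h =
      ∫ p, (∫ q, κ ‖G.lg p q‖ (G.ang h p q) (G.ang h q p) * ‖G.D h q‖ ∂G.vol) * ‖G.D h p‖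
        ∂G.vol := by
  have h1 : Integrable (fun z : E n × E n => κ ‖G.lg z.1 z.2‖ (G.ang h z.1 z.2)
      (G.ang h z.2 z.1) * (‖G.D h z.1‖ * ‖G.D h z.2‖)) (G.vol.prod G.vol) :=
    integrable_pair G hh hc hκ.measurable (bounded_of_continuous hκ)
  have h6 : ∀ p : E n, ∫ q, κ ‖G.lg p q‖ (G.ang h p q) (G.ang h q p) *
      (‖G.D h p‖ * ‖G.D h q‖) ∂G.vol =
      (∫ q, κ ‖G.lg p q‖ (G.ang h p q) (G.ang h q p) * ‖G.D h q‖ ∂G.vol) * ‖G.D h p‖ := by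
    intro p
    rw [← integral_mul_const]
    congr 1
    funext q
    ring
  unfold Geo.pairInt
  rw [integral_prod _ h1]
  simp only [h6]

/-- There is a good base point. -/
theorem exists_base {h : E n → ℝ} (hh : ContDiff ℝ 1 h) (hc : HasCompactSupport h)
    {J : E n → ℝ} {X : ℝ} (hX : 0 < X)
    (hJ : X ≤ ∫ p, J p * ‖G.D h p‖ ∂G.vol) :
    ∃ p, G.D h p ≠ 0 ∧ X / 2 ≤ J p * G.per h := by
  by_contra hcon
  push Not at hcon
  have hP : 0 ≤ G.per h := per_nonneg G h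
  rcases hP.eq_or_lt with h0 | h0
  · -- total variation zero: the integral vanishes
    have h1 : (fun p => ‖G.D h p‖) =ᵐ[G.vol] 0 := by
      refine (integral_eq_zero_iff_of_nonneg (fun _ => norm_nonneg _) (integrable_D G hh hc)).1 ?_
      exact h0.symm
    have h2 : ∫ p, J p * ‖G.D h p‖ ∂G.vol = 0 := by
      rw [integral_congr_ae (g := fun _ => (0 : ℝ))]
      · simp
      · filter_upwards [h1] with p hp
        have : ‖G.D h p‖ = 0 := hp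
        rw [this, mul_zero]
    linarith
  · have h3 : ∀ p, J p * ‖G.D h p‖ ≤ X / 2 / G.per h * ‖G.D h p‖ := by
      intro p
      by_cases hp : G.D h p = 0
      · simp [hp]
      · gcongr
        rw [le_div_iff₀ h0]
        exact (hcon p hp).le
    by_cases hi : Integrable (fun p => J p * ‖G.D h p‖) G.vol
    · have h4 := integral_mono hi ((integrable_D G hh hc).const_mul _) h3
      rw [integral_const_mul] at h4
      have : X / 2 / G.per h * ∫ a, ‖G.D h a‖ ∂G.vol = X / 2 := by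
        change X / 2 / G.per h * G.per h = X / 2
        field_simp
      rw [this] at h4
      linarith
    · rw [integral_undef hi] at hJ
      linarith

theorem model_scale (hn : 2 ≤ n) {v : ℝ} (hv : 0 < v) {R : ℝ}
    (hR : R = (v / Geo.om n) ^ (1 / (n : ℝ))) :
    0 < R ∧ Geo.om n * R ^ n = v ∧
      n * Geo.om n ^ (1 / (n : ℝ)) * v ^ (((n : ℝ) - 1) / n) = n * Geo.om n * R ^ (n - 1) := by
  have hom : 0 < Geo.om n := om_pos (by omega)
  have hn0 : (0 : ℝ) < n := by positivity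
  have hR0 : 0 < R := by rw [hR]; positivity
  have h1 : R ^ n = v / Geo.om n := by
    rw [hR, ← Real.rpow_natCast, ← Real.rpow_mul (by positivity)]
    rw [one_div, inv_mul_cancel₀ hn0.ne', Real.rpow_one]
  have h2 : Geo.om n * R ^ n = v := by rw [h1]; field_simp
  refine ⟨hR0, h2, ?_⟩
  have h3 : v ^ (((n : ℝ) - 1) / n) = Geo.om n ^ (((n : ℝ) - 1) / n) * R ^ (n - 1) := by
    rw [← h2, Real.mul_rpow hom.le (by positivity)]
    congr 1
    rw [← Real.rpow_natCast, ← Real.rpow_mul hR0.le, ← Real.rpow_natCast]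
    congr 1
    push_cast [Nat.cast_sub (by omega : 1 ≤ n)]
    field_simp
  have h4 : Geo.om n ^ (1 / (n : ℝ)) * Geo.om n ^ (((n : ℝ) - 1) / n) = Geo.om n := by
    rw [← Real.rpow_add hom]
    have : 1 / (n : ℝ) + ((n : ℝ) - 1) / n = 1 := by field_simp; ring
    rw [this, Real.rpow_one]
  calc n * Geo.om n ^ (1 / (n : ℝ)) * v ^ (((n : ℝ) - 1) / n)
      = n * (Geo.om n ^ (1 / (n : ℝ)) * Geo.om n ^ (((n : ℝ) - 1) / n)) * R ^ (n - 1) := by
        rw [h3]; ring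
    _ = _ := by rw [h4]

theorem continuous_ker {Φ : ℝ × ℝ → ℝ} {δ : ℝ} (hδ : 0 < δ)
    (hΦ : ContDiffOn ℝ ∞ Φ {p | -δ < p.1}) (m : ℕ) (lam R : ℝ) :
    Continuous fun z : ℝ × ℝ × ℝ => ker m Φ lam (z.1 / R) z.2.1 z.2.2 := by
  unfold ker
  have h1 : Continuous fun z : ℝ × ℝ × ℝ => ((z.1 / R, z.2.1, z.2.2) : ℝ × ℝ × ℝ) := by fun_prop
  have h2 : Continuous fun z : ℝ × ℝ × ℝ => ((z.1 / R, z.2.2, z.2.1) : ℝ × ℝ × ℝ) := by fun_prop
  have h3 := (continuous_ker0 hδ hΦ m lam).comp h1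
  have h4 := (continuous_ker0 hδ hΦ m lam).comp h2
  exact (h3.add h4).div_const 2

theorem continuous_ker0' {Φ : ℝ × ℝ → ℝ} {δ : ℝ} (hδ : 0 < δ)
    (hΦ : ContDiffOn ℝ ∞ Φ {p | -δ < p.1}) (m : ℕ) (lam R : ℝ) :
    Continuous fun z : ℝ × ℝ × ℝ => ker0 m Φ lam (z.1 / R) z.2.1 z.2.2 := by
  have h1 : Continuous fun z : ℝ × ℝ × ℝ => ((z.1 / R, z.2.1, z.2.2) : ℝ × ℝ × ℝ) := by fun_prop
  exact (continuous_ker0 hδ hΦ m lam).comp h1

theorem integrable_sphere {g : sphere (0 : E n) 1 → ℝ} (hg : Continuous g) :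
    Integrable g (volume : Measure (E n)).toSphere := by
  have : CompactSpace (sphere (0 : E n) 1) := isCompact_iff_compactSpace.1 (isCompact_sphere _ _)
  exact hg.integrable_of_hasCompactSupport (HasCompactSupport.of_compactSpace g)

theorem sphere_F_le (C : Cert n) {ε R : ℝ} (hε : 0 < ε) (hR : 0 < R) {e : E n}
    (he : ‖e‖ = 1) :
    ∫ u : sphere (0 : E n) 1, R ^ (n - 1) * (C.f (max 0 (inner ℝ e (u : E n))) + ε) *
      max 0 (inner ℝ e (u : E n)) ∂((volume : Measure (E n)).toSphere) ≤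
      R ^ (n - 1) * ((C.F + ε) * sig n) := by
  have c0 : Continuous fun u : sphere (0 : E n) 1 => max 0 (inner ℝ e (u : E n)) := by fun_prop
  have c1 : Continuous fun u : sphere (0 : E n) 1 => C.f (max 0 (inner ℝ e (u : E n))) :=
    C.f_cont.comp c0
  have i1 : Integrable (fun u : sphere (0 : E n) 1 => C.f (max 0 (inner ℝ e (u : E n))) *
      max 0 (inner ℝ e (u : E n))) (volume : Measure (E n)).toSphere :=
    integrable_sphere (n := n) (c1.mul c0)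
  have i2 := integrable_sphere (n := n) c0
  have h1 : ∫ u : sphere (0 : E n) 1, R ^ (n - 1) * (C.f (max 0 (inner ℝ e (u : E n))) + ε) *
      max 0 (inner ℝ e (u : E n)) ∂((volume : Measure (E n)).toSphere) =
      R ^ (n - 1) * ((∫ u : sphere (0 : E n) 1, C.f (max 0 (inner ℝ e (u : E n))) *
        max 0 (inner ℝ e (u : E n)) ∂((volume : Measure (E n)).toSphere)) +
        ε * ∫ u : sphere (0 : E n) 1, max 0 (inner ℝ e (u : E n))
          ∂((volume : Measure (E n)).toSphere)) := by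
    rw [← integral_const_mul, ← integral_add i1 (i2.const_mul ε), ← integral_const_mul]
    congr 1
    funext u
    ring
  have h2 : ∫ u : sphere (0 : E n) 1, max 0 (inner ℝ e (u : E n))
      ∂((volume : Measure (E n)).toSphere) ≤ sig n := by
    have h3 : ∫ u : sphere (0 : E n) 1, max 0 (inner ℝ e (u : E n))
      ∂((volume : Measure (E n)).toSphere) ≤
      ∫ _ : sphere (0 : E n) 1, (1 : ℝ) ∂((volume : Measure (E n)).toSphere) := by
      refine integral_mono i2 (integrable_const 1) fun u => ?_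
      refine max_le zero_le_one ?_
      have := real_inner_le_norm e (u : E n)
      have hu : ‖(u : E n)‖ = 1 := by simp
      rw [he, hu] at this
      linarith
    refine h3.trans (le_of_eq ?_)
    rw [integral_const]
    simp [sig]
  rw [h1]
  have h4 := C.hF e he
  have h5 : ε * ∫ u : sphere (0 : E n) 1, max 0 (inner ℝ e (u : E n))
      ∂((volume : Measure (E n)).toSphere) ≤ ε * sig n := by gcongr
  have h6 : 0 < R ^ (n - 1) := by positivity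
  have h7 : (C.F + ε) * sig n = C.F * sig n + ε * sig n := by ring
  rw [h7]
  gcongr

theorem two_point_scaled (hn : 2 ≤ n) (C : Cert n) {ε : ℝ} (hε : 0 < ε) {Φ : ℝ × ℝ → ℝ} {δ : ℝ}
    (hδ : 0 < δ) (hΦ : ContDiffOn ℝ ∞ Φ {p | -δ < p.1})
    (hK : ∀ r a b : ℝ, 0 ≤ r → |a| ≤ 1 → |b| ≤ 1 → 0 ≤ ker (n - 1) Φ (C.lam + ε) r a b)
    (hP : ∀ r a b : ℝ, 0 < r → 0 ≤ a → a ≤ 1 → 0 ≤ b → b ≤ 1 →
      a * b * (C.s * r - (C.f a + C.f b) / 2 - ε) ≤
        ker (n - 1) Φ (C.lam + ε) r a b * r ^ (n - 1))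
    {h : E n → ℝ} (hh : ContDiff ℝ 1 h) (hc : HasCompactSupport h)
    (h01 : ∀ x, 0 ≤ h x ∧ h x ≤ 1) {R : ℝ} (hR : 0 < R) :
    R ^ (n - 1) * (C.s / R) * sig n * G.vol.real {x | h x = 1} -
      R ^ (n - 1) * ((C.F + ε) * sig n) * G.per h ≤
      G.pairInt (fun r a b => ker (n - 1) Φ (C.lam + ε) (r / R) a b) h := by
  have hRn : 0 < R ^ (n - 1) := by positivity
  refine two_point G hn hh hc h01 (κ := fun r a b => ker (n - 1) Φ (C.lam + ε) (r / R) a b)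
    (f := fun a => R ^ (n - 1) * (C.f a + ε))
    (continuous_ker hδ hΦ _ _ _).measurable ?_ ?_ (by have := C.s_nonneg; positivity)
    (continuous_const.mul (C.f_cont.add continuous_const)) ?_ ?_ ?_
  · intro L
    obtain ⟨K, hK⟩ := bounded_of_continuous
      (κ := fun r a b => ker (n - 1) Φ (C.lam + ε) (r / R) a b)
      (continuous_ker hδ hΦ (n - 1) (C.lam + ε) R) L
    exact ⟨K, fun r a b h0 h1 ha hb => (le_abs_self _).trans (hK r a b h0 h1 ha hb)⟩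
  · intro r a b hr ha hb
    exact hK _ _ _ (by positivity) ha hb
  · intro a ha
    have := C.f_nonneg a ha
    positivity
  · intro r a b hr ha0 ha1 hb0 hb1
    have h1 := hP (r / R) a b (by positivity) ha0 ha1 hb0 hb1
    have h2 : ker (n - 1) Φ (C.lam + ε) (r / R) a b * r ^ (n - 1) =
        R ^ (n - 1) * (ker (n - 1) Φ (C.lam + ε) (r / R) a b * (r / R) ^ (n - 1)) := by
      rw [div_pow]; field_simp
    have h3 : a * b * (R ^ (n - 1) * (C.s / R) * r - (R ^ (n - 1) * (C.f a + ε) +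
        R ^ (n - 1) * (C.f b + ε)) / 2) =
        R ^ (n - 1) * (a * b * (C.s * (r / R) - (C.f a + C.f b) / 2 - ε)) := by
      ring
    show a * b * (R ^ (n - 1) * (C.s / R) * r - (R ^ (n - 1) * (C.f a + ε) +
        R ^ (n - 1) * (C.f b + ε)) / 2) ≤ ker (n - 1) Φ (C.lam + ε) (r / R) a b * r ^ (n - 1)
    rw [h2, h3]
    gcongr
  · intro e he
    exact sphere_F_le C hε hR he

/-- Arithmetic of the two-point inequality. `A = n ω R^{n-1}`. -/
theorem arith_two_point (hn : 2 ≤ n) (C : Cert n) (hF : 0 ≤ C.F) {ε I η P R A V₁ X : ℝ}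
    (hI : I < 0) (hε : 0 < ε) (_hη : 0 ≤ η) (hP : 0 ≤ P) (hR : 0 < R)
    (hA : A = sig n * R ^ (n - 1)) (hA0 : 0 < A) (hsig : sig n = n * Geo.om n)
    (hV : Geo.om n * R ^ n - η ≤ V₁) (hPA : P ≤ A + I / 2)
    (hX : R ^ (n - 1) * (C.s / R) * sig n * V₁ - R ^ (n - 1) * ((C.F + ε) * sig n) * P ≤ X)
    (hε' : 2 * ε * A ≤ C.lam * (-I) / 8) (hη' : C.s / R * η ≤ C.lam * (-I) / 8) :
    A * (C.lam * (-I) / 4) ≤ X - (C.lam + ε) * P ^ 2 := by
  have hn0 : (0 : ℝ) < n := by positivity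
  have h1 : A * (C.s / R) * (Geo.om n * R ^ n - η) - A * (C.F + ε) * P ≤ X := by
    have e1 : R ^ (n - 1) * (C.s / R) * sig n * V₁ = A * (C.s / R) * V₁ := by rw [hA]; ring
    have e2 : R ^ (n - 1) * ((C.F + ε) * sig n) * P = A * (C.F + ε) * P := by rw [hA]; ring
    rw [e1, e2] at hX
    have h2 : A * (C.s / R) * (Geo.om n * R ^ n - η) ≤ A * (C.s / R) * V₁ := by
      have := C.s_nonneg
      gcongr
    linarith
  have h2 : C.s / R * (Geo.om n * R ^ n) = (C.F + C.lam) * A := by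
    have h3 : C.F + C.lam = C.s / n := by have := C.balance; linarith
    rw [h3, hA, hsig]
    have : R ^ n = R ^ (n - 1) * R := by
      rw [← pow_succ]; congr 1; omega
    rw [this]
    field_simp
  have h4 : A * (C.s / R) * (Geo.om n * R ^ n - η) = A * ((C.F + C.lam) * A - C.s / R * η) := by
    rw [← h2]; ring
  rw [h4] at h1
  have hPA' : P ≤ A := by linarith
  have h5 : A * (C.lam * (A - P)) ≤ A * (C.F * (A - P)) + C.lam * (A ^ 2 - P ^ 2) := by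
    have h6 : 0 ≤ A * (C.F * (A - P)) := by
      have : 0 ≤ A - P := by linarith
      positivity
    have h7 : C.lam * (A ^ 2 - P ^ 2) = C.lam * (A - P) * (A + P) := by ring
    have h8 : C.lam * (A - P) * A ≤ C.lam * (A - P) * (A + P) := by
      have : 0 ≤ A - P := by linarith
      have := C.lam_pos
      gcongr
      linarith
    nlinarith
  have h9 : A * (C.lam * (-I / 2)) ≤ A * (C.lam * (A - P)) := by
    have := C.lam_pos
    gcongr
    linarith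
  have h10 : ε * A * P + ε * P ^ 2 ≤ A * (2 * ε * A) := by
    have : P ^ 2 ≤ A ^ 2 := by gcongr
    have : A * P ≤ A * A := by gcongr
    nlinarith
  have h11 : A * (2 * ε * A) ≤ A * (C.lam * (-I) / 8) := by gcongr
  have h12 : A * (C.s / R * η) ≤ A * (C.lam * (-I) / 8) := by gcongr
  nlinarith

/-- Arithmetic of the descent. -/
theorem arith_descent (hn : 2 ≤ n) {R v₀ v vp' x P P' K Q t Cc η L₁ X' : ℝ} (hR : 0 < R)
    (hv₀ : 0 < v₀) (hv : v₀ ≤ v) (hvR : Geo.om n * R ^ n = v)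
    (hcv : n * Geo.om n ^ (1 / (n : ℝ)) * v ^ (((n : ℝ) - 1) / n) = n * Geo.om n * R ^ (n - 1))
    (hx : |x| ≤ v₀ / 2) (hxe : x = t * Q + Cc * t * η + Cc * t ^ 2)
    (hvp : v - x ≤ vp') (hP : P' ≤ P - t * (R⁻¹ * K) + L₁)
    (hX' : |x| ≤ X') :
    P' - n * Geo.om n ^ (1 / (n : ℝ)) * vp' ^ (((n : ℝ) - 1) / n) ≤
      (P - n * Geo.om n ^ (1 / (n : ℝ)) * v ^ (((n : ℝ) - 1) / n)) -
        t * (R⁻¹ * (K - ((n : ℝ) - 1) * Q)) + L₁ +
        ((n : ℝ) - 1) / R * (Cc * t * η + Cc * t ^ 2) +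
        n * Geo.om n * R ^ (n - 1) / v₀ ^ 2 * X' ^ 2 := by
  have hom : 0 < Geo.om n := om_pos (by omega)
  have hn0 : (0 : ℝ) < n := by positivity
  have hn1 : (1 : ℝ) ≤ n := by exact_mod_cast (by omega : 1 ≤ n)
  have hv0 : 0 < v := by linarith
  have hx1 : x ≤ v₀ / 2 := (le_abs_self x).trans hx
  set c := n * Geo.om n ^ (1 / (n : ℝ)) with hc
  have hc0 : 0 < c := by positivity
  set p := ((n : ℝ) - 1) / n with hp
  have hp0 : 0 ≤ p := by rw [hp]; apply div_nonneg <;> linarith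
  have hp1 : p ≤ 1 := by rw [hp, div_le_one hn0]; linarith
  have h1 : (v - x) ^ p ≤ vp' ^ p := Real.rpow_le_rpow (by linarith) hvp hp0
  have h2 : (v - x) ^ p = v ^ p * (1 + (-x / v)) ^ p := by
    rw [← Real.mul_rpow hv0.le]
    · congr 1; field_simp; ring
    · rw [show 1 + -x / v = (v - x) / v by field_simp; ring]
      apply div_nonneg <;> linarith
  have h3 : 1 + p * (-x / v) - (-x / v) ^ 2 ≤ (1 + (-x / v)) ^ p := by
    refine rpow_lower hp0 hp1 ?_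
    rw [neg_div, neg_lt_neg_iff, div_lt_one hv0]; linarith
  have hvp0 : 0 < v ^ p := Real.rpow_pos_of_pos hv0 _
  have h4 : c * (v ^ p * (1 + p * (-x / v) - (-x / v) ^ 2)) ≤ c * vp' ^ p := by
    have : v ^ p * (1 + p * (-x / v) - (-x / v) ^ 2) ≤ vp' ^ p := by
      calc _ ≤ v ^ p * (1 + (-x / v)) ^ p := by gcongr
        _ = (v - x) ^ p := h2.symm
        _ ≤ _ := h1
    gcongr
  have h5 : c * (v ^ p * (1 + p * (-x / v) - (-x / v) ^ 2)) =
      c * v ^ p - ((n : ℝ) - 1) / R * x - c * v ^ p * (x ^ 2 / v ^ 2) := by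
    have h6 : c * v ^ p * p / v = ((n : ℝ) - 1) / R := by
      rw [hcv, hp, ← hvR]
      have : R ^ n = R ^ (n - 1) * R := by
        rw [← pow_succ]; congr 1; omega
      rw [this]
      field_simp
    have : c * (v ^ p * (1 + p * (-x / v) - (-x / v) ^ 2)) =
      c * v ^ p - (c * v ^ p * p / v) * x - c * v ^ p * (x ^ 2 / v ^ 2) := by
      field_simp
      ring
    rw [this, h6]
  have h7 : c * v ^ p * (x ^ 2 / v ^ 2) ≤ n * Geo.om n * R ^ (n - 1) / v₀ ^ 2 * X' ^ 2 := by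
    rw [hcv]
    have h8 : x ^ 2 ≤ X' ^ 2 := by
      rw [← sq_abs x]
      gcongr
    have h9 : x ^ 2 / v ^ 2 ≤ X' ^ 2 / v₀ ^ 2 := by gcongr
    calc n * Geo.om n * R ^ (n - 1) * (x ^ 2 / v ^ 2)
        ≤ n * Geo.om n * R ^ (n - 1) * (X' ^ 2 / v₀ ^ 2) := by gcongr
      _ = _ := by ring
  have h10 : ((n : ℝ) - 1) / R * x = t * (R⁻¹ * (((n : ℝ) - 1) * Q)) +
      ((n : ℝ) - 1) / R * (Cc * t * η + Cc * t ^ 2) := by
    rw [hxe]; field_simp; ring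
  have h11 : t * (R⁻¹ * (K - ((n : ℝ) - 1) * Q)) = t * (R⁻¹ * K) -
      t * (R⁻¹ * (((n : ℝ) - 1) * Q)) := by ring
  rw [h5] at h4
  rw [h11]
  linarith

theorem isClosed_gball (o : E n) (ρ : ℝ) : IsClosed {x | ‖G.lg o x‖ ≤ ρ} :=
  isClosed_le (continuous_lg2 G o).norm continuous_const

theorem Cls.tsupport_sub {o : E n} {ρ : ℝ} {h : E n → ℝ} (hh : G.Cls o ρ h) :
    tsupport h ⊆ {x | ‖G.lg o x‖ ≤ ρ} :=
  closure_minimal (fun x hx => hh.supp x hx) (isClosed_gball G o ρ)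

theorem Cls.compact {o : E n} {ρ : ℝ} {h : E n → ℝ} (hh : G.Cls o ρ h) :
    HasCompactSupport h :=
  (G.isCompact_gball o ρ).of_isClosed_subset (isClosed_tsupport h) (Cls.tsupport_sub G hh)

theorem exponent_pos (hn : 2 ≤ n) : 0 < (n : ℝ) / ((n : ℝ) - 1) := by
  have : (2 : ℝ) ≤ n := by exact_mod_cast hn
  apply div_pos <;> linarith

theorem integrable_vp (hn : 2 ≤ n) {o : E n} {ρ : ℝ} {h : E n → ℝ} (hh : G.Cls o ρ h) :
    Integrable (fun x => h x ^ ((n : ℝ) / ((n : ℝ) - 1))) G.vol := by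
  have h1 : Continuous fun x => h x ^ ((n : ℝ) / ((n : ℝ) - 1)) :=
    hh.smooth.continuous.rpow_const fun x => Or.inr (exponent_pos hn).le
  refine h1.integrable_of_hasCompactSupport ((Cls.compact G hh).mono fun x hx => ?_)
  intro h0
  apply hx
  show h x ^ ((n : ℝ) / ((n : ℝ) - 1)) = 0
  rw [h0, Real.zero_rpow (exponent_pos hn).ne']

theorem vp_nonneg {o : E n} {ρ : ℝ} {h : E n → ℝ} (hh : G.Cls o ρ h) : 0 ≤ G.vp h :=
  integral_nonneg fun x => Real.rpow_nonneg (hh.nonneg x) _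

theorem vol_gball_lt_top (o : E n) (ρ : ℝ) : G.vol {x | ‖G.lg o x‖ ≤ ρ} < ⊤ :=
  (G.isCompact_gball o ρ).measure_lt_top

theorem vp_le_ball (hn : 2 ≤ n) {o : E n} {ρ : ℝ} {h : E n → ℝ} (hh : G.Cls o ρ h) :
    G.vp h ≤ G.vol.real {x | ‖G.lg o x‖ ≤ ρ} := by
  have h1 : ∀ x, h x ^ ((n : ℝ) / ((n : ℝ) - 1)) ≤
      ({x | ‖G.lg o x‖ ≤ ρ}.indicator (fun _ => (1 : ℝ))) x := by
    intro x
    by_cases hx : ‖G.lg o x‖ ≤ ρ
    · rw [indicator_of_mem (by exact hx)]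
      exact Real.rpow_le_one (hh.nonneg x) (hh.le_one x) (exponent_pos hn).le
    · rw [indicator_of_notMem (by exact hx)]
      have : h x = 0 := by
        by_contra h0
        exact hx (hh.supp x h0)
      rw [this, Real.zero_rpow (exponent_pos hn).ne']
  have h2 : Integrable ({x | ‖G.lg o x‖ ≤ ρ}.indicator (fun _ => (1 : ℝ))) G.vol :=
    (integrable_indicator_iff (isClosed_gball G o ρ).measurableSet).2
      (integrableOn_const (vol_gball_lt_top G o ρ).ne)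
  calc G.vp h ≤ ∫ x, ({x | ‖G.lg o x‖ ≤ ρ}.indicator (fun _ => (1 : ℝ))) x ∂G.vol :=
        integral_mono (integrable_vp G hn hh) h2 h1
    _ = _ := by
        rw [integral_indicator (isClosed_gball G o ρ).measurableSet]
        simp [Measure.real]

theorem vp_le_split (hn : 2 ≤ n) {o : E n} {ρ : ℝ} {h : E n → ℝ} (hh : G.Cls o ρ h) :
    G.vp h ≤ G.vol.real {x | h x = 1} + G.vol.real {x | 0 < h x ∧ h x < 1} := by
  have hc := hh.smooth.continuous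
  have m1 : MeasurableSet {x | h x = 1} := (isClosed_eq hc continuous_const).measurableSet
  have m2 : MeasurableSet {x | 0 < h x ∧ h x < 1} :=
    ((isOpen_lt continuous_const hc).inter (isOpen_lt hc continuous_const)).measurableSet
  have f1 : G.vol {x | h x = 1} ≠ ⊤ := by
    refine ((measure_mono fun x hx => ?_).trans_lt (vol_gball_lt_top G o ρ)).ne
    refine hh.supp x ?_
    have : h x = 1 := hx
    rw [this]; exact one_ne_zero
  have f2 : G.vol {x | 0 < h x ∧ h x < 1} ≠ ⊤ := by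
    refine ((measure_mono fun x hx => ?_).trans_lt (vol_gball_lt_top G o ρ)).ne
    exact hh.supp x hx.1.ne'
  have h1 : ∀ x, h x ^ ((n : ℝ) / ((n : ℝ) - 1)) ≤
      ({x | h x = 1}.indicator (fun _ => (1 : ℝ))) x +
      ({x | 0 < h x ∧ h x < 1}.indicator (fun _ => (1 : ℝ))) x := by
    intro x
    have p1 : 0 ≤ ({x | h x = 1}.indicator (fun _ => (1 : ℝ))) x :=
      indicator_nonneg (fun _ _ => zero_le_one) _
    have p2 : 0 ≤ ({x | 0 < h x ∧ h x < 1}.indicator (fun _ => (1 : ℝ))) x :=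
      indicator_nonneg (fun _ _ => zero_le_one) _
    have q : h x ^ ((n : ℝ) / ((n : ℝ) - 1)) ≤ 1 :=
      Real.rpow_le_one (hh.nonneg x) (hh.le_one x) (exponent_pos hn).le
    rcases (hh.nonneg x).eq_or_lt with h0 | h0
    · rw [← h0, Real.zero_rpow (exponent_pos hn).ne']
      positivity
    · rcases (hh.le_one x).eq_or_lt with h2 | h2
      · have : x ∈ {x | h x = 1} := h2
        rw [indicator_of_mem this]; linarith
      · have : x ∈ {x | 0 < h x ∧ h x < 1} := ⟨h0, h2⟩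
        rw [indicator_of_mem this]; linarith
  have i1 : Integrable ({x | h x = 1}.indicator (fun _ => (1 : ℝ))) G.vol :=
    (integrable_indicator_iff m1).2 (integrableOn_const f1)
  have i2 : Integrable ({x | 0 < h x ∧ h x < 1}.indicator (fun _ => (1 : ℝ))) G.vol :=
    (integrable_indicator_iff m2).2 (integrableOn_const f2)
  calc G.vp h ≤ ∫ x, (({x | h x = 1}.indicator (fun _ => (1 : ℝ))) x +
      ({x | 0 < h x ∧ h x < 1}.indicator (fun _ => (1 : ℝ))) x) ∂G.vol :=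
        integral_mono (integrable_vp G hn hh) (i1.add i2) h1
    _ = _ := by
        rw [integral_add i1 i2, integral_indicator m1, integral_indicator m2]
        simp [Measure.real]

theorem lg_le_two {o p x : E n} {ρ : ℝ} (hp : ‖G.lg o p‖ ≤ ρ) (hx : ‖G.lg o x‖ ≤ ρ) :
    ‖G.lg p x‖ ≤ 2 * ρ := by
  have h1 := G.lg_nonexp p x o
  have h2 : ‖G.lg p x‖ ≤ ‖G.lg p x - G.lg p o‖ + ‖G.lg p o‖ := by
    calc ‖G.lg p x‖ = ‖(G.lg p x - G.lg p o) + G.lg p o‖ := by rw [sub_add_cancel]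
      _ ≤ _ := norm_add_le _ _
  rw [G.norm_lg_comm x o] at h1
  rw [G.norm_lg_comm p o] at h2
  linarith

theorem exists_small {a b : ℝ} (ha : 0 ≤ a) (hb : 0 < b) :
    ∃ η₀ : ℝ, 0 < η₀ ∧ ∀ η, 0 ≤ η → η ≤ η₀ → a * η ≤ b := by
  refine ⟨b / (a + 1), by positivity, fun η _ hη => ?_⟩
  calc a * η ≤ a * (b / (a + 1)) := by gcongr
    _ = b * (a / (a + 1)) := by ring
    _ ≤ b * 1 := by
        gcongr
        rw [div_le_one (by positivity)]; linarith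
    _ = b := mul_one b

/-- Bound of the volume derivative. -/
theorem Q_bound {o p ν : E n} {ρ R M : ℝ} {Φ : ℝ × ℝ → ℝ}
    (hM : 0 ≤ M) (hp : ‖G.lg o p‖ ≤ ρ)
    (hth : ∀ v : E n, ‖v‖ ≤ 2 * ρ → |th Φ R ν v| ≤ M) {h : E n → ℝ} (hh : G.Cls o ρ h) :
    |∫ x, th Φ R ν (G.lg p x) * inner ℝ (G.lg x p) (G.D h x) ∂G.vol| ≤
      M * (2 * ρ) * G.per h := by
  have h1 : ∀ x, ‖th Φ R ν (G.lg p x) * inner ℝ (G.lg x p) (G.D h x)‖ ≤
      M * (2 * ρ) * ‖G.D h x‖ := by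
    intro x
    by_cases hx : x ∈ tsupport h
    · have hx' : ‖G.lg o x‖ ≤ ρ := Cls.tsupport_sub G hh hx
      have h2 := lg_le_two G hp hx'
      have h3 := hth _ h2
      have h4 : |inner ℝ (G.lg x p) (G.D h x)| ≤ (2 * ρ) * ‖G.D h x‖ := by
        calc |inner ℝ (G.lg x p) (G.D h x)| ≤ ‖G.lg x p‖ * ‖G.D h x‖ := abs_real_inner_le_norm _ _
          _ ≤ _ := by
            rw [G.norm_lg_comm x p]
            gcongr
      rw [norm_mul, Real.norm_eq_abs, Real.norm_eq_abs, mul_assoc]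
      gcongr
    · simp [norm_D_zero_of_notMem G hx]
  have h2 := norm_integral_le_of_norm_le ((integrable_D G hh.smooth (Cls.compact G hh)).const_mul
    (M * (2 * ρ))) (Filter.Eventually.of_forall h1)
  rw [integral_const_mul] at h2
  exact h2

/-- The integrand of the first variation. -/
theorem J_eq {h : E n → ℝ} (hh : ContDiff ℝ 1 h) (hc : HasCompactSupport h) {Φ : ℝ × ℝ → ℝ}
    {δ : ℝ} (hδ : 0 < δ) (hΦ : ContDiffOn ℝ ∞ Φ {p | -δ < p.1}) (hn : 2 ≤ n) (lam : ℝ) {R : ℝ}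
    (hR : 0 < R) {p : E n} (hp : G.D h p ≠ 0) :
    (∫ q, ker0 (n - 1) Φ lam (‖G.lg p q‖ / R) (G.ang h p q) (G.ang h q p) * ‖G.D h q‖ ∂G.vol) =
      lam * G.per h +
      ((∫ x, kap (n - 1) Φ (‖G.lg p x‖ / R)
          (inner ℝ (G.lg p x) (‖G.D h p‖⁻¹ • G.D h p) / ‖G.lg p x‖) (G.ang h x p) *
            ‖G.D h x‖ ∂G.vol) -
        ((n : ℝ) - 1) * ∫ x, th Φ R (‖G.D h p‖⁻¹ • G.D h p) (G.lg p x) *
          inner ℝ (G.lg x p) (G.D h x) ∂G.vol) := by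
  have hDp : 0 < ‖G.D h p‖ := norm_pos_iff.2 hp
  have ha : ∀ x, inner ℝ (G.lg p x) (‖G.D h p‖⁻¹ • G.D h p) / ‖G.lg p x‖ = G.ang h p x := by
    intro x
    unfold Geo.ang
    rw [inner_smul_right]
    field_simp
  have hR2 : ∀ x, inner ℝ (G.lg p x) (‖G.D h p‖⁻¹ • G.D h p) / R =
      ‖G.lg p x‖ / R * G.ang h p x := by
    intro x
    rw [← ha x]
    by_cases h0 : ‖G.lg p x‖ = 0
    · have : G.lg p x = 0 := norm_eq_zero.1 h0
      rw [this]; simp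
    · field_simp
  have hth : ∀ x, ((n : ℝ) - 1) * (th Φ R (‖G.D h p‖⁻¹ • G.D h p) (G.lg p x) *
      inner ℝ (G.lg x p) (G.D h x)) = ((n - 1 : ℕ) : ℝ) * (‖G.lg p x‖ / R * G.ang h x p *
        Φ ((‖G.lg p x‖ / R) ^ 2, ‖G.lg p x‖ / R * G.ang h p x)) * ‖G.D h x‖ := by
    intro x
    unfold th
    rw [hR2 x, ← div_pow]
    have h1 : inner ℝ (G.lg x p) (G.D h x) = ‖G.lg p x‖ * G.ang h x p * ‖G.D h x‖ := by
      unfold Geo.ang
      rw [G.norm_lg_comm p x]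
      by_cases h0 : ‖G.lg x p‖ = 0
      · have : G.lg x p = 0 := norm_eq_zero.1 h0
        rw [this]; simp
      · by_cases h2 : ‖G.D h x‖ = 0
        · have : G.D h x = 0 := norm_eq_zero.1 h2
          rw [this]; simp
        · field_simp
    rw [h1]
    push_cast [Nat.cast_sub (by omega : 1 ≤ n)]
    field_simp
  have c1 : Continuous fun z : ℝ × ℝ × ℝ => ker0 (n - 1) Φ lam (z.1 / R) z.2.1 z.2.2 :=
    continuous_ker0' hδ hΦ _ _ _
  have c0 : Continuous fun z : ℝ × ℝ => Φ (z.1 ^ 2, z.1 * z.2) := continuous_Phi hδ hΦ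
  have c2 : Continuous fun z : ℝ × ℝ × ℝ => ((n - 1 : ℕ) : ℝ) * (z.1 / R * z.2.2 *
      Φ ((z.1 / R) ^ 2, z.1 / R * z.2.1)) := by
    have e : Continuous fun z : ℝ × ℝ × ℝ => ((z.1 / R, z.2.1) : ℝ × ℝ) := by fun_prop
    have e2 := c0.comp e
    have e3 : Continuous fun z : ℝ × ℝ × ℝ => z.1 / R * z.2.2 := by fun_prop
    exact continuous_const.mul (e3.mul e2)
  have c3 : Continuous fun z : ℝ × ℝ × ℝ => kap (n - 1) Φ (z.1 / R) z.2.1 z.2.2 := by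
    have : (fun z : ℝ × ℝ × ℝ => kap (n - 1) Φ (z.1 / R) z.2.1 z.2.2) = fun z =>
        ker0 (n - 1) Φ lam (z.1 / R) z.2.1 z.2.2 - lam + ((n - 1 : ℕ) : ℝ) * (z.1 / R * z.2.2 *
          Φ ((z.1 / R) ^ 2, z.1 / R * z.2.1)) := by
      funext z
      unfold ker0
      ring
    rw [this]
    exact (c1.sub continuous_const).add c2
  have i2 := integrable_slice G hh hc (κ := fun r a b => ((n - 1 : ℕ) : ℝ) * (r / R * b *
      Φ ((r / R) ^ 2, r / R * a))) c2 p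
  have i3 := integrable_slice G hh hc (κ := fun r a b => kap (n - 1) Φ (r / R) a b) c3 p
  have i1 := (integrable_D G hh hc).const_mul lam
  have e1 : ∀ q, ker0 (n - 1) Φ lam (‖G.lg p q‖ / R) (G.ang h p q) (G.ang h q p) * ‖G.D h q‖ =
      lam * ‖G.D h q‖ + (kap (n - 1) Φ (‖G.lg p q‖ / R) (G.ang h p q) (G.ang h q p) *
        ‖G.D h q‖ - ((n - 1 : ℕ) : ℝ) * (‖G.lg p q‖ / R * G.ang h q p *
        Φ ((‖G.lg p q‖ / R) ^ 2, ‖G.lg p q‖ / R * G.ang h p q)) * ‖G.D h q‖) := by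
    intro q
    unfold ker0
    ring
  have e2 : ∀ x, kap (n - 1) Φ (‖G.lg p x‖ / R)
          (inner ℝ (G.lg p x) (‖G.D h p‖⁻¹ • G.D h p) / ‖G.lg p x‖) (G.ang h x p) *
            ‖G.D h x‖ = kap (n - 1) Φ (‖G.lg p x‖ / R) (G.ang h p x) (G.ang h x p) *
            ‖G.D h x‖ := by
    intro x; rw [ha x]
  rw [← integral_const_mul]
  simp only [e1, e2, hth]
  have i4 : Integrable (fun q => kap (n - 1) Φ (‖G.lg p q‖ / R) (G.ang h p q) (G.ang h q p) *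
        ‖G.D h q‖ - ((n - 1 : ℕ) : ℝ) * (‖G.lg p q‖ / R * G.ang h q p *
        Φ ((‖G.lg p q‖ / R) ^ 2, ‖G.lg p q‖ / R * G.ang h p q)) * ‖G.D h q‖) G.vol := i3.sub i2
  rw [integral_add i1 i4, integral_sub i3 i2, integral_const_mul]
  rfl

/-- Integrability of the slices. -/
theorem integrable_outer {h : E n → ℝ} (hh : ContDiff ℝ 1 h) (hc : HasCompactSupport h)
    {κ : ℝ → ℝ → ℝ → ℝ} (hκ : Continuous fun z : ℝ × ℝ × ℝ => κ z.1 z.2.1 z.2.2) :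
    Integrable (fun p => (∫ q, κ ‖G.lg p q‖ (G.ang h p q) (G.ang h q p) * ‖G.D h q‖ ∂G.vol) *
      ‖G.D h p‖) G.vol := by
  have h1 : Integrable (fun z : E n × E n => κ ‖G.lg z.1 z.2‖ (G.ang h z.1 z.2)
      (G.ang h z.2 z.1) * (‖G.D h z.1‖ * ‖G.D h z.2‖)) (G.vol.prod G.vol) :=
    integrable_pair G hh hc hκ.measurable (bounded_of_continuous hκ)
  have h2 := h1.integral_prod_left
  refine h2.congr (Filter.Eventually.of_forall fun p => ?_)
  simp only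
  rw [← integral_mul_const]
  congr 1
  funext q
  ring


theorem cert_F_nonneg (hn : 2 ≤ n) (C : Cert n) : 0 ≤ C.F := by
  have hsigp : 0 < sig n := sig_pos (by omega)
  have e0 : ‖(EuclideanSpace.single (⟨0, by omega⟩ : Fin n) (1 : ℝ))‖ = 1 := by simp
  have h1 := C.hF _ e0
  have h2 : 0 ≤ ∫ u : sphere (0 : E n) 1, C.f (max 0 (inner ℝ
      (EuclideanSpace.single (⟨0, by omega⟩ : Fin n) (1 : ℝ)) (u : E n))) * max 0 (inner ℝ
      (EuclideanSpace.single (⟨0, by omega⟩ : Fin n) (1 : ℝ)) (u : E n))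
      ∂((volume : Measure (E n)).toSphere) := by
    refine integral_nonneg fun u => ?_
    have hu : ‖(u : E n)‖ = 1 := by simp
    have h3 : max 0 (inner ℝ (EuclideanSpace.single (⟨0, by omega⟩ : Fin n) (1 : ℝ))
        (u : E n)) ≤ 1 := by
      refine max_le zero_le_one ?_
      have := real_inner_le_norm (EuclideanSpace.single (⟨0, by omega⟩ : Fin n) (1 : ℝ))
        (u : E n)
      rw [e0, hu] at this
      linarith
    exact mul_nonneg (C.f_nonneg _ ⟨le_max_left _ _, h3⟩) (le_max_left _ _)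
  have h3 := h2.trans h1
  exact nonneg_of_mul_nonneg_left h3 hsigp

/-- There is a point where the first variation is definitely positive. -/
theorem base_point (hn : 2 ≤ n) (C : Cert n) {ε : ℝ} (hε : 0 < ε) {Φ : ℝ × ℝ → ℝ} {δ : ℝ}
    (hδ : 0 < δ) (hΦ : ContDiffOn ℝ ∞ Φ {p | -δ < p.1})
    (hK : ∀ r a b : ℝ, 0 ≤ r → |a| ≤ 1 → |b| ≤ 1 → 0 ≤ ker (n - 1) Φ (C.lam + ε) r a b)
    (hP : ∀ r a b : ℝ, 0 < r → 0 ≤ a → a ≤ 1 → 0 ≤ b → b ≤ 1 →
      a * b * (C.s * r - (C.f a + C.f b) / 2 - ε) ≤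
        ker (n - 1) Φ (C.lam + ε) r a b * r ^ (n - 1)) {o : E n} {ρ : ℝ} {g : E n → ℝ}
    (hg : G.Cls o ρ g) {I R A η : ℝ} (hI : I < 0) (hR : 0 < R) (hη : 0 ≤ η)
    (hA : A = sig n * R ^ (n - 1)) (hRn : Geo.om n * R ^ n = G.vp g)
    (hlay : G.vol.real {x | 0 < g x ∧ g x < 1} ≤ η) (hPA : G.per g ≤ A + I / 2)
    (hε' : 2 * ε * A ≤ C.lam * (-I) / 8) (hη' : C.s / R * η ≤ C.lam * (-I) / 8) :
    ∃ p, G.D g p ≠ 0 ∧ C.lam * (-I) / 8 ≤
      (∫ q, ker0 (n - 1) Φ (C.lam + ε) (‖G.lg p q‖ / R) (G.ang g p q) (G.ang g q p) *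
        ‖G.D g q‖ ∂G.vol) - (C.lam + ε) * G.per g := by
  have hsigp : 0 < sig n := sig_pos (by omega)
  have hsig : sig n = n * Geo.om n := sig_eq (by omega)
  have hAp : 0 < A := by rw [hA]; positivity
  have hlam := C.lam_pos
  have hlI : 0 < C.lam * (-I) := mul_pos hlam (by linarith)
  set P := G.per g with hPdef
  have hP0 : 0 ≤ P := per_nonneg G g
  have hgc : HasCompactSupport g := Cls.compact G hg
  have hg01 : ∀ x, 0 ≤ g x ∧ g x ≤ 1 := fun x => ⟨hg.nonneg x, hg.le_one x⟩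
  have htp2 := two_point_scaled G hn C hε hδ hΦ hK hP hg.smooth hgc hg01 hR
  have hVlow : Geo.om n * R ^ n - η ≤ G.vol.real {x | g x = 1} := by
    have := vp_le_split G hn hg
    rw [hRn]
    linarith
  have hXl := arith_two_point hn C (cert_F_nonneg hn C) hI hε hη hP0 hR hA hAp hsig hVlow hPA
    htp2 hε' hη'
  have hκ := continuous_ker0' hδ hΦ (n - 1) (C.lam + ε) R
  have hX1 : G.pairInt (fun r a b => ker (n - 1) Φ (C.lam + ε) (r / R) a b) g =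
      G.pairInt (fun r a b => ker0 (n - 1) Φ (C.lam + ε) (r / R) a b) g :=
    pairInt_ker G hg.smooth hgc (κ := fun r a b => ker0 (n - 1) Φ (C.lam + ε) (r / R) a b) hκ
  have hX2 := pairInt_fubini G hg.smooth hgc
    (κ := fun r a b => ker0 (n - 1) Φ (C.lam + ε) (r / R) a b) hκ
  have hX3 := integrable_outer G hg.smooth hgc
    (κ := fun r a b => ker0 (n - 1) Φ (C.lam + ε) (r / R) a b) hκ
  set Jf : E n → ℝ := fun p => (∫ q, ker0 (n - 1) Φ (C.lam + ε) (‖G.lg p q‖ / R)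
    (G.ang g p q) (G.ang g q p) * ‖G.D g q‖ ∂G.vol) - (C.lam + ε) * P with hJf
  have hX4 : ∫ p, Jf p * ‖G.D g p‖ ∂G.vol =
      G.pairInt (fun r a b => ker (n - 1) Φ (C.lam + ε) (r / R) a b) g -
        (C.lam + ε) * P ^ 2 := by
    have h1 : ∀ p, Jf p * ‖G.D g p‖ = (∫ q, ker0 (n - 1) Φ (C.lam + ε) (‖G.lg p q‖ / R)
        (G.ang g p q) (G.ang g q p) * ‖G.D g q‖ ∂G.vol) * ‖G.D g p‖ -
        (C.lam + ε) * P * ‖G.D g p‖ := fun p => by simp only [hJf]; ring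
    simp only [h1]
    rw [integral_sub hX3 ((integrable_D G hg.smooth hgc).const_mul _), integral_const_mul, hX1,
      hX2]
    change _ - (C.lam + ε) * P * P = _
    ring
  have hXpos : 0 < A * (C.lam * (-I) / 4) := by positivity
  obtain ⟨p, hDp, hJp⟩ := exists_base G hg.smooth hgc (J := Jf) hXpos (by rw [hX4]; exact hXl)
  refine ⟨p, hDp, ?_⟩
  have hPp : 0 < P := by
    rcases hP0.eq_or_lt with h0 | h0
    · rw [← hPdef, ← h0, mul_zero] at hJp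
      linarith
    · exact h0
  change C.lam * (-I) / 8 ≤ Jf p
  have h1 : A * (C.lam * (-I) / 8) ≤ Jf p * P := by
    refine le_trans (le_of_eq ?_) hJp
    ring
  have h2 : P * (C.lam * (-I) / 8) ≤ A * (C.lam * (-I) / 8) := by
    have : P ≤ A := by linarith
    gcongr
  by_contra hlt
  rw [not_le] at hlt
  nlinarith

/-- Arithmetic of the last step. -/
theorem final_estimate (hn : 2 ≤ n) {R R₀ R₁ v₀ A₁ P Cc t η X₀ δ₁ Jp I Dg D' : ℝ}
    (hR₀ : 0 < R₀) (hR0R : R₀ ≤ R) (hRR1 : R ≤ R₁) (hv₀ : 0 < v₀) (hP0 : 0 ≤ P) (hPA : P ≤ A₁)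
    (hCc : 0 ≤ Cc) (ht : 0 < t) (hη : 0 ≤ η) (hδ₁ : 0 < δ₁) (hJp : δ₁ ≤ Jp)
    (hfin : D' ≤ Dg - t * (R⁻¹ * Jp) + Cc * t ^ 2 * P +
        ((n : ℝ) - 1) / R * (Cc * t * η + Cc * t ^ 2) +
        n * Geo.om n * R ^ (n - 1) / v₀ ^ 2 * (X₀ * t) ^ 2)
    (hK₁ : (Cc * A₁ + ((n : ℝ) - 1) / R₀ * Cc +
      n * Geo.om n * R₁ ^ (n - 1) / v₀ ^ 2 * X₀ ^ 2) * t ≤ δ₁ / (4 * R₁))
    (hK₂ : ((n : ℝ) - 1) / R₀ * Cc * η ≤ δ₁ / (4 * R₁)) (hDg : Dg < I + t * δ₁ / (4 * R₁)) :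
    D' < I := by
  have hom : 0 < Geo.om n := om_pos (by omega)
  have hn0 : (0 : ℝ) < n := by positivity
  have hn1' : (0 : ℝ) < (n : ℝ) - 1 := by
    have : (2 : ℝ) ≤ n := by exact_mod_cast hn
    linarith
  have hR : 0 < R := hR₀.trans_le hR0R
  have hR₁ : 0 < R₁ := hR.trans_le hRR1
  have f1 : t * (δ₁ / R₁) ≤ t * (R⁻¹ * Jp) := by
    have h1 : R₁⁻¹ ≤ R⁻¹ := by gcongr
    have h2 : R₁⁻¹ * δ₁ ≤ R⁻¹ * Jp := by gcongr
    calc t * (δ₁ / R₁) = t * (R₁⁻¹ * δ₁) := by ring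
      _ ≤ _ := by gcongr
  set K₁ : ℝ := Cc * A₁ + ((n : ℝ) - 1) / R₀ * Cc +
    n * Geo.om n * R₁ ^ (n - 1) / v₀ ^ 2 * X₀ ^ 2 with hK₁d
  set K₂ : ℝ := ((n : ℝ) - 1) / R₀ * Cc with hK₂d
  have f2 : Cc * t ^ 2 * P + ((n : ℝ) - 1) / R * (Cc * t * η + Cc * t ^ 2) +
      n * Geo.om n * R ^ (n - 1) / v₀ ^ 2 * (X₀ * t) ^ 2 ≤ t * (K₁ * t) + t * (K₂ * η) := by
    have h1 : Cc * t ^ 2 * P ≤ Cc * t ^ 2 * A₁ := by gcongr
    have h2 : ((n : ℝ) - 1) / R * (Cc * t * η + Cc * t ^ 2) ≤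
        ((n : ℝ) - 1) / R₀ * (Cc * t * η + Cc * t ^ 2) := by gcongr
    have h3 : n * Geo.om n * R ^ (n - 1) / v₀ ^ 2 * (X₀ * t) ^ 2 ≤
        n * Geo.om n * R₁ ^ (n - 1) / v₀ ^ 2 * (X₀ * t) ^ 2 := by gcongr
    have h4 : t * (K₁ * t) + t * (K₂ * η) = Cc * t ^ 2 * A₁ +
        ((n : ℝ) - 1) / R₀ * (Cc * t * η + Cc * t ^ 2) +
        n * Geo.om n * R₁ ^ (n - 1) / v₀ ^ 2 * (X₀ * t) ^ 2 := by
      rw [hK₁d, hK₂d]; ring
    linarith
  have f3 : t * (K₁ * t) ≤ t * (δ₁ / (4 * R₁)) := by gcongr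
  have f4 : t * (K₂ * η) ≤ t * (δ₁ / (4 * R₁)) := by gcongr
  have f5 : t * (δ₁ / R₁) = 4 * (t * (δ₁ / (4 * R₁))) := by field_simp
  have f6 : t * δ₁ / (4 * R₁) = t * (δ₁ / (4 * R₁)) := by ring
  have f7 : 0 < t * (δ₁ / (4 * R₁)) := by positivity
  rw [f6] at hDg
  linarith

/-- Bound of the volume change. -/
theorem x_bound {Q t Cc η B : ℝ} (ht : 0 < t) (ht1 : t ≤ 1) (hη : 0 ≤ η) (hη1 : η ≤ 1)
    (hCc : 0 ≤ Cc) (hQ : |Q| ≤ B) : |t * Q + Cc * t * η + Cc * t ^ 2| ≤ (B + 2 * Cc) * t := by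
  have h1 : |t * Q + Cc * t * η + Cc * t ^ 2| ≤ |t * Q| + |Cc * t * η + Cc * t ^ 2| := by
    rw [add_assoc]; exact abs_add_le _ _
  have h2 : |t * Q| ≤ t * B := by
    rw [abs_mul, abs_of_pos ht]; gcongr
  have h3 : |Cc * t * η + Cc * t ^ 2| ≤ 2 * Cc * t := by
    rw [abs_of_nonneg (by positivity)]
    have h4 : Cc * t * η ≤ Cc * t * 1 := by gcongr
    have h5 : Cc * t ^ 2 ≤ Cc * t := by
      have : t ^ 2 ≤ t := by nlinarith
      gcongr
    linarith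
  linarith [show (B + 2 * Cc) * t = t * B + 2 * Cc * t by ring]

/-- The lower volume bound. -/
theorem vol_low (hn : 2 ≤ n) {c v P I : ℝ} (hc : 0 < c) (hI : I < 0) (hv : 0 ≤ v) (_hP : 0 ≤ P)
    (h : P - c * v ^ (((n : ℝ) - 1) / n) < I / 2) :
    (-I / (2 * c)) ^ ((n : ℝ) / ((n : ℝ) - 1)) ≤ v := by
  have hn0 : (0 : ℝ) < n := by positivity
  have hn1' : (0 : ℝ) < (n : ℝ) - 1 := by
    have : (2 : ℝ) ≤ n := by exact_mod_cast hn
    linarith
  have hIc : 0 < -I / (2 * c) := div_pos (by linarith) (by positivity)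
  have h1 : -I / (2 * c) < v ^ (((n : ℝ) - 1) / n) := by
    rw [div_lt_iff₀ (by positivity)]
    nlinarith
  have h2 : (-I / (2 * c)) ^ ((n : ℝ) / ((n : ℝ) - 1)) ≤
      (v ^ (((n : ℝ) - 1) / n)) ^ ((n : ℝ) / ((n : ℝ) - 1)) :=
    Real.rpow_le_rpow hIc.le h1.le (exponent_pos hn).le
  rw [← Real.rpow_mul hv] at h2
  have h3 : ((n : ℝ) - 1) / n * ((n : ℝ) / ((n : ℝ) - 1)) = 1 := by
    field_simp
  rwa [h3, Real.rpow_one] at h2

/-- One descent step. -/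
theorem descent_step (hn : 2 ≤ n) (C : Cert n) {o : E n} {ρ : ℝ} (hρ : 0 < ρ) {I : ℝ}
    (hI0 : I < 0) {ε : ℝ} (hεp : 0 < ε) {Φ : ℝ × ℝ → ℝ} {δ : ℝ}
    (hδ : 0 < δ) (hΦ : ContDiffOn ℝ ∞ Φ {p | -δ < p.1})
    (hK : ∀ r a b : ℝ, 0 ≤ r → |a| ≤ 1 → |b| ≤ 1 → 0 ≤ ker (n - 1) Φ (C.lam + ε) r a b)
    (hP : ∀ r a b : ℝ, 0 < r → 0 ≤ a → a ≤ 1 → 0 ≤ b → b ≤ 1 →
      a * b * (C.s * r - (C.f a + C.f b) / 2 - ε) ≤
        ker (n - 1) Φ (C.lam + ε) r a b * r ^ (n - 1)) {R₀ R₁ v₀ A₁ M Cc t₀ : ℝ}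
    (hR₀ : 0 < R₀) (hv₀ : 0 < v₀) (hA₁ : A₁ = sig n * R₁ ^ (n - 1)) (hCc : 0 ≤ Cc)
    (hcon : ∀ (p ν : E n) (R t : ℝ) (h : E n → ℝ), ‖G.lg o p‖ ≤ ρ →
      ‖ν‖ = 1 → R₀ ≤ R → R ≤ R₁ → 0 ≤ t → t ≤ t₀ → G.Cls o ρ h → ∃ h', G.Cls o ρ h' ∧
      G.per h' ≤ G.per h - t * (∫ x, R⁻¹ * kap (n - 1) Φ (‖G.lg p x‖ / R)
          (inner ℝ (G.lg p x) ν / ‖G.lg p x‖) (G.ang h x p) * ‖G.D h x‖ ∂G.vol) +
          Cc * t ^ 2 * G.per h ∧
      G.vp h - t * (∫ x, th Φ R ν (G.lg p x) * inner ℝ (G.lg x p) (G.D h x) ∂G.vol) -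
          Cc * t * G.vol.real {x | 0 < h x ∧ h x < 1} - Cc * t ^ 2 ≤ G.vp h')
    (hM : 0 ≤ M) (hMb : ∀ (ν v : E n) (R : ℝ), ‖ν‖ = 1 → R₀ ≤ R → R ≤ R₁ → ‖v‖ ≤ 2 * ρ →
      |th Φ R ν v| ≤ M)
    {t η : ℝ} (ht : 0 < t) (htt₀ : t ≤ t₀) (ht1 : t ≤ 1) (hηp : 0 < η) (hη1 : η ≤ 1)
    (htX : (M * (2 * ρ) * A₁ + 2 * Cc) * t ≤ v₀ / 2)
    (hK₁ : (Cc * A₁ + ((n : ℝ) - 1) / R₀ * Cc +
      n * Geo.om n * R₁ ^ (n - 1) / v₀ ^ 2 * (M * (2 * ρ) * A₁ + 2 * Cc) ^ 2) * t ≤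
        C.lam * (-I) / 8 / (4 * R₁))
    (hK₂ : ((n : ℝ) - 1) / R₀ * Cc * η ≤ C.lam * (-I) / 8 / (4 * R₁))
    (hηs : C.s / R₀ * η ≤ C.lam * (-I) / 8) (hεA : 2 * ε * A₁ ≤ C.lam * (-I) / 8)
    {g : E n → ℝ} (hg : G.Cls o ρ g) (hgη : G.vol.real {x | 0 < g x ∧ g x < 1} ≤ η)
    (hgI1 : G.def' g < I / 2) (hgI2 : G.def' g < I + t * (C.lam * (-I) / 8) / (4 * R₁))
    (hvlow : v₀ ≤ G.vp g) {R : ℝ} (hR : R = (G.vp g / Geo.om n) ^ (1 / (n : ℝ)))
    (hR0R : R₀ ≤ R) (hRR1 : R ≤ R₁) : ∃ g', G.Cls o ρ g' ∧ G.def' g' < I := by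
  have hsigp : 0 < sig n := sig_pos (by omega)
  have hsig : sig n = n * Geo.om n := sig_eq (by omega)
  have hvp : 0 < G.vp g := hv₀.trans_le hvlow
  obtain ⟨hRp, hRn, hRc⟩ := model_scale hn hvp hR
  have hP0 : 0 ≤ G.per g := per_nonneg G g
  have hlI : 0 < C.lam * (-I) := mul_pos C.lam_pos (by linarith)
  have hAA1 : sig n * R ^ (n - 1) ≤ A₁ := by
    rw [hA₁]; gcongr
  have hPA : G.per g ≤ sig n * R ^ (n - 1) + I / 2 := by
    have h1 : G.def' g = G.per g - n * Geo.om n ^ (1 / (n : ℝ)) *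
      G.vp g ^ (((n : ℝ) - 1) / n) := rfl
    rw [h1, hRc, ← hsig] at hgI1
    linarith
  have hPA1 : G.per g ≤ A₁ := by linarith
  have hA₁0 : 0 ≤ A₁ := hP0.trans hPA1
  obtain ⟨p, hDp, hJp⟩ := base_point G hn C hεp hδ hΦ hK hP hg hI0 hRp hηp.le rfl hRn hgη hPA
    (le_trans (by gcongr) hεA)
    (by
      refine le_trans ?_ hηs
      have := C.s_nonneg
      gcongr)
  have hpB : ‖G.lg o p‖ ≤ ρ := by
    by_contra hne
    exact hDp (norm_D_zero_of_notMem G fun hm => hne (Cls.tsupport_sub G hg hm))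
  have hν : ‖‖G.D g p‖⁻¹ • G.D g p‖ = 1 := by
    rw [norm_smul, norm_inv, norm_norm, inv_mul_cancel₀ (norm_ne_zero_iff.2 hDp)]
  obtain ⟨g', hg', hper, hvp'⟩ := hcon p (‖G.D g p‖⁻¹ • G.D g p) R t g hpB hν hR0R hRR1 ht.le
    htt₀ hg
  refine ⟨g', hg', ?_⟩
  have hKR : (∫ x, R⁻¹ * kap (n - 1) Φ (‖G.lg p x‖ / R)
          (inner ℝ (G.lg p x) (‖G.D g p‖⁻¹ • G.D g p) / ‖G.lg p x‖) (G.ang g x p) *
            ‖G.D g x‖ ∂G.vol) = R⁻¹ * ∫ x, kap (n - 1) Φ (‖G.lg p x‖ / R)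
          (inner ℝ (G.lg p x) (‖G.D g p‖⁻¹ • G.D g p) / ‖G.lg p x‖) (G.ang g x p) *
            ‖G.D g x‖ ∂G.vol := by
    rw [← integral_const_mul]
    congr 1
    funext x
    ring
  rw [hKR] at hper
  have hQb : |∫ x, th Φ R (‖G.D g p‖⁻¹ • G.D g p) (G.lg p x) *
          inner ℝ (G.lg x p) (G.D g x) ∂G.vol| ≤ M * (2 * ρ) * A₁ := by
    refine (Q_bound G hM hpB (fun w hw => hMb _ w R hν hR0R hRR1 hw) hg).trans ?_
    gcongr
  have hJe := J_eq G hg.smooth (Cls.compact G hg) hδ hΦ hn (C.lam + ε) hRp hDp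
  rw [hJe, add_sub_cancel_left] at hJp
  generalize (∫ x, kap (n - 1) Φ (‖G.lg p x‖ / R)
          (inner ℝ (G.lg p x) (‖G.D g p‖⁻¹ • G.D g p) / ‖G.lg p x‖) (G.ang g x p) *
            ‖G.D g x‖ ∂G.vol) = Kp at hper hJp
  generalize (∫ x, th Φ R (‖G.D g p‖⁻¹ • G.D g p) (G.lg p x) *
          inner ℝ (G.lg x p) (G.D g x) ∂G.vol) = Q at hvp' hQb hJp
  have hxb := x_bound ht ht1 hηp.le hη1 hCc hQb
  have hvpx : G.vp g - (t * Q + Cc * t * η + Cc * t ^ 2) ≤ G.vp g' := by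
    refine le_trans ?_ hvp'
    have : Cc * t * G.vol.real {x | 0 < g x ∧ g x < 1} ≤ Cc * t * η := by gcongr
    linarith
  have hfin := arith_descent hn (L₁ := Cc * t ^ 2 * G.per g) hRp hv₀ hvlow hRn hRc
    (hxb.trans htX) rfl hvpx hper hxb
  exact final_estimate hn (D' := G.def' g') (Dg := G.def' g) hR₀ hR0R hRR1 hv₀ hP0 hPA1 hCc ht
    hηp.le (by positivity) hJp hfin hK₁ hK₂ hgI2

theorem def_nonneg_of_cert (hn : 2 ≤ n) (C : Cert n) (o : E n) {ρ : ℝ} (hρ : 0 < ρ)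
    {h : E n → ℝ} (hh : G.Cls o ρ h) : 0 ≤ G.def' h := by
  by_contra hneg
  rw [not_le] at hneg
  have hn1 : 1 ≤ n := by omega
  have hn0 : (0 : ℝ) < n := by positivity
  have hn1' : (0 : ℝ) < (n : ℝ) - 1 := by
    have : (2 : ℝ) ≤ n := by exact_mod_cast hn
    linarith
  have hom : 0 < Geo.om n := om_pos hn1
  have hsigp : 0 < sig n := sig_pos hn1
  -- the infimum
  obtain ⟨Cb, hCb⟩ := def_bddBelow G hn o ρ
  set S : Set ℝ := {y | ∃ h, G.Cls o ρ h ∧ G.def' h = y} with hS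
  have hSb : BddBelow S := ⟨-Cb, by rintro y ⟨g, hg, rfl⟩; exact hCb g hg⟩
  have hSn : S.Nonempty := ⟨_, h, hh, rfl⟩
  set I := sInf S with hIdef
  have hI : ∀ g, G.Cls o ρ g → I ≤ G.def' g := fun g hg => csInf_le hSb ⟨g, hg, rfl⟩
  have hI' : ∀ ε > 0, ∃ g, G.Cls o ρ g ∧ G.def' g < I + ε := by
    intro ε hε
    obtain ⟨y, ⟨g, hg, rfl⟩, hlt⟩ := exists_lt_of_csInf_lt hSn (lt_add_of_pos_right I hε)
    exact ⟨g, hg, hlt⟩
  have hI0 : I < 0 := (hI h hh).trans_lt hneg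
  clear_value I
  -- constants
  obtain ⟨c, hc⟩ : ∃ c : ℝ, c = n * Geo.om n ^ (1 / (n : ℝ)) := ⟨_, rfl⟩
  have hc0 : 0 < c := by rw [hc]; positivity
  obtain ⟨VB, hVB⟩ : ∃ VB : ℝ, VB = G.vol.real {x | ‖G.lg o x‖ ≤ ρ} := ⟨_, rfl⟩
  obtain ⟨v₀, hv₀⟩ : ∃ v₀ : ℝ, v₀ = (-I / (2 * c)) ^ ((n : ℝ) / ((n : ℝ) - 1)) := ⟨_, rfl⟩
  have hIc : 0 < -I / (2 * c) := div_pos (by linarith) (by positivity)
  have hv₀p : 0 < v₀ := by rw [hv₀]; exact Real.rpow_pos_of_pos hIc _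
  obtain ⟨R₀, hR₀⟩ : ∃ R₀ : ℝ, R₀ = (v₀ / Geo.om n) ^ (1 / (n : ℝ)) := ⟨_, rfl⟩
  have hR₀p : 0 < R₀ := by rw [hR₀]; positivity
  obtain ⟨R₁, hR₁⟩ : ∃ R₁ : ℝ, R₁ = ((VB + v₀) / Geo.om n) ^ (1 / (n : ℝ)) := ⟨_, rfl⟩
  have hVB0 : 0 ≤ VB := by rw [hVB]; exact measureReal_nonneg
  have hR₁p : 0 < R₁ := by rw [hR₁]; positivity
  obtain ⟨A₁, hA₁⟩ : ∃ A₁ : ℝ, A₁ = sig n * R₁ ^ (n - 1) := ⟨_, rfl⟩
  have hA₁p : 0 < A₁ := by rw [hA₁]; positivity
  have hlam := C.lam_pos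
  have hlI : 0 < C.lam * (-I) := mul_pos hlam (by linarith)
  obtain ⟨ε, hε⟩ : ∃ ε : ℝ, ε = C.lam * (-I) / (16 * A₁) := ⟨_, rfl⟩
  have hεp : 0 < ε := by rw [hε]; positivity
  have hεA : 2 * ε * A₁ ≤ C.lam * (-I) / 8 := by
    refine le_of_eq ?_
    rw [hε]; field_simp; ring
  obtain ⟨Φ, δ, hδ, hΦ, hΦ0, hK, hP⟩ := C.approx ε hεp
  obtain ⟨Cc, t₀, hCc, ht₀, hcon⟩ := exists_contract G hn o hρ hδ hΦ hΦ0 (R₁ := R₁) hR₀p
  obtain ⟨M, hM, hMb⟩ := th_bounds (n := n) hδ hΦ R₁ hR₀p (2 * ρ)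
  -- choice of t
  obtain ⟨t₁, ht₁, ht₁'⟩ := exists_small (a := M * (2 * ρ) * A₁ + 2 * Cc) (by positivity)
    (b := v₀ / 2) (by positivity)
  obtain ⟨t₂, ht₂, ht₂'⟩ := exists_small (a := Cc * A₁ + ((n : ℝ) - 1) / R₀ * Cc +
    n * Geo.om n * R₁ ^ (n - 1) / v₀ ^ 2 * (M * (2 * ρ) * A₁ + 2 * Cc) ^ 2) (by positivity)
    (b := C.lam * (-I) / 8 / (4 * R₁)) (by positivity)
  obtain ⟨t, ht⟩ : ∃ t : ℝ, t = min (min t₀ 1) (min t₁ t₂) := ⟨_, rfl⟩
  have htp : 0 < t := by rw [ht]; positivity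
  have htt₀ : t ≤ t₀ := ht ▸ (min_le_left _ _).trans (min_le_left _ _)
  have ht1 : t ≤ 1 := ht ▸ (min_le_left _ _).trans (min_le_right _ _)
  have htX := ht₁' t htp.le (ht ▸ (min_le_right _ _).trans (min_le_left _ _))
  have htK := ht₂' t htp.le (ht ▸ (min_le_right _ _).trans (min_le_right _ _))
  -- choice of η
  obtain ⟨η₁, hη₁, hη₁'⟩ := exists_small (a := C.s / R₀) (div_nonneg C.s_nonneg hR₀p.le)
    (b := C.lam * (-I) / 8) (by positivity)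
  obtain ⟨η₂, hη₂, hη₂'⟩ := exists_small (a := ((n : ℝ) - 1) / R₀ * Cc) (by positivity)
    (b := C.lam * (-I) / 8 / (4 * R₁)) (by positivity)
  obtain ⟨η, hη⟩ : ∃ η : ℝ, η = min 1 (min η₁ η₂) := ⟨_, rfl⟩
  have hηp : 0 < η := by rw [hη]; positivity
  have hη1 : η ≤ 1 := hη ▸ min_le_left _ _
  have hηs := hη₁' η hηp.le (hη ▸ (min_le_right _ _).trans (min_le_left _ _))
  have hηK := hη₂' η hηp.le (hη ▸ (min_le_right _ _).trans (min_le_right _ _))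
  -- almost minimizer with thin layer
  obtain ⟨g, hg, hgI, hgη⟩ := exists_thin G hn o ρ hI hI'
    (min (-I / 2) (t * (C.lam * (-I) / 8) / (4 * R₁))) (lt_min (by linarith) (by positivity)) η hηp
  have hgI1 : G.def' g < I / 2 := by
    have := min_le_left (-I / 2) (t * (C.lam * (-I) / 8) / (4 * R₁))
    linarith
  have hgI2 : G.def' g < I + t * (C.lam * (-I) / 8) / (4 * R₁) := by
    have := min_le_right (-I / 2) (t * (C.lam * (-I) / 8) / (4 * R₁))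
    linarith
  have hv0 : 0 ≤ G.vp g := vp_nonneg G hg
  have hvlow : v₀ ≤ G.vp g := by
    rw [hv₀]
    refine vol_low hn hc0 hI0 hv0 (per_nonneg G g) ?_
    rw [hc]
    exact hgI1
  have hvVB : G.vp g ≤ VB := by rw [hVB]; exact vp_le_ball G hn hg
  have hR0R : R₀ ≤ (G.vp g / Geo.om n) ^ (1 / (n : ℝ)) := by
    rw [hR₀]
    exact Real.rpow_le_rpow (by positivity) (by gcongr) (by positivity)
  have hRR1 : (G.vp g / Geo.om n) ^ (1 / (n : ℝ)) ≤ R₁ := by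
    rw [hR₁]
    exact Real.rpow_le_rpow (by positivity) (by gcongr; linarith) (by positivity)
  obtain ⟨g', hg', hlt⟩ := descent_step G hn C hρ hI0 hεp hδ hΦ hK hP hR₀p hv₀p hA₁ hCc hcon hM
    (fun ν v R h1 h2 h3 h4 => (hMb ν v R h1 h2 h3 h4).1) htp htt₀ ht1 hηp hη1 htX htK hηK hηs hεA
    hg hgη.le hgI1 hgI2 hvlow rfl hR0R hRR1
  exact absurd (hI g' hg') (not_le.2 hlt)

/-- Sharp Sobolev inequality for functions with values in `[0,1]`. -/
theorem sobolev (hn : 2 ≤ n) (C : Cert n) {h : E n → ℝ} (hh : ContDiff ℝ 1 h)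
    (hc : HasCompactSupport h) (h01 : ∀ x, 0 ≤ h x ∧ h x ≤ 1) :
    n * Geo.om n ^ (1 / (n : ℝ)) * G.vp h ^ (((n : ℝ) - 1) / n) ≤ G.per h := by
  obtain ⟨L, hL⟩ := exists_lg_bound G hc 0
  have hcls : G.Cls 0 (max L 1) h := by
    refine ⟨hh, fun x => (h01 x).1, fun x => (h01 x).2, fun x hx => ?_⟩
    exact (hL x (subset_tsupport h hx)).trans (le_max_left _ _)
  have := def_nonneg_of_cert G hn C 0 (by positivity) hcls
  unfold Geo.def' at this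
  linarith

end Vale.Agent.P219.TP
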