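import Vale.Agent.P219.TP.Basic

/-! # Radial diffeomorphisms and change of variables (task A7) -/

open MeasureTheory Set Metric
open scoped ENNReal ContDiff NNReal

namespace Vale.Agent.P219.TP

variable {n : ℕ} (G : Geo n)

/-- `v ↦ (1 - tθ(v)) v` is a diffeomorphism for small `t`. PROOF: Lipschitz perturbation of the
identity (`ApproximatesLinearOn.toHomeomorph`), then `Homeomorph.contDiff_symm`. -/
theorem exists_diffeo {θ : E n → ℝ} (hθ : ContDiff ℝ ∞ θ) {M : ℝ} (hM : 0 ≤ M)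
    (hL : ∀ v v', ‖θ v • v - θ v' • v'‖ ≤ M * ‖v - v'‖) {t : ℝ} (ht : |t| * M < 1) :
    ∃ F : E n ≃ₜ E n, (∀ v, F v = (1 - t * θ v) • v) ∧ ContDiff ℝ ∞ F ∧
      ContDiff ℝ ∞ F.symm := by
  set f : E n → E n := fun v => (1 - t * θ v) • v with hf
  set g : E n → E n := fun v => θ v • v with hg
  have hgs : ContDiff ℝ ∞ g := hθ.smul contDiff_id
  have hfs : ContDiff ℝ ∞ f := (contDiff_const.sub (contDiff_const.mul hθ)).smul contDiff_id
  have hfg : ∀ v, f v = v - t • g v := by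
    intro v
    simp only [hf, hg, sub_smul, one_smul, mul_smul]
  have hlip : ∀ c : ℝ≥0, (c : ℝ) = |t| * M →
      ApproximatesLinearOn f ((ContinuousLinearEquiv.refl ℝ (E n)) : E n →L[ℝ] E n) univ c := by
    intro c hc x _ y _
    have h1 : f x - f y - ((ContinuousLinearEquiv.refl ℝ (E n)) : E n →L[ℝ] E n) (x - y)
        = -(t • (g x - g y)) := by
      rw [hfg, hfg, smul_sub]
      simp only [ContinuousLinearEquiv.coe_refl, ContinuousLinearMap.coe_id', id]
      abel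
    rw [h1, norm_neg, norm_smul, Real.norm_eq_abs, hc, mul_assoc]
    exact mul_le_mul_of_nonneg_left (hL x y) (abs_nonneg _)
  have hc0 : 0 ≤ |t| * M := mul_nonneg (abs_nonneg _) hM
  obtain ⟨c, hc⟩ : ∃ c : ℝ≥0, (c : ℝ) = |t| * M := ⟨⟨|t| * M, hc0⟩, rfl⟩
  have hN : Subsingleton (E n) ∨
      c < ‖((ContinuousLinearEquiv.refl ℝ (E n)).symm : E n →L[ℝ] E n)‖₊⁻¹ := by
    by_cases hs : Subsingleton (E n)
    · exact Or.inl hs
    · right
      have : Nontrivial (E n) := not_subsingleton_iff_nontrivial.1 hs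
      have h1 : ‖((ContinuousLinearEquiv.refl ℝ (E n)).symm : E n →L[ℝ] E n)‖₊ = 1 := by
        have : ((ContinuousLinearEquiv.refl ℝ (E n)).symm : E n →L[ℝ] E n)
            = ContinuousLinearMap.id ℝ (E n) := rfl
        rw [this]
        exact ContinuousLinearMap.nnnorm_id
      rw [h1, inv_one, ← NNReal.coe_lt_coe, hc]
      exact ht
  let F : E n ≃ₜ E n := (hlip c hc).toHomeomorph f hN
  have hF : ∀ v, F v = f v := fun v => rfl
  refine ⟨F, hF, hfs, ?_⟩
  have hgl : ∀ v, ‖fderiv ℝ g v‖ ≤ M := by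
    intro v
    have hl : LipschitzWith ⟨M, hM⟩ g := LipschitzWith.of_dist_le_mul (fun x y => by
      rw [dist_eq_norm, dist_eq_norm]
      exact hL x y)
    exact norm_fderiv_le_of_lipschitz ℝ hl
  have hu : ∀ v, ∃ e : E n ≃L[ℝ] E n, HasFDerivAt f (e : E n →L[ℝ] E n) v := by
    intro v
    have h1 : ‖t • fderiv ℝ g v‖ < 1 := by
      rw [norm_smul, Real.norm_eq_abs]
      exact (mul_le_mul_of_nonneg_left (hgl v) (abs_nonneg _)).trans_lt ht
    refine ⟨ContinuousLinearEquiv.unitsEquiv ℝ (E n) (Units.oneSub (t • fderiv ℝ g v) h1), ?_⟩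
    have h2 : HasFDerivAt f (ContinuousLinearMap.id ℝ (E n) - t • fderiv ℝ g v) v := by
      have h3 : HasFDerivAt g (fderiv ℝ g v) v :=
        ((hgs.differentiable (by simp)) v).hasFDerivAt
      have h4 := (hasFDerivAt_id (𝕜 := ℝ) v).sub (h3.const_smul t)
      refine h4.congr_of_eventuallyEq (Filter.Eventually.of_forall fun w => ?_)
      simp [hfg]
    have h5 : ((ContinuousLinearEquiv.unitsEquiv ℝ (E n)
        (Units.oneSub (t • fderiv ℝ g v) h1) : E n ≃L[ℝ] E n) : E n →L[ℝ] E n) =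
        ContinuousLinearMap.id ℝ (E n) - t • fderiv ℝ g v := by
      ext x
      rw [ContinuousLinearEquiv.coe_coe, ContinuousLinearEquiv.unitsEquiv_apply,
        Units.val_oneSub]
      rfl
    rw [h5]
    exact h2
  choose e he using hu
  exact Homeomorph.contDiff_symm F he hfs

/-- The corresponding diffeomorphism of the manifold. -/
theorem exists_diffeo_geo {θ : E n → ℝ} (hθ : ContDiff ℝ ∞ θ) {M : ℝ} (hM : 0 ≤ M)
    (hL : ∀ v v', ‖θ v • v - θ v' • v'‖ ≤ M * ‖v - v'‖) {t : ℝ} (ht : |t| * M < 1) (p : E n) :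
    ∃ Ψ : E n ≃ₜ E n, (∀ x, Ψ x = G.ex p ((1 - t * θ (G.lg p x)) • G.lg p x)) ∧
      ContDiff ℝ ∞ Ψ ∧ ContDiff ℝ ∞ Ψ.symm := by
  obtain ⟨F, hF, hF1, hF2⟩ := exists_diffeo hθ hM hL ht
  have hex : ContDiff ℝ ∞ (G.ex p) := G.ex_smooth.comp (contDiff_const.prodMk contDiff_id)
  have hlg : ContDiff ℝ ∞ (G.lg p) := G.lg_smooth.comp (contDiff_const.prodMk contDiff_id)
  let X : E n ≃ₜ E n :=
    { toFun := G.ex p
      invFun := G.lg p
      left_inv := G.lg_ex p
      right_inv := G.ex_lg p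
      continuous_toFun := hex.continuous
      continuous_invFun := hlg.continuous }
  refine ⟨X.symm.trans (F.trans X), fun x => ?_, ?_, ?_⟩
  · change G.ex p (F (G.lg p x)) = _
    rw [hF]
  · exact hex.comp (hF1.comp hlg)
  · exact hex.comp (hF2.comp hlg)

/-- Change of variables. -/
theorem integral_vol_comp {Ψ : E n ≃ₜ E n} (hΨ : ContDiff ℝ ∞ Ψ) (F : E n → ℝ) :
    ∫ y, F y ∂G.vol =
      ∫ x, F (Ψ x) * (G.w (Ψ x) * |(fderiv ℝ Ψ x).det| / G.w x) ∂G.vol := by
  have hm : Measurable fun x => ENNReal.ofReal (G.w x) :=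
    G.w_smooth.continuous.measurable.ennreal_ofReal
  have hfin : ∀ᵐ x ∂(volume : Measure (E n)), ENNReal.ofReal (G.w x) < ⊤ :=
    Filter.Eventually.of_forall fun x => ENNReal.ofReal_lt_top
  rw [Geo.vol, integral_withDensity_eq_integral_toReal_smul hm hfin,
    integral_withDensity_eq_integral_toReal_smul hm hfin]
  have h1 := integral_image_eq_integral_abs_det_fderiv_smul (volume : Measure (E n))
    (s := univ) (f := Ψ) (f' := fun x => fderiv ℝ Ψ x) MeasurableSet.univ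
    (fun x _ => ((hΨ.differentiable (by simp)) x).hasFDerivAt.hasFDerivWithinAt)
    (Ψ.injective.injOn) (fun y => (ENNReal.ofReal (G.w y)).toReal • F y)
  rw [image_univ, Ψ.surjective.range_eq, setIntegral_univ, setIntegral_univ] at h1
  rw [h1]
  refine integral_congr_ae (Filter.Eventually.of_forall fun x => ?_)
  have hx := G.w_pos x
  have hy := G.w_pos (Ψ x)
  simp only [smul_eq_mul, ENNReal.toReal_ofReal hx.le, ENNReal.toReal_ofReal hy.le]
  field_simp

/-- The gradient of `h ∘ Ψ⁻¹`. -/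
theorem D_comp_symm {Ψ : E n ≃ₜ E n} (hΨ : ContDiff ℝ ∞ Ψ) (hΨ' : ContDiff ℝ ∞ Ψ.symm)
    {h : E n → ℝ} (hh : ContDiff ℝ 1 h) (x ξ η : E n)
    (hη : G.A (Ψ x) η = fderiv ℝ Ψ x (G.A x ξ)) :
    inner ℝ (G.D (h ∘ Ψ.symm) (Ψ x)) η = inner ℝ (G.D h x) ξ := by
  rw [G.inner_D, G.inner_D, hη]
  have h1 : HasFDerivAt Ψ (fderiv ℝ Ψ x) x :=
    ((hΨ.differentiable (by simp)) x).hasFDerivAt
  have h2 : HasFDerivAt (h ∘ Ψ.symm) (fderiv ℝ (h ∘ Ψ.symm) (Ψ x)) (Ψ x) :=
    (((hh.comp (hΨ'.of_le (by simp))).differentiable (by simp)) (Ψ x)).hasFDerivAt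
  have h3 := h2.comp x h1
  have h4 : (h ∘ Ψ.symm) ∘ Ψ = h := by
    ext y; simp
  rw [h4] at h3
  rw [h3.fderiv]
  rfl

end Vale.Agent.P219.TP
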