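import Mathlib

/-! # Scalar expansion (task A5b) -/

namespace Vale.Agent.P219.TP

theorem one_sub_pow_le (k : ℕ) : ∃ C : ℝ, 0 ≤ C ∧ ∀ u : ℝ, |u| ≤ 1 / 2 →
    (1 - u) ^ k ≤ 1 - k * u + C * u ^ 2 := by
  induction k with
  | zero => exact ⟨0, le_rfl, fun u _ => by simp⟩
  | succ k ih =>
    obtain ⟨C, hC, h⟩ := ih
    refine ⟨k + 2 * C, by positivity, fun u hu => ?_⟩
    have h1 := h u hu
    obtain ⟨hu1, hu2⟩ := abs_le.mp hu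
    have h2 : (1 - u) ^ (k + 1) ≤ (1 - k * u + C * u ^ 2) * (1 - u) := by
      rw [pow_succ]
      exact mul_le_mul_of_nonneg_right h1 (by linarith)
    refine h2.trans ?_
    push_cast
    have h3 : 0 ≤ C * u ^ 2 * (1 + u) := by
      have : 0 ≤ 1 + u := by linarith
      positivity
    nlinarith [h3]

theorem scalar_D_bound {M α β ζ c d : ℝ} (hα : |α| ≤ M) (hβ : |β| ≤ M)
    (hζ0 : 0 ≤ ζ) (hζM : ζ ≤ M) (hc0 : 0 ≤ c) (hd0 : 0 ≤ d) (hcd : c ^ 2 = 1 - d ^ 2) :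
    |d ^ 2 * β + c ^ 2 * α - d * c * ζ| ≤ 2 * M := by
  have hdc : d * c ≤ 1 := by nlinarith [sq_nonneg (d - c)]
  have hdc0 : 0 ≤ d * c := mul_nonneg hd0 hc0
  have e1 : |d ^ 2 * β + c ^ 2 * α| ≤ M := by
    have : |d ^ 2 * β + c ^ 2 * α| ≤ |d ^ 2 * β| + |c ^ 2 * α| := abs_add_le _ _
    rw [abs_mul, abs_mul, abs_of_nonneg (sq_nonneg d), abs_of_nonneg (sq_nonneg c)] at this
    have f1 : d ^ 2 * |β| ≤ d ^ 2 * M := mul_le_mul_of_nonneg_left hβ (sq_nonneg d)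
    have f2 : c ^ 2 * |α| ≤ c ^ 2 * M := mul_le_mul_of_nonneg_left hα (sq_nonneg c)
    have f3 : d ^ 2 * M + c ^ 2 * M = M := by rw [hcd]; ring
    linarith
  have e2 : |d * c * ζ| ≤ M := by
    rw [abs_of_nonneg (mul_nonneg hdc0 hζ0)]
    calc d * c * ζ ≤ 1 * M := mul_le_mul hdc hζM hζ0 zero_le_one
      _ = M := one_mul M
  calc |d ^ 2 * β + c ^ 2 * α - d * c * ζ| ≤ |d ^ 2 * β + c ^ 2 * α| + |d * c * ζ| := abs_sub _ _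
    _ ≤ 2 * M := by linarith

theorem scalar_Q_bound {M α β ζ c d : ℝ} (hM : 0 ≤ M) (hα : |α| ≤ M) (hβ : |β| ≤ M)
    (hζ0 : 0 ≤ ζ) (hζM : ζ ≤ M) (hc0 : 0 ≤ c) (hd0 : 0 ≤ d) (hcd : c ^ 2 = 1 - d ^ 2) :
    |β ^ 2 * d ^ 2 + α ^ 2 * c ^ 2 - 2 * α * c * d * ζ + d ^ 2 * ζ ^ 2| ≤ 4 * M ^ 2 := by
  have hd1 : d ^ 2 ≤ 1 := by linarith [sq_nonneg c]
  have hdc : d * c ≤ 1 := by nlinarith [sq_nonneg (d - c)]
  have hdc0 : 0 ≤ d * c := mul_nonneg hd0 hc0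
  have hM2 : 0 ≤ M ^ 2 := sq_nonneg M
  have hα3 : α ^ 2 ≤ M ^ 2 := sq_le_sq' (abs_le.mp hα).1 (abs_le.mp hα).2
  have hβ3 : β ^ 2 ≤ M ^ 2 := sq_le_sq' (abs_le.mp hβ).1 (abs_le.mp hβ).2
  have hζ3 : ζ ^ 2 ≤ M ^ 2 := pow_le_pow_left₀ hζ0 hζM 2
  have e1 : β ^ 2 * d ^ 2 + α ^ 2 * c ^ 2 ≤ M ^ 2 := by
    have f1 := mul_le_mul_of_nonneg_right hβ3 (sq_nonneg d)
    have f2 := mul_le_mul_of_nonneg_right hα3 (sq_nonneg c)
    have f3 : M ^ 2 * d ^ 2 + M ^ 2 * c ^ 2 = M ^ 2 := by rw [hcd]; ring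
    linarith
  have e1' : 0 ≤ β ^ 2 * d ^ 2 + α ^ 2 * c ^ 2 := by positivity
  have e2 : d ^ 2 * ζ ^ 2 ≤ M ^ 2 := by
    calc d ^ 2 * ζ ^ 2 ≤ 1 * M ^ 2 := mul_le_mul hd1 hζ3 (sq_nonneg ζ) zero_le_one
      _ = M ^ 2 := one_mul _
  have e2' : 0 ≤ d ^ 2 * ζ ^ 2 := by positivity
  have e3 : |2 * α * c * d * ζ| ≤ 2 * M ^ 2 := by
    have : |2 * α * c * d * ζ| = 2 * ((|α| * ζ) * (d * c)) := by
      rw [abs_mul, abs_mul, abs_mul, abs_mul, abs_two, abs_of_nonneg hc0, abs_of_nonneg hd0,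
        abs_of_nonneg hζ0]
      ring
    rw [this]
    have g1 : |α| * ζ ≤ M * M := mul_le_mul hα hζM hζ0 hM
    have g3 : (|α| * ζ) * (d * c) ≤ (M * M) * 1 :=
      mul_le_mul g1 hdc hdc0 (mul_nonneg hM hM)
    calc 2 * ((|α| * ζ) * (d * c)) ≤ 2 * ((M * M) * 1) :=
          mul_le_mul_of_nonneg_left g3 zero_le_two
      _ = 2 * M ^ 2 := by ring
  obtain ⟨e31, e32⟩ := abs_le.mp e3
  rw [abs_le]
  constructor <;> linarith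

theorem scalar_aux {k : ℕ} {Ck M t β D Q Y : ℝ} (hM : 0 ≤ M) (hCk : 0 ≤ Ck) (ht : 0 ≤ t)
    (htM : t * M ≤ 1 / 2) (hβ : |β| ≤ M) (hDM : |D| ≤ 2 * M) (hQM : |Q| ≤ 4 * M ^ 2)
    (hY : Y = 1 - t * D + t ^ 2 * Q / 2) (hY0 : 0 ≤ Y) :
    (1 - k * (t * β) + Ck * (t * β) ^ 2) * Y ≤
      1 - t * (k * β + D) + (3 + 5 * k + 4 * Ck) * M ^ 2 * t ^ 2 := by
  have hβ3 : β ^ 2 ≤ M ^ 2 := sq_le_sq' (abs_le.mp hβ).1 (abs_le.mp hβ).2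
  have hu : |t * β| ≤ 1 / 2 := by
    rw [abs_mul, abs_of_nonneg ht]
    exact (mul_le_mul_of_nonneg_left hβ ht).trans htM
  have hY4 : Y ≤ 4 := by
    have g1 : |t * D| ≤ 1 := by
      rw [abs_mul, abs_of_nonneg ht]
      calc t * |D| ≤ t * (2 * M) := mul_le_mul_of_nonneg_left hDM ht
        _ = 2 * (t * M) := by ring
        _ ≤ 1 := by linarith
    have g2 : t ^ 2 * Q ≤ 1 := by
      have h3 : t ^ 2 * Q ≤ t ^ 2 * (4 * M ^ 2) :=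
        mul_le_mul_of_nonneg_left ((le_abs_self Q).trans hQM) (sq_nonneg t)
      have h4 : (t * M) ^ 2 ≤ (1 / 2) ^ 2 := pow_le_pow_left₀ (mul_nonneg ht hM) htM 2
      have h5 : t ^ 2 * (4 * M ^ 2) = 4 * (t * M) ^ 2 := by ring
      rw [h5] at h3
      linarith
    rw [hY]
    linarith [(abs_le.mp g1).1]
  have hQ2 : t ^ 2 * Q / 2 ≤ 2 * M ^ 2 * t ^ 2 := by
    have := mul_le_mul_of_nonneg_left ((le_abs_self Q).trans hQM) (sq_nonneg t)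
    linarith
  have hβD : (k : ℝ) * (t * β) * (t * D) ≤ 2 * k * M ^ 2 * t ^ 2 := by
    have g1 : β * D ≤ M * (2 * M) := by
      calc β * D ≤ |β * D| := le_abs_self _
        _ = |β| * |D| := abs_mul _ _
        _ ≤ M * (2 * M) := mul_le_mul hβ hDM (abs_nonneg _) hM
    have g2 : (k : ℝ) * t ^ 2 * (β * D) ≤ (k : ℝ) * t ^ 2 * (M * (2 * M)) :=
      mul_le_mul_of_nonneg_left g1 (by positivity)
    linarith
  have hβQ : -((k : ℝ) * (t * β) * (t ^ 2 * Q / 2)) ≤ k * M ^ 2 * t ^ 2 := by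
    have g1 : |t * β * Q| ≤ 1 / 2 * (4 * M ^ 2) := by
      rw [abs_mul]
      exact mul_le_mul hu hQM (abs_nonneg _) (by norm_num)
    have g2 : -(t * β * Q) ≤ 2 * M ^ 2 := by
      linarith [(abs_le.mp g1).1]
    have g3 : (k : ℝ) * t ^ 2 * (-(t * β * Q)) ≤ (k : ℝ) * t ^ 2 * (2 * M ^ 2) :=
      mul_le_mul_of_nonneg_left g2 (by positivity)
    linarith
  have hC4 : Ck * (t * β) ^ 2 * Y ≤ 4 * Ck * M ^ 2 * t ^ 2 := by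
    have g1 : Ck * (t * β) ^ 2 ≤ Ck * (M ^ 2 * t ^ 2) := by
      have : (t * β) ^ 2 ≤ M ^ 2 * t ^ 2 := by
        rw [mul_pow]; linarith [mul_le_mul_of_nonneg_left hβ3 (sq_nonneg t)]
      exact mul_le_mul_of_nonneg_left this hCk
    have g2 := mul_le_mul g1 hY4 hY0 (by positivity)
    linarith
  have hexp : (1 - k * (t * β) + Ck * (t * β) ^ 2) * Y =
      1 - t * (k * β + D) + t ^ 2 * Q / 2 + (k : ℝ) * (t * β) * (t * D)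
        + -((k : ℝ) * (t * β) * (t ^ 2 * Q / 2))
        + Ck * (t * β) ^ 2 * Y := by
    have : (1 - k * (t * β) + Ck * (t * β) ^ 2) * Y =
      (1 - k * (t * β)) * Y + Ck * (t * β) ^ 2 * Y := by ring
    rw [this]
    congr 1
    rw [hY]; ring
  rw [hexp]
  have hk0 : (0 : ℝ) ≤ k := Nat.cast_nonneg k
  have hfin : 0 ≤ (1 + 2 * (k : ℝ)) * (M ^ 2 * t ^ 2) := by positivity
  linarith

/-- Second order expansion with a uniform constant. -/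
theorem scalar_exp (k : ℕ) {M : ℝ} (hM : 0 ≤ M) : ∃ C : ℝ, 0 ≤ C ∧
    ∀ t α' β' ζ b : ℝ, 0 ≤ t → t * M ≤ 1 / 2 → |α'| ≤ M → |β'| ≤ M → 0 ≤ ζ → ζ ≤ M → |b| ≤ 1 →
      (1 - t * β') ^ k * √((1 - t * β') ^ 2 * b ^ 2 +
        ((1 - t * α') * √(1 - b ^ 2) + |b| * (t * ζ)) ^ 2) ≤
      1 - t * (k * β' + b ^ 2 * β' + (1 - b ^ 2) * α' - |b| * √(1 - b ^ 2) * ζ) + C * t ^ 2 := by
  obtain ⟨Ck, hCk, hk⟩ := one_sub_pow_le k
  refine ⟨(3 + 5 * k + 4 * Ck) * M ^ 2, by positivity, ?_⟩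
  intro t α β ζ b ht htM hα hβ hζ0 hζM hb
  have hb2 : b ^ 2 = |b| ^ 2 := (sq_abs b).symm
  have hc2 : √(1 - b ^ 2) ^ 2 = 1 - |b| ^ 2 := by
    rw [Real.sq_sqrt, hb2]
    nlinarith [abs_nonneg b]
  have hc0 : 0 ≤ √(1 - b ^ 2) := Real.sqrt_nonneg _
  have hd0 : 0 ≤ |b| := abs_nonneg _
  generalize √(1 - b ^ 2) = c at hc2 hc0 ⊢
  rw [hb2]
  generalize |b| = d at hc2 hd0 hb ⊢
  have hDM := scalar_D_bound hα hβ hζ0 hζM hc0 hd0 hc2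
  have hQM := scalar_Q_bound hM hα hβ hζ0 hζM hc0 hd0 hc2
  have hXe : (1 - t * β) ^ 2 * d ^ 2 + ((1 - t * α) * c + d * (t * ζ)) ^ 2 =
      1 - 2 * t * (d ^ 2 * β + c ^ 2 * α - d * c * ζ) + t ^ 2 *
        (β ^ 2 * d ^ 2 + α ^ 2 * c ^ 2 - 2 * α * c * d * ζ + d ^ 2 * ζ ^ 2) := by
    linear_combination hc2
  have hX0 : 0 ≤ (1 - t * β) ^ 2 * d ^ 2 + ((1 - t * α) * c + d * (t * ζ)) ^ 2 := by positivity
  generalize (1 - t * β) ^ 2 * d ^ 2 + ((1 - t * α) * c + d * (t * ζ)) ^ 2 = X at hXe hX0 ⊢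
  have hDe : (k : ℝ) * β + d ^ 2 * β + (1 - d ^ 2) * α - d * c * ζ =
      k * β + (d ^ 2 * β + c ^ 2 * α - d * c * ζ) := by
    rw [hc2]; ring
  rw [hDe]
  generalize d ^ 2 * β + c ^ 2 * α - d * c * ζ = D at hDM hXe ⊢
  generalize β ^ 2 * d ^ 2 + α ^ 2 * c ^ 2 - 2 * α * c * d * ζ + d ^ 2 * ζ ^ 2 = Q at hQM hXe
  have hs : √X ≤ 1 - t * D + t ^ 2 * Q / 2 := by
    have h1 := Real.sq_sqrt hX0
    have h2 : 0 ≤ (√X - 1) ^ 2 := sq_nonneg _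
    have h3 : (√X - 1) ^ 2 = √X ^ 2 - 2 * √X + 1 := by ring
    rw [h3, h1] at h2
    linarith
  have hu : |t * β| ≤ 1 / 2 := by
    rw [abs_mul, abs_of_nonneg ht]
    exact (mul_le_mul_of_nonneg_left hβ ht).trans htM
  have hY0 : 0 ≤ 1 - t * D + t ^ 2 * Q / 2 := (Real.sqrt_nonneg X).trans hs
  have hp0 : 0 ≤ (1 - t * β) ^ k := pow_nonneg (by linarith [(abs_le.mp hu).2]) k
  exact ((mul_le_mul_of_nonneg_left hs hp0).trans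
    (mul_le_mul_of_nonneg_right (hk (t * β) hu) hY0)).trans
    (scalar_aux hM hCk ht htM hβ hDM hQM rfl hY0)

end Vale.Agent.P219.TP
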