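import Vale.Agent.P219.TP.Cutoff
import Vale.Agent.P219.TP.Scalar
import Vale.Agent.P219.TP.Diffeo
import Vale.Agent.P219.TP.Conv
import Vale.Agent.P219.TP.Liou

/-! # Total variation of a contracted function (task A9b) -/

open MeasureTheory Set Metric
open scoped ENNReal ContDiff

namespace Vale.Agent.P219.TP

variable {n : ℕ} (G : Geo n)

/-- The contracted function stays in the class. -/
theorem cls_contract {o p : E n} {ρ t : ℝ} (hp : ‖G.lg o p‖ ≤ ρ) {θ : E n → ℝ}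
    (hθ : ∀ x, ‖G.lg o x‖ ≤ ρ → 0 ≤ 1 - t * θ (G.lg p x) ∧ 1 - t * θ (G.lg p x) ≤ 1)
    {Ψ : E n ≃ₜ E n} (hΨ : ∀ x, Ψ x = G.rad θ p t x) (hΨ2 : ContDiff ℝ ∞ Ψ.symm) {h : E n → ℝ}
    (hh : G.Cls o ρ h) : G.Cls o ρ (h ∘ Ψ.symm) where
  smooth := hh.smooth.comp (hΨ2.of_le (by exact_mod_cast le_top))
  nonneg x := hh.nonneg _
  le_one x := hh.le_one _
  supp y hy := by
    have h1 : ‖G.lg o (Ψ.symm y)‖ ≤ ρ := hh.supp _ hy
    have h2 : Ψ (Ψ.symm y) = y := Ψ.apply_symm_apply y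
    rw [← h2, hΨ, Geo.rad]
    exact G.ball_convex hp h1 (hθ _ h1).1 (hθ _ h1).2

theorem Cls.hasCompactSupport {o : E n} {ρ : ℝ} {h : E n → ℝ} (hh : G.Cls o ρ h) :
    HasCompactSupport h :=
  HasCompactSupport.intro (G.isCompact_gball o ρ) fun x hx => by
    by_contra h1
    exact hx (hh.supp x h1)

theorem perc_norm_lg_le {o p x : E n} {ρ : ℝ} (hp : ‖G.lg o p‖ ≤ ρ) (hx : ‖G.lg o x‖ ≤ ρ) :
    ‖G.lg p x‖ ≤ 2 * ρ := by
  have h1 := G.lg_nonexp p x o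
  rw [G.norm_lg_comm x o] at h1
  have h2 : ‖G.lg p o‖ ≤ ρ := by rw [G.norm_lg_comm]; exact hp
  calc ‖G.lg p x‖ = ‖(G.lg p x - G.lg p o) + G.lg p o‖ := by rw [sub_add_cancel]
    _ ≤ ‖G.lg p x - G.lg p o‖ + ‖G.lg p o‖ := norm_add_le _ _
    _ ≤ 2 * ρ := by linarith

theorem perc_cos (u v : E n) : |inner ℝ u v / (‖u‖ * ‖v‖)| ≤ 1 :=
  abs_real_inner_div_norm_mul_norm_le_one u v

theorem perc_alg (φ d1 d2 Ri nv r a b m sa sb : ℝ) (hr : nv * Ri = r) :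
    m * (Ri * φ) + b ^ 2 * (Ri * φ) + (1 - b ^ 2) * (Ri * φ + Ri * (2 * r ^ 2 * d1 + r * a * d2)) -
      |b| * sb * (nv * (Ri * (Ri * |d2|) * sa)) =
    Ri * ((m + 1) * φ + (2 * r ^ 2 * d1 + r * a * d2) * (1 - b ^ 2) -
      r * |d2| * |b| * (sa * sb)) := by
  rw [← hr]
  ring

theorem perc_kap (hn : 2 ≤ n) {Φ : ℝ × ℝ → ℝ} {δ : ℝ} (hδ : 0 < δ)
    (hΦ : ContDiffOn ℝ ∞ Φ {p | -δ < p.1}) {R : ℝ} (hR : 0 < R) {ν v : E n} (hν : ‖ν‖ = 1)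
    (hv : v ≠ 0) (b : ℝ) :
    ((n - 2 : ℕ) : ℝ) * th Φ R ν v + b ^ 2 * th Φ R ν v +
      (1 - b ^ 2) * (th Φ R ν v + fderiv ℝ (th Φ R ν) v v) -
      |b| * √(1 - b ^ 2) * (‖v‖ * (R⁻¹ * (R⁻¹ * |fderiv ℝ Φ (‖v‖ ^ 2 / R ^ 2, inner ℝ v ν / R)
        (0, 1)|) * √(1 - (inner ℝ v ν / ‖v‖) ^ 2))) =
    R⁻¹ * kap (n - 1) Φ (‖v‖ / R) (inner ℝ v ν / ‖v‖) b := by
  have hvpos : 0 < ‖v‖ := norm_pos_iff.mpr hv
  have hcast : ((n - 1 : ℕ) : ℝ) = ((n - 2 : ℕ) : ℝ) + 1 := by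
    have : n - 1 = (n - 2) + 1 := by omega
    rw [this]
    push_cast
    ring
  have hra : ‖v‖ / R * (inner ℝ v ν / ‖v‖) = inner ℝ v ν / R := by
    field_simp
  have hr2 : (‖v‖ / R) ^ 2 = ‖v‖ ^ 2 / R ^ 2 := div_pow _ _ _
  have ha1 : |inner ℝ v ν / ‖v‖| ≤ 1 := by
    have := perc_cos v ν
    rwa [hν, mul_one] at this
  have hsq : √((1 - (inner ℝ v ν / ‖v‖) ^ 2) * (1 - b ^ 2)) =
      √(1 - (inner ℝ v ν / ‖v‖) ^ 2) * √(1 - b ^ 2) := by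
    refine Real.sqrt_mul ?_ _
    nlinarith [abs_le.mp ha1]
  obtain ⟨-, hrad, -⟩ := th_deriv hδ hΦ hR ν v
  rw [kap, hsq, hrad, th, hcast, hr2, hra, ← hr2, ← hra]
  exact perc_alg _ _ _ _ _ _ _ _ _ _ _ (by rw [div_eq_mul_inv])

/-- Pointwise estimate, uniform constants. -/
theorem area_pointwise (hn : 2 ≤ n) (o : E n) {ρ : ℝ} (hρ : 0 < ρ) {Φ : ℝ × ℝ → ℝ} {δ : ℝ}
    (hδ : 0 < δ) (hΦ : ContDiffOn ℝ ∞ Φ {p | -δ < p.1}) (hΦ0 : ∀ p : ℝ × ℝ, 0 ≤ p.1 → 0 ≤ Φ p)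
    {R₀ R₁ : ℝ} (hR₀ : 0 < R₀) :
    ∃ C t₀ : ℝ, 0 ≤ C ∧ 0 < t₀ ∧ ∀ (p ν x : E n) (R t : ℝ), ‖G.lg o p‖ ≤ ρ → ‖ν‖ = 1 →
      R₀ ≤ R → R ≤ R₁ → 0 ≤ t → t ≤ t₀ → ‖G.lg o x‖ ≤ ρ → x ≠ p → ∀ θ : E n → ℝ,
      (∀ v, ‖v‖ < 2 * ρ + 1 → θ v = th Φ R ν v) → ∀ N y : E n,
      (∀ ξ η, G.A (G.rad θ p t x) η = fderiv ℝ (G.rad θ p t) x (G.A x ξ) →
        inner ℝ y η = inner ℝ N ξ) →
      G.w (G.rad θ p t x) * |(fderiv ℝ (G.rad θ p t) x).det| * ‖y‖ ≤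
        G.w x * (‖N‖ - t * (R⁻¹ * kap (n - 1) Φ (‖G.lg p x‖ / R)
          (inner ℝ (G.lg p x) ν / ‖G.lg p x‖)
          (inner ℝ (G.lg x p) N / (‖G.lg x p‖ * ‖N‖)) * ‖N‖) + C * t ^ 2 * ‖N‖) := by
  obtain ⟨M, hM0, hM⟩ := th_bounds (n := n) hδ hΦ R₁ hR₀ (2 * ρ)
  obtain ⟨C, hC0, hC⟩ := scalar_exp (n - 2) hM0
  refine ⟨C, 1 / (2 * (M + 1)), hC0, by positivity, ?_⟩
  intro p ν x R t hp hν hR0 hR1 ht0 ht1 hx hxp θ hθ N y hy
  have hR : 0 < R := hR₀.trans_le hR0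
  set v := G.lg p x with hv
  have hv2 : ‖v‖ ≤ 2 * ρ := perc_norm_lg_le G hp hx
  have hvne : v ≠ 0 := by
    intro h0
    exact hxp ((G.lg_eq_zero).mp h0).symm
  have hvpos : 0 < ‖v‖ := norm_pos_iff.mpr hvne
  have hvlt : ‖v‖ < 2 * ρ + 1 := by linarith
  have hev : θ =ᶠ[nhds v] th Φ R ν := by
    have h1 : {u : E n | ‖u‖ < 2 * ρ + 1} ∈ nhds v :=
      (isOpen_lt continuous_norm continuous_const).mem_nhds hvlt
    filter_upwards [h1] with u hu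
    exact hθ u hu
  obtain ⟨hsm, hrad, htan⟩ := th_deriv hδ hΦ hR ν v
  have hθv : θ v = th Φ R ν v := hθ v hvlt
  have hfd : fderiv ℝ θ v = fderiv ℝ (th Φ R ν) v := hev.fderiv_eq
  have hdiff : DifferentiableAt ℝ θ v :=
    (hsm.differentiableAt (by simp)).congr_of_eventuallyEq hev
  obtain ⟨hb1, hb2, hb3⟩ := hM ν v R hν hR0 hR1 hv2
  have htM : t * M ≤ 1 / 2 := by
    have h1 : t * (2 * (M + 1)) ≤ 1 := by
      rwa [le_div_iff₀ (by positivity)] at ht1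
    nlinarith
  set P : ℝ × ℝ := (‖v‖ ^ 2 / R ^ 2, inner ℝ v ν / R) with hP
  set a : ℝ := inner ℝ v ν / ‖v‖ with ha
  set r : ℝ := ‖v‖ / R with hr
  have ha1 : |a| ≤ 1 := by
    have := perc_cos v ν
    rwa [hν, mul_one] at this
  have hr0 : 0 ≤ r := by positivity
  set τ : ℝ := R⁻¹ * (R⁻¹ * |fderiv ℝ Φ P (0, 1)|) * √(1 - a ^ 2) with hτ
  have hτ0 : 0 ≤ τ := by positivity
  have hsq1 : √(1 - a ^ 2) ≤ 1 := by
    refine Real.sqrt_le_one.mpr ?_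
    nlinarith [sq_nonneg a]
  set b : ℝ := inner ℝ (G.lg x p) N / (‖G.lg x p‖ * ‖N‖) with hb
  have hb1' : |b| ≤ 1 := perc_cos _ _
  have hζ : ‖v‖ * τ ≤ M := by
    calc ‖v‖ * τ = (‖v‖ * (R⁻¹ * (R⁻¹ * |fderiv ℝ Φ P (0, 1)|))) * √(1 - a ^ 2) := by
          rw [hτ]; ring
      _ ≤ (‖v‖ * (R⁻¹ * (R⁻¹ * |fderiv ℝ Φ P (0, 1)|))) * 1 := by gcongr
      _ ≤ M := by rw [mul_one]; exact hb3
  have hθ0 : 0 ≤ θ v := by
    rw [hθv, th]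
    exact mul_nonneg (inv_nonneg.mpr hR.le) (hΦ0 _ (by positivity))
  have hα' : |θ v + fderiv ℝ θ v v| ≤ M := by rw [hθv, hfd]; exact hb2
  have hβ' : |θ v| ≤ M := by rw [hθv]; exact hb1
  have hβ : 0 < 1 - t * θ v := by
    have := (abs_le.mp hβ').2
    nlinarith
  have hα : 0 < 1 - t * (θ v + fderiv ℝ θ v v) := by
    have := (abs_le.mp hα').2
    nlinarith
  have h1 := area_elem G hn (θ := θ) (p := p) (x := x) (t := t) (τ := τ) hxp hdiff ht0 hτ0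
    (fun z hz => by rw [← hv, hfd]; exact htan hν z hz) hθ0 hβ hα hy (b := b) hb
  rw [← hv] at h1
  refine h1.trans ?_
  have h2 := hC t (θ v + fderiv ℝ θ v v) (θ v) (‖v‖ * τ) b ht0 htM hα' hβ' (by positivity) hζ hb1'
  have hw := (G.w_pos x).le
  have hkey := perc_kap hn hδ hΦ hR hν hvne b
  rw [← hθv, ← hfd] at hkey
  rw [hkey] at h2
  have h3 : (1 - t * θ v) ^ (n - 2) * √((1 - t * θ v) ^ 2 * b ^ 2 +
      ((1 - t * (θ v + fderiv ℝ θ v v)) * √(1 - b ^ 2) + |b| * (t * (‖v‖ * τ))) ^ 2) * ‖N‖ ≤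
      (1 - t * (R⁻¹ * kap (n - 1) Φ r a b) + C * t ^ 2) * ‖N‖ := by
    gcongr
  rw [mul_assoc]
  refine mul_le_mul_of_nonneg_left (h3.trans (le_of_eq ?_)) hw
  ring

theorem perc_kap_cont (m : ℕ) {Φ : ℝ × ℝ → ℝ} {δ : ℝ} (hδ : 0 < δ)
    (hΦ : ContDiffOn ℝ ∞ Φ {p | -δ < p.1}) :
    Continuous fun q : ℝ × ℝ × ℝ => kap m Φ q.1 q.2.1 q.2.2 := by
  have hU : IsOpen {p : ℝ × ℝ | -δ < p.1} := isOpen_lt continuous_const continuous_fst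
  have hg : Continuous fun q : ℝ × ℝ × ℝ => (q.1 ^ 2, q.1 * q.2.1) := by fun_prop
  have hmem : ∀ q : ℝ × ℝ × ℝ, (q.1 ^ 2, q.1 * q.2.1) ∈ {p : ℝ × ℝ | -δ < p.1} := fun q => by
    show -δ < q.1 ^ 2
    nlinarith [sq_nonneg q.1]
  have h0 : Continuous fun q : ℝ × ℝ × ℝ => Φ (q.1 ^ 2, q.1 * q.2.1) :=
    hΦ.continuousOn.comp_continuous hg hmem
  have h1 : Continuous fun q : ℝ × ℝ × ℝ => fderiv ℝ Φ (q.1 ^ 2, q.1 * q.2.1) :=
    (hΦ.continuousOn_fderiv_of_isOpen hU (by simp)).comp_continuous hg hmem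
  have h2 : Continuous fun q : ℝ × ℝ × ℝ => fderiv ℝ Φ (q.1 ^ 2, q.1 * q.2.1) (1, 0) :=
    h1.clm_apply continuous_const
  have h3 : Continuous fun q : ℝ × ℝ × ℝ => fderiv ℝ Φ (q.1 ^ 2, q.1 * q.2.1) (0, 1) :=
    h1.clm_apply continuous_const
  have h4 : Continuous fun q : ℝ × ℝ × ℝ => 2 * q.1 ^ 2 := by fun_prop
  have h5 : Continuous fun q : ℝ × ℝ × ℝ => q.1 * q.2.1 := by fun_prop
  have h6 : Continuous fun q : ℝ × ℝ × ℝ => 1 - q.2.2 ^ 2 := by fun_prop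
  have h7 : Continuous fun q : ℝ × ℝ × ℝ => |q.2.2| := by fun_prop
  have h8 : Continuous fun q : ℝ × ℝ × ℝ => √((1 - q.2.1 ^ 2) * (1 - q.2.2 ^ 2)) := by fun_prop
  exact ((continuous_const.mul h0).add (((h4.mul h2).add (h5.mul h3)).mul h6)).sub
    (((continuous_fst.mul h3.abs).mul h7).mul h8)

theorem perc_D_zero {o : E n} {ρ : ℝ} {h : E n → ℝ} (hh : G.Cls o ρ h) {x : E n}
    (hx : ρ < ‖G.lg o x‖) : h =ᶠ[nhds x] fun _ => 0 := by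
  have hc : Continuous fun y => ‖G.lg o y‖ :=
    (G.lg_smooth.continuous.comp (continuous_const.prodMk continuous_id)).norm
  filter_upwards [(isOpen_lt continuous_const hc).mem_nhds hx] with y hy
  by_contra h1
  exact absurd (hh.supp y h1) (not_le.mpr hy)

theorem perc_D_of_eventually {h : E n → ℝ} {x : E n} (hx : h =ᶠ[nhds x] fun _ => 0) :
    G.D h x = 0 := by
  have h1 : fderiv ℝ h x = 0 := by
    rw [hx.fderiv_eq, fderiv_fun_const]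
    rfl
  rw [Geo.D, h1, ContinuousLinearMap.zero_comp, map_zero]

theorem perc_D_cont {h : E n → ℝ} (hh : ContDiff ℝ 1 h) : Continuous (G.D h) := by
  have h1 : Continuous fun x => (fderiv ℝ h x).comp (G.A x) :=
    (hh.continuous_fderiv (by simp)).clm_comp G.A_smooth.continuous
  exact (InnerProductSpace.toDual ℝ (E n)).symm.continuous.comp h1

theorem perc_D_integrable {o : E n} {ρ : ℝ} {h : E n → ℝ} (hh : G.Cls o ρ h) :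
    Integrable (fun x => ‖G.D h x‖) G.vol := by
  refine (perc_D_cont G hh.smooth).norm.integrable_of_hasCompactSupport ?_
  refine HasCompactSupport.intro (G.isCompact_gball o ρ) fun x hx => ?_
  rw [perc_D_of_eventually G (perc_D_zero G hh (not_le.mp hx)), norm_zero]

theorem perc_kap_integrable {Φ : ℝ × ℝ → ℝ} {δ : ℝ} (hδ : 0 < δ)
    (hΦ : ContDiffOn ℝ ∞ Φ {p | -δ < p.1}) {o p ν : E n} {ρ R : ℝ} (hp : ‖G.lg o p‖ ≤ ρ)
    (hν : ‖ν‖ = 1) (hR : 0 < R) {h : E n → ℝ} (hh : G.Cls o ρ h) :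
    Integrable (fun x => R⁻¹ * kap (n - 1) Φ (‖G.lg p x‖ / R)
          (inner ℝ (G.lg p x) ν / ‖G.lg p x‖) (G.ang h x p) * ‖G.D h x‖) G.vol := by
  have hκ := perc_kap_cont (n - 1) hδ hΦ
  obtain ⟨K, hK⟩ := ((isCompact_Icc (a := (0 : ℝ)) (b := 2 * ρ / R)).prod
    ((isCompact_Icc (a := (-1 : ℝ)) (b := 1)).prod
      (isCompact_Icc (a := (-1 : ℝ)) (b := 1)))).exists_bound_of_continuousOn hκ.continuousOn
  have hlg1 : Continuous fun x => G.lg p x :=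
    G.lg_smooth.continuous.comp (continuous_const.prodMk continuous_id)
  have hlg2 : Continuous fun x => G.lg x p :=
    G.lg_smooth.continuous.comp (continuous_id.prodMk continuous_const)
  have hD := perc_D_cont G hh.smooth
  have m1 : Measurable fun x => ‖G.lg p x‖ / R := (hlg1.norm.div_const R).measurable
  have m2 : Measurable fun x => inner ℝ (G.lg p x) ν / ‖G.lg p x‖ :=
    (hlg1.inner continuous_const).measurable.div hlg1.norm.measurable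
  have m3 : Measurable fun x => G.ang h x p :=
    (hlg2.inner hD).measurable.div (hlg2.norm.mul hD.norm).measurable
  have m4 : Measurable fun x => kap (n - 1) Φ (‖G.lg p x‖ / R)
      (inner ℝ (G.lg p x) ν / ‖G.lg p x‖) (G.ang h x p) :=
    hκ.measurable.comp (m1.prodMk (m2.prodMk m3))
  refine ((perc_D_integrable G hh).const_mul (R⁻¹ * K)).mono'
    ((m4.const_mul R⁻¹).mul hD.norm.measurable).aestronglyMeasurable
    (Filter.Eventually.of_forall fun x => ?_)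
  by_cases hB : ‖G.lg o x‖ ≤ ρ
  · rw [norm_mul, norm_mul, norm_norm, norm_inv, Real.norm_of_nonneg hR.le]
    have h1 : ‖G.lg p x‖ ≤ 2 * ρ := perc_norm_lg_le G hp hB
    have h2 : |inner ℝ (G.lg p x) ν / ‖G.lg p x‖| ≤ 1 := by
      have := perc_cos (G.lg p x) ν
      rwa [hν, mul_one] at this
    have h3 : |G.ang h x p| ≤ 1 := perc_cos _ _
    have h4 := hK (‖G.lg p x‖ / R, inner ℝ (G.lg p x) ν / ‖G.lg p x‖, G.ang h x p)
      ⟨⟨div_nonneg (norm_nonneg _) hR.le, div_le_div_of_nonneg_right h1 hR.le⟩,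
        ⟨(abs_le.mp h2).1, (abs_le.mp h2).2⟩,
        ⟨(abs_le.mp h3).1, (abs_le.mp h3).2⟩⟩
    gcongr
  · rw [perc_D_of_eventually G (perc_D_zero G hh (not_le.mp hB))]
    simp

theorem per_contract (hn : 2 ≤ n) (o : E n) {ρ : ℝ} (hρ : 0 < ρ) {Φ : ℝ × ℝ → ℝ} {δ : ℝ}
    (hδ : 0 < δ) (hΦ : ContDiffOn ℝ ∞ Φ {p | -δ < p.1}) (hΦ0 : ∀ p : ℝ × ℝ, 0 ≤ p.1 → 0 ≤ Φ p)
    {R₀ R₁ : ℝ} (hR₀ : 0 < R₀) :
    ∃ C t₀ : ℝ, 0 ≤ C ∧ 0 < t₀ ∧ ∀ (p ν : E n) (R t : ℝ) (h : E n → ℝ), ‖G.lg o p‖ ≤ ρ →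
      ‖ν‖ = 1 → R₀ ≤ R → R ≤ R₁ → 0 ≤ t → t ≤ t₀ → G.Cls o ρ h → ∀ θ : E n → ℝ,
      (∀ v, ‖v‖ < 2 * ρ + 1 → θ v = th Φ R ν v) → ∀ Ψ : E n ≃ₜ E n,
      (∀ x, Ψ x = G.rad θ p t x) → ContDiff ℝ ∞ Ψ → ContDiff ℝ ∞ Ψ.symm →
      G.per (h ∘ Ψ.symm) ≤ G.per h - t * (∫ x, R⁻¹ * kap (n - 1) Φ (‖G.lg p x‖ / R)
          (inner ℝ (G.lg p x) ν / ‖G.lg p x‖) (G.ang h x p) * ‖G.D h x‖ ∂G.vol) +
          C * t ^ 2 * G.per h := by
  obtain ⟨C, t₀, hC0, ht₀, hmain⟩ := area_pointwise G hn o hρ hδ hΦ hΦ0 (R₁ := R₁) hR₀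
  refine ⟨C, t₀, hC0, ht₀, ?_⟩
  intro p ν R t h hp hν hR0 hR1 ht0 ht1 hh θ hθ Ψ hΨ hΨ1 hΨ2
  have hR : 0 < R := hR₀.trans_le hR0
  have hfun : (Ψ : E n → E n) = G.rad θ p t := funext hΨ
  set k : E n → ℝ := fun x => R⁻¹ * kap (n - 1) Φ (‖G.lg p x‖ / R)
          (inner ℝ (G.lg p x) ν / ‖G.lg p x‖) (G.ang h x p) * ‖G.D h x‖ with hk
  have hkint : Integrable k G.vol := perc_kap_integrable G hδ hΦ hp hν hR hh
  have hDint := perc_D_integrable G hh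
  have hgint : Integrable (fun x => ‖G.D h x‖ - t * k x + C * t ^ 2 * ‖G.D h x‖) G.vol :=
    (hDint.sub (hkint.const_mul t)).add (hDint.const_mul _)
  have hae : ∀ᵐ x ∂G.vol, x ≠ p := by
    have hac : G.vol ≪ volume := withDensity_absolutelyContinuous _ _
    refine hac.ae_le ?_
    have : Nonempty (Fin n) := ⟨⟨0, by omega⟩⟩
    exact compl_mem_ae_iff.mpr (measure_singleton p)
  have hcmp : ∀ᵐ x ∂G.vol, ‖G.D (h ∘ Ψ.symm) (Ψ x)‖ *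
      (G.w (Ψ x) * |(fderiv ℝ Ψ x).det| / G.w x) ≤
        ‖G.D h x‖ - t * k x + C * t ^ 2 * ‖G.D h x‖ := by
    filter_upwards [hae] with x hx
    have hw := G.w_pos x
    by_cases hB : ‖G.lg o x‖ ≤ ρ
    · have h1 := hmain p ν x R t hp hν hR0 hR1 ht0 ht1 hB hx θ hθ (G.D h x)
        (G.D (h ∘ Ψ.symm) (Ψ x)) (fun ξ η hη => by
          refine D_comp_symm G hΨ1 hΨ2 hh.smooth x ξ η ?_
          rw [hfun]
          exact hη)
      rw [← hfun] at h1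
      have h2 : ‖G.D (h ∘ Ψ.symm) (Ψ x)‖ * (G.w (Ψ x) * |(fderiv ℝ Ψ x).det| / G.w x) =
          (G.w (Ψ x) * |(fderiv ℝ Ψ x).det| * ‖G.D (h ∘ Ψ.symm) (Ψ x)‖) / G.w x := by ring
      rw [h2, div_le_iff₀ hw, mul_comm _ (G.w x)]
      exact h1
    · have h1 := perc_D_zero G hh (not_le.mp hB)
      have h2 : (h ∘ Ψ.symm) =ᶠ[nhds (Ψ x)] fun _ => 0 := by
        have h3 : Filter.Tendsto Ψ.symm (nhds (Ψ x)) (nhds x) := by
          have h4 := Ψ.symm.continuous.tendsto (Ψ x)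
          rwa [Ψ.symm_apply_apply] at h4
        exact h3.eventually h1
      have h5 := perc_D_of_eventually G h1
      have h6 := perc_D_of_eventually G h2
      rw [hk]
      simp only [h5, h6, norm_zero, zero_mul, mul_zero, sub_zero, add_zero, le_refl]
  have e1 : G.per (h ∘ Ψ.symm) = ∫ x, ‖G.D (h ∘ Ψ.symm) (Ψ x)‖ *
      (G.w (Ψ x) * |(fderiv ℝ Ψ x).det| / G.w x) ∂G.vol :=
    integral_vol_comp G hΨ1 (fun y => ‖G.D (h ∘ Ψ.symm) y‖)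
  have e2 : ∫ x, (‖G.D h x‖ - t * k x + C * t ^ 2 * ‖G.D h x‖) ∂G.vol =
      G.per h - t * (∫ x, k x ∂G.vol) + C * t ^ 2 * G.per h := by
    have i1 : Integrable (fun x => ‖G.D h x‖ - t * k x) G.vol := hDint.sub (hkint.const_mul t)
    rw [integral_add i1 (hDint.const_mul _),
      integral_sub hDint (hkint.const_mul t), integral_const_mul, integral_const_mul]
    rfl
  rw [e1, ← e2]
  refine integral_mono_of_nonneg (Filter.Eventually.of_forall fun x => ?_) hgint hcmp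
  have hw := G.w_pos x
  have hw2 := G.w_pos (Ψ x)
  positivity

end Vale.Agent.P219.TP
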