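import Vale.Agent.P219.TP.Defs

/-! # One-dimensional inequality (task A2) -/

open MeasureTheory Set Metric
open scoped ENNReal ContDiff

namespace Vale.Agent.P219.TP

/-- `ofReal (∫ f) ≤ ∫⁻ ofReal f` without integrability or sign assumptions. -/
theorem lineIneq_ofReal_integral_le {α : Type*} {m : MeasurableSpace α} {μ : Measure α}
    (f : α → ℝ) : ENNReal.ofReal (∫ x, f x ∂μ) ≤ ∫⁻ x, ENNReal.ofReal (f x) ∂μ := by
  by_cases hf : Integrable f μ
  · have h1 : ∫ x, f x ∂μ ≤ ∫ x, max (f x) 0 ∂μ :=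
      integral_mono hf hf.pos_part fun x => le_max_left _ _
    refine (ENNReal.ofReal_le_ofReal h1).trans ?_
    rw [ofReal_integral_eq_lintegral_ofReal hf.pos_part
      (Filter.Eventually.of_forall fun x => le_max_right _ _)]
    exact le_of_eq (lintegral_congr fun x => by
      rcases le_total (f x) 0 with h | h
      · rw [max_eq_right h, ENNReal.ofReal_zero, ENNReal.ofReal_of_nonpos h]
      · rw [max_eq_left h])
  · rw [integral_undef hf]; simp

/-- a bounded measurable function times a continuous one is integrable on a bounded interval. -/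
theorem lineIneq_integrableOn {f a : ℝ → ℝ} {c p q : ℝ} (hf : Measurable f)
    (hfc : ∀ t, 0 ≤ f t ∧ f t ≤ c) (ha : Continuous a) :
    IntegrableOn (fun t => f t * a t) (Ioo p q) := by
  have h1 : IntegrableOn a (Ioo p q) :=
    (ha.continuousOn.integrableOn_Icc (a := p) (b := q)).mono_set Ioo_subset_Icc_self
  refine Integrable.bdd_mul (c := c) h1 hf.aestronglyMeasurable ?_
  refine Filter.Eventually.of_forall fun t => ?_
  rw [Real.norm_eq_abs, abs_of_nonneg (hfc t).1]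
  exact (hfc t).2

/-- The estimate on one box. -/
theorem lineIneq_box {a b : ℝ → ℝ} (ha : Continuous a) (hb : Continuous b)
    (ha0 : ∀ t, 0 ≤ a t) (hb0 : ∀ t, 0 ≤ b t) {p q r w : ℝ} {s c : ℝ} (hs : 0 ≤ s)
    {f₁ f₂ : ℝ → ℝ}
    (hf₁ : Measurable f₁) (hf₂ : Measurable f₂) (hf₁c : ∀ t, 0 ≤ f₁ t ∧ f₁ t ≤ c)
    (hf₂c : ∀ t, 0 ≤ f₂ t ∧ f₂ t ≤ c) (h1 : 1 ≤ ∫ t in Ioo p q, a t)
    (h2 : 1 ≤ ∫ t in Ioo r w, b t) :
    ENNReal.ofReal (s * (r - q)) ≤
      (∫⁻ σ in Ioo p q, ∫⁻ τ in Ioo r w,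
        ENNReal.ofReal (a σ * b τ * (s * (τ - σ) - (f₁ σ + f₂ τ) / 2))) +
      ENNReal.ofReal ((∫ t in Ioo p q, f₁ t * a t) / 2 + (∫ t in Ioo r w, f₂ t * b t) / 2) := by
  have ia : IntegrableOn a (Ioo p q) :=
    (ha.continuousOn.integrableOn_Icc (a := p) (b := q)).mono_set Ioo_subset_Icc_self
  have ib : IntegrableOn b (Ioo r w) :=
    (hb.continuousOn.integrableOn_Icc (a := r) (b := w)).mono_set Ioo_subset_Icc_self
  have ita : IntegrableOn (fun t => t * a t) (Ioo p q) :=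
    ((continuous_id.mul ha).continuousOn.integrableOn_Icc (a := p) (b := q)).mono_set
      Ioo_subset_Icc_self
  have itb : IntegrableOn (fun t => t * b t) (Ioo r w) :=
    ((continuous_id.mul hb).continuousOn.integrableOn_Icc (a := r) (b := w)).mono_set
      Ioo_subset_Icc_self
  have ifa := lineIneq_integrableOn (p := p) (q := q) hf₁ hf₁c ha
  have ifb := lineIneq_integrableOn (p := r) (q := w) hf₂ hf₂c hb
  set μ₁ := ∫ t in Ioo p q, a t with hμ₁
  set μ₂ := ∫ t in Ioo r w, b t with hμ₂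
  set F₁ := ∫ t in Ioo p q, f₁ t * a t with hF₁
  set F₂ := ∫ t in Ioo r w, f₂ t * b t with hF₂
  set m₁ := ∫ t in Ioo p q, t * a t with hm₁
  set m₂ := ∫ t in Ioo r w, t * b t with hm₂
  have hF₁0 : 0 ≤ F₁ := setIntegral_nonneg measurableSet_Ioo fun t _ =>
    mul_nonneg (hf₁c t).1 (ha0 t)
  have hF₂0 : 0 ≤ F₂ := setIntegral_nonneg measurableSet_Ioo fun t _ =>
    mul_nonneg (hf₂c t).1 (hb0 t)
  have hm₁le : m₁ ≤ q * μ₁ := by
    rw [hμ₁, ← integral_const_mul]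
    exact setIntegral_mono_on ita (ia.const_mul q) measurableSet_Ioo fun t ht =>
      mul_le_mul_of_nonneg_right ht.2.le (ha0 t)
  have hm₂ge : r * μ₂ ≤ m₂ := by
    rw [hμ₂, ← integral_const_mul]
    exact setIntegral_mono_on (ib.const_mul r) itb measurableSet_Ioo fun t ht =>
      mul_le_mul_of_nonneg_right ht.1.le (hb0 t)
  -- inner integral
  have hin : ∀ σ : ℝ, ∫ τ in Ioo r w, a σ * b τ * (s * (τ - σ) - (f₁ σ + f₂ τ) / 2)
      = s * m₂ * a σ - s * μ₂ * (σ * a σ) - μ₂ / 2 * (f₁ σ * a σ) - F₂ / 2 * a σ := by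
    intro σ
    have e : ∀ τ : ℝ, a σ * b τ * (s * (τ - σ) - (f₁ σ + f₂ τ) / 2)
        = (a σ * s) * (τ * b τ) - (a σ * s * σ + a σ * f₁ σ / 2) * b τ
          - (a σ / 2) * (f₂ τ * b τ) := by
      intro τ; ring
    have j1 : Integrable (fun τ => (a σ * s) * (τ * b τ)) (volume.restrict (Ioo r w)) :=
      itb.const_mul _
    have j2 : Integrable (fun τ => (a σ * s * σ + a σ * f₁ σ / 2) * b τ)
        (volume.restrict (Ioo r w)) := ib.const_mul _
    have j3 : Integrable (fun τ => (a σ / 2) * (f₂ τ * b τ)) (volume.restrict (Ioo r w)) :=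
      ifb.const_mul _
    have j12 : Integrable (fun τ => (a σ * s) * (τ * b τ)
        - (a σ * s * σ + a σ * f₁ σ / 2) * b τ) (volume.restrict (Ioo r w)) := j1.sub j2
    simp only [e]
    rw [integral_sub j12 j3, integral_sub j1 j2, integral_const_mul, integral_const_mul,
      integral_const_mul]
    rw [← hm₂, ← hμ₂, ← hF₂]
    ring
  have hout : ∫ σ in Ioo p q, ∫ τ in Ioo r w, a σ * b τ * (s * (τ - σ) - (f₁ σ + f₂ τ) / 2)
      = s * m₂ * μ₁ - s * μ₂ * m₁ - μ₂ / 2 * F₁ - F₂ / 2 * μ₁ := by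
    have j1 : Integrable (fun σ => s * m₂ * a σ) (volume.restrict (Ioo p q)) := ia.const_mul _
    have j2 : Integrable (fun σ => s * μ₂ * (σ * a σ)) (volume.restrict (Ioo p q)) :=
      ita.const_mul _
    have j3 : Integrable (fun σ => μ₂ / 2 * (f₁ σ * a σ)) (volume.restrict (Ioo p q)) :=
      ifa.const_mul _
    have j4 : Integrable (fun σ => F₂ / 2 * a σ) (volume.restrict (Ioo p q)) := ia.const_mul _
    have j12 : Integrable (fun σ => s * m₂ * a σ - s * μ₂ * (σ * a σ))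
        (volume.restrict (Ioo p q)) := j1.sub j2
    have j123 : Integrable (fun σ => s * m₂ * a σ - s * μ₂ * (σ * a σ) - μ₂ / 2 * (f₁ σ * a σ))
        (volume.restrict (Ioo p q)) := j12.sub j3
    simp only [hin]
    rw [integral_sub j123 j4, integral_sub j12 j3, integral_sub j1 j2, integral_const_mul,
      integral_const_mul, integral_const_mul, integral_const_mul]
  set I := s * m₂ * μ₁ - s * μ₂ * m₁ - μ₂ / 2 * F₁ - F₂ / 2 * μ₁ with hI
  have hIle : ENNReal.ofReal I ≤ ∫⁻ σ in Ioo p q, ∫⁻ τ in Ioo r w,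
      ENNReal.ofReal (a σ * b τ * (s * (τ - σ) - (f₁ σ + f₂ τ) / 2)) := by
    rw [← hout]
    exact (lineIneq_ofReal_integral_le _).trans
      (lintegral_mono fun σ => lineIneq_ofReal_integral_le _)
  -- real inequality
  have hreal : s * (r - q) ≤ max 0 I + (F₁ / 2 + F₂ / 2) := by
    have e1 : μ₁ * μ₂ * (s * (r - q)) - μ₂ / 2 * F₁ - F₂ / 2 * μ₁ ≤ I := by
      have a1 : s * μ₁ * (r * μ₂) ≤ s * μ₁ * m₂ :=
        mul_le_mul_of_nonneg_left hm₂ge (by positivity)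
      have a2 : s * μ₂ * m₁ ≤ s * μ₂ * (q * μ₁) :=
        mul_le_mul_of_nonneg_left hm₁le (by positivity)
      rw [hI]
      nlinarith
    have hpos : 0 < μ₁ * μ₂ := by positivity
    have hμμ : 1 ≤ μ₁ * μ₂ := by nlinarith
    have e2 : I ≤ μ₁ * μ₂ * max 0 I := by
      rcases le_total I 0 with h | h
      · rw [max_eq_left h]; simpa using h
      · rw [max_eq_right h]; nlinarith
    have e3 : μ₂ / 2 * F₁ ≤ μ₁ * μ₂ * (F₁ / 2) := by
      have : 0 ≤ μ₂ * F₁ := by positivity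
      nlinarith
    have e4 : F₂ / 2 * μ₁ ≤ μ₁ * μ₂ * (F₂ / 2) := by
      have : 0 ≤ μ₁ * F₂ := by positivity
      nlinarith
    have e5 : μ₁ * μ₂ * (s * (r - q)) ≤ μ₁ * μ₂ * (max 0 I + (F₁ / 2 + F₂ / 2)) := by
      linarith
    exact le_of_mul_le_mul_left e5 hpos
  calc ENNReal.ofReal (s * (r - q)) ≤ ENNReal.ofReal (max 0 I + (F₁ / 2 + F₂ / 2)) :=
        ENNReal.ofReal_le_ofReal hreal
    _ = ENNReal.ofReal (max 0 I) + ENNReal.ofReal (F₁ / 2 + F₂ / 2) :=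
        ENNReal.ofReal_add (le_max_left _ _) (by positivity)
    _ = ENNReal.ofReal I + ENNReal.ofReal (F₁ / 2 + F₂ / 2) := by
        congr 1
        rcases le_total I 0 with h | h
        · rw [max_eq_left h, ENNReal.ofReal_zero, ENNReal.ofReal_of_nonpos h]
        · rw [max_eq_right h]
    _ ≤ _ := by gcongr

/-- the points `σ₁, σ₂, β`. -/
theorem lineIneq_points {k : ℝ → ℝ} (hk : Continuous k) {A B : ℝ} (hA : k A = 0)
    (hB : k B = 0) (hex : ∃ t ∈ Icc A B, k t = 1) :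
    ∃ σ₁ σ₂ β : ℝ, A < σ₁ ∧ σ₁ ≤ σ₂ ∧ σ₂ < β ∧ β ≤ B ∧ k σ₁ = 1 ∧ k σ₂ = 1 ∧ k β = 0 ∧
      ∀ t ∈ Ioo A B, k t = 1 → t ∈ Icc σ₁ σ₂ ∨ t ∈ Ioo β B := by
  have c1 : IsCompact (Icc A B ∩ {t | k t = 1}) :=
    isCompact_Icc.inter_right (isClosed_eq hk continuous_const)
  obtain ⟨t₀, ht₀, hkt₀⟩ := hex
  obtain ⟨σ₁, ⟨⟨h1, h2⟩, h3⟩, h4⟩ := c1.exists_isLeast ⟨t₀, ht₀, hkt₀⟩
  have h3' : k σ₁ = 1 := h3
  have c2 : IsCompact (Icc σ₁ B ∩ {t | k t = 0}) :=
    isCompact_Icc.inter_right (isClosed_eq hk continuous_const)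
  obtain ⟨β, ⟨⟨h5, h6⟩, h7⟩, -⟩ := c2.exists_isLeast ⟨B, ⟨h2, le_rfl⟩, hB⟩
  have h7' : k β = 0 := h7
  have c3 : IsCompact (Icc σ₁ β ∩ {t | k t = 1}) :=
    isCompact_Icc.inter_right (isClosed_eq hk continuous_const)
  obtain ⟨σ₂, ⟨⟨h8, h9⟩, h10⟩, h11⟩ := c3.exists_isGreatest ⟨σ₁, ⟨le_rfl, h5⟩, h3⟩
  have h10' : k σ₂ = 1 := h10
  refine ⟨σ₁, σ₂, β, lt_of_le_of_ne h1 ?_, h8, lt_of_le_of_ne h9 ?_, h6, h3', h10', h7', ?_⟩
  · intro h; rw [← h, hA] at h3'; norm_num at h3'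
  · intro h; rw [h, h7'] at h10'; norm_num at h10'
  · intro t ht hkt
    have ht1 : σ₁ ≤ t := h4 ⟨⟨ht.1.le, ht.2.le⟩, hkt⟩
    rcases le_or_gt t β with h | h
    · exact Or.inl ⟨ht1, h11 ⟨⟨ht1, h⟩, hkt⟩⟩
    · exact Or.inr ⟨h, ht.2⟩

theorem lineIneq_ftc {k : ℝ → ℝ} (hk : ContDiff ℝ 1 k) {p q : ℝ} (hpq : p ≤ q) :
    ∫ t in Ioo p q, deriv k t = k q - k p := by
  rw [← integral_Ioc_eq_integral_Ioo, ← intervalIntegral.integral_of_le hpq]
  exact intervalIntegral.integral_deriv_eq_sub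
    (fun x _ => (hk.differentiable (by norm_num)) x)
    ((hk.continuous_deriv le_rfl).intervalIntegrable _ _)

theorem lineIneq_ind {k : ℝ → ℝ} (hk : ContDiff ℝ 1 k) {A₀ B : ℝ} (hB : k B = 0) {s c : ℝ}
    (hs : 0 ≤ s) {f₁ f₂ : ℝ → ℝ}
    (hf₁ : Measurable f₁) (hf₂ : Measurable f₂) (hf₁c : ∀ t, 0 ≤ f₁ t ∧ f₁ t ≤ c)
    (hf₂c : ∀ t, 0 ≤ f₂ t ∧ f₂ t ≤ c) {g : ℝ → ℝ → ℝ≥0∞}
    (hgk : ∀ σ τ, A₀ < σ → σ < τ → τ < B →
      ENNReal.ofReal (max 0 (deriv k σ) * max 0 (-deriv k τ) *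
        (s * (τ - σ) - (f₁ σ + f₂ τ) / 2)) ≤ g σ τ) {L : ℝ}
    (hL : ∀ t ∈ Icc A₀ B, ‖deriv k t‖ ≤ L) : ∀ n : ℕ, ∀ A, A₀ ≤ A → A ≤ B → k A = 0 →
      L * (B - A) ≤ n →
    ENNReal.ofReal (s * volume.real ({t | k t = 1} ∩ Ioo A B)) ≤
      (∫⁻ σ in Ioo A B, ∫⁻ τ in Ioo σ B, g σ τ) +
        ENNReal.ofReal ((∫ t in Ioo A B, f₁ t * max 0 (deriv k t)) / 2 +
          (∫ t in Ioo A B, f₂ t * max 0 (-deriv k t)) / 2) := by
  have hkc : Continuous k := hk.continuous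
  have hdc : Continuous (deriv k) := hk.continuous_deriv le_rfl
  have hac : Continuous fun t => max 0 (deriv k t) := continuous_const.max hdc
  have hbc : Continuous fun t => max 0 (-deriv k t) := continuous_const.max hdc.neg
  have key : ∀ A, A₀ ≤ A → A ≤ B → k A = 0 → (¬ ∃ t ∈ Icc A B, k t = 1) →
      ENNReal.ofReal (s * volume.real ({t | k t = 1} ∩ Ioo A B)) ≤
      (∫⁻ σ in Ioo A B, ∫⁻ τ in Ioo σ B, g σ τ) +
        ENNReal.ofReal ((∫ t in Ioo A B, f₁ t * max 0 (deriv k t)) / 2 +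
          (∫ t in Ioo A B, f₂ t * max 0 (-deriv k t)) / 2) := by
    intro A _ _ _ hne
    have he : {t | k t = 1} ∩ Ioo A B = ∅ := by
      rw [Set.eq_empty_iff_forall_notMem]
      rintro t ⟨h1, h2⟩
      exact hne ⟨t, ⟨h2.1.le, h2.2.le⟩, h1⟩
    rw [he]; simp
  -- distance
  have hdist : ∀ A σ, A₀ ≤ A → A ≤ σ → σ ≤ B → k A = 0 → k σ = 1 → 1 ≤ L * (σ - A) := by
    intro A σ h1 h2 h3 h4 h5
    have := Convex.norm_image_sub_le_of_norm_deriv_le (f := k) (C := L) (s := Icc A₀ B) (x := A)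
      (y := σ) (fun x _ => (hk.differentiable (by norm_num)) x) hL (convex_Icc _ _)
      ⟨h1, h2.trans h3⟩ ⟨h1.trans h2, h3⟩
    rw [h4, h5, Real.norm_eq_abs, Real.norm_eq_abs, abs_of_nonneg (sub_nonneg.mpr h2)] at this
    simpa using this
  intro n
  induction n with
  | zero =>
    intro A hA0 hAB hA hn
    apply key A hA0 hAB hA
    rintro ⟨t, ht, hkt⟩
    have h1 := hdist A t hA0 ht.1 ht.2 hA hkt
    have hL0 : 0 ≤ L := (norm_nonneg _).trans (hL A ⟨hA0, hAB⟩)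
    have h2 : L * (t - A) ≤ L * (B - A) := mul_le_mul_of_nonneg_left (by linarith [ht.2]) hL0
    norm_num at hn
    linarith
  | succ n ih =>
    intro A hA0 hAB hA hn
    by_cases hex : ∃ t ∈ Icc A B, k t = 1
    swap
    · exact key A hA0 hAB hA hex
    obtain ⟨σ₁, σ₂, β, hA1, h12, h2β, hβB, hk1, hk2, hkβ, hcov⟩ :=
      lineIneq_points hkc hA hB hex
    have hL0 : 0 ≤ L := (norm_nonneg _).trans (hL A ⟨hA0, hAB⟩)
    have hAβ : A < β := by linarith
    have hnβ : L * (B - β) ≤ n := by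
      have h1 := hdist A σ₁ hA0 hA1.le (by linarith) hA hk1
      have h2 : L * (σ₁ - A) ≤ L * (β - A) := mul_le_mul_of_nonneg_left (by linarith) hL0
      push_cast at hn
      nlinarith
    have hrec := ih β (by linarith) hβB hkβ hnβ
    -- the box
    have hmu1 : 1 ≤ ∫ t in Ioo A σ₁, max 0 (deriv k t) := by
      have e := lineIneq_ftc hk hA1.le
      rw [hk1, hA, sub_zero] at e
      rw [← e]
      exact setIntegral_mono_on
        ((hdc.continuousOn.integrableOn_Icc (a := A) (b := σ₁)).mono_set Ioo_subset_Icc_self)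
        ((hac.continuousOn.integrableOn_Icc (a := A) (b := σ₁)).mono_set Ioo_subset_Icc_self)
        measurableSet_Ioo fun t _ => le_max_right _ _
    have hmu2 : 1 ≤ ∫ t in Ioo σ₂ β, max 0 (-deriv k t) := by
      have e := lineIneq_ftc hk h2β.le
      rw [hk2, hkβ] at e
      have e2 : ∫ t in Ioo σ₂ β, -deriv k t = 1 := by
        rw [integral_neg, e]; norm_num
      rw [← e2]
      exact setIntegral_mono_on
        ((hdc.neg.continuousOn.integrableOn_Icc (a := σ₂) (b := β)).mono_set Ioo_subset_Icc_self)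
        ((hbc.continuousOn.integrableOn_Icc (a := σ₂) (b := β)).mono_set Ioo_subset_Icc_self)
        measurableSet_Ioo fun t _ => le_max_right _ _
    have hbox := lineIneq_box (p := A) (q := σ₁) (r := σ₂) (w := β) hac hbc
      (fun t => le_max_left _ _) (fun t => le_max_left _ _) hs hf₁ hf₂ hf₁c hf₂c hmu1 hmu2
    have hboxg : (∫⁻ σ in Ioo A σ₁, ∫⁻ τ in Ioo σ₂ β,
        ENNReal.ofReal (max 0 (deriv k σ) * max 0 (-deriv k τ) *
          (s * (τ - σ) - (f₁ σ + f₂ τ) / 2)))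
        ≤ ∫⁻ σ in Ioo A σ₁, ∫⁻ τ in Ioo σ B, g σ τ := by
      refine setLIntegral_mono' measurableSet_Ioo fun σ hσ => ?_
      have hsub : Ioo σ₂ β ⊆ Ioo σ B := fun τ hτ =>
        ⟨by linarith [hσ.2, hτ.1], by linarith [hτ.2]⟩
      refine le_trans (setLIntegral_mono' measurableSet_Ioo fun τ hτ => ?_)
        (lintegral_mono_set hsub)
      exact hgk σ τ (by linarith [hσ.1]) (hsub hτ).1 (hsub hτ).2
    -- the set
    have hset : volume.real ({t | k t = 1} ∩ Ioo A B)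
        ≤ (σ₂ - σ₁) + volume.real ({t | k t = 1} ∩ Ioo β B) := by
      have hsub : {t | k t = 1} ∩ Ioo A B ⊆ Icc σ₁ σ₂ ∪ ({t | k t = 1} ∩ Ioo β B) := by
        rintro t ⟨h1, h2⟩
        rcases hcov t h2 h1 with h | h
        · exact Or.inl h
        · exact Or.inr ⟨h1, h⟩
      have hfin : volume (Icc σ₁ σ₂ ∪ ({t | k t = 1} ∩ Ioo β B)) ≠ ⊤ := by
        refine ne_top_of_le_ne_top ?_ (measure_union_le _ _)
        refine ENNReal.add_ne_top.mpr ⟨by simp, ?_⟩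
        exact ne_top_of_le_ne_top (by simp) (measure_mono inter_subset_right)
      refine (measureReal_mono hsub hfin).trans ((measureReal_union_le _ _).trans ?_)
      rw [Real.volume_real_Icc_of_le h12]
    -- splitting of the right side
    have hsplit : (∫⁻ σ in Ioo A σ₁, ∫⁻ τ in Ioo σ B, g σ τ) +
        (∫⁻ σ in Ioo β B, ∫⁻ τ in Ioo σ B, g σ τ) ≤ ∫⁻ σ in Ioo A B, ∫⁻ τ in Ioo σ B, g σ τ := by
      rw [← lintegral_union measurableSet_Ioo]
      · refine lintegral_mono_set ?_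
        rintro t (h | h)
        · exact ⟨h.1, by linarith [h.2]⟩
        · exact ⟨by linarith [h.1], h.2⟩
      · rw [Set.disjoint_left]
        rintro t h1 h2
        linarith [h1.2, h2.1]
    have hi1 : ∀ p q, IntegrableOn (fun t => f₁ t * max 0 (deriv k t)) (Ioo p q) := fun p q =>
      lineIneq_integrableOn hf₁ hf₁c hac
    have hi2 : ∀ p q, IntegrableOn (fun t => f₂ t * max 0 (-deriv k t)) (Ioo p q) := fun p q =>
      lineIneq_integrableOn hf₂ hf₂c hbc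
    have hn1 : ∀ t, 0 ≤ f₁ t * max 0 (deriv k t) := fun t =>
      mul_nonneg (hf₁c t).1 (le_max_left _ _)
    have hn2 : ∀ t, 0 ≤ f₂ t * max 0 (-deriv k t) := fun t =>
      mul_nonneg (hf₂c t).1 (le_max_left _ _)
    have gen : ∀ (f : ℝ → ℝ) (x y z w : ℝ), A ≤ x → y ≤ z → w ≤ B →
        (∀ p q, IntegrableOn f (Ioo p q)) → (∀ t, 0 ≤ f t) → x ≤ y → z ≤ w →
        (∫ t in Ioo x y, f t) + ∫ t in Ioo z w, f t ≤ ∫ t in Ioo A B, f t := by
      intro f x y z w h1 h2 h3 h4 h5 h6 h7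
      rw [← setIntegral_union _ measurableSet_Ioo (h4 _ _) (h4 _ _)]
      · refine setIntegral_mono_set (h4 _ _) (Filter.Eventually.of_forall h5) ?_
        refine LE.le.eventuallyLE ?_
        rintro t (h | h)
        · exact ⟨by linarith [h.1], by linarith [h.2]⟩
        · exact ⟨by linarith [h.1], by linarith [h.2]⟩
      · rw [Set.disjoint_left]
        rintro t g1 g2
        linarith [g1.2, g2.1]
    have hF1 := gen _ A σ₁ β B le_rfl (by linarith) le_rfl hi1 hn1 hA1.le hβB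
    have hF2 := gen _ σ₂ β β B (by linarith) le_rfl le_rfl hi2 hn2 h2β.le hβB
    have p1 : 0 ≤ ∫ t in Ioo A σ₁, f₁ t * max 0 (deriv k t) :=
      setIntegral_nonneg measurableSet_Ioo fun t _ => hn1 t
    have p2 : 0 ≤ ∫ t in Ioo σ₂ β, f₂ t * max 0 (-deriv k t) :=
      setIntegral_nonneg measurableSet_Ioo fun t _ => hn2 t
    have p3 : 0 ≤ ∫ t in Ioo β B, f₁ t * max 0 (deriv k t) :=
      setIntegral_nonneg measurableSet_Ioo fun t _ => hn1 t
    have p4 : 0 ≤ ∫ t in Ioo β B, f₂ t * max 0 (-deriv k t) :=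
      setIntegral_nonneg measurableSet_Ioo fun t _ => hn2 t
    calc ENNReal.ofReal (s * volume.real ({t | k t = 1} ∩ Ioo A B))
        ≤ ENNReal.ofReal (s * (σ₂ - σ₁) + s * volume.real ({t | k t = 1} ∩ Ioo β B)) := by
          apply ENNReal.ofReal_le_ofReal
          rw [← mul_add]
          exact mul_le_mul_of_nonneg_left hset hs
      _ = ENNReal.ofReal (s * (σ₂ - σ₁))
          + ENNReal.ofReal (s * volume.real ({t | k t = 1} ∩ Ioo β B)) :=
          ENNReal.ofReal_add (mul_nonneg hs (by linarith)) (mul_nonneg hs measureReal_nonneg)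
      _ ≤ ((∫⁻ σ in Ioo A σ₁, ∫⁻ τ in Ioo σ B, g σ τ) +
            ENNReal.ofReal ((∫ t in Ioo A σ₁, f₁ t * max 0 (deriv k t)) / 2 +
              (∫ t in Ioo σ₂ β, f₂ t * max 0 (-deriv k t)) / 2)) +
          ((∫⁻ σ in Ioo β B, ∫⁻ τ in Ioo σ B, g σ τ) +
            ENNReal.ofReal ((∫ t in Ioo β B, f₁ t * max 0 (deriv k t)) / 2 +
              (∫ t in Ioo β B, f₂ t * max 0 (-deriv k t)) / 2)) :=
          add_le_add (hbox.trans (add_le_add hboxg le_rfl)) hrec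
      _ = ((∫⁻ σ in Ioo A σ₁, ∫⁻ τ in Ioo σ B, g σ τ) +
            (∫⁻ σ in Ioo β B, ∫⁻ τ in Ioo σ B, g σ τ)) +
          ENNReal.ofReal (((∫ t in Ioo A σ₁, f₁ t * max 0 (deriv k t)) / 2 +
              (∫ t in Ioo σ₂ β, f₂ t * max 0 (-deriv k t)) / 2) +
            ((∫ t in Ioo β B, f₁ t * max 0 (deriv k t)) / 2 +
              (∫ t in Ioo β B, f₂ t * max 0 (-deriv k t)) / 2)) := by
          have e := ENNReal.ofReal_add
            (add_nonneg (div_nonneg p1 zero_le_two) (div_nonneg p2 zero_le_two))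
            (add_nonneg (div_nonneg p3 zero_le_two) (div_nonneg p4 zero_le_two))
          rw [e]
          exact add_add_add_comm _ _ _ _
      _ ≤ _ := by
          refine add_le_add hsplit (ENNReal.ofReal_le_ofReal ?_)
          linarith

/-- The line inequality. `k = 0` at both ends of `[A,B]`. PROOF: induction on
`⌊L (B - A)⌋`, `L = sup |k'|`. If `k ≠ 1` on `[A,B]` the left side is `0`. Otherwise let `σ₁` be the
first point of `[A,B]` with `k = 1`, `β` the first zero of `k` after `σ₁`, `σ₂` the last point of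
`[σ₁,β]` with `k = 1`; `μ₁ = ∫_A^{σ₁} k'₊ ≥ 1`, `μ₂ = ∫_{σ₂}^β k'₋ ≥ 1`. On `(A,σ₁) × (σ₂,β)`
bound `g ≥ g/(μ₁ μ₂)` and integrate: get at least
`s (σ₂ - σ₁) - ½ ∫_A^{σ₁} f₁ k'₊ - ½ ∫_{σ₂}^β f₂ k'₋`. Then use the induction hypothesis on
`[β,B]`. -/
theorem line_ineq {k : ℝ → ℝ} (hk : ContDiff ℝ 1 k) (h01 : ∀ t, 0 ≤ k t ∧ k t ≤ 1) {A B : ℝ}
    (hAB : A ≤ B) (hA : k A = 0) (hB : k B = 0) {s c : ℝ} (hs : 0 ≤ s) {f₁ f₂ : ℝ → ℝ}
    (hf₁ : Measurable f₁) (hf₂ : Measurable f₂) (hf₁c : ∀ t, 0 ≤ f₁ t ∧ f₁ t ≤ c)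
    (hf₂c : ∀ t, 0 ≤ f₂ t ∧ f₂ t ≤ c) {g : ℝ → ℝ → ℝ≥0∞} (hg : Measurable (Function.uncurry g))
    (hgk : ∀ σ τ, A < σ → σ < τ → τ < B →
      ENNReal.ofReal (max 0 (deriv k σ) * max 0 (-deriv k τ) *
        (s * (τ - σ) - (f₁ σ + f₂ τ) / 2)) ≤ g σ τ) :
    ENNReal.ofReal (s * volume.real ({t | k t = 1} ∩ Ioo A B)) ≤
      (∫⁻ σ in Ioo A B, ∫⁻ τ in Ioo σ B, g σ τ) +
        ENNReal.ofReal ((∫ t in Ioo A B, f₁ t * max 0 (deriv k t)) / 2 +
          (∫ t in Ioo A B, f₂ t * max 0 (-deriv k t)) / 2) := by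
  obtain ⟨L, hL⟩ := isCompact_Icc.exists_bound_of_continuousOn
    (hk.continuous_deriv le_rfl).continuousOn (s := Icc A B)
  obtain ⟨n, hn⟩ := exists_nat_ge (L * (B - A))
  exact lineIneq_ind hk hB hs hf₁ hf₂ hf₁c hf₂c hgk hL n A le_rfl hAB hA hn

end Vale.Agent.P219.TP
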