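import Vale.Agent.P219.TP.RayDefs
import Vale.Agent.P219.TP.LineIneq
import Vale.Agent.P219.TP.Conv

/-! # The inequality on one geodesic, on a window `(0,T)` (task A4b) -/

open MeasureTheory Set Metric
open scoped ENNReal ContDiff

namespace Vale.Agent.P219.TP

variable {n : ℕ} (G : Geo n)

/-- Clipping to `[0,1]`. -/
noncomputable def clip (a : ℝ) : ℝ := min 1 (max 0 a)

theorem clip_mem (a : ℝ) : clip a ∈ Icc (0 : ℝ) 1 :=
  ⟨le_min zero_le_one (le_max_left _ _), min_le_left _ _⟩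

theorem clip_of_mem {a : ℝ} (h0 : 0 ≤ a) (h1 : a ≤ 1) : clip a = a := by
  unfold clip
  rw [max_eq_right h0, min_eq_right h1]

theorem continuous_clip : Continuous clip := by
  unfold clip
  fun_prop

/-- The logarithm along a geodesic. -/
theorem lg_along (x u : E n) (s t : ℝ) :
    G.lg (G.ex x (s • u)) (G.ex x (t • u)) = (t - s) • G.V s x u := by
  have h := G.ex_flow s (t - s) x u
  rw [add_sub_cancel] at h
  rw [← h, G.lg_ex]

/-- The part of a geodesic inside the support of `h` has bounded length. -/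
theorem exists_length {h : E n → ℝ} (hc : HasCompactSupport h) :
    ∃ L₀ : ℝ, 0 ≤ L₀ ∧ ∀ (x u : E n), ‖u‖ = 1 → ∀ s t, h (G.ex x (s • u)) ≠ 0 →
      h (G.ex x (t • u)) ≠ 0 → |s - t| ≤ L₀ := by
  have hK : IsCompact (tsupport h ×ˢ tsupport h) := hc.isCompact.prod hc.isCompact
  have hcont : Continuous fun z : E n × E n => ‖G.lg z.1 z.2‖ := G.lg_smooth.continuous.norm
  obtain ⟨C, hC⟩ := hK.exists_bound_of_continuousOn hcont.continuousOn
  refine ⟨max 0 C, le_max_left _ _, ?_⟩
  intro x u hu s t hs ht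
  have h1 := hC (G.ex x (s • u), G.ex x (t • u))
    ⟨subset_tsupport h hs, subset_tsupport h ht⟩
  rw [Real.norm_eq_abs, abs_of_nonneg (norm_nonneg _)] at h1
  simp only [lg_along, norm_smul, G.norm_V, hu, mul_one, Real.norm_eq_abs] at h1
  rw [abs_sub_comm]
  exact h1.trans (le_max_right _ _)

theorem ray_continuous_D {h : E n → ℝ} (hh : ContDiff ℝ 1 h) : Continuous (G.D h) := by
  unfold Geo.D
  refine (LinearIsometryEquiv.continuous _).comp ?_
  exact (hh.continuous_fderiv one_ne_zero).clm_comp G.A_smooth.continuous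

theorem continuous_geod (x u : E n) : Continuous fun t : ℝ => G.ex x (t • u) := by
  have h1 : Continuous fun z : E n × E n => G.ex z.1 z.2 := G.ex_smooth.continuous
  exact h1.comp (Continuous.prodMk continuous_const (continuous_id.smul continuous_const))

theorem ray_continuous_V (x u : E n) : Continuous fun t : ℝ => G.V t x u := by
  have h1 : Continuous fun z : ℝ × E n × E n => G.V z.1 z.2.1 z.2.2 := G.V_smooth.continuous
  exact h1.comp (Continuous.prodMk continuous_id
    (Continuous.prodMk continuous_const continuous_const))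

theorem measurable_ca {h : E n → ℝ} (hh : ContDiff ℝ 1 h) (x u : E n) :
    Measurable (G.ca h x u) := by
  unfold Geo.ca
  have h1 : Continuous fun t : ℝ => G.D h (G.ex x (t • u)) :=
    (ray_continuous_D G hh).comp (continuous_geod G x u)
  exact (h1.inner (ray_continuous_V G x u)).measurable.div h1.norm.measurable

theorem ray_abs_ca_le {h : E n → ℝ} {x u : E n} (hu : ‖u‖ = 1) (t : ℝ) :
    |G.ca h x u t| ≤ 1 := by
  unfold Geo.ca
  rw [abs_div, abs_of_nonneg (norm_nonneg (G.D h _))]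
  refine div_le_one_of_le₀ ?_ (norm_nonneg _)
  refine (abs_real_inner_le_norm _ _).trans ?_
  rw [G.norm_V, hu, mul_one]

theorem ca_mul {h : E n → ℝ} (x u : E n) (t : ℝ) :
    G.ca h x u t * ‖G.D h (G.ex x (t • u))‖ =
      inner ℝ (G.D h (G.ex x (t • u))) (G.V t x u) := by
  unfold Geo.ca
  by_cases h0 : G.D h (G.ex x (t • u)) = 0
  · rw [h0]
    simp
  · rw [div_mul_cancel₀]
    exact norm_ne_zero_iff.mpr h0

theorem deriv_geod {h : E n → ℝ} (hh : ContDiff ℝ 1 h) (x u : E n) (t : ℝ) :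
    deriv (fun s : ℝ => h (G.ex x (s • u))) t =
      G.ca h x u t * ‖G.D h (G.ex x (t • u))‖ := by
  rw [ca_mul]
  exact (G.hasDerivAt_geod hh x u t).deriv

theorem contDiff_geod {h : E n → ℝ} (hh : ContDiff ℝ 1 h) (x u : E n) :
    ContDiff ℝ 1 fun s : ℝ => h (G.ex x (s • u)) := by
  refine hh.comp ?_
  have h1 : ContDiff ℝ 1 fun z : E n × E n => G.ex z.1 z.2 := G.ex_smooth.of_le (by simp)
  exact h1.comp (contDiff_const.prodMk (contDiff_id.smul contDiff_const))

theorem ray_measurable_gk {h : E n → ℝ} (hh : ContDiff ℝ 1 h) {κ : ℝ → ℝ → ℝ → ℝ}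
    (hκm : Measurable fun z : ℝ × ℝ × ℝ => κ z.1 z.2.1 z.2.2) (x u : E n) :
    Measurable (Function.uncurry (G.gk κ h x u)) := by
  unfold Geo.gk Function.uncurry
  refine ENNReal.measurable_ofReal.comp ?_
  have hca := measurable_ca G hh x u
  have h1 : Continuous fun t : ℝ => G.D h (G.ex x (t • u)) :=
    (ray_continuous_D G hh).comp (continuous_geod G x u)
  have h2 : Measurable fun p : ℝ × ℝ => κ (p.2 - p.1) (G.ca h x u p.1) (-G.ca h x u p.2) := by
    exact hκm.comp ((measurable_snd.sub measurable_fst).prodMk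
      ((hca.comp measurable_fst).prodMk (hca.comp measurable_snd).neg))
  have h3 : Measurable fun p : ℝ × ℝ => ‖G.D h (G.ex x (p.1 • u))‖ *
      ‖G.D h (G.ex x (p.2 • u))‖ :=
    (h1.norm.measurable.comp measurable_fst).mul (h1.norm.measurable.comp measurable_snd)
  have h4 : Measurable fun p : ℝ × ℝ => (p.2 - p.1) ^ (n - 1) :=
    (measurable_snd.sub measurable_fst).pow_const _
  exact (h2.mul h3).mul h4

theorem ray_ineq (hn : 2 ≤ n) {h : E n → ℝ} (hh : ContDiff ℝ 1 h)
    (h01 : ∀ x, 0 ≤ h x ∧ h x ≤ 1) {κ : ℝ → ℝ → ℝ → ℝ}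
    (hκm : Measurable fun z : ℝ × ℝ × ℝ => κ z.1 z.2.1 z.2.2) {s : ℝ} {f : ℝ → ℝ}
    (hs : 0 ≤ s) (hf : Continuous f) (hf0 : ∀ a ∈ Icc (0 : ℝ) 1, 0 ≤ f a)
    (hκf : ∀ r a b, 0 < r → 0 ≤ a → a ≤ 1 → 0 ≤ b → b ≤ 1 →
      a * b * (s * r - (f a + f b) / 2) ≤ κ r a b * r ^ (n - 1)) {L₀ : ℝ}
    (hL₀ : ∀ (x u : E n), ‖u‖ = 1 → ∀ s t, h (G.ex x (s • u)) ≠ 0 →
      h (G.ex x (t • u)) ≠ 0 → |s - t| ≤ L₀) {x u : E n} (hu : ‖u‖ = 1) {T : ℝ} (hT : 0 ≤ T) :
    ENNReal.ofReal (s * volume.real ({t | h (G.ex x (t • u)) = 1} ∩ Ioo 0 T)) ≤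
      (∫⁻ σ in Ioo 0 T, ∫⁻ τ in Ioi σ, G.gk κ h x u σ τ) +
        ENNReal.ofReal ((∫ t in Ioo 0 T, f (clip (G.ca h x u t)) *
            max 0 (G.ca h x u t * ‖G.D h (G.ex x (t • u))‖)) / 2 +
          (∫ t in Ioo 0 T, f (clip (-G.ca h x u t)) *
            max 0 (-(G.ca h x u t) * ‖G.D h (G.ex x (t • u))‖)) / 2) +
        ENNReal.ofReal (s * L₀) * (({y | h y ≠ 0}.indicator 1 x : ℝ≥0∞) +
          {y | h y ≠ 0}.indicator 1 (G.ex x (T • u))) := by
  by_cases hcase : h (G.ex x ((0 : ℝ) • u)) = 0 ∧ h (G.ex x (T • u)) = 0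
  · -- both ends outside of the support
    obtain ⟨c, hc⟩ := (isCompact_Icc (a := (0 : ℝ)) (b := 1)).exists_bound_of_continuousOn
      hf.continuousOn
    have hfc : ∀ a : ℝ, 0 ≤ f (clip a) ∧ f (clip a) ≤ c := fun a =>
      ⟨hf0 _ (clip_mem a), (le_abs_self _).trans (hc _ (clip_mem a))⟩
    have hca := measurable_ca G hh x u
    have hm1 : Measurable fun t => f (clip (G.ca h x u t)) :=
      (hf.measurable.comp continuous_clip.measurable).comp hca
    have hm2 : Measurable fun t => f (clip (-G.ca h x u t)) :=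
      (hf.measurable.comp continuous_clip.measurable).comp hca.neg
    have key := line_ineq (contDiff_geod G hh x u) (fun t => h01 _) hT hcase.1 hcase.2 hs
      hm1 hm2 (fun t => hfc _) (fun t => hfc _) (ray_measurable_gk G hh hκm x u) ?_
    · refine key.trans ?_
      rw [add_assoc]
      refine add_le_add ?_ ?_
      · refine lintegral_mono fun σ => ?_
        exact lintegral_mono_set Ioo_subset_Ioi_self
      · refine le_trans ?_ (le_self_add)
        refine ENNReal.ofReal_le_ofReal (le_of_eq ?_)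
        simp only [deriv_geod G hh x u, neg_mul]
    · intro σ τ h0σ hστ hτT
      unfold Geo.gk
      rw [deriv_geod G hh x u σ, deriv_geod G hh x u τ]
      set a := G.ca h x u σ with ha
      set b := -G.ca h x u τ with hb
      have hbn : -(G.ca h x u τ * ‖G.D h (G.ex x (τ • u))‖) =
          b * ‖G.D h (G.ex x (τ • u))‖ := by rw [hb]; ring
      rw [hbn]
      set p := ‖G.D h (G.ex x (σ • u))‖ with hp
      set q := ‖G.D h (G.ex x (τ • u))‖ with hq
      have hp0 : 0 ≤ p := norm_nonneg _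
      have hq0 : 0 ≤ q := norm_nonneg _
      have ha1 : a ≤ 1 := (le_abs_self _).trans (ray_abs_ca_le G hu σ)
      have hb1 : b ≤ 1 := by
        refine (le_abs_self _).trans ?_
        rw [hb, abs_neg]
        exact ray_abs_ca_le G hu τ
      rcases le_total a 0 with ha0 | ha0
      · rw [max_eq_left (mul_nonpos_of_nonpos_of_nonneg ha0 hp0), zero_mul, zero_mul,
          ENNReal.ofReal_zero]
        exact zero_le
      rcases le_total b 0 with hb0 | hb0
      · rw [max_eq_left (mul_nonpos_of_nonpos_of_nonneg hb0 hq0), mul_zero, zero_mul,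
          ENNReal.ofReal_zero]
        exact zero_le
      refine ENNReal.ofReal_le_ofReal ?_
      rw [max_eq_right (mul_nonneg ha0 hp0), max_eq_right (mul_nonneg hb0 hq0),
        clip_of_mem ha0 ha1, clip_of_mem hb0 hb1]
      have h1 := hκf (τ - σ) a b (sub_pos.mpr hστ) ha0 ha1 hb0 hb1
      have h2 := mul_le_mul_of_nonneg_right h1 (mul_nonneg hp0 hq0)
      calc a * p * (b * q) * (s * (τ - σ) - (f a + f b) / 2)
          = a * b * (s * (τ - σ) - (f a + f b) / 2) * (p * q) := by ring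
        _ ≤ κ (τ - σ) a b * (τ - σ) ^ (n - 1) * (p * q) := h2
        _ = κ (τ - σ) a b * (p * q) * (τ - σ) ^ (n - 1) := by ring
  · -- one end inside of the support: crude bound
    have hone : (1 : ℝ≥0∞) ≤ (({y | h y ≠ 0}.indicator 1 x : ℝ≥0∞) +
          {y | h y ≠ 0}.indicator 1 (G.ex x (T • u))) := by
      by_cases h0 : h (G.ex x ((0 : ℝ) • u)) = 0
      · have hT0 : h (G.ex x (T • u)) ≠ 0 := fun h' => hcase ⟨h0, h'⟩
        refine le_trans ?_ le_add_self
        rw [indicator_of_mem (show G.ex x (T • u) ∈ {y | h y ≠ 0} from hT0)]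
        simp
      · rw [zero_smul, G.ex_zero] at h0
        refine le_trans ?_ le_self_add
        rw [indicator_of_mem (show x ∈ {y | h y ≠ 0} from h0)]
        simp
    have hL0 : 0 ≤ L₀ := by
      by_cases h0 : h (G.ex x ((0 : ℝ) • u)) = 0
      · have hT0 : h (G.ex x (T • u)) ≠ 0 := fun h' => hcase ⟨h0, h'⟩
        simpa using hL₀ x u hu T T hT0 hT0
      · simpa using hL₀ x u hu 0 0 h0 h0
    have hvol : volume.real ({t | h (G.ex x (t • u)) = 1} ∩ Ioo 0 T) ≤ L₀ := by
      have hd : Metric.ediam ({t | h (G.ex x (t • u)) = 1} ∩ Ioo 0 T) ≤ ENNReal.ofReal L₀ := by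
        refine Metric.ediam_le fun a ha b hb => ?_
        have h1 := hL₀ x u hu a b (by rw [ha.1]; exact one_ne_zero)
          (by rw [hb.1]; exact one_ne_zero)
        rw [edist_dist, Real.dist_eq]
        exact ENNReal.ofReal_le_ofReal h1
      have hv := (Real.volume_le_diam
        ({t | h (G.ex x (t • u)) = 1} ∩ Ioo 0 T)).trans hd
      exact ENNReal.toReal_le_of_le_ofReal hL0 hv
    calc ENNReal.ofReal (s * volume.real ({t | h (G.ex x (t • u)) = 1} ∩ Ioo 0 T))
        ≤ ENNReal.ofReal (s * L₀) := ENNReal.ofReal_le_ofReal (mul_le_mul_of_nonneg_left hvol hs)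
      _ = ENNReal.ofReal (s * L₀) * 1 := (mul_one _).symm
      _ ≤ ENNReal.ofReal (s * L₀) * (({y | h y ≠ 0}.indicator 1 x : ℝ≥0∞) +
          {y | h y ≠ 0}.indicator 1 (G.ex x (T • u))) := by gcongr
      _ ≤ _ := le_add_self

end Vale.Agent.P219.TP
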