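import Vale.Agent.P219.TP.PairGe
import Vale.Agent.P219.TP.RayIneq

/-! # The two-point inequality (task A4c) -/

open MeasureTheory Set Metric
open scoped ENNReal ContDiff

namespace Vale.Agent.P219.TP

variable {n : ℕ} (G : Geo n)

theorem tpi_continuous_D {h : E n → ℝ} (hh : ContDiff ℝ 1 h) : Continuous (G.D h) := by
  unfold Geo.D
  apply (InnerProductSpace.toDual ℝ (E n)).symm.continuous.comp
  exact (hh.continuous_fderiv one_ne_zero).clm_comp G.A_smooth.continuous

theorem tpi_ca_shift (h : E n → ℝ) (x u : E n) (t : ℝ) :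
    G.ca h (G.ex x (t • u)) (G.V t x u) 0 = G.ca h x u t := by
  unfold Geo.ca
  rw [zero_smul, G.ex_zero, G.V_zero]

theorem tpi_gk_shift (κ : ℝ → ℝ → ℝ → ℝ) (h : E n → ℝ) (x u : E n) (σ τ : ℝ) :
    G.gk κ h (G.ex x (σ • u)) (G.V σ x u) 0 (τ - σ) = G.gk κ h x u σ τ := by
  unfold Geo.gk
  rw [tpi_ca_shift]
  have h1 : G.ca h (G.ex x (σ • u)) (G.V σ x u) (τ - σ) = G.ca h x u τ := by
    unfold Geo.ca
    rw [G.ex_flow, G.V_flow, add_sub_cancel]
  rw [h1, zero_smul, G.ex_zero, G.ex_flow, add_sub_cancel, sub_zero]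

theorem tpi_setLIntegral_shift (F : ℝ → ℝ≥0∞) (σ : ℝ) :
    ∫⁻ τ in Ioi σ, F (τ - σ) = ∫⁻ t in Ioi (0 : ℝ), F t := by
  rw [← lintegral_indicator measurableSet_Ioi, ← lintegral_indicator measurableSet_Ioi,
    ← lintegral_sub_right_eq_self ((Ioi (0 : ℝ)).indicator F) σ]
  apply lintegral_congr
  intro τ
  by_cases hτ : σ < τ
  · rw [indicator_of_mem (by simpa using hτ), indicator_of_mem (by simpa using hτ)]
  · rw [indicator_of_notMem (by simpa using hτ), indicator_of_notMem (by simpa using hτ)]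

/-- Inner integral of the pair kernel. -/
noncomputable def tpiG (κ : ℝ → ℝ → ℝ → ℝ) (h : E n → ℝ) (z : E n × E n) : ℝ≥0∞ :=
  ∫⁻ t in Ioi (0 : ℝ), G.gk κ h z.1 z.2 0 t

theorem tpi_measurable_G {κ : ℝ → ℝ → ℝ → ℝ}
    (hκm : Measurable fun z : ℝ × ℝ × ℝ => κ z.1 z.2.1 z.2.2) {h : E n → ℝ}
    (hh : ContDiff ℝ 1 h) : Measurable (tpiG G κ h) := by
  unfold tpiG
  apply Measurable.lintegral_prod_right'
    (f := fun p : (E n × E n) × ℝ => G.gk κ h p.1.1 p.1.2 0 p.2)
  exact (measurable_gk G hκm hh).comp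
    (measurable_fst.prodMk (measurable_const.prodMk measurable_snd))

theorem tpi_gk_eq (κ : ℝ → ℝ → ℝ → ℝ) (h : E n → ℝ) (x u : E n) (σ : ℝ) :
    ∫⁻ τ in Ioi σ, G.gk κ h x u σ τ = tpiG G κ h (G.ex x (σ • u), G.V σ x u) := by
  unfold tpiG
  rw [← tpi_setLIntegral_shift _ σ]
  apply lintegral_congr
  intro τ
  rw [tpi_gk_shift]

theorem tpi_continuous_clip : Continuous clip := by
  unfold clip
  fun_prop

theorem tpi_measurable_ca0 {h : E n → ℝ} (hh : ContDiff ℝ 1 h) :
    Measurable fun z : E n × E n => G.ca h z.1 z.2 0 := by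
  have : (fun z : E n × E n => G.ca h z.1 z.2 0) =
      fun z => inner ℝ (G.D h z.1) z.2 / ‖G.D h z.1‖ := by
    funext z
    unfold Geo.ca
    rw [zero_smul, G.ex_zero, G.V_zero]
  rw [this]
  have hD := tpi_continuous_D G hh
  apply Measurable.div
  · exact ((hD.comp continuous_fst).inner continuous_snd).measurable
  · exact (hD.comp continuous_fst).norm.measurable

/-- The `f`-term on the unit sphere bundle. -/
noncomputable def tpiPhi (f : ℝ → ℝ) (h : E n → ℝ) (ε : ℝ) (z : E n × E n) : ℝ≥0∞ :=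
  ENNReal.ofReal (f (clip (ε * G.ca h z.1 z.2 0)) *
    max 0 (ε * G.ca h z.1 z.2 0 * ‖G.D h z.1‖))

theorem tpi_measurable_Phi {f : ℝ → ℝ} (hf : Continuous f) {h : E n → ℝ}
    (hh : ContDiff ℝ 1 h) (ε : ℝ) : Measurable (tpiPhi G f h ε) := by
  unfold tpiPhi
  have h1 := (tpi_measurable_ca0 G hh).const_mul ε
  have hD := ((tpi_continuous_D G hh).comp continuous_fst).norm.measurable (γ := ℝ)
    (α := E n × E n)
  apply Measurable.ennreal_ofReal
  apply Measurable.mul
  · exact (hf.comp tpi_continuous_clip).measurable.comp h1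
  · exact measurable_const.max (h1.mul hD)

theorem tpi_ofReal_integral_le {X : Type*} [MeasurableSpace X] {μ : Measure X} {g : X → ℝ}
    (hg : ∀ x, 0 ≤ g x) : ENNReal.ofReal (∫ x, g x ∂μ) ≤ ∫⁻ x, ENNReal.ofReal (g x) ∂μ := by
  by_cases hi : Integrable g μ
  · rw [ofReal_integral_eq_lintegral_ofReal hi (Filter.Eventually.of_forall hg)]
  · rw [integral_undef hi]; simp

theorem tpi_Phi_eq (f : ℝ → ℝ) (h : E n → ℝ) (ε : ℝ) (x u : E n) (t : ℝ) :
    tpiPhi G f h ε (G.ex x (t • u), G.V t x u) =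
      ENNReal.ofReal (f (clip (ε * G.ca h x u t)) *
        max 0 (ε * G.ca h x u t * ‖G.D h (G.ex x (t • u))‖)) := by
  unfold tpiPhi
  simp only [tpi_ca_shift]

theorem tpi_clip_mem (a : ℝ) : clip a ∈ Icc (0 : ℝ) 1 := by
  unfold clip
  exact ⟨le_min zero_le_one (le_max_left _ _), min_le_left _ _⟩

/-- The sphere measure. -/
noncomputable abbrev tpiS (n : ℕ) : Measure (sphere (0 : E n) 1) :=
  (volume : Measure (E n)).toSphere

/-- Integral over the unit sphere bundle. -/
noncomputable def tpiJ (F : E n × E n → ℝ≥0∞) : ℝ≥0∞ :=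
  ∫⁻ x, ∫⁻ u : sphere (0 : E n) 1, F (x, (u : E n)) ∂(tpiS n) ∂G.vol

/-- Integral over a window of a geodesic. -/
noncomputable def tpiW (F : E n × E n → ℝ≥0∞) (a b : ℝ) (z : E n × E n) : ℝ≥0∞ :=
  ∫⁻ r in Ioo a b, F (G.ex z.1 (r • z.2), G.V r z.1 z.2)

theorem tpi_measurable_flow : Measurable fun p : (E n × E n) × ℝ =>
    (G.ex p.1.1 (p.2 • p.1.2), G.V p.2 p.1.1 p.1.2) := by
  have h1 : Continuous fun p : (E n × E n) × ℝ => G.ex p.1.1 (p.2 • p.1.2) :=
    G.ex_smooth.continuous.comp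
      ((continuous_fst.comp continuous_fst).prodMk
        (continuous_snd.smul (continuous_snd.comp continuous_fst)))
  have h2 : Continuous fun p : (E n × E n) × ℝ => G.V p.2 p.1.1 p.1.2 :=
    G.V_smooth.continuous.comp
      (continuous_snd.prodMk ((continuous_fst.comp continuous_fst).prodMk
        (continuous_snd.comp continuous_fst)))
  exact (h1.prodMk h2).measurable

theorem tpi_measurable_W {F : E n × E n → ℝ≥0∞} (hF : Measurable F) (a b : ℝ) :
    Measurable (tpiW G F a b) := by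
  unfold tpiW
  apply Measurable.lintegral_prod_right'
    (f := fun p : (E n × E n) × ℝ => F (G.ex p.1.1 (p.2 • p.1.2), G.V p.2 p.1.1 p.1.2))
  exact hF.comp (tpi_measurable_flow G)

theorem tpi_meas_inner {F : E n × E n → ℝ≥0∞} (hF : Measurable F) (x : E n) :
    Measurable fun u : sphere (0 : E n) 1 => F (x, (u : E n)) :=
  hF.comp (measurable_const.prodMk measurable_subtype_coe)

theorem tpi_meas_outer {F : E n × E n → ℝ≥0∞} (hF : Measurable F) :
    Measurable fun x : E n => ∫⁻ u : sphere (0 : E n) 1, F (x, (u : E n)) ∂(tpiS n) := by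
  apply Measurable.lintegral_prod_right'
    (f := fun p : E n × sphere (0 : E n) 1 => F (p.1, (p.2 : E n)))
  exact hF.comp (measurable_fst.prodMk (measurable_subtype_coe.comp measurable_snd))

theorem tpiJ_add {F F' : E n × E n → ℝ≥0∞} (hF : Measurable F) :
    tpiJ G (fun z => F z + F' z) = tpiJ G F + tpiJ G F' := by
  unfold tpiJ
  rw [← lintegral_add_left (tpi_meas_outer hF)]
  apply lintegral_congr
  intro x
  rw [← lintegral_add_left (tpi_meas_inner hF x)]

theorem tpiJ_const_mul {F : E n × E n → ℝ≥0∞} (hF : Measurable F) (c : ℝ≥0∞) :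
    tpiJ G (fun z => c * F z) = c * tpiJ G F := by
  unfold tpiJ
  rw [← lintegral_const_mul c (tpi_meas_outer hF)]
  apply lintegral_congr
  intro x
  rw [← lintegral_const_mul c (tpi_meas_inner hF x)]

theorem tpiJ_mono {F F' : E n × E n → ℝ≥0∞}
    (h : ∀ x u : E n, ‖u‖ = 1 → F (x, u) ≤ F' (x, u)) : tpiJ G F ≤ tpiJ G F' := by
  unfold tpiJ
  apply lintegral_mono
  intro x
  apply lintegral_mono
  intro u
  exact h x u (by simp)

theorem tpiJ_W (hn : 1 ≤ n) {F : E n × E n → ℝ≥0∞} (hF : Measurable F) {a b : ℝ} (ha : 0 ≤ a)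
    (hab : a ≤ b) : tpiJ G (tpiW G F a b) = ENNReal.ofReal (b - a) * tpiJ G F :=
  G.flow_avg hn hF ha hab

theorem tpiJ_fst {F : E n → ℝ≥0∞} :
    tpiJ G (fun z => F z.1) = tpiS n univ * ∫⁻ x, F x ∂G.vol := by
  unfold tpiJ
  simp only [lintegral_const]
  rw [lintegral_mul_const' _ _ (measure_ne_top _ _), mul_comm]

theorem tpi_sig : ENNReal.ofReal (sig n) = tpiS n univ := by
  unfold sig
  exact ofReal_measureReal

theorem tpi_Phi_slice {h : E n → ℝ} {F : ℝ} {f : ℝ → ℝ}
    (hf : Continuous f) (hf0 : ∀ a ∈ Icc (0 : ℝ) 1, 0 ≤ f a)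
    (hF : ∀ e : E n, ‖e‖ = 1 →
      ∫ u : sphere (0 : E n) 1, f (max 0 (inner ℝ e (u : E n))) * max 0 (inner ℝ e (u : E n))
        ∂((volume : Measure (E n)).toSphere) ≤ F) {ε : ℝ} (hε : |ε| = 1) (x : E n) :
    ∫⁻ u : sphere (0 : E n) 1, tpiPhi G f h ε (x, (u : E n)) ∂(tpiS n) ≤
      ENNReal.ofReal (F * ‖G.D h x‖) := by
  by_cases hD : G.D h x = 0
  · have : ∀ u : E n, tpiPhi G f h ε (x, u) = 0 := by
      intro u
      unfold tpiPhi
      simp [hD]
    simp [this]
  · have hD' : 0 < ‖G.D h x‖ := norm_pos_iff.2 hD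
    set e : E n := (ε / ‖G.D h x‖) • G.D h x with he
    have hen : ‖e‖ = 1 := by
      rw [he, norm_smul, Real.norm_eq_abs, abs_div, hε, abs_of_pos hD']
      field_simp
    have hca : ∀ u : E n, ε * G.ca h x u 0 = inner ℝ e u := by
      intro u
      unfold Geo.ca
      rw [zero_smul, G.ex_zero, G.V_zero, he, real_inner_smul_left]
      ring
    have key : ∀ u : sphere (0 : E n) 1, tpiPhi G f h ε (x, (u : E n)) =
        ENNReal.ofReal (‖G.D h x‖ * (f (max 0 (inner ℝ e (u : E n))) *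
          max 0 (inner ℝ e (u : E n)))) := by
      intro u
      unfold tpiPhi
      rw [hca]
      have h1 : inner ℝ e (u : E n) ≤ 1 := by
        have := real_inner_le_norm e (u : E n)
        rw [hen] at this
        simpa using this
      have h2 : clip (inner ℝ e (u : E n)) = max 0 (inner ℝ e (u : E n)) := by
        unfold clip
        exact min_eq_right (max_le zero_le_one h1)
      have h3 : max 0 (inner ℝ e (u : E n) * ‖G.D h x‖) =
          max 0 (inner ℝ e (u : E n)) * ‖G.D h x‖ := by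
        rw [max_mul_of_nonneg _ _ hD'.le, zero_mul]
      simp only [h2, h3]
      congr 1
      ring
    simp only [key]
    have hint : Integrable (fun u : sphere (0 : E n) 1 =>
        f (max 0 (inner ℝ e (u : E n))) * max 0 (inner ℝ e (u : E n))) (tpiS n) := by
      apply Continuous.integrable_of_hasCompactSupport
      · have h1 : Continuous fun u : sphere (0 : E n) 1 => max 0 (inner ℝ e (u : E n)) :=
          continuous_const.max (continuous_const.inner continuous_subtype_val)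
        exact (hf.comp h1).mul h1
      · exact HasCompactSupport.of_compactSpace _
    have hnn : ∀ u : sphere (0 : E n) 1,
        0 ≤ f (max 0 (inner ℝ e (u : E n))) * max 0 (inner ℝ e (u : E n)) := by
      intro u
      have h1 : inner ℝ e (u : E n) ≤ 1 := by
        have := real_inner_le_norm e (u : E n)
        rw [hen] at this
        simpa using this
      exact mul_nonneg (hf0 _ ⟨le_max_left _ _, max_le zero_le_one h1⟩) (le_max_left _ _)
    rw [← ofReal_integral_eq_lintegral_ofReal (hint.const_mul _)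
      (Filter.Eventually.of_forall fun u => mul_nonneg hD'.le (hnn u)), integral_const_mul]
    apply ENNReal.ofReal_le_ofReal
    rw [mul_comm F]
    exact mul_le_mul_of_nonneg_left (hF e hen) hD'.le

theorem tpi_integrable_D {h : E n → ℝ} (hh : ContDiff ℝ 1 h) (hc : HasCompactSupport h) :
    Integrable (fun x => ‖G.D h x‖) G.vol := by
  apply Continuous.integrable_of_hasCompactSupport (tpi_continuous_D G hh).norm
  apply HasCompactSupport.norm
  apply HasCompactSupport.of_support_subset_isCompact (hc.fderiv (𝕜 := ℝ))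
  intro x hx
  rw [Function.mem_support] at hx
  by_contra hx'
  apply hx
  unfold Geo.D
  rw [image_eq_zero_of_notMem_tsupport hx']
  simp

theorem tpi_J_Phi {h : E n → ℝ} (hh : ContDiff ℝ 1 h) (hc : HasCompactSupport h)
    {F : ℝ} (hF0 : 0 ≤ F) {f : ℝ → ℝ}
    (hf : Continuous f) (hf0 : ∀ a ∈ Icc (0 : ℝ) 1, 0 ≤ f a)
    (hF : ∀ e : E n, ‖e‖ = 1 →
      ∫ u : sphere (0 : E n) 1, f (max 0 (inner ℝ e (u : E n))) * max 0 (inner ℝ e (u : E n))
        ∂((volume : Measure (E n)).toSphere) ≤ F) {ε : ℝ} (hε : |ε| = 1) :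
    tpiJ G (tpiPhi G f h ε) ≤ ENNReal.ofReal (F * G.per h) := by
  have h1 : tpiJ G (tpiPhi G f h ε) ≤ ∫⁻ x, ENNReal.ofReal (F * ‖G.D h x‖) ∂G.vol := by
    unfold tpiJ
    exact lintegral_mono fun x => tpi_Phi_slice G hf hf0 hF hε x
  refine h1.trans (le_of_eq ?_)
  rw [← ofReal_integral_eq_lintegral_ofReal ((tpi_integrable_D G hh hc).const_mul F)
    (Filter.Eventually.of_forall fun x => mul_nonneg hF0 (norm_nonneg _)), integral_const_mul]
  rfl

theorem tpi_ofReal_half (a : ℝ) : ENNReal.ofReal (a / 2) = 2⁻¹ * ENNReal.ofReal a := by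
  rw [ENNReal.ofReal_div_of_pos two_pos, ENNReal.ofReal_ofNat, ENNReal.div_eq_inv_mul]

theorem tpi_window (hn : 2 ≤ n) {h : E n → ℝ} (hh : ContDiff ℝ 1 h)
    (h01 : ∀ x, 0 ≤ h x ∧ h x ≤ 1) {κ : ℝ → ℝ → ℝ → ℝ}
    (hκm : Measurable fun z : ℝ × ℝ × ℝ => κ z.1 z.2.1 z.2.2) {s : ℝ} {f : ℝ → ℝ}
    (hs : 0 ≤ s) (hf : Continuous f) (hf0 : ∀ a ∈ Icc (0 : ℝ) 1, 0 ≤ f a)
    (hκf : ∀ r a b, 0 < r → 0 ≤ a → a ≤ 1 → 0 ≤ b → b ≤ 1 →
      a * b * (s * r - (f a + f b) / 2) ≤ κ r a b * r ^ (n - 1)) {L₀ : ℝ}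
    (hL₀ : ∀ (x u : E n), ‖u‖ = 1 → ∀ s t, h (G.ex x (s • u)) ≠ 0 →
      h (G.ex x (t • u)) ≠ 0 → |s - t| ≤ L₀) {T : ℝ} (hT : 0 ≤ T)
    (x u : E n) (hu : ‖u‖ = 1) :
    ENNReal.ofReal s * tpiW G (fun z => {y | h y = 1}.indicator 1 z.1) 0 T (x, u) ≤
      tpiW G (tpiG G κ h) 0 T (x, u) +
      (2⁻¹ * tpiW G (tpiPhi G f h 1) 0 T (x, u) +
        2⁻¹ * tpiW G (tpiPhi G f h (-1)) 0 T (x, u)) +
      ENNReal.ofReal (s * L₀) * (({y | h y ≠ 0}.indicator 1 x : ℝ≥0∞) +
        {y | h y ≠ 0}.indicator 1 (G.ex x (T • u))) := by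
  have hcont : Continuous fun t : ℝ => h (G.ex x (t • u)) :=
    hh.continuous.comp (G.ex_smooth.continuous.comp
      (continuous_const.prodMk (continuous_id.smul continuous_const)))
  have hA : MeasurableSet {t : ℝ | h (G.ex x (t • u)) = 1} :=
    (isClosed_singleton.preimage hcont).measurableSet
  have hlhs : ENNReal.ofReal s * tpiW G (fun z => {y | h y = 1}.indicator 1 z.1) 0 T (x, u) =
      ENNReal.ofReal (s * volume.real ({t | h (G.ex x (t • u)) = 1} ∩ Ioo 0 T)) := by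
    rw [ENNReal.ofReal_mul hs]
    congr 1
    have h1 : tpiW G (fun z => {y | h y = 1}.indicator 1 z.1) 0 T (x, u) =
        ∫⁻ t in Ioo 0 T, {t : ℝ | h (G.ex x (t • u)) = 1}.indicator 1 t := by
      unfold tpiW
      apply lintegral_congr
      intro t
      simp only [indicator_apply, Pi.one_apply]
      rfl
    have hfin : volume ({t : ℝ | h (G.ex x (t • u)) = 1} ∩ Ioo 0 T) ≠ ⊤ := by
      refine ne_top_of_le_ne_top ?_ (measure_mono inter_subset_right)
      simp
    rw [h1, lintegral_indicator_one hA, Measure.restrict_apply hA, ofReal_measureReal hfin]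
  rw [hlhs]
  refine (ray_ineq G hn hh h01 hκm hs hf hf0 hκf hL₀ hu hT).trans ?_
  gcongr ?_ + ?_ + _
  · unfold tpiW
    apply le_of_eq
    apply lintegral_congr
    intro σ
    exact tpi_gk_eq G κ h x u σ
  · refine ENNReal.ofReal_add_le.trans ?_
    rw [tpi_ofReal_half, tpi_ofReal_half]
    gcongr
    · refine (tpi_ofReal_integral_le ?_).trans (le_of_eq ?_)
      · intro t
        exact mul_nonneg (hf0 _ (tpi_clip_mem _)) (le_max_left _ _)
      · unfold tpiW
        apply lintegral_congr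
        intro t
        rw [tpi_Phi_eq, one_mul]
    · refine (tpi_ofReal_integral_le ?_).trans (le_of_eq ?_)
      · intro t
        exact mul_nonneg (hf0 _ (tpi_clip_mem _)) (le_max_left _ _)
      · unfold tpiW
        apply lintegral_congr
        intro t
        rw [tpi_Phi_eq, neg_one_mul]

theorem tpiJ_swap_aux {K : (E n × E n) × ℝ → ℝ≥0∞} (hK : Measurable K) :
    Measurable fun p : E n × ℝ => ∫⁻ u : sphere (0 : E n) 1, K ((p.1, (u : E n)), p.2)
      ∂(tpiS n) := by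
  apply Measurable.lintegral_prod_right'
    (f := fun p : (E n × ℝ) × sphere (0 : E n) 1 => K ((p.1.1, (p.2 : E n)), p.1.2))
  exact hK.comp (((measurable_fst.comp measurable_fst).prodMk
    (measurable_subtype_coe.comp measurable_snd)).prodMk (measurable_snd.comp measurable_fst))

theorem tpiJ_swap {K : (E n × E n) × ℝ → ℝ≥0∞} (hK : Measurable K) (S : Set ℝ) :
    tpiJ G (fun z => ∫⁻ r in S, K (z, r)) = ∫⁻ r in S, tpiJ G (fun z => K (z, r)) := by
  unfold tpiJ
  have h1 : ∀ x : E n, ∫⁻ u : sphere (0 : E n) 1, ∫⁻ r in S, K ((x, (u : E n)), r) ∂volume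
      ∂(tpiS n) =
      ∫⁻ r in S, ∫⁻ u : sphere (0 : E n) 1, K ((x, (u : E n)), r) ∂(tpiS n) ∂volume := by
    intro x
    apply lintegral_lintegral_swap
    apply Measurable.aemeasurable
    exact hK.comp ((measurable_const.prodMk
      (measurable_subtype_coe.comp measurable_fst)).prodMk measurable_snd)
  simp only [h1]
  apply lintegral_lintegral_swap
  exact (tpiJ_swap_aux hK).aemeasurable

theorem tpiJ_meas {K : (E n × E n) × ℝ → ℝ≥0∞} (hK : Measurable K) :
    Measurable fun r : ℝ => tpiJ G (fun z => K (z, r)) := by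
  unfold tpiJ
  apply Measurable.lintegral_prod_right'
    (f := fun p : ℝ × E n => ∫⁻ u : sphere (0 : E n) 1, K ((p.2, (u : E n)), p.1) ∂(tpiS n))
  exact (tpiJ_swap_aux hK).comp measurable_swap

/-- For every `N` there is a time `T ∈ (N, 2N)` at which the average does not exceed the
initial one. -/
theorem tpi_exists_time (hn : 1 ≤ n) {F : E n → ℝ≥0∞} (hF : Measurable F)
    {N : ℝ} (hN : 0 < N) :
    ∃ T ∈ Ioo N (2 * N), tpiJ G (fun z => F (G.ex z.1 (T • z.2))) ≤ tpiJ G (fun z => F z.1) := by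
  have hK : Measurable fun p : (E n × E n) × ℝ => F (G.ex p.1.1 (p.2 • p.1.2)) :=
    hF.comp (measurable_fst.comp (tpi_measurable_flow G))
  obtain ⟨T, hT, hT'⟩ := exists_le_setLAverage (μ := volume) (s := Ioo N (2 * N))
    (f := fun r : ℝ => tpiJ G (fun z => F (G.ex z.1 (r • z.2))))
    (by rw [Real.volume_Ioo]; simp; linarith) (by rw [Real.volume_Ioo]; simp)
    (tpiJ_meas G hK).aemeasurable
  refine ⟨T, hT, hT'.trans (le_of_eq ?_)⟩
  rw [setLAverage_eq, ← tpiJ_swap G hK (Ioo N (2 * N))]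
  have h2 := tpiJ_W G hn (F := fun z => F z.1) (hF.comp measurable_fst) hN.le
    (show N ≤ 2 * N by linarith)
  have h3 : tpiJ G (fun z => ∫⁻ r in Ioo N (2 * N), F (G.ex z.1 (r • z.2))) =
      ENNReal.ofReal (2 * N - N) * tpiJ G (fun z => F z.1) := h2
  rw [h3, Real.volume_Ioo]
  have hN' : ENNReal.ofReal (2 * N - N) ≠ 0 := by
    simp; linarith
  rw [mul_comm, ENNReal.mul_div_cancel_right hN' ENNReal.ofReal_ne_top]

theorem tpi_meas_ind_lt_top {h : E n → ℝ} (hc : HasCompactSupport h) {A : Set (E n)}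
    (hA : ∀ x ∈ A, h x ≠ 0) : G.vol A < ⊤ := by
  refine (measure_mono ?_).trans_lt hc.isCompact.measure_lt_top
  intro x hx
  exact subset_tsupport h (hA x hx)

theorem tpi_real_limit {a b c : ℝ} (h : ∀ N > 0, ∃ T > N, T * a ≤ T * b + c) : a ≤ b := by
  by_contra hab
  push Not at hab
  have hd : 0 < a - b := sub_pos.2 hab
  obtain ⟨T, hT, hT'⟩ := h (|c| / (a - b) + 1) (by positivity)
  have h1 : |c| / (a - b) < T := by linarith
  rw [div_lt_iff₀ hd] at h1
  have := le_abs_self c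
  nlinarith

theorem tpi_pairInt_nonneg (h : E n → ℝ) {κ : ℝ → ℝ → ℝ → ℝ}
    (hκ0 : ∀ r a b, 0 ≤ r → |a| ≤ 1 → |b| ≤ 1 → 0 ≤ κ r a b) : 0 ≤ G.pairInt κ h := by
  unfold Geo.pairInt
  apply integral_nonneg
  intro z
  exact mul_nonneg (hκ0 _ _ _ (norm_nonneg _) (abs_ang_le G h _ _) (abs_ang_le G h _ _))
    (mul_nonneg (norm_nonneg _) (norm_nonneg _))

/-- The two-point inequality. -/
theorem two_point (hn : 2 ≤ n) {h : E n → ℝ} (hh : ContDiff ℝ 1 h) (hc : HasCompactSupport h)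
    (h01 : ∀ x, 0 ≤ h x ∧ h x ≤ 1) {κ : ℝ → ℝ → ℝ → ℝ}
    (hκm : Measurable fun z : ℝ × ℝ × ℝ => κ z.1 z.2.1 z.2.2)
    (hκb : ∀ L, ∃ C, ∀ r a b, 0 ≤ r → r ≤ L → |a| ≤ 1 → |b| ≤ 1 → κ r a b ≤ C)
    (hκ0 : ∀ r a b, 0 ≤ r → |a| ≤ 1 → |b| ≤ 1 → 0 ≤ κ r a b) {s F : ℝ} {f : ℝ → ℝ}
    (hs : 0 ≤ s) (hf : Continuous f) (hf0 : ∀ a ∈ Icc (0 : ℝ) 1, 0 ≤ f a)
    (hκf : ∀ r a b, 0 < r → 0 ≤ a → a ≤ 1 → 0 ≤ b → b ≤ 1 →
      a * b * (s * r - (f a + f b) / 2) ≤ κ r a b * r ^ (n - 1))
    (hF : ∀ e : E n, ‖e‖ = 1 →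
      ∫ u : sphere (0 : E n) 1, f (max 0 (inner ℝ e (u : E n))) * max 0 (inner ℝ e (u : E n))
        ∂((volume : Measure (E n)).toSphere) ≤ F) :
    s * sig n * G.vol.real {x | h x = 1} - F * G.per h ≤ G.pairInt κ h := by
  have hn1 : 1 ≤ n := by omega
  obtain ⟨L₀, hL₀, hlen⟩ := exists_length G hc
  -- `F ≥ 0`
  have hF0 : 0 ≤ F := by
    have he : ‖(EuclideanSpace.single (⟨0, by omega⟩ : Fin n) (1 : ℝ) : E n)‖ = 1 := by simp
    refine le_trans ?_ (hF _ he)
    apply integral_nonneg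
    intro u
    have h1 : inner ℝ (EuclideanSpace.single (⟨0, by omega⟩ : Fin n) (1 : ℝ) : E n) (u : E n)
        ≤ 1 := by
      have := real_inner_le_norm
        (EuclideanSpace.single (⟨0, by omega⟩ : Fin n) (1 : ℝ) : E n) (u : E n)
      rw [he] at this
      simpa using this
    exact mul_nonneg (hf0 _ ⟨le_max_left _ _, max_le zero_le_one h1⟩) (le_max_left _ _)
  have hper : 0 ≤ G.per h := integral_nonneg fun x => norm_nonneg _
  have hpair : 0 ≤ G.pairInt κ h := tpi_pairInt_nonneg G h hκ0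
  have hsig : 0 ≤ sig n := measureReal_nonneg
  -- measurable sets
  have hA1 : MeasurableSet {x : E n | h x = 1} :=
    (isClosed_singleton.preimage hh.continuous).measurableSet
  have hA0 : MeasurableSet {x : E n | h x ≠ 0} :=
    (isOpen_ne.preimage hh.continuous).measurableSet
  have hv1 : G.vol {x : E n | h x = 1} < ⊤ := tpi_meas_ind_lt_top G hc (by
    intro x hx hx0
    have hx1 : h x = 1 := hx
    rw [hx1] at hx0
    exact one_ne_zero hx0)
  have hv0 : G.vol {x : E n | h x ≠ 0} < ⊤ := tpi_meas_ind_lt_top G hc (fun x hx => hx)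
  set F1 : E n → ℝ≥0∞ := {y | h y = 1}.indicator 1 with hF1
  set F0 : E n → ℝ≥0∞ := {y | h y ≠ 0}.indicator 1 with hF0'
  have hmF1 : Measurable F1 := measurable_one.indicator hA1
  have hmF0 : Measurable F0 := measurable_one.indicator hA0
  have hmG := tpi_measurable_G G hκm hh
  have hmP := tpi_measurable_Phi G hf hh 1
  have hmM := tpi_measurable_Phi G hf hh (-1)
  -- values of the bundle integrals
  have hJ1 : tpiJ G (fun z => F1 z.1) =
      ENNReal.ofReal (sig n * G.vol.real {x | h x = 1}) := by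
    rw [tpiJ_fst, hF1, lintegral_indicator_one hA1, ENNReal.ofReal_mul hsig, tpi_sig,
      ofReal_measureReal hv1.ne]
  have hJ0 : tpiJ G (fun z => F0 z.1) =
      ENNReal.ofReal (sig n * G.vol.real {x | h x ≠ 0}) := by
    rw [tpiJ_fst, hF0', lintegral_indicator_one hA0, ENNReal.ofReal_mul hsig, tpi_sig,
      ofReal_measureReal hv0.ne]
  have hJG : tpiJ G (tpiG G κ h) ≤ ENNReal.ofReal (G.pairInt κ h) :=
    pair_ge G hn hh hc hκm hκb hκ0
  have hJP := tpi_J_Phi G hh hc hF0 hf hf0 hF (ε := 1) (by simp)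
  have hJM := tpi_J_Phi G hh hc hF0 hf hf0 hF (ε := -1) (by simp)
  -- the limit
  have key : s * sig n * G.vol.real {x | h x = 1} ≤ G.pairInt κ h + F * G.per h := by
    apply tpi_real_limit (c := s * L₀ * (2 * (sig n * G.vol.real {x | h x ≠ 0})))
    intro N hN
    obtain ⟨T, ⟨hT1, hT2⟩, hT3⟩ := tpi_exists_time G hn1 hmF0 hN
    have hT0 : 0 ≤ T := by linarith
    refine ⟨T, hT1, ?_⟩
    have hint := tpiJ_mono G
      (F := fun z => ENNReal.ofReal s * tpiW G (fun z => F1 z.1) 0 T z)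
      (F' := fun z => (tpiW G (tpiG G κ h) 0 T z +
        (2⁻¹ * tpiW G (tpiPhi G f h 1) 0 T z + 2⁻¹ * tpiW G (tpiPhi G f h (-1)) 0 T z)) +
        ENNReal.ofReal (s * L₀) * (F0 z.1 + F0 (G.ex z.1 (T • z.2))))
      (fun x u hu => tpi_window G hn hh h01 hκm hs hf hf0 hκf hlen hT0 x u hu)
    have hW1 := tpi_measurable_W G (F := fun z => F1 z.1) (hmF1.comp measurable_fst) 0 T
    have hWG := tpi_measurable_W G hmG 0 T
    have hWP := tpi_measurable_W G hmP 0 T
    have hWM := tpi_measurable_W G hmM 0 T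
    have hB : Measurable fun z : E n × E n => F0 z.1 + F0 (G.ex z.1 (T • z.2)) := by
      apply (hmF0.comp measurable_fst).add
      apply hmF0.comp
      exact (G.ex_smooth.continuous.comp
        (continuous_fst.prodMk (continuous_snd.const_smul T))).measurable
    have hm2 : Measurable fun z : E n × E n => tpiW G (tpiG G κ h) 0 T z +
        (2⁻¹ * tpiW G (tpiPhi G f h 1) 0 T z + 2⁻¹ * tpiW G (tpiPhi G f h (-1)) 0 T z) :=
      hWG.add ((hWP.const_mul _).add (hWM.const_mul _))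
    have hm3 : Measurable fun z : E n × E n => 2⁻¹ * tpiW G (tpiPhi G f h 1) 0 T z :=
      hWP.const_mul _
    rw [tpiJ_const_mul G hW1, tpiJ_add G hm2,
      tpiJ_add G hWG, tpiJ_add G hm3, tpiJ_const_mul G hWP, tpiJ_const_mul G hWM,
      tpiJ_const_mul G hB, tpiJ_add G (F := fun z => F0 z.1) (hmF0.comp measurable_fst),
      tpiJ_W G hn1 (F := fun z => F1 z.1) (hmF1.comp measurable_fst) le_rfl hT0, tpiJ_W G hn1 hmG le_rfl hT0,
      tpiJ_W G hn1 hmP le_rfl hT0, tpiJ_W G hn1 hmM le_rfl hT0, sub_zero] at hint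
    have h2 : ENNReal.ofReal (T * (s * sig n * G.vol.real {x | h x = 1})) ≤
        ENNReal.ofReal (T * (G.pairInt κ h + F * G.per h) +
          s * L₀ * (2 * (sig n * G.vol.real {x | h x ≠ 0}))) := by
      calc ENNReal.ofReal (T * (s * sig n * G.vol.real {x | h x = 1}))
          = ENNReal.ofReal s * (ENNReal.ofReal T * tpiJ G (fun z => F1 z.1)) := by
            rw [hJ1, ← ENNReal.ofReal_mul hT0, ← ENNReal.ofReal_mul hs]
            congr 1
            ring
        _ ≤ _ := hint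
        _ ≤ ENNReal.ofReal T * ENNReal.ofReal (G.pairInt κ h) +
            (2⁻¹ * (ENNReal.ofReal T * ENNReal.ofReal (F * G.per h)) +
              2⁻¹ * (ENNReal.ofReal T * ENNReal.ofReal (F * G.per h))) +
            ENNReal.ofReal (s * L₀) * (ENNReal.ofReal (sig n * G.vol.real {x | h x ≠ 0}) +
              ENNReal.ofReal (sig n * G.vol.real {x | h x ≠ 0})) := by
            gcongr
            · exact hJ0.le
            · exact hT3.trans hJ0.le
        _ = _ := by
            rw [← add_mul, ENNReal.inv_two_add_inv_two, one_mul,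
              ← ENNReal.ofReal_mul hT0, ← ENNReal.ofReal_mul hT0, ← ENNReal.ofReal_add,
              ← ENNReal.ofReal_add, ← ENNReal.ofReal_mul, ← ENNReal.ofReal_add]
            · congr 1
              ring
            all_goals positivity
    have h3 : 0 ≤ T * (G.pairInt κ h + F * G.per h) +
          s * L₀ * (2 * (sig n * G.vol.real {x | h x ≠ 0})) := by
      positivity
    exact (ENNReal.ofReal_le_ofReal_iff h3).1 h2
  linarith

end Vale.Agent.P219.TP
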