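import Mathlib

set_option linter.all false

/-! # Positivity of polynomials in three variables on boxes, by Kronecker substitution

A polynomial, given as an expression, is nonnegative on a box when, after the projective change of
variables which maps the box to the positive orthant, all its coefficients are nonnegative. The
coefficients are computed at once, as the digits of one natural number. -/

open MvPolynomial Finset

namespace Vale.Agent.P219.TP.Kron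

/-- Expressions in three variables; `k p n` is the constant `p - n`. -/
inductive Ex where
  | k (p n : ℕ)
  | x
  | y
  | z
  | add (a b : Ex)
  | mul (a b : Ex)

/-- Value of an expression at a point. -/
noncomputable def ev (x y z : ℝ) : Ex → ℝ
  | .k p n => (p : ℝ) - n
  | .x => x
  | .y => y
  | .z => z
  | .add a b => ev x y z a + ev x y z b
  | .mul a b => ev x y z a * ev x y z b

/-- A difference of two forms, with bounds of the degrees. -/
structure V (R : Type) where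
  p : R
  n : R
  d : ℕ
  e : ℕ
  f : ℕ

/-- Homogeneous evaluation in a semiring: `x = a / A`, `y = b / B`, `z = c / C`. -/
def gen {R : Type} [CommSemiring R] (a A b B c C : R) : Ex → V R
  | .k p n => ⟨p, n, 0, 0, 0⟩
  | .x => ⟨a, 0, 1, 0, 0⟩
  | .y => ⟨b, 0, 0, 1, 0⟩
  | .z => ⟨c, 0, 0, 0, 1⟩
  | .add s t =>
    let u := gen a A b B c C s
    let v := gen a A b B c C t
    let g := A ^ (v.d - u.d) * (B ^ (v.e - u.e) * C ^ (v.f - u.f))
    let h := A ^ (u.d - v.d) * (B ^ (u.e - v.e) * C ^ (u.f - v.f))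
    ⟨u.p * g + v.p * h, u.n * g + v.n * h, u.d + (v.d - u.d), u.e + (v.e - u.e),
      u.f + (v.f - u.f)⟩
  | .mul s t =>
    let u := gen a A b B c C s
    let v := gen a A b B c C t
    ⟨u.p * v.p + u.n * v.n, u.p * v.n + u.n * v.p, u.d + v.d, u.e + v.e, u.f + v.f⟩

/-- addition step, for the kernel -/
def kadd (A B C : ℕ) (u v : V ℕ) : V ℕ := ⟨
      Nat.add
        (Nat.mul u.p (Nat.mul (Nat.pow A (Nat.sub v.d u.d))
          (Nat.mul (Nat.pow B (Nat.sub v.e u.e)) (Nat.pow C (Nat.sub v.f u.f)))))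
        (Nat.mul v.p (Nat.mul (Nat.pow A (Nat.sub u.d v.d))
          (Nat.mul (Nat.pow B (Nat.sub u.e v.e)) (Nat.pow C (Nat.sub u.f v.f))))),
      Nat.add
        (Nat.mul u.n (Nat.mul (Nat.pow A (Nat.sub v.d u.d))
          (Nat.mul (Nat.pow B (Nat.sub v.e u.e)) (Nat.pow C (Nat.sub v.f u.f)))))
        (Nat.mul v.n (Nat.mul (Nat.pow A (Nat.sub u.d v.d))
          (Nat.mul (Nat.pow B (Nat.sub u.e v.e)) (Nat.pow C (Nat.sub u.f v.f))))),
      Nat.add u.d (Nat.sub v.d u.d), Nat.add u.e (Nat.sub v.e u.e),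
      Nat.add u.f (Nat.sub v.f u.f)⟩

/-- multiplication step, for the kernel -/
def kmul (u v : V ℕ) : V ℕ := ⟨Nat.add (Nat.mul u.p v.p) (Nat.mul u.n v.n),
      Nat.add (Nat.mul u.p v.n) (Nat.mul u.n v.p), Nat.add u.d v.d, Nat.add u.e v.e,
      Nat.add u.f v.f⟩

/-- The same with natural numbers, for the kernel. -/
noncomputable def kv (a A b B c C : ℕ) (t : Ex) : V ℕ :=
  Ex.rec (motive := fun _ => V ℕ) (fun p n => ⟨p, n, 0, 0, 0⟩) ⟨a, 0, 1, 0, 0⟩ ⟨b, 0, 0, 1, 0⟩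
    ⟨c, 0, 0, 0, 1⟩ (fun _ _ u v => kadd A B C u v) (fun _ _ u v => kmul u v) t

theorem kv_eq (a A b B c C : ℕ) (t : Ex) : kv a A b B c C t = gen a A b B c C t := by
  induction t with
  | k p n => rfl
  | x => rfl
  | y => rfl
  | z => rfl
  | add s t hs ht =>
    change kadd A B C (kv a A b B c C s) (kv a A b B c C t) = _
    rw [hs, ht]; rfl
  | mul s t hs ht =>
    change kmul (kv a A b B c C s) (kv a A b B c C t) = _
    rw [hs, ht]; rfl

/-- Image under a homomorphism. -/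
def V.map {R S : Type} [CommSemiring R] [CommSemiring S] (f : R →+* S) (v : V R) : V S :=
  ⟨f v.p, f v.n, v.d, v.e, v.f⟩

theorem gen_map {R S : Type} [CommSemiring R] [CommSemiring S] (f : R →+* S)
    (a A b B c C : R) (t : Ex) :
    gen (f a) (f A) (f b) (f B) (f c) (f C) t = (gen a A b B c C t).map f := by
  induction t with
  | k p n => simp [gen, V.map]
  | x => simp [gen, V.map]
  | y => simp [gen, V.map]
  | z => simp [gen, V.map]
  | add s t hs ht => simp [gen, V.map, hs, ht]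
  | mul s t hs ht => simp [gen, V.map, hs, ht]

theorem gen_real {a A b B c C : ℝ} (hA : A ≠ 0) (hB : B ≠ 0) (hC : C ≠ 0) (t : Ex) :
    (gen a A b B c C t).p - (gen a A b B c C t).n =
      A ^ (gen a A b B c C t).d * (B ^ (gen a A b B c C t).e * C ^ (gen a A b B c C t).f) *
        ev (a / A) (b / B) (c / C) t := by
  have key : ∀ (D : ℝ) (m n : ℕ), D ^ m * D ^ (n - m) = D ^ (m + (n - m)) := by
    intro D m n; rw [pow_add]
  have key2 : ∀ (D : ℝ) (m n : ℕ), D ^ n * D ^ (m - n) = D ^ (m + (n - m)) := by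
    intro D m n; rw [← pow_add]; congr 1; omega
  induction t with
  | k p n => simp [gen, ev]
  | x => simp only [gen, ev]; field_simp; ring
  | y => simp only [gen, ev]; field_simp; ring
  | z => simp only [gen, ev]; field_simp; ring
  | add s t hs ht =>
    simp only [gen, ev]
    set u := gen a A b B c C s
    set v := gen a A b B c C t
    rw [← key A, ← key B, ← key C]
    have e1 : (u.p * (A ^ (v.d - u.d) * (B ^ (v.e - u.e) * C ^ (v.f - u.f))) +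
        v.p * (A ^ (u.d - v.d) * (B ^ (u.e - v.e) * C ^ (u.f - v.f)))) -
        (u.n * (A ^ (v.d - u.d) * (B ^ (v.e - u.e) * C ^ (v.f - u.f))) +
        v.n * (A ^ (u.d - v.d) * (B ^ (u.e - v.e) * C ^ (u.f - v.f)))) =
        (u.p - u.n) * (A ^ (v.d - u.d) * (B ^ (v.e - u.e) * C ^ (v.f - u.f))) +
        (v.p - v.n) * (A ^ (u.d - v.d) * (B ^ (u.e - v.e) * C ^ (u.f - v.f))) := by ring
    rw [e1, hs, ht]
    have e2 := key2 A u.d v.d
    have e3 := key2 B u.e v.e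
    have e4 := key2 C u.f v.f
    rw [← key] at e2 e3 e4
    rw [mul_add]
    congr 1
    · ring
    · calc _ = (A ^ v.d * A ^ (u.d - v.d)) * ((B ^ v.e * B ^ (u.e - v.e)) *
            (C ^ v.f * C ^ (u.f - v.f))) * ev (a / A) (b / B) (c / C) t := by ring
        _ = _ := by rw [e2, e3, e4]
  | mul s t hs ht =>
    simp only [gen, ev]
    set u := gen a A b B c C s
    set v := gen a A b B c C t
    have e1 : u.p * v.p + u.n * v.n - (u.p * v.n + u.n * v.p) = (u.p - u.n) * (v.p - v.n) := by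
      ring
    rw [e1, hs, ht, pow_add, pow_add, pow_add]
    ring

/-! ### Degrees -/

/-- bound of the degrees of a polynomial -/
def Bd (d e f : ℕ) (Q : MvPolynomial (Fin 3) ℕ) : Prop :=
  Q.degreeOf 0 ≤ d ∧ Q.degreeOf 1 ≤ e ∧ Q.degreeOf 2 ≤ f

theorem Bd.mono {d e f d' e' f' : ℕ} {Q : MvPolynomial (Fin 3) ℕ} (h : Bd d e f Q)
    (hd : d ≤ d') (he : e ≤ e') (hf : f ≤ f') : Bd d' e' f' Q :=
  ⟨h.1.trans hd, h.2.1.trans he, h.2.2.trans hf⟩

theorem Bd.add {d e f : ℕ} {Q Q' : MvPolynomial (Fin 3) ℕ} (h : Bd d e f Q) (h' : Bd d e f Q') :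
    Bd d e f (Q + Q') :=
  ⟨(degreeOf_add_le _ _ _).trans (max_le h.1 h'.1),
    (degreeOf_add_le _ _ _).trans (max_le h.2.1 h'.2.1),
    (degreeOf_add_le _ _ _).trans (max_le h.2.2 h'.2.2)⟩

theorem Bd.mul {d e f d' e' f' : ℕ} {Q Q' : MvPolynomial (Fin 3) ℕ} (h : Bd d e f Q)
    (h' : Bd d' e' f' Q') : Bd (d + d') (e + e') (f + f') (Q * Q') :=
  ⟨(degreeOf_mul_le _ _ _).trans (add_le_add h.1 h'.1),
    (degreeOf_mul_le _ _ _).trans (add_le_add h.2.1 h'.2.1),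
    (degreeOf_mul_le _ _ _).trans (add_le_add h.2.2 h'.2.2)⟩

theorem Bd.pow {d e f : ℕ} {Q : MvPolynomial (Fin 3) ℕ} (h : Bd d e f Q) (m : ℕ) :
    Bd (m * d) (m * e) (m * f) (Q ^ m) :=
  ⟨(degreeOf_pow_le _ _ _).trans (Nat.mul_le_mul_left _ h.1),
    (degreeOf_pow_le _ _ _).trans (Nat.mul_le_mul_left _ h.2.1),
    (degreeOf_pow_le _ _ _).trans (Nat.mul_le_mul_left _ h.2.2)⟩

theorem Bd.C (c : ℕ) : Bd 0 0 0 (C c : MvPolynomial (Fin 3) ℕ) := by
  exact ⟨(degreeOf_C _ _).le, (degreeOf_C _ _).le, (degreeOf_C _ _).le⟩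

/-- linear form -/
noncomputable def lin (i : Fin 3) (a b : ℕ) : MvPolynomial (Fin 3) ℕ := C a + C b * X i

theorem Bd.lin0 (a b : ℕ) : Bd 1 0 0 (lin 0 a b) := by
  refine Bd.add ((Bd.C a).mono (by norm_num) le_rfl le_rfl) ?_
  have := Bd.mul (Bd.C b) (d' := 1) (e' := 0) (f' := 0) (Q' := X 0) (by simp [Bd, degreeOf_X])
  simpa using this

theorem Bd.lin1 (a b : ℕ) : Bd 0 1 0 (lin 1 a b) := by
  refine Bd.add ((Bd.C a).mono le_rfl (by norm_num) le_rfl) ?_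
  have := Bd.mul (Bd.C b) (d' := 0) (e' := 1) (f' := 0) (Q' := X 1) (by simp [Bd, degreeOf_X])
  simpa using this

theorem Bd.lin2 (a b : ℕ) : Bd 0 0 1 (lin 2 a b) := by
  refine Bd.add ((Bd.C a).mono le_rfl le_rfl (by norm_num)) ?_
  have := Bd.mul (Bd.C b) (d' := 0) (e' := 0) (f' := 1) (Q' := X 2) (by simp [Bd, degreeOf_X])
  simpa using this

theorem Bd.scale {A B C : MvPolynomial (Fin 3) ℕ} (hA : Bd 1 0 0 A) (hB : Bd 0 1 0 B)
    (hC : Bd 0 0 1 C) (i j l : ℕ) : Bd i j l (A ^ i * (B ^ j * C ^ l)) := by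
  have := (hA.pow i).mul ((hB.pow j).mul (hC.pow l))
  simpa using this

theorem gen_bd {a A b B c C : MvPolynomial (Fin 3) ℕ} (ha : Bd 1 0 0 a) (hA : Bd 1 0 0 A)
    (hb : Bd 0 1 0 b) (hB : Bd 0 1 0 B) (hc : Bd 0 0 1 c) (hC : Bd 0 0 1 C) (t : Ex) :
    Bd (gen a A b B c C t).d (gen a A b B c C t).e (gen a A b B c C t).f (gen a A b B c C t).p ∧
    Bd (gen a A b B c C t).d (gen a A b B c C t).e (gen a A b B c C t).f
      (gen a A b B c C t).n := by
  have h0 : Bd 0 0 0 (0 : MvPolynomial (Fin 3) ℕ) := by simpa using Bd.C 0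
  induction t with
  | k p n =>
    constructor
    · simpa [gen] using Bd.C p
    · simpa [gen] using Bd.C n
  | x => exact ⟨ha, h0.mono (by norm_num) le_rfl le_rfl⟩
  | y => exact ⟨hb, h0.mono le_rfl (by norm_num) le_rfl⟩
  | z => exact ⟨hc, h0.mono le_rfl le_rfl (by norm_num)⟩
  | add s t hs ht =>
    simp only [gen]
    set u := gen a A b B c C s
    set v := gen a A b B c C t
    have g := Bd.scale hA hB hC (v.d - u.d) (v.e - u.e) (v.f - u.f)
    have h := Bd.scale hA hB hC (u.d - v.d) (u.e - v.e) (u.f - v.f)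
    exact ⟨Bd.add (hs.1.mul g) ((ht.1.mul h).mono (by omega) (by omega) (by omega)),
      Bd.add (hs.2.mul g) ((ht.2.mul h).mono (by omega) (by omega) (by omega))⟩
  | mul s t hs ht =>
    simp only [gen]
    exact ⟨Bd.add (hs.1.mul ht.1) (hs.2.mul ht.2), Bd.add (hs.1.mul ht.2) (hs.2.mul ht.1)⟩

/-! ### Digits -/

theorem mask (b : ℕ) : ∀ (n : ℕ) (g : ℕ → ℕ), (∀ e < n, g e < 2 ^ (b + 1)) →
    (∑ e ∈ range n, g e * (2 ^ (b + 1)) ^ e) &&& (∑ e ∈ range n, 2 ^ b * (2 ^ (b + 1)) ^ e) =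
      ∑ e ∈ range n, 2 ^ b * (2 ^ (b + 1)) ^ e → ∀ e < n, 2 ^ b ≤ g e := by
  intro n
  induction n with
  | zero => intro g _ _ e he; omega
  | succ n ih =>
    intro g hg h
    rw [sum_range_succ', sum_range_succ'] at h
    set T := 2 ^ (b + 1) with hT
    have hTpos : 0 < T := by positivity
    have e1 : ∑ e ∈ range n, g (e + 1) * T ^ (e + 1) = T * ∑ e ∈ range n, g (e + 1) * T ^ e := by
      rw [mul_sum]; refine sum_congr rfl fun e _ => ?_; rw [pow_succ]; ring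
    have e2 : ∑ e ∈ range n, 2 ^ b * T ^ (e + 1) = T * ∑ e ∈ range n, 2 ^ b * T ^ e := by
      rw [mul_sum]; refine sum_congr rfl fun e _ => ?_; rw [pow_succ]; ring
    rw [e1, e2, pow_zero, mul_one, mul_one] at h
    set S1 := ∑ e ∈ range n, g (e + 1) * T ^ e
    set S2 := ∑ e ∈ range n, 2 ^ b * T ^ e
    have hb : 2 ^ b < T := by rw [hT]; exact Nat.pow_lt_pow_right (by norm_num) (by omega)
    have g0 := hg 0 (by omega)
    have h1 : (T * S1 + g 0) % T = g 0 := by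
      rw [Nat.mul_add_mod, Nat.mod_eq_of_lt g0]
    have h2 : (T * S2 + 2 ^ b) % T = 2 ^ b := by
      rw [Nat.mul_add_mod, Nat.mod_eq_of_lt hb]
    have h3 : (T * S1 + g 0) / T = S1 := by
      rw [Nat.mul_add_div hTpos, Nat.div_eq_of_lt g0, add_zero]
    have h4 : (T * S2 + 2 ^ b) / T = S2 := by
      rw [Nat.mul_add_div hTpos, Nat.div_eq_of_lt hb, add_zero]
    have k1 : g 0 &&& 2 ^ b = 2 ^ b := by
      have := congrArg (· % T) h
      simp only [hT] at this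
      rw [Nat.and_mod_two_pow] at this
      rw [← hT, h1, h2] at this
      exact this
    have k2 : S1 &&& S2 = S2 := by
      have := congrArg (· / T) h
      simp only [hT] at this
      rw [Nat.and_div_two_pow] at this
      rw [← hT, h3, h4] at this
      exact this
    intro e he
    rcases Nat.eq_zero_or_pos e with rfl | hpos
    · rw [← k1]; exact Nat.and_le_left
    · obtain ⟨e', rfl⟩ : ∃ e', e = e' + 1 := ⟨e - 1, by omega⟩
      exact ih (fun e => g (e + 1)) (fun e he => hg (e + 1) (by omega)) k2 e' (by omega)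

/-- index of a monomial -/
def idx (n1 n2 : ℕ) (m : Fin 3 →₀ ℕ) : ℕ := m 0 + n1 * (m 1 + n2 * m 2)

/-- monomial of an index -/
noncomputable def mon (n1 n2 e : ℕ) : Fin 3 →₀ ℕ :=
  Finsupp.equivFunOnFinite.symm ![e % n1, e / n1 % n2, e / n1 / n2]

theorem mon_idx {n1 n2 : ℕ} {m : Fin 3 →₀ ℕ} (h1 : m 0 < n1) (h2 : m 1 < n2) :
    mon n1 n2 (idx n1 n2 m) = m := by
  have p1 : 0 < n1 := by omega
  have p2 : 0 < n2 := by omega
  have e0 : (m 0 + n1 * (m 1 + n2 * m 2)) % n1 = m 0 := by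
    rw [Nat.add_mul_mod_self_left, Nat.mod_eq_of_lt h1]
  have e1 : (m 0 + n1 * (m 1 + n2 * m 2)) / n1 = m 1 + n2 * m 2 := by
    rw [Nat.add_mul_div_left _ _ p1, Nat.div_eq_of_lt h1, zero_add]
  have e2 : (m 1 + n2 * m 2) % n2 = m 1 := by
    rw [Nat.add_mul_mod_self_left, Nat.mod_eq_of_lt h2]
  have e3 : (m 1 + n2 * m 2) / n2 = m 2 := by
    rw [Nat.add_mul_div_left _ _ p2, Nat.div_eq_of_lt h2, zero_add]
  ext i
  fin_cases i
  · simp [mon, idx, e0]
  · simp [mon, idx, e1, e2]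
  · simp [mon, idx, e1, e3]

theorem idx_mon {n1 n2 e : ℕ} : idx n1 n2 (mon n1 n2 e) = e := by
  simp only [idx, mon, Finsupp.equivFunOnFinite_symm_apply_apply, Matrix.cons_val_zero,
    Matrix.cons_val_one, Matrix.cons_val]
  rw [Nat.mod_add_div, Nat.mod_add_div]

theorem idx_lt {n1 n2 n3 : ℕ} {m : Fin 3 →₀ ℕ} (h1 : m 0 < n1) (h2 : m 1 < n2) (h3 : m 2 < n3) :
    idx n1 n2 m < n1 * (n2 * n3) := by
  unfold idx
  calc m 0 + n1 * (m 1 + n2 * m 2) < n1 + n1 * (m 1 + n2 * m 2) := by omega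
    _ = n1 * (m 1 + n2 * m 2 + 1) := by ring
    _ ≤ n1 * (n2 * n3) := by
      apply Nat.mul_le_mul_left
      calc m 1 + n2 * m 2 + 1 ≤ n2 + n2 * m 2 := by omega
        _ = n2 * (m 2 + 1) := by ring
        _ ≤ n2 * n3 := Nat.mul_le_mul_left _ (by omega)

theorem Bd.lt {d e f : ℕ} {Q : MvPolynomial (Fin 3) ℕ} (h : Bd d e f Q) {m : Fin 3 →₀ ℕ}
    (hm : m ∈ Q.support) : m 0 < d + 1 ∧ m 1 < e + 1 ∧ m 2 < f + 1 :=
  ⟨Nat.lt_succ_of_le ((monomial_le_degreeOf 0 hm).trans h.1),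
    Nat.lt_succ_of_le ((monomial_le_degreeOf 1 hm).trans h.2.1),
    Nat.lt_succ_of_le ((monomial_le_degreeOf 2 hm).trans h.2.2)⟩

theorem eval_kron {d e f : ℕ} {Q : MvPolynomial (Fin 3) ℕ} (h : Bd d e f Q) (T : ℕ) :
    eval ![T, T ^ (d + 1), (T ^ (d + 1)) ^ (e + 1)] Q =
      ∑ i ∈ range ((d + 1) * ((e + 1) * (f + 1))), coeff (mon (d + 1) (e + 1) i) Q * T ^ i := by
  rw [eval_eq']
  refine sum_of_injOn (idx (d + 1) (e + 1)) ?_ ?_ ?_ ?_
  · intro m hm m' hm' hmm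
    have h1 := h.lt (Finset.mem_coe.1 hm)
    have h2 := h.lt (Finset.mem_coe.1 hm')
    have := congrArg (mon (d + 1) (e + 1)) hmm
    rwa [mon_idx h1.1 h1.2.1, mon_idx h2.1 h2.2.1] at this
  · intro m hm
    have h1 := h.lt (Finset.mem_coe.1 hm)
    exact Finset.mem_coe.2 (Finset.mem_range.2 (idx_lt h1.1 h1.2.1 h1.2.2))
  · intro i _ hi
    have : coeff (mon (d + 1) (e + 1) i) Q = 0 := by
      by_contra hc
      exact hi ⟨mon (d + 1) (e + 1) i, Finset.mem_coe.2 (mem_support_iff.2 hc), idx_mon⟩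
    rw [this, zero_mul]
  · intro m hm
    have h1 := h.lt hm
    rw [mon_idx h1.1 h1.2.1, Fin.prod_univ_three]
    simp only [Matrix.cons_val_zero, Matrix.cons_val_one, Matrix.cons_val]
    congr 1
    rw [idx, ← pow_mul, ← pow_mul, ← pow_mul, ← pow_add, ← pow_add]
    congr 1
    ring

theorem coeff_le_eval_one (Q : MvPolynomial (Fin 3) ℕ) (m : Fin 3 →₀ ℕ) :
    coeff m Q ≤ eval ![1, 1, 1] Q := by
  rw [eval_eq']
  have e : ∀ d : Fin 3 →₀ ℕ, ∏ i : Fin 3, (![1, 1, 1] : Fin 3 → ℕ) i ^ d i = 1 := by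
    intro d
    rw [Fin.prod_univ_three]
    simp
  simp only [e, mul_one]
  by_cases hm : m ∈ Q.support
  · exact single_le_sum (f := fun d => coeff d Q) (fun _ _ => Nat.zero_le _) hm
  · rw [notMem_support_iff.1 hm]; exact Nat.zero_le _

theorem coeff_le {d e f b : ℕ} {P N : MvPolynomial (Fin 3) ℕ} (hP : Bd d e f P)
    (hN : Bd d e f N) (h1 : eval ![1, 1, 1] P < 2 ^ b) (h2 : eval ![1, 1, 1] N < 2 ^ b)
    {T M : ℕ} (hT : T = 2 ^ (b + 1))
    (hM : M = 2 ^ b * ((T ^ ((d + 1) * ((e + 1) * (f + 1))) - 1) / (T - 1)))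
    (h : (eval ![T, T ^ (d + 1), (T ^ (d + 1)) ^ (e + 1)] P + M -
      eval ![T, T ^ (d + 1), (T ^ (d + 1)) ^ (e + 1)] N) &&& M = M) (m : Fin 3 →₀ ℕ) :
    coeff m N ≤ coeff m P := by
  set n := (d + 1) * ((e + 1) * (f + 1)) with hn
  have hT2 : 2 ≤ T := by
    rw [hT, pow_succ]
    have := Nat.one_le_two_pow (n := b)
    omega
  have hM' : M = ∑ i ∈ range n, 2 ^ b * T ^ i := by
    rw [hM, ← Nat.geomSum_eq hT2, mul_sum]
  rw [eval_kron hP, eval_kron hN, ← hn] at h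
  have hg : ∀ i, coeff (mon (d + 1) (e + 1) i) N < 2 ^ b := fun i =>
    lt_of_le_of_lt (coeff_le_eval_one N _) h2
  have hg' : ∀ i, coeff (mon (d + 1) (e + 1) i) P < 2 ^ b := fun i =>
    lt_of_le_of_lt (coeff_le_eval_one P _) h1
  have key : ∑ i ∈ range n, coeff (mon (d + 1) (e + 1) i) P * T ^ i + M -
      ∑ i ∈ range n, coeff (mon (d + 1) (e + 1) i) N * T ^ i =
      ∑ i ∈ range n, (coeff (mon (d + 1) (e + 1) i) P + 2 ^ b -
        coeff (mon (d + 1) (e + 1) i) N) * T ^ i := by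
    rw [hM', ← sum_add_distrib]
    refine Nat.sub_eq_of_eq_add ?_
    rw [← sum_add_distrib]
    refine sum_congr rfl fun i _ => ?_
    rw [← add_mul, ← add_mul]
    congr 1
    have := hg i
    omega
  rw [key] at h
  have hlt : ∀ i < n, coeff (mon (d + 1) (e + 1) i) P + 2 ^ b -
        coeff (mon (d + 1) (e + 1) i) N < 2 ^ (b + 1) := by
    intro i _
    have := hg' i
    rw [pow_succ]
    omega
  rw [hM', hT] at h
  have hk := mask b n _ hlt h
  by_cases hm : m ∈ N.support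
  · have hb := hN.lt hm
    have h3 := hk (idx (d + 1) (e + 1) m) (idx_lt hb.1 hb.2.1 hb.2.2)
    rw [mon_idx hb.1 hb.2.1] at h3
    have h4 := hg (idx (d + 1) (e + 1) m)
    rw [mon_idx hb.1 hb.2.1] at h4
    omega
  · rw [notMem_support_iff.1 hm]; exact Nat.zero_le _

theorem real_le {P N : MvPolynomial (Fin 3) ℕ} (h : ∀ m, coeff m N ≤ coeff m P)
    {v : Fin 3 → ℝ} (hv : ∀ i, 0 ≤ v i) :
    eval₂ (Nat.castRingHom ℝ) v N ≤ eval₂ (Nat.castRingHom ℝ) v P := by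
  have aux : ∀ (Q : MvPolynomial (Fin 3) ℕ) (S : Finset (Fin 3 →₀ ℕ)), Q.support ⊆ S →
      eval₂ (Nat.castRingHom ℝ) v Q = ∑ m ∈ S, ((coeff m Q : ℕ) : ℝ) * ∏ i, v i ^ m i := by
    intro Q S hS
    rw [eval₂_eq']
    refine sum_subset hS fun m _ hm => ?_
    rw [notMem_support_iff.1 hm]
    simp
  rw [aux N (N.support ∪ P.support) subset_union_left,
    aux P (N.support ∪ P.support) subset_union_right]
  refine sum_le_sum fun m _ => ?_
  refine mul_le_mul_of_nonneg_right (by exact_mod_cast h m) ?_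
  exact prod_nonneg fun i _ => pow_nonneg (hv i) _

/-! ### The check -/

/-- The box `a / c ≤ x ≤ b / d` in each of the variables. -/
structure Bx where
  a1 : ℕ
  b1 : ℕ
  c1 : ℕ
  d1 : ℕ
  a2 : ℕ
  b2 : ℕ
  c2 : ℕ
  d2 : ℕ
  a3 : ℕ
  b3 : ℕ
  c3 : ℕ
  d3 : ℕ

/-- evaluation in a box -/
noncomputable def Bx.kv (q : Bx) (T1 T2 T3 : ℕ) (t : Ex) : V ℕ :=
  Kron.kv (Nat.add q.a1 (Nat.mul q.b1 T1)) (Nat.add q.c1 (Nat.mul q.d1 T1))
    (Nat.add q.a2 (Nat.mul q.b2 T2)) (Nat.add q.c2 (Nat.mul q.d2 T2))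
    (Nat.add q.a3 (Nat.mul q.b3 T3)) (Nat.add q.c3 (Nat.mul q.d3 T3)) t

/-- last step of the check -/
def chk2 (v : V ℕ) (M : ℕ) : Bool := Nat.beq (Nat.land (Nat.sub (Nat.add v.p M) v.n) M) M

/-- second step of the check -/
noncomputable def chk1 (t : Ex) (q : Bx) (o : V ℕ) (T H : ℕ) : Bool :=
  chk2 (q.kv T (Nat.pow T (Nat.succ o.d)) (Nat.pow (Nat.pow T (Nat.succ o.d)) (Nat.succ o.e)) t)
    (Nat.mul H (Nat.div (Nat.sub (Nat.pow T (Nat.mul (Nat.succ o.d)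
      (Nat.mul (Nat.succ o.e) (Nat.succ o.f)))) 1) (Nat.sub T 1)))

/-- Nonnegativity of all the coefficients in a box. -/
noncomputable def chk (t : Ex) (q : Bx) : Bool :=
  chk1 t q (q.kv 1 1 1 t)
    (Nat.pow 2 (Nat.succ (Nat.succ (Nat.log2 (Nat.add (q.kv 1 1 1 t).p (q.kv 1 1 1 t).n)))))
    (Nat.pow 2 (Nat.succ (Nat.log2 (Nat.add (q.kv 1 1 1 t).p (q.kv 1 1 1 t).n))))

/-- universal object -/
noncomputable def uni (q : Bx) (t : Ex) : V (MvPolynomial (Fin 3) ℕ) :=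
  gen (lin 0 q.a1 q.b1) (lin 0 q.c1 q.d1) (lin 1 q.a2 q.b2) (lin 1 q.c2 q.d2)
    (lin 2 q.a3 q.b3) (lin 2 q.c3 q.d3) t

theorem kv_uni (q : Bx) (t : Ex) (T1 T2 T3 : ℕ) :
    q.kv T1 T2 T3 t = (uni q t).map (eval ![T1, T2, T3]) := by
  unfold Bx.kv uni
  rw [kv_eq, ← gen_map]
  simp [lin]

theorem chk_coeff {t : Ex} {q : Bx} (h : chk t q = true) (m : Fin 3 →₀ ℕ) :
    coeff m (uni q t).n ≤ coeff m (uni q t).p := by
  unfold chk chk1 chk2 at h
  simp only [kv_uni, V.map] at h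
  have hb := gen_bd (Bd.lin0 q.a1 q.b1) (Bd.lin0 q.c1 q.d1) (Bd.lin1 q.a2 q.b2)
    (Bd.lin1 q.c2 q.d2) (Bd.lin2 q.a3 q.b3) (Bd.lin2 q.c3 q.d3) t
  change Bd (uni q t).d (uni q t).e (uni q t).f (uni q t).p ∧
    Bd (uni q t).d (uni q t).e (uni q t).f (uni q t).n at hb
  set o := eval ![1, 1, 1] (uni q t).p + eval ![1, 1, 1] (uni q t).n with ho
  have h1 : o < 2 ^ (Nat.log2 o + 1) := Nat.lt_log2_self
  exact coeff_le hb.1 hb.2 (b := Nat.log2 o + 1) (by omega) (by omega) rfl rfl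
    (Nat.eq_of_beq_eq_true h) m

theorem chk_sound {t : Ex} {q : Bx} (h : chk t q = true) {X Y Z : ℝ} (hX : 0 ≤ X) (hY : 0 ≤ Y)
    (hZ : 0 ≤ Z) (h1 : 0 < q.c1 + q.d1 * X) (h2 : 0 < q.c2 + q.d2 * Y)
    (h3 : 0 < q.c3 + q.d3 * Z) :
    0 ≤ ev ((q.a1 + q.b1 * X) / (q.c1 + q.d1 * X)) ((q.a2 + q.b2 * Y) / (q.c2 + q.d2 * Y))
      ((q.a3 + q.b3 * Z) / (q.c3 + q.d3 * Z)) t := by
  have hr := real_le (chk_coeff h) (v := ![X, Y, Z]) (by
    intro i; fin_cases i <;> simpa)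
  have hg := gen_real (a := q.a1 + q.b1 * X) (b := q.a2 + q.b2 * Y) (c := q.a3 + q.b3 * Z)
    h1.ne' h2.ne' h3.ne' t
  have hm := gen_map (eval₂Hom (Nat.castRingHom ℝ) ![X, Y, Z]) (lin 0 q.a1 q.b1)
    (lin 0 q.c1 q.d1) (lin 1 q.a2 q.b2) (lin 1 q.c2 q.d2) (lin 2 q.a3 q.b3) (lin 2 q.c3 q.d3) t
  simp only [lin, map_add, map_mul, coe_eval₂Hom, eval₂_C, eval₂_X, Nat.coe_castRingHom,
    Matrix.cons_val_zero, Matrix.cons_val_one, Matrix.cons_val] at hm
  rw [hm] at hg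
  simp only [V.map, coe_eval₂Hom] at hg
  have hp : 0 < (q.c1 + q.d1 * X) ^ (uni q t).d * ((q.c2 + q.d2 * Y) ^ (uni q t).e *
      (q.c3 + q.d3 * Z) ^ (uni q t).f) := by positivity
  have h5 : 0 ≤ (q.c1 + q.d1 * X) ^ (uni q t).d * ((q.c2 + q.d2 * Y) ^ (uni q t).e *
      (q.c3 + q.d3 * Z) ^ (uni q t).f) *
      ev ((q.a1 + q.b1 * X) / (q.c1 + q.d1 * X)) ((q.a2 + q.b2 * Y) / (q.c2 + q.d2 * Y))
      ((q.a3 + q.b3 * Z) / (q.c3 + q.d3 * Z)) t := by
    refine le_of_le_of_eq (sub_nonneg.2 hr) ?_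
    exact hg
  exact nonneg_of_mul_nonneg_right h5 hp

/-- Subdivision trees. -/
inductive Tr where
  | o
  | x (l r : Tr)
  | y (l r : Tr)
  | z (l r : Tr)

/-- lower half -/
def Bx.lx (q : Bx) : Bx :=
  { q with a1 := 2 * q.a1, b1 := q.a1 + q.b1, c1 := 2 * q.c1, d1 := q.c1 + q.d1 }

/-- upper half -/
def Bx.ux (q : Bx) : Bx :=
  { q with a1 := q.a1 + q.b1, b1 := 2 * q.b1, c1 := q.c1 + q.d1, d1 := 2 * q.d1 }

/-- lower half -/
def Bx.ly (q : Bx) : Bx :=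
  { q with a2 := 2 * q.a2, b2 := q.a2 + q.b2, c2 := 2 * q.c2, d2 := q.c2 + q.d2 }

/-- upper half -/
def Bx.uy (q : Bx) : Bx :=
  { q with a2 := q.a2 + q.b2, b2 := 2 * q.b2, c2 := q.c2 + q.d2, d2 := 2 * q.d2 }

/-- lower half -/
def Bx.lz (q : Bx) : Bx :=
  { q with a3 := 2 * q.a3, b3 := q.a3 + q.b3, c3 := 2 * q.c3, d3 := q.c3 + q.d3 }

/-- upper half -/
def Bx.uz (q : Bx) : Bx :=
  { q with a3 := q.a3 + q.b3, b3 := 2 * q.b3, c3 := q.c3 + q.d3, d3 := 2 * q.d3 }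

/-- Check with subdivision. -/
noncomputable def ct (t : Ex) (T : Tr) : Bx → Bool :=
  Tr.rec (motive := fun _ => Bx → Bool) (fun q => chk t q)
    (fun _ _ f g q => bif f q.lx then g q.ux else false)
    (fun _ _ f g q => bif f q.ly then g q.uy else false)
    (fun _ _ f g q => bif f q.lz then g q.uz else false) T

/-- half-open box -/
def Bx.Mem (q : Bx) (x y z : ℝ) : Prop :=
  (q.a1 ≤ q.c1 * x ∧ q.d1 * x < q.b1) ∧ (q.a2 ≤ q.c2 * y ∧ q.d2 * y < q.b2) ∧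
    (q.a3 ≤ q.c3 * z ∧ q.d3 * z < q.b3)

/-- positivity of the denominators -/
def Bx.Pos (q : Bx) : Prop := 0 < q.c1 ∧ 0 < q.c2 ∧ 0 < q.c3

theorem proj {a b c d : ℕ} {x : ℝ} (hc : 0 < c) (h1 : a ≤ c * x) (h2 : d * x < b) :
    ∃ X : ℝ, 0 ≤ X ∧ 0 < c + d * X ∧ x = (a + b * X) / (c + d * X) := by
  have hb : 0 < b - d * x := by linarith
  have hdet : 0 < (c : ℝ) * b - a * d := by
    have hc' : (0 : ℝ) < c := by exact_mod_cast hc
    have hd' : (0 : ℝ) ≤ d := by positivity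
    nlinarith [mul_pos hc' hb, mul_le_mul_of_nonneg_left h1 hd']
  refine ⟨(c * x - a) / (b - d * x), div_nonneg (by linarith) hb.le, ?_, ?_⟩
  · have : c + d * ((c * x - a) / (b - d * x)) = (c * b - a * d) / (b - d * x) := by
      field_simp
      ring
    rw [this]
    exact div_pos hdet hb
  · have e : c + d * ((c * x - a) / (b - d * x)) = (c * b - a * d) / (b - d * x) := by
      field_simp
      ring
    rw [e, eq_div_iff (div_pos hdet hb).ne']
    have hb' := hb.ne'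
    rw [← mul_div_assoc, ← mul_div_assoc, div_eq_iff hb', add_mul, div_mul_cancel₀ _ hb']
    ring

theorem ct_half {t : Ex} (T : Tr) : ∀ {q : Bx}, q.Pos → ct t T q = true →
    ∀ {x y z : ℝ}, q.Mem x y z → 0 ≤ ev x y z t := by
  induction T with
  | o =>
    intro q hq h x y z hm
    obtain ⟨X, hX, hX1, rfl⟩ := proj hq.1 hm.1.1 hm.1.2
    obtain ⟨Y, hY, hY1, rfl⟩ := proj hq.2.1 hm.2.1.1 hm.2.1.2
    obtain ⟨Z, hZ, hZ1, rfl⟩ := proj hq.2.2 hm.2.2.1 hm.2.2.2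
    exact chk_sound h hX hY hZ hX1 hY1 hZ1
  | x l r hl hr =>
    intro q hq h x y z hm
    have h' : (bif ct t l q.lx then ct t r q.ux else false) = true := h
    rw [Bool.cond_false_right, Bool.and_eq_true] at h'
    obtain ⟨p1, p2, p3⟩ := hq
    obtain ⟨m1, m2, m3⟩ := hm
    rcases lt_or_ge (((q.c1 : ℝ) + q.d1) * x) (q.a1 + q.b1) with hx | hx
    · refine hl (q := q.lx) ⟨?_, p2, p3⟩ h'.1 ⟨⟨?_, ?_⟩, m2, m3⟩
      · show 0 < 2 * q.c1; omega
      · show ((2 * q.a1 : ℕ) : ℝ) ≤ ((2 * q.c1 : ℕ) : ℝ) * x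
        push_cast; linarith [m1.1]
      · show ((q.c1 + q.d1 : ℕ) : ℝ) * x < ((q.a1 + q.b1 : ℕ) : ℝ)
        push_cast; linarith
    · refine hr (q := q.ux) ⟨?_, p2, p3⟩ h'.2 ⟨⟨?_, ?_⟩, m2, m3⟩
      · show 0 < q.c1 + q.d1; omega
      · show ((q.a1 + q.b1 : ℕ) : ℝ) ≤ ((q.c1 + q.d1 : ℕ) : ℝ) * x
        push_cast; linarith
      · show ((2 * q.d1 : ℕ) : ℝ) * x < ((2 * q.b1 : ℕ) : ℝ)
        push_cast; linarith [m1.2]
  | y l r hl hr =>
    intro q hq h x y z hm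
    have h' : (bif ct t l q.ly then ct t r q.uy else false) = true := h
    rw [Bool.cond_false_right, Bool.and_eq_true] at h'
    obtain ⟨p1, p2, p3⟩ := hq
    obtain ⟨m1, m2, m3⟩ := hm
    rcases lt_or_ge (((q.c2 : ℝ) + q.d2) * y) (q.a2 + q.b2) with hx | hx
    · refine hl (q := q.ly) ⟨p1, ?_, p3⟩ h'.1 ⟨m1, ⟨?_, ?_⟩, m3⟩
      · show 0 < 2 * q.c2; omega
      · show ((2 * q.a2 : ℕ) : ℝ) ≤ ((2 * q.c2 : ℕ) : ℝ) * y
        push_cast; linarith [m2.1]
      · show ((q.c2 + q.d2 : ℕ) : ℝ) * y < ((q.a2 + q.b2 : ℕ) : ℝ)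
        push_cast; linarith
    · refine hr (q := q.uy) ⟨p1, ?_, p3⟩ h'.2 ⟨m1, ⟨?_, ?_⟩, m3⟩
      · show 0 < q.c2 + q.d2; omega
      · show ((q.a2 + q.b2 : ℕ) : ℝ) ≤ ((q.c2 + q.d2 : ℕ) : ℝ) * y
        push_cast; linarith
      · show ((2 * q.d2 : ℕ) : ℝ) * y < ((2 * q.b2 : ℕ) : ℝ)
        push_cast; linarith [m2.2]
  | z l r hl hr =>
    intro q hq h x y z hm
    have h' : (bif ct t l q.lz then ct t r q.uz else false) = true := h
    rw [Bool.cond_false_right, Bool.and_eq_true] at h'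
    obtain ⟨p1, p2, p3⟩ := hq
    obtain ⟨m1, m2, m3⟩ := hm
    rcases lt_or_ge (((q.c3 : ℝ) + q.d3) * z) (q.a3 + q.b3) with hx | hx
    · refine hl (q := q.lz) ⟨p1, p2, ?_⟩ h'.1 ⟨m1, m2, ⟨?_, ?_⟩⟩
      · show 0 < 2 * q.c3; omega
      · show ((2 * q.a3 : ℕ) : ℝ) ≤ ((2 * q.c3 : ℕ) : ℝ) * z
        push_cast; linarith [m3.1]
      · show ((q.c3 + q.d3 : ℕ) : ℝ) * z < ((q.a3 + q.b3 : ℕ) : ℝ)
        push_cast; linarith
    · refine hr (q := q.uz) ⟨p1, p2, ?_⟩ h'.2 ⟨m1, m2, ⟨?_, ?_⟩⟩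
      · show 0 < q.c3 + q.d3; omega
      · show ((q.a3 + q.b3 : ℕ) : ℝ) ≤ ((q.c3 + q.d3 : ℕ) : ℝ) * z
        push_cast; linarith
      · show ((2 * q.d3 : ℕ) : ℝ) * z < ((2 * q.b3 : ℕ) : ℝ)
        push_cast; linarith [m3.2]

theorem continuous_ev {f g h : ℝ → ℝ} (hf : Continuous f) (hg : Continuous g)
    (hh : Continuous h) (t : Ex) : Continuous fun s => ev (f s) (g s) (h s) t := by
  induction t with
  | k p n => exact continuous_const
  | x => exact hf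
  | y => exact hg
  | z => exact hh
  | add a b ha hb => exact ha.add hb
  | mul a b ha hb => exact ha.mul hb

/-- Nonnegativity on the closed box. -/
theorem ct_sound {t : Ex} (T : Tr) {q : Bx} (hq : q.Pos) (h : ct t T q = true)
    (e1 : q.a1 * q.d1 < q.b1 * q.c1) (e2 : q.a2 * q.d2 < q.b2 * q.c2)
    (e3 : q.a3 * q.d3 < q.b3 * q.c3) {x y z : ℝ} (hx : q.a1 ≤ q.c1 * x) (hx' : q.d1 * x ≤ q.b1)
    (hy : q.a2 ≤ q.c2 * y) (hy' : q.d2 * y ≤ q.b2) (hz : q.a3 ≤ q.c3 * z)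
    (hz' : q.d3 * z ≤ q.b3) : 0 ≤ ev x y z t := by
  have aux : ∀ {a b c d : ℕ} {x : ℝ}, 0 < c → a * d < b * c → (a : ℝ) ≤ c * x → (d : ℝ) * x ≤ b →
      ∀ s : ℝ, 0 < s → s ≤ 1 → (a : ℝ) ≤ c * ((1 - s) * x + s * (a / c)) ∧
        (d : ℝ) * ((1 - s) * x + s * (a / c)) < b := by
    intro a b c d x hc hd h1 h2 s hs hs1
    have hc' : (0 : ℝ) < c := by exact_mod_cast hc
    have hd' : (a : ℝ) * d < b * c := by exact_mod_cast hd
    constructor
    · have : c * ((1 - s) * x + s * (a / c)) = (1 - s) * (c * x) + s * a := by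
        field_simp
      rw [this]
      nlinarith [mul_le_mul_of_nonneg_left h1 (sub_nonneg.2 hs1)]
    · have e : d * ((1 - s) * x + s * (a / c)) = (1 - s) * (d * x) + s * (a * d / c) := by
        field_simp
      rw [e]
      have h3 : (a : ℝ) * d / c < b := by rw [div_lt_iff₀ hc']; exact hd'
      nlinarith [mul_le_mul_of_nonneg_left h2 (sub_nonneg.2 hs1), mul_lt_mul_of_pos_left h3 hs]
  have hc : Continuous fun s : ℝ => ev ((1 - s) * x + s * (q.a1 / q.c1))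
      ((1 - s) * y + s * (q.a2 / q.c2)) ((1 - s) * z + s * (q.a3 / q.c3)) t :=
    continuous_ev (by fun_prop) (by fun_prop) (by fun_prop) t
  have h0 : ∀ s ∈ Set.Ioc (0 : ℝ) 1, 0 ≤ ev ((1 - s) * x + s * (q.a1 / q.c1))
      ((1 - s) * y + s * (q.a2 / q.c2)) ((1 - s) * z + s * (q.a3 / q.c3)) t := by
    intro s hs
    exact ct_half T hq h ⟨aux hq.1 e1 hx hx' s hs.1 hs.2, aux hq.2.1 e2 hy hy' s hs.1 hs.2,
      aux hq.2.2 e3 hz hz' s hs.1 hs.2⟩
  have hcl : (0 : ℝ) ∈ closure (Set.Ioc (0 : ℝ) 1) := by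
    rw [closure_Ioc (by norm_num)]
    exact ⟨le_rfl, zero_le_one⟩
  have := closure_minimal (s := Set.Ioc (0 : ℝ) 1) (t := {s : ℝ | 0 ≤
    ev ((1 - s) * x + s * (q.a1 / q.c1)) ((1 - s) * y + s * (q.a2 / q.c2))
      ((1 - s) * z + s * (q.a3 / q.c3)) t}) h0 (isClosed_le continuous_const hc) hcl
  simpa using this

/-! ### Horner schemes -/

/-- Horner scheme -/
noncomputable def hor {α : Type} (f : α → Ex) (e : Ex) (l : List α) : Ex :=
  List.rec (.k 0 0) (fun a _ s => .add (f a) (.mul e s)) l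

/-- Horner scheme, real values -/
noncomputable def horR {α : Type} (f : α → ℝ) (e : ℝ) : List α → ℝ
  | [] => 0
  | a :: l => f a + e * horR f e l

theorem ev_hor {α : Type} (x y z : ℝ) (f : α → Ex) (e : Ex) (l : List α) :
    ev x y z (hor f e l) = horR (fun a => ev x y z (f a)) (ev x y z e) l := by
  induction l with
  | nil => simp [hor, horR, ev]
  | cons a l ih =>
    change ev x y z (f a) + ev x y z e * ev x y z (hor f e l) = _
    rw [ih]; rfl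

/-- constant -/
def ci (n : ℤ) : Ex := .k n.toNat (-n).toNat

theorem ev_ci (x y z : ℝ) (n : ℤ) : ev x y z (ci n) = n := by
  have h : (n.toNat : ℤ) - ((-n).toNat : ℤ) = n := by omega
  have h2 := congrArg (fun k : ℤ => (k : ℝ)) h
  simp only [Int.cast_sub, Int.cast_natCast] at h2
  exact h2

end Vale.Agent.P219.TP.Kron
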