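import Vale.Agent.P219.TP.Basic

/-! # Squared distance, symmetry of the Jacobian (task A1b) -/

open MeasureTheory Set Metric
open scoped ENNReal ContDiff

namespace Vale.Agent.P219.TP

variable {n : ℕ} (G : Geo n)

namespace Geo

/-- `(x, y) ↦ ‖lg x y‖²/2` is smooth. -/
theorem sq_smooth : ContDiff ℝ ∞ fun z : E n × E n => ‖G.lg z.1 z.2‖ ^ 2 / 2 :=
  (G.lg_smooth.norm_sq ℝ).div_const 2

theorem lg_smooth_right (x : E n) : ContDiff ℝ ∞ fun y : E n => G.lg x y :=
  G.lg_smooth.comp (contDiff_const.prodMk contDiff_id)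

theorem ex_smooth_right (x : E n) : ContDiff ℝ ∞ fun v : E n => G.ex x v :=
  G.ex_smooth.comp (contDiff_const.prodMk contDiff_id)

theorem sq_smooth_right (x : E n) : ContDiff ℝ ∞ fun y : E n => ‖G.lg x y‖ ^ 2 / 2 :=
  ((G.lg_smooth_right x).norm_sq ℝ).div_const 2

/-- First variation formula: gradient of the squared distance. -/
theorem hasFDerivAt_sq (x y η : E n) :
    HasFDerivAt (fun y => ‖G.lg x y‖ ^ 2 / 2) (fderiv ℝ (fun y => ‖G.lg x y‖ ^ 2 / 2) y) y ∧
    fderiv ℝ (fun y => ‖G.lg x y‖ ^ 2 / 2) y (G.A y η) = -inner ℝ (G.lg y x) η := by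
  have hd : DifferentiableAt ℝ (fun y => ‖G.lg x y‖ ^ 2 / 2) y :=
    (G.sq_smooth_right x).differentiable (by simp) y
  refine ⟨hd.hasFDerivAt, ?_⟩
  obtain ⟨v, rfl⟩ : ∃ v, y = G.ex x v := ⟨G.lg x y, (G.ex_lg x y).symm⟩
  obtain ⟨z, rfl⟩ := G.T_surjective x v η
  rw [G.T_spec x v z]
  have he : DifferentiableAt ℝ (G.ex x) v := (G.ex_smooth_right x).differentiable (by simp) v
  have h1 : HasFDerivAt (fun v' => ‖G.lg x (G.ex x v')‖ ^ 2 / 2)
      ((fderiv ℝ (fun y => ‖G.lg x y‖ ^ 2 / 2) (G.ex x v)).comp (fderiv ℝ (G.ex x) v)) v :=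
    HasFDerivAt.comp (f := G.ex x) v hd.hasFDerivAt he.hasFDerivAt
  have h2 : HasFDerivAt (fun v' : E n => ‖v'‖ ^ 2 / 2) (innerSL ℝ v) v := by
    have h := (hasStrictFDerivAt_norm_sq v).hasFDerivAt.mul_const (1 / 2 : ℝ)
    have hf : (fun v' : E n => ‖v'‖ ^ 2 / 2) = fun v' : E n => ‖v'‖ ^ 2 * (1 / 2) := by
      funext v'
      ring
    rw [hf]
    refine h.congr_fderiv ?_
    ext z'
    simp [two_smul]
    ring
  have h3 : (fun v' => ‖G.lg x (G.ex x v')‖ ^ 2 / 2) = fun v' : E n => ‖v'‖ ^ 2 / 2 := by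
    funext v'
    rw [G.lg_ex]
  rw [h3] at h1
  have h4 := h1.unique h2
  have h5 := congrArg (fun L : E n →L[ℝ] ℝ => L z) h4
  simp only [ContinuousLinearMap.comp_apply, innerSL_apply_apply] at h5
  rw [h5, G.lg_back, inner_neg_left, neg_neg, ← G.T_self, G.gauss]

theorem fderiv_sq (x y η : E n) :
    fderiv ℝ (fun y => ‖G.lg x y‖ ^ 2 / 2) y (G.A y η) = -inner ℝ (G.lg y x) η :=
  (G.hasFDerivAt_sq x y η).2

/-- Partial derivative in the second variable. -/
theorem fderiv_sq_prod_right (x y η : E n) :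
    fderiv ℝ (fun z : E n × E n => ‖G.lg z.1 z.2‖ ^ 2 / 2) (x, y) (0, G.A y η) =
      -inner ℝ (G.lg y x) η := by
  have hd : DifferentiableAt ℝ (fun z : E n × E n => ‖G.lg z.1 z.2‖ ^ 2 / 2) (x, y) :=
    G.sq_smooth.differentiable (by simp) (x, y)
  have h0 : HasFDerivAt (fun y' : E n => (x, y')) ((0 : E n →L[ℝ] E n).prod
      (ContinuousLinearMap.id ℝ (E n))) y :=
    (hasFDerivAt_const x y).prodMk (hasFDerivAt_id y)
  have h1 := HasFDerivAt.comp (g := fun z : E n × E n => ‖G.lg z.1 z.2‖ ^ 2 / 2)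
    (f := fun y' : E n => (x, y')) y hd.hasFDerivAt h0
  have h2 := h1.unique (G.hasFDerivAt_sq x y η).1
  have h3 := congrArg (fun L : E n →L[ℝ] ℝ => L (G.A y η)) h2
  simp only [ContinuousLinearMap.comp_apply, ContinuousLinearMap.prod_apply,
    zero_apply, ContinuousLinearMap.id_apply] at h3
  rw [h3]
  exact G.fderiv_sq x y η

/-- Partial derivative in the first variable. -/
theorem fderiv_sq_prod_left (x y ξ : E n) :
    fderiv ℝ (fun z : E n × E n => ‖G.lg z.1 z.2‖ ^ 2 / 2) (x, y) (G.A x ξ, 0) =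
      -inner ℝ (G.lg x y) ξ := by
  have hd : DifferentiableAt ℝ (fun z : E n × E n => ‖G.lg z.1 z.2‖ ^ 2 / 2) (x, y) :=
    G.sq_smooth.differentiable (by simp) (x, y)
  have h0 : HasFDerivAt (fun x' : E n => (x', y)) ((ContinuousLinearMap.id ℝ (E n)).prod
      (0 : E n →L[ℝ] E n)) x :=
    (hasFDerivAt_id x).prodMk (hasFDerivAt_const y x)
  have h1 := HasFDerivAt.comp (g := fun z : E n × E n => ‖G.lg z.1 z.2‖ ^ 2 / 2)
    (f := fun x' : E n => (x', y)) x hd.hasFDerivAt h0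
  have h4 : ((fun z : E n × E n => ‖G.lg z.1 z.2‖ ^ 2 / 2) ∘ fun x' : E n => (x', y)) =
      fun x' => ‖G.lg y x'‖ ^ 2 / 2 := by
    funext x'
    simp only [Function.comp_apply]
    rw [G.norm_lg_comm]
  rw [h4] at h1
  have h2 := h1.unique (G.hasFDerivAt_sq y x ξ).1
  have h3 := congrArg (fun L : E n →L[ℝ] ℝ => L (G.A x ξ)) h2
  simp only [ContinuousLinearMap.comp_apply, ContinuousLinearMap.prod_apply,
    zero_apply, ContinuousLinearMap.id_apply] at h3
  rw [h3]
  exact G.fderiv_sq y x ξ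

/-- The mixed second derivative of `‖lg x y‖²/2`, first in `y`, then in `x`. -/
theorem sq_mixed_right (x y ζ η : E n) :
    fderiv ℝ (fderiv ℝ (fun z : E n × E n => ‖G.lg z.1 z.2‖ ^ 2 / 2)) (x, y) (ζ, 0)
      (0, G.A y η) = -inner ℝ (fderiv ℝ (G.lg y) x ζ) η := by
  set S : E n × E n → ℝ := fun z : E n × E n => ‖G.lg z.1 z.2‖ ^ 2 / 2 with hS
  have hd : DifferentiableAt ℝ (fderiv ℝ S) (x, y) :=
    (G.sq_smooth.fderiv_right (m := 1) (by norm_cast)).differentiable (by simp) (x, y)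
  have h0 : HasFDerivAt (fun x' : E n => (x', y)) ((ContinuousLinearMap.id ℝ (E n)).prod
      (0 : E n →L[ℝ] E n)) x :=
    (hasFDerivAt_id x).prodMk (hasFDerivAt_const y x)
  have h1 : HasFDerivAt (fun x' : E n => fderiv ℝ S (x', y)) _ x :=
    HasFDerivAt.comp (g := fderiv ℝ S) (f := fun x' : E n => (x', y)) x hd.hasFDerivAt h0
  have h2 : HasFDerivAt (fun x' : E n => fderiv ℝ S (x', y) (0, G.A y η)) _ x :=
    h1.clm_apply (hasFDerivAt_const ((0 : E n), G.A y η) x)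
  have h3 : (fun x' : E n => fderiv ℝ S (x', y) (0, G.A y η)) =
      fun x' => -inner ℝ (G.lg y x') η := by
    funext x'
    exact G.fderiv_sq_prod_right x' y η
  rw [h3] at h2
  have hl : HasFDerivAt (G.lg y) (fderiv ℝ (G.lg y) x) x :=
    ((G.lg_smooth_right y).differentiable (by simp) x).hasFDerivAt
  have h4 : HasFDerivAt (fun x' : E n => -inner ℝ (G.lg y x') η) _ x :=
    (hl.inner ℝ (hasFDerivAt_const η x)).neg
  have h5 := h2.unique h4
  have h6 := congrArg (fun L : E n →L[ℝ] ℝ => L ζ) h5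
  simpa using h6

/-- The mixed second derivative of `‖lg x y‖²/2`, first in `x`, then in `y`. -/
theorem sq_mixed_left (x y ξ ζ : E n) :
    fderiv ℝ (fderiv ℝ (fun z : E n × E n => ‖G.lg z.1 z.2‖ ^ 2 / 2)) (x, y) (0, ζ)
      (G.A x ξ, 0) = -inner ℝ (fderiv ℝ (G.lg x) y ζ) ξ := by
  set S : E n × E n → ℝ := fun z : E n × E n => ‖G.lg z.1 z.2‖ ^ 2 / 2 with hS
  have hd : DifferentiableAt ℝ (fderiv ℝ S) (x, y) :=
    (G.sq_smooth.fderiv_right (m := 1) (by norm_cast)).differentiable (by simp) (x, y)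
  have h0 : HasFDerivAt (fun y' : E n => (x, y')) ((0 : E n →L[ℝ] E n).prod
      (ContinuousLinearMap.id ℝ (E n))) y :=
    (hasFDerivAt_const x y).prodMk (hasFDerivAt_id y)
  have h1 : HasFDerivAt (fun y' : E n => fderiv ℝ S (x, y')) _ y :=
    HasFDerivAt.comp (g := fderiv ℝ S) (f := fun y' : E n => (x, y')) y hd.hasFDerivAt h0
  have h2 : HasFDerivAt (fun y' : E n => fderiv ℝ S (x, y') (G.A x ξ, 0)) _ y :=
    h1.clm_apply (hasFDerivAt_const (G.A x ξ, (0 : E n)) y)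
  have h3 : (fun y' : E n => fderiv ℝ S (x, y') (G.A x ξ, 0)) =
      fun y' => -inner ℝ (G.lg x y') ξ := by
    funext y'
    exact G.fderiv_sq_prod_left x y' ξ
  rw [h3] at h2
  have hl : HasFDerivAt (G.lg x) (fderiv ℝ (G.lg x) y) y :=
    ((G.lg_smooth_right x).differentiable (by simp) y).hasFDerivAt
  have h4 : HasFDerivAt (fun y' : E n => -inner ℝ (G.lg x y') ξ) _ y :=
    (hl.inner ℝ (hasFDerivAt_const ξ y)).neg
  have h5 := h2.unique h4
  have h6 := congrArg (fun L : E n →L[ℝ] ℝ => L ζ) h5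
  simpa using h6

theorem mixed_symm (x y ξ η : E n) :
    inner ℝ (fderiv ℝ (G.lg y) x (G.A x ξ)) η = inner ℝ (fderiv ℝ (G.lg x) y (G.A y η)) ξ := by
  have hs : IsSymmSndFDerivAt ℝ (fun z : E n × E n => ‖G.lg z.1 z.2‖ ^ 2 / 2) (x, y) :=
    G.sq_smooth.contDiffAt.isSymmSndFDerivAt (by simp; norm_cast)
  have h := hs.eq (G.A x ξ, 0) (0, G.A y η)
  rw [G.sq_mixed_right, G.sq_mixed_left] at h
  linarith

/-- `D (lg x) (y) ∘ A y` is a left inverse of `T x (lg x y)`. -/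
theorem fderiv_lg_T (x y z : E n) :
    fderiv ℝ (G.lg x) y (G.A y (G.T x (G.lg x y) z)) = z := by
  have h := G.fderiv_lg x (G.lg x y) z
  rw [← G.T_spec, G.ex_lg] at h
  exact h

/-- Symmetry of the Jacobian of the exponential map. Proof: differentiate `hasFDerivAt_sq` once
more: the mixed second derivative of `‖lg x y‖²/2` computed in both orders. -/
theorem J_symm (x y : E n) : |(G.T x (G.lg x y)).det| = |(G.T y (G.lg y x)).det| := by
  set M : E n →ₗ[ℝ] E n :=
    ContinuousLinearMap.toLinearMap ((fderiv ℝ (G.lg y) x).comp (G.A x)) with hM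
  set N : E n →ₗ[ℝ] E n :=
    ContinuousLinearMap.toLinearMap ((fderiv ℝ (G.lg x) y).comp (G.A y)) with hN
  have hadj : N = LinearMap.adjoint M := by
    rw [LinearMap.eq_adjoint_iff]
    intro η ξ
    rw [hM, hN, real_inner_comm (M ξ) η]
    exact (G.mixed_symm x y ξ η).symm
  have hdet : LinearMap.det N = LinearMap.det M := by
    have b := EuclideanSpace.basisFun (Fin n) ℝ
    rw [hadj, ← LinearMap.det_toMatrix b.toBasis, ← LinearMap.det_toMatrix b.toBasis,
      LinearMap.toMatrix_adjoint, Matrix.det_conjTranspose, star_trivial]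
  have h1 : LinearMap.det N * (G.T x (G.lg x y)).det = 1 := by
    have : N.comp (G.T x (G.lg x y) : E n →ₗ[ℝ] E n) = LinearMap.id := by
      ext1 z
      exact G.fderiv_lg_T x y z
    rw [ContinuousLinearMap.det, ← LinearMap.det_comp, this, LinearMap.det_id]
  have h2 : LinearMap.det M * (G.T y (G.lg y x)).det = 1 := by
    have : M.comp (G.T y (G.lg y x) : E n →ₗ[ℝ] E n) = LinearMap.id := by
      ext1 z
      exact G.fderiv_lg_T y x z
    rw [ContinuousLinearMap.det, ← LinearMap.det_comp, this, LinearMap.det_id]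
  rw [← hdet] at h2
  have hne : LinearMap.det N ≠ 0 := left_ne_zero_of_mul_eq_one h1
  rw [mul_left_cancel₀ hne (h1.trans h2.symm)]

end Geo

end Vale.Agent.P219.TP
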