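import Vale.Agent.P219.TP.Defs

/-! # Basic consequences of the axioms of `Geo` (task A1) -/

open MeasureTheory Set Metric
open scoped ENNReal ContDiff

namespace Vale.Agent.P219.TP

variable {n : ℕ} (G : Geo n)

namespace Geo

theorem det_A_ne (x : E n) : (G.A x).det ≠ 0 := by
  intro h
  have := G.w_det x
  rw [h, abs_zero, mul_zero] at this
  exact zero_ne_one this

theorem A_injective (x : E n) : Function.Injective (G.A x) := by
  have h := G.det_A_ne x
  rw [← ContinuousLinearMap.coe_coe, ← LinearMap.ker_eq_bot]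
  by_contra hk
  exact h (by
    by_contra hd
    exact hk (LinearMap.ker_eq_bot_of_injective
      (LinearMap.equivOfDetNeZero ((G.A x : E n →L[ℝ] E n) : E n →ₗ[ℝ] E n) hd).injective))

theorem ex_diff (x v : E n) : DifferentiableAt ℝ (G.ex x) v := by
  have h : ContDiff ℝ ∞ (G.ex x) :=
    G.ex_smooth.comp (contDiff_const.prodMk contDiff_id)
  exact h.differentiable (by simp) v

theorem lg_diff (x y : E n) : DifferentiableAt ℝ (G.lg x) y := by
  have h : ContDiff ℝ ∞ (G.lg x) :=
    G.lg_smooth.comp (contDiff_const.prodMk contDiff_id)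
  exact h.differentiable (by simp) y

/-- Same at distance `r` along a unit vector. -/
theorem T_smul_self (x u : E n) (r : ℝ) : G.T x (r • u) u = G.V r x u := by
  apply G.A_injective (G.ex x (r • u))
  rw [G.T_spec]
  have h1 := G.ex_deriv r x u
  have h2 : HasDerivAt (fun s : ℝ => s • u) u r := by
    simpa using (hasDerivAt_id r).smul_const u
  have h3 := (G.ex_diff x (r • u)).hasFDerivAt.comp_hasDerivAt r h2
  exact h3.unique h1

/-- The radial derivative: `T x v v = V 1 x v`. -/
theorem T_self (x v : E n) : G.T x v v = G.V 1 x v := by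
  have := G.T_smul_self x v 1
  rwa [one_smul] at this

theorem lg_back (x v : E n) : G.lg (G.ex x v) x = -G.V 1 x v := by
  have h := G.ex_flow 1 (-1) x v
  rw [one_smul, neg_one_smul, add_neg_cancel, zero_smul, G.ex_zero] at h
  have h2 := G.lg_ex (G.ex x v) (-G.V 1 x v)
  rwa [h] at h2

theorem lg_back' (x y : E n) : G.V 1 x (G.lg x y) = -G.lg y x := by
  have h := G.lg_back x (G.lg x y)
  rw [G.ex_lg] at h
  rw [h, neg_neg]

theorem norm_lg_comm (x y : E n) : ‖G.lg x y‖ = ‖G.lg y x‖ := by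
  rw [← G.norm_V 1 x (G.lg x y), G.lg_back', norm_neg]

theorem lg_self (x : E n) : G.lg x x = 0 := by
  have h := G.lg_ex x 0
  rwa [G.ex_zero] at h

theorem lg_eq_zero {x y : E n} : G.lg x y = 0 ↔ x = y := by
  constructor
  · intro h
    have h1 := G.ex_lg x y
    rw [h, G.ex_zero] at h1
    exact h1
  · rintro rfl
    exact G.lg_self x

theorem T_zero (x z : E n) : G.T x 0 z = z := by
  have h := G.T_smul_self x z 0
  rwa [zero_smul, G.V_zero] at h

/-- The exponential map does not decrease lengths. -/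
theorem norm_le_T (x v z : E n) : ‖z‖ ≤ ‖G.T x v z‖ := by
  by_cases hv : v = 0
  · rw [hv, G.T_zero]
  have hv2 : (inner ℝ v v : ℝ) ≠ 0 := by
    rw [real_inner_self_eq_norm_sq]
    exact pow_ne_zero 2 (norm_ne_zero_iff.2 hv)
  set c : ℝ := inner ℝ v z / inner ℝ v v with hc
  set z' : E n := z - c • v with hz'
  have hz : z = c • v + z' := by rw [hz']; abel
  have ho : (inner ℝ v z' : ℝ) = 0 := by
    rw [hz', inner_sub_right, inner_smul_right, hc, div_mul_cancel₀ _ hv2, sub_self]
  have h1 : ‖z'‖ ≤ ‖G.T x v z'‖ := by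
    have := G.mono x v z' 0 ho le_rfl zero_le_one
    rwa [zero_smul, G.T_zero] at this
  have h2 : (inner ℝ (G.T x v v) (G.T x v z') : ℝ) = 0 := by rw [G.gauss, ho]
  have h3 : (inner ℝ (G.T x v v) (G.T x v v) : ℝ) = inner ℝ v v := G.gauss x v v
  have h4 : ‖G.T x v z‖ ^ 2 = c ^ 2 * ‖v‖ ^ 2 + ‖G.T x v z'‖ ^ 2 := by
    rw [hz, map_add, map_smul, ← real_inner_self_eq_norm_sq, inner_add_left, inner_add_right,
      inner_add_right, inner_smul_left, inner_smul_right, inner_smul_left, inner_smul_right, h2, h3,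
      real_inner_comm (G.T x v v) (G.T x v z'), h2, real_inner_self_eq_norm_sq,
      real_inner_self_eq_norm_sq]
    simp
    ring
  have h5 : ‖z‖ ^ 2 = c ^ 2 * ‖v‖ ^ 2 + ‖z'‖ ^ 2 := by
    conv_lhs => rw [hz]
    rw [← real_inner_self_eq_norm_sq, inner_add_left, inner_add_right,
      inner_add_right, inner_smul_left, inner_smul_right, inner_smul_left, inner_smul_right, ho,
      real_inner_comm v z', ho, real_inner_self_eq_norm_sq, real_inner_self_eq_norm_sq]
    simp
    ring
  have h6 : ‖z'‖ ^ 2 ≤ ‖G.T x v z'‖ ^ 2 := pow_le_pow_left₀ (norm_nonneg _) h1 2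
  exact le_of_sq_le_sq (by rw [h4, h5]; linarith) (norm_nonneg _)

theorem T_injective (x v : E n) : Function.Injective (G.T x v) := by
  intro a b h
  have h1 := G.norm_le_T x v (a - b)
  rw [map_sub, h, sub_self, norm_zero] at h1
  exact sub_eq_zero.1 (norm_le_zero_iff.1 h1)

theorem det_T_ne (x v : E n) : (G.T x v).det ≠ 0 := by
  intro h
  have h1 := LinearMap.bot_lt_ker_of_det_eq_zero
    (f := ((G.T x v : E n →L[ℝ] E n) : E n →ₗ[ℝ] E n)) h
  rw [LinearMap.ker_eq_bot.2 (G.T_injective x v)] at h1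
  exact lt_irrefl _ h1

theorem T_surjective (x v : E n) : Function.Surjective (G.T x v) :=
  (LinearMap.injective_iff_surjective
    (f := ((G.T x v : E n →L[ℝ] E n) : E n →ₗ[ℝ] E n))).1 (G.T_injective x v)

theorem one_le_J (x v : E n) : 1 ≤ |(G.T x v).det| := by
  have h1 : ball (0 : E n) 1 ⊆ G.T x v '' ball (0 : E n) 1 := by
    intro y hy
    obtain ⟨z, hz⟩ := G.T_surjective x v y
    refine ⟨z, ?_, hz⟩
    rw [mem_ball_zero_iff] at hy ⊢
    calc ‖z‖ ≤ ‖G.T x v z‖ := G.norm_le_T x v z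
      _ = ‖y‖ := by rw [hz]
      _ < 1 := hy
  have h2 := measure_mono (μ := (volume : Measure (E n))) h1
  rw [Measure.addHaar_image_continuousLinearMap] at h2
  have h3 : (volume : Measure (E n)) (ball (0 : E n) 1) ≠ 0 :=
    (measure_ball_pos _ _ one_pos).ne'
  have h4 : (volume : Measure (E n)) (ball (0 : E n) 1) ≠ ⊤ := measure_ball_lt_top.ne
  have h5 : (1 : ℝ≥0∞) ≤ ENNReal.ofReal |(G.T x v).det| := by
    have h6 : 1 * (volume : Measure (E n)) (ball (0 : E n) 1) ≤
        ENNReal.ofReal |(G.T x v).det| * (volume : Measure (E n)) (ball (0 : E n) 1) := by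
      rwa [one_mul]
    exact (ENNReal.mul_le_mul_iff_left h3 h4).1 h6
  exact ENNReal.one_le_ofReal.1 h5

theorem fderiv_ex_eq (x v : E n) :
    fderiv ℝ (G.ex x) v = (G.A (G.ex x v)).comp (G.T x v) := by
  ext1 z
  rw [ContinuousLinearMap.comp_apply, G.T_spec]

theorem det_fderiv_ex (x v : E n) :
    (fderiv ℝ (G.ex x) v).det = (G.A (G.ex x v)).det * (G.T x v).det := by
  rw [G.fderiv_ex_eq]
  unfold ContinuousLinearMap.det
  rw [ContinuousLinearMap.toLinearMap_comp, LinearMap.det_comp]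

theorem w_J (x v : E n) :
    G.w (G.ex x v) * |(fderiv ℝ (G.ex x) v).det| = |(G.T x v).det| := by
  rw [G.det_fderiv_ex, abs_mul, ← mul_assoc, G.w_det, one_mul]

theorem fderiv_ex_det_ne (x v : E n) : (fderiv ℝ (G.ex x) v).det ≠ 0 := by
  rw [G.det_fderiv_ex]
  exact mul_ne_zero (G.det_A_ne _) (G.det_T_ne x v)

/-- `fderiv` of the logarithm is the inverse of `fderiv` of the exponential. -/
theorem fderiv_lg (x v z : E n) :
    fderiv ℝ (G.lg x) (G.ex x v) (fderiv ℝ (G.ex x) v z) = z := by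
  have h1 : HasFDerivAt (fun v => G.lg x (G.ex x v))
      ((fderiv ℝ (G.lg x) (G.ex x v)).comp (fderiv ℝ (G.ex x) v)) v :=
    (G.lg_diff x (G.ex x v)).hasFDerivAt.comp v (G.ex_diff x v).hasFDerivAt
  have h2 : (fun v => G.lg x (G.ex x v)) = id := by
    funext v
    exact G.lg_ex x v
  rw [h2] at h1
  have h3 := h1.unique (hasFDerivAt_id v)
  have h4 := congrArg (fun L : E n →L[ℝ] E n => L z) h3
  simpa using h4

theorem inner_D (h : E n → ℝ) (x v : E n) :
    inner ℝ (G.D h x) v = fderiv ℝ h x (G.A x v) := by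
  unfold D
  rw [InnerProductSpace.toDual_symm_apply, ContinuousLinearMap.comp_apply]

/-- Derivative of a function along a geodesic. -/
theorem hasDerivAt_geod {h : E n → ℝ} (hh : ContDiff ℝ 1 h) (x v : E n) (t : ℝ) :
    HasDerivAt (fun s : ℝ => h (G.ex x (s • v)))
      (inner ℝ (G.D h (G.ex x (t • v))) (G.V t x v)) t := by
  rw [G.inner_D]
  exact ((hh.differentiable one_ne_zero) (G.ex x (t • v))).hasFDerivAt.comp_hasDerivAt t
    (G.ex_deriv t x v)

end Geo

end Vale.Agent.P219.TP
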