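import Vale.Agent.P219.TP.RayDefs
import Vale.Agent.P219.TP.Liou
import Vale.Agent.P219.TP.Conv

/-! # Lower bound of the pair integral (task A4a) -/

open MeasureTheory Set Metric
open scoped ENNReal ContDiff

namespace Vale.Agent.P219.TP

variable {n : ℕ} (G : Geo n)

namespace PairGe

theorem lg_geod (x u : E n) (s t : ℝ) :
    G.lg (G.ex x (s • u)) (G.ex x (t • u)) = (t - s) • G.V s x u := by
  have h := G.ex_flow s (t - s) x u
  rw [show s + (t - s) = t by ring] at h
  rw [← h, G.lg_ex]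

theorem continuous_ex : Continuous fun z : E n × E n => G.ex z.1 z.2 := G.ex_smooth.continuous

theorem continuous_lg : Continuous fun z : E n × E n => G.lg z.1 z.2 := G.lg_smooth.continuous

theorem continuous_V : Continuous fun z : ℝ × E n × E n => G.V z.1 z.2.1 z.2.2 :=
  G.V_smooth.continuous

theorem continuous_D {h : E n → ℝ} (hh : ContDiff ℝ 1 h) : Continuous (G.D h) := by
  have h1 : Continuous fun x => fderiv ℝ h x := hh.continuous_fderiv (by norm_num)
  have h2 : Continuous fun x => G.A x := G.A_smooth.continuous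
  unfold Geo.D
  exact (LinearIsometryEquiv.continuous _).comp (h1.clm_comp h2)

theorem D_eq_zero {h : E n → ℝ} {x : E n} (hx : x ∉ tsupport h) : G.D h x = 0 := by
  have h1 : fderiv ℝ h x = 0 := fderiv_of_notMem_tsupport _ hx
  unfold Geo.D
  rw [h1, ContinuousLinearMap.zero_comp, map_zero]

end PairGe

open PairGe

/-- Angles along a geodesic. -/
theorem ang_geod (h : E n → ℝ) (x : E n) {u : E n} (hu : ‖u‖ = 1) {s t : ℝ} (hst : s < t) :
    ‖G.lg (G.ex x (s • u)) (G.ex x (t • u))‖ = t - s ∧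
    G.ang h (G.ex x (s • u)) (G.ex x (t • u)) = G.ca h x u s ∧
    G.ang h (G.ex x (t • u)) (G.ex x (s • u)) = -G.ca h x u t := by
  have hts : 0 < t - s := sub_pos.2 hst
  have n1 : ‖G.lg (G.ex x (s • u)) (G.ex x (t • u))‖ = t - s := by
    rw [lg_geod, norm_smul, G.norm_V, hu, mul_one, Real.norm_eq_abs, abs_of_pos hts]
  have n2 : ‖G.lg (G.ex x (t • u)) (G.ex x (s • u))‖ = t - s := by
    rw [lg_geod, norm_smul, G.norm_V, hu, mul_one, Real.norm_eq_abs, abs_of_neg (by linarith)]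
    ring
  refine ⟨n1, ?_, ?_⟩
  · unfold Geo.ang Geo.ca
    rw [n1, lg_geod, real_inner_smul_left, mul_div_mul_left _ _ hts.ne', real_inner_comm]
  · unfold Geo.ang Geo.ca
    rw [n2, lg_geod, real_inner_smul_left, real_inner_comm, ← neg_sub t s, neg_mul, neg_div,
      mul_div_mul_left _ _ hts.ne']

theorem abs_ca_le (h : E n → ℝ) (x : E n) {u : E n} (hu : ‖u‖ = 1) (t : ℝ) :
    |G.ca h x u t| ≤ 1 := by
  unfold Geo.ca
  have h1 := abs_real_inner_div_norm_mul_norm_le_one (G.D h (G.ex x (t • u))) (G.V t x u)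
  rwa [G.norm_V, hu, mul_one] at h1

theorem abs_ang_le (h : E n → ℝ) (p q : E n) : |G.ang h p q| ≤ 1 :=
  abs_real_inner_div_norm_mul_norm_le_one _ _

theorem measurable_ang {h : E n → ℝ} (hh : ContDiff ℝ 1 h) :
    Measurable fun z : E n × E n => G.ang h z.1 z.2 := by
  unfold Geo.ang
  have h1 := continuous_lg G
  have h2 : Continuous fun z : E n × E n => G.D h z.1 := (continuous_D G hh).comp continuous_fst
  exact (h1.inner h2).measurable.div ((h1.norm.mul h2.norm).measurable)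

theorem measurable_gk {κ : ℝ → ℝ → ℝ → ℝ}
    (hκm : Measurable fun z : ℝ × ℝ × ℝ => κ z.1 z.2.1 z.2.2) {h : E n → ℝ}
    (hh : ContDiff ℝ 1 h) :
    Measurable fun z : (E n × E n) × (ℝ × ℝ) => G.gk κ h z.1.1 z.1.2 z.2.1 z.2.2 := by
  have hD := continuous_D G hh
  have he : Continuous fun z : (E n × E n) × ℝ => G.ex z.1.1 (z.2 • z.1.2) :=
    (continuous_ex G).comp ((continuous_fst.comp continuous_fst).prodMk
      (continuous_snd.smul (continuous_snd.comp continuous_fst)))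
  have hDe : Continuous fun z : (E n × E n) × ℝ => G.D h (G.ex z.1.1 (z.2 • z.1.2)) := hD.comp he
  have hV : Continuous fun z : (E n × E n) × ℝ => G.V z.2 z.1.1 z.1.2 :=
    (continuous_V G).comp (continuous_snd.prodMk ((continuous_fst.comp continuous_fst).prodMk
      (continuous_snd.comp continuous_fst)))
  have hca : Measurable fun z : (E n × E n) × ℝ => G.ca h z.1.1 z.1.2 z.2 := by
    unfold Geo.ca
    exact (hDe.inner hV).measurable.div hDe.norm.measurable
  have p1 : Continuous fun z : (E n × E n) × (ℝ × ℝ) => ((z.1, z.2.1) : (E n × E n) × ℝ) := by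
    fun_prop
  have p2 : Continuous fun z : (E n × E n) × (ℝ × ℝ) => ((z.1, z.2.2) : (E n × E n) × ℝ) := by
    fun_prop
  have h0 : Measurable fun z : (E n × E n) × (ℝ × ℝ) => z.2.2 - z.2.1 := by fun_prop
  have hk : Measurable fun z : (E n × E n) × (ℝ × ℝ) =>
      κ (z.2.2 - z.2.1) (G.ca h z.1.1 z.1.2 z.2.1) (-G.ca h z.1.1 z.1.2 z.2.2) :=
    hκm.comp (h0.prodMk ((hca.comp p1.measurable).prodMk (hca.comp p2.measurable).neg))
  have hd : Measurable fun z : (E n × E n) × (ℝ × ℝ) =>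
      ‖G.D h (G.ex z.1.1 (z.2.1 • z.1.2))‖ * ‖G.D h (G.ex z.1.1 (z.2.2 • z.1.2))‖ :=
    ((hDe.norm.comp p1).mul (hDe.norm.comp p2)).measurable
  have hp : Measurable fun z : (E n × E n) × (ℝ × ℝ) => (z.2.2 - z.2.1) ^ (n - 1) :=
    h0.pow_const _
  have hall := ENNReal.measurable_ofReal.comp ((hk.mul hd).mul hp)
  exact hall

namespace PairGe

theorem measurable_pair {h : E n → ℝ} (hh : ContDiff ℝ 1 h) {κ : ℝ → ℝ → ℝ → ℝ}
    (hκm : Measurable fun z : ℝ × ℝ × ℝ => κ z.1 z.2.1 z.2.2) :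
    Measurable (fun z : E n × E n => κ ‖G.lg z.1 z.2‖ (G.ang h z.1 z.2) (G.ang h z.2 z.1) *
      (‖G.D h z.1‖ * ‖G.D h z.2‖)) := by
  have hD := continuous_D G hh
  have hk : Measurable fun z : E n × E n =>
      κ ‖G.lg z.1 z.2‖ (G.ang h z.1 z.2) (G.ang h z.2 z.1) :=
    hκm.comp ((continuous_lg G).norm.measurable.prodMk
      ((measurable_ang G hh).prodMk ((measurable_ang G hh).comp measurable_swap)))
  have hd : Measurable fun z : E n × E n => ‖G.D h z.1‖ * ‖G.D h z.2‖ :=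
    ((hD.comp continuous_fst).norm.mul (hD.comp continuous_snd).norm).measurable
  have hall := hk.mul hd
  exact hall

end PairGe

theorem integrable_pair {h : E n → ℝ} (hh : ContDiff ℝ 1 h) (hc : HasCompactSupport h)
    {κ : ℝ → ℝ → ℝ → ℝ} (hκm : Measurable fun z : ℝ × ℝ × ℝ => κ z.1 z.2.1 z.2.2)
    (hκb : ∀ L, ∃ C, ∀ r a b, 0 ≤ r → r ≤ L → |a| ≤ 1 → |b| ≤ 1 → |κ r a b| ≤ C) :
    Integrable (fun z : E n × E n => κ ‖G.lg z.1 z.2‖ (G.ang h z.1 z.2) (G.ang h z.2 z.1) *
      (‖G.D h z.1‖ * ‖G.D h z.2‖)) (G.vol.prod G.vol) := by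
  have hD := continuous_D G hh
  set K : Set (E n) := tsupport h with hK
  have hKc : IsCompact K := hc
  have hKK : IsCompact (K ×ˢ K) := hKc.prod hKc
  obtain ⟨L, hL⟩ := hKK.exists_bound_of_continuousOn (continuous_lg G).continuousOn
  obtain ⟨C, hC⟩ := hκb L
  obtain ⟨M, hM⟩ := hKc.exists_bound_of_continuousOn hD.continuousOn
  have hfin : (G.vol.prod G.vol) (K ×ˢ K) < ⊤ := by
    rw [Measure.prod_prod]
    exact ENNReal.mul_lt_top hKc.measure_lt_top hKc.measure_lt_top
  have hmeas := measurable_pair G hh hκm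
  rw [← integrableOn_iff_integrable_of_support_subset (s := K ×ˢ K)]
  · refine Measure.integrableOn_of_bounded (M := C * (M * M)) hfin.ne
      hmeas.aestronglyMeasurable ?_
    refine (ae_restrict_iff' hKK.measurableSet).2 (Filter.Eventually.of_forall fun z hz => ?_)
    have h1 := hC ‖G.lg z.1 z.2‖ (G.ang h z.1 z.2) (G.ang h z.2 z.1) (norm_nonneg _) (hL z hz)
      (abs_ang_le G h _ _) (abs_ang_le G h _ _)
    have h2 := hM z.1 hz.1
    have h3 := hM z.2 hz.2
    rw [norm_mul, Real.norm_eq_abs, norm_mul, norm_norm, norm_norm]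
    have hC0 : 0 ≤ C := (abs_nonneg _).trans h1
    have hM0 : 0 ≤ M := (norm_nonneg _).trans h2
    gcongr
  · intro z hz
    by_contra hzK
    apply hz
    show κ ‖G.lg z.1 z.2‖ (G.ang h z.1 z.2) (G.ang h z.2 z.1) *
      (‖G.D h z.1‖ * ‖G.D h z.2‖) = 0
    rw [mem_prod, not_and_or] at hzK
    rcases hzK with h1 | h1
    · rw [D_eq_zero G h1, norm_zero, zero_mul, mul_zero]
    · rw [D_eq_zero G h1, norm_zero, mul_zero, mul_zero]

theorem pair_ge (hn : 2 ≤ n) {h : E n → ℝ} (hh : ContDiff ℝ 1 h) (hc : HasCompactSupport h)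
    {κ : ℝ → ℝ → ℝ → ℝ} (hκm : Measurable fun z : ℝ × ℝ × ℝ => κ z.1 z.2.1 z.2.2)
    (hκb : ∀ L, ∃ C, ∀ r a b, 0 ≤ r → r ≤ L → |a| ≤ 1 → |b| ≤ 1 → κ r a b ≤ C)
    (hκ0 : ∀ r a b, 0 ≤ r → |a| ≤ 1 → |b| ≤ 1 → 0 ≤ κ r a b) :
    ∫⁻ x, ∫⁻ u : sphere (0 : E n) 1, ∫⁻ t in Ioi (0 : ℝ), G.gk κ h x (u : E n) 0 t ∂volume
        ∂((volume : Measure (E n)).toSphere) ∂G.vol ≤
      ENNReal.ofReal (G.pairInt κ h) := by
  set F : E n × E n → ℝ := fun z => κ ‖G.lg z.1 z.2‖ (G.ang h z.1 z.2) (G.ang h z.2 z.1) *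
      (‖G.D h z.1‖ * ‖G.D h z.2‖) with hF
  have hFm : Measurable F := measurable_pair G hh hκm
  have hF0 : ∀ z, 0 ≤ F z := fun z => mul_nonneg
    (hκ0 _ _ _ (norm_nonneg _) (abs_ang_le G h _ _) (abs_ang_le G h _ _)) (by positivity)
  have hFi : Integrable F (G.vol.prod G.vol) := by
    refine integrable_pair G hh hc hκm fun L => ?_
    obtain ⟨C, hC⟩ := hκb L
    refine ⟨C, fun r a b h0 hr ha hb => ?_⟩
    rw [abs_of_nonneg (hκ0 r a b h0 ha hb)]
    exact hC r a b h0 hr ha hb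
  have e1 : ENNReal.ofReal (G.pairInt κ h) = ∫⁻ x, ∫⁻ y, ENNReal.ofReal (F (x, y)) ∂G.vol ∂G.vol := by
    unfold Geo.pairInt
    rw [ofReal_integral_eq_lintegral_ofReal hFi (Filter.Eventually.of_forall hF0),
      lintegral_prod (fun z => ENNReal.ofReal (F z))
        (ENNReal.measurable_ofReal.comp hFm).aemeasurable]
  rw [e1]
  refine lintegral_mono fun x => ?_
  have hFx : Measurable fun y => ENNReal.ofReal (F (x, y)) :=
    ENNReal.measurable_ofReal.comp (hFm.comp measurable_prodMk_left)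
  have hex : Measurable fun v : E n => G.ex x v :=
    ((continuous_ex G).comp (Continuous.prodMk_right x)).measurable
  rw [G.lintegral_vol_ex x hFx]
  calc ∫⁻ u : sphere (0 : E n) 1, ∫⁻ t in Ioi (0 : ℝ), G.gk κ h x (u : E n) 0 t ∂volume
        ∂((volume : Measure (E n)).toSphere)
      = ∫⁻ u : sphere (0 : E n) 1, ∫⁻ r in Ioi (0 : ℝ),
          ENNReal.ofReal (r ^ (n - 1)) * ENNReal.ofReal (F (x, G.ex x (r • (u : E n)))) ∂volume
        ∂((volume : Measure (E n)).toSphere) := by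
        refine lintegral_congr fun u => ?_
        refine setLIntegral_congr_fun measurableSet_Ioi fun r hr => ?_
        have hr' : (0 : ℝ) < r := hr
        have hu : ‖(u : E n)‖ = 1 := by
          have := u.2
          rwa [mem_sphere_zero_iff_norm] at this
        obtain ⟨a1, a2, a3⟩ := ang_geod G h x hu hr'
        have hx0 : G.ex x ((0 : ℝ) • (u : E n)) = x := by rw [zero_smul, G.ex_zero]
        rw [hx0] at a1 a2 a3
        simp only [hF, Geo.gk]
        rw [a1, a2, a3, hx0, ← ENNReal.ofReal_mul (by positivity), sub_zero]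
        congr 1
        ring
    _ = ∫⁻ v, ENNReal.ofReal (F (x, G.ex x v)) := (polar (by omega) (hFx.comp hex)).symm
    _ ≤ ∫⁻ v, ENNReal.ofReal |(G.T x v).det| * ENNReal.ofReal (F (x, G.ex x v)) := by
        refine lintegral_mono fun v => ?_
        have h1 : (1 : ℝ≥0∞) ≤ ENNReal.ofReal |(G.T x v).det| := by
          rw [← ENNReal.ofReal_one]
          exact ENNReal.ofReal_le_ofReal (G.one_le_J x v)
        calc ENNReal.ofReal (F (x, G.ex x v)) = 1 * ENNReal.ofReal (F (x, G.ex x v)) :=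
              (one_mul _).symm
          _ ≤ _ := mul_le_mul_left h1 _

end Vale.Agent.P219.TP
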