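import Mathlib

/-! # Polynomial inequalities for the certificate in dimension 8

`φ(r,a) = 1045/r + (1820 - 1628 a²)/r³`, `λ = 2035`, `s = 65520`,
`f(c) = 87360 c + 43520 c³ - 15488 c⁵`. -/

namespace Vale.Agent.P219.TP

theorem quad_nonneg' {A B C x : ℝ} (hA : 0 < A) (h : B ^ 2 ≤ 4 * A * C) :
    0 ≤ A * x ^ 2 + B * x + C := by
  have h1 : 0 ≤ 4 * A * (A * x ^ 2 + B * x + C) := by
    have : 4 * A * (A * x ^ 2 + B * x + C) = (2 * A * x + B) ^ 2 + (4 * A * C - B ^ 2) := by ring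
    rw [this]
    have := sq_nonneg (2 * A * x + B)
    linarith
  exact nonneg_of_mul_nonneg_right h1 (by positivity)

/-- A cubic which is concave between `p₀` and `p₁` and nonnegative at the end points. -/
theorem cubic_interp {g0 g1 g2 g3 p p0 p1 : ℝ} (h0 : p0 ≤ p) (h1 : p ≤ p1)
    (hc : g2 + g3 * (p + p0 + p1) ≤ 0)
    (e0 : 0 ≤ g0 + g1 * p0 + g2 * p0 ^ 2 + g3 * p0 ^ 3)
    (e1 : 0 ≤ g0 + g1 * p1 + g2 * p1 ^ 2 + g3 * p1 ^ 3) :
    0 ≤ g0 + g1 * p + g2 * p ^ 2 + g3 * p ^ 3 := by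
  rcases eq_or_lt_of_le (h0.trans h1) with h | h
  · have : p = p0 := le_antisymm (h ▸ h1) h0
    rw [this]; exact e0
  · have key : (p1 - p0) * (g0 + g1 * p + g2 * p ^ 2 + g3 * p ^ 3) =
        (p1 - p) * (g0 + g1 * p0 + g2 * p0 ^ 2 + g3 * p0 ^ 3) +
        (p - p0) * (g0 + g1 * p1 + g2 * p1 ^ 2 + g3 * p1 ^ 3) +
        (p - p0) * (p1 - p) * (p1 - p0) * (-(g2 + g3 * (p + p0 + p1))) := by ring
    have h2 : 0 ≤ (p1 - p0) * (g0 + g1 * p + g2 * p ^ 2 + g3 * p ^ 3) := by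
      rw [key]
      have a1 : 0 ≤ p1 - p := by linarith
      have a2 : 0 ≤ p - p0 := by linarith
      have a3 : 0 ≤ p1 - p0 := by linarith
      have a4 : 0 ≤ -(g2 + g3 * (p + p0 + p1)) := by linarith
      positivity
    exact nonneg_of_mul_nonneg_right h2 (by linarith)

namespace P8

/-- The kernel (times `r⁴`) for `a, b ≥ 0` in terms of `S = a + b`, `p = a b`. -/
noncomputable def kS (r S p : ℝ) : ℝ :=
  2035 * r ^ 4 - 7315 / 2 * S * r ^ 3 + 1045 * (5 + S ^ 2 - 2 * p) * r ^ 2 +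
    (5698 * p - 6370) * S * r + (5460 + 1198 * (S ^ 2 - 2 * p) - 9768 * p ^ 2 - 3256 * p +
      1628 * p * S ^ 2)

theorem kS_diag {r c : ℝ} (hc : 0 ≤ c) (hc1 : c ≤ 1) : 0 ≤ kS r (2 * c) (c ^ 2) := by
  have e : kS r (2 * c) (c ^ 2) = 2035 * (r ^ 2 - 133 / 74 * c * r + 3 / 20) ^ 2 +
      ((9229 / 2 - 331787.5 / 74 * c ^ 2) * r ^ 2 + (-46571 / 4 * c + 11396 * c ^ 3) * r +
        (433137 / 80 - 860 * c ^ 2 - 3256 * c ^ 4)) := by
    unfold kS; ring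
  rw [e]
  have hx : 0 ≤ c ^ 2 := sq_nonneg c
  have hx1 : c ^ 2 ≤ 1 := pow_le_one₀ hc hc1
  have h1 : 0 ≤ (9229 / 2 - 331787.5 / 74 * c ^ 2) * r ^ 2 + (-46571 / 4 * c + 11396 * c ^ 3) * r +
        (433137 / 80 - 860 * c ^ 2 - 3256 * c ^ 4) := by
    refine quad_nonneg' (by nlinarith) ?_
    have e2 : (-46571 / 4 * c + 11396 * c ^ 3) ^ 2 = c ^ 2 * (-46571 / 4 + 11396 * c ^ 2) ^ 2 := by
      ring
    rw [e2]
    have e3 : c ^ 4 = (c ^ 2) ^ 2 := by ring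
    rw [e3]
    generalize c ^ 2 = x at hx hx1
    nlinarith [mul_nonneg hx (sub_nonneg.2 hx1), mul_nonneg hx (mul_nonneg hx (sub_nonneg.2 hx1)),
      mul_nonneg hx (sq_nonneg (1 - x)), sq_nonneg (1 - x), mul_nonneg (sub_nonneg.2 hx1) (sq_nonneg (1 - x))]
  positivity

theorem kS_zero {r a : ℝ} (ha : 0 ≤ a) (ha1 : a ≤ 1) : 0 ≤ kS r a 0 := by
  have e : kS r a 0 = 2035 * (r ^ 2 - 133 / 148 * a * r) ^ 2 +
      ((5225 + (1045 - 2035 * (133 / 148) ^ 2) * a ^ 2) * r ^ 2 + (-6370 * a) * r +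
        (5460 + 1198 * a ^ 2)) := by
    unfold kS; ring
  rw [e]
  have hx1 : a ^ 2 ≤ 1 := pow_le_one₀ ha ha1
  have h1 : 0 ≤ (5225 + (1045 - 2035 * (133 / 148) ^ 2) * a ^ 2) * r ^ 2 + (-6370 * a) * r +
      (5460 + 1198 * a ^ 2) := by
    refine quad_nonneg' (by nlinarith) ?_
    nlinarith [sq_nonneg a, mul_nonneg (sq_nonneg a) (sub_nonneg.2 hx1)]
  positivity

theorem kS_one {r b : ℝ} (hb : 0 ≤ b) (hb1 : b ≤ 1) : 0 ≤ kS r (1 + b) b := by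
  have e : kS r (1 + b) b = 2035 * (r ^ 2 - 133 / 148 * (1 + b) * r + 3 / 20) ^ 2 +
      ((6270 + 1045 * b ^ 2 - 2035 * (133 / 148 * (1 + b)) ^ 2 - 1221 / 2) * r ^ 2 +
        ((1 + b) * (5698 * b - 6370 + 4389 / 8)) * r +
        (6658 - 1628 * b - 5314 * b ^ 2 + 1628 * b ^ 3 - 2035 * 9 / 400)) := by
    unfold kS; ring
  rw [e]
  have h1 : 0 ≤ (6270 + 1045 * b ^ 2 - 2035 * (133 / 148 * (1 + b)) ^ 2 - 1221 / 2) * r ^ 2 +
        ((1 + b) * (5698 * b - 6370 + 4389 / 8)) * r +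
        (6658 - 1628 * b - 5314 * b ^ 2 + 1628 * b ^ 3 - 2035 * 9 / 400) := by
    refine quad_nonneg' (by nlinarith) ?_
    nlinarith [mul_nonneg hb (sub_nonneg.2 hb1), mul_nonneg hb (mul_nonneg hb (sub_nonneg.2 hb1)),
      mul_nonneg hb (sq_nonneg (1 - b)), sq_nonneg (1 - b),
      mul_nonneg (sub_nonneg.2 hb1) (sq_nonneg (1 - b)),
      mul_nonneg (mul_nonneg hb hb) (sq_nonneg (1 - b)),
      mul_nonneg (mul_nonneg hb (sub_nonneg.2 hb1)) (sq_nonneg (1 - b)),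
      mul_nonneg (mul_nonneg hb hb) (mul_nonneg hb (sub_nonneg.2 hb1)),
      mul_nonneg (mul_nonneg hb hb) (mul_nonneg hb (sq_nonneg (1 - b)))]
  positivity


theorem interp_pts {a b : ℝ} (ha : 0 ≤ a) (ha1 : a ≤ 1) (hb : 0 ≤ b) (hb1 : b ≤ 1) :
    a * b ≤ ((a + b) / 2) ^ 2 ∧ 0 ≤ a * b ∧ a + b - 1 ≤ a * b := by
  refine ⟨by nlinarith [sq_nonneg (a - b)], mul_nonneg ha hb, ?_⟩
  nlinarith [mul_nonneg (sub_nonneg.2 ha1) (sub_nonneg.2 hb1)]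

theorem kS_nonneg {r a b : ℝ} (ha : 0 ≤ a) (ha1 : a ≤ 1) (hb : 0 ≤ b) (hb1 : b ≤ 1) :
    0 ≤ kS r (a + b) (a * b) := by
  obtain ⟨h1, h0, h2⟩ := interp_pts ha ha1 hb hb1
  set S := a + b with hS
  set p := a * b with hp
  have hS0 : 0 ≤ S := by positivity
  have hS2 : S ≤ 2 := by linarith
  have form : ∀ p : ℝ, kS r S p = (2035 * r ^ 4 - 7315 / 2 * S * r ^ 3 +
      1045 * (5 + S ^ 2) * r ^ 2 - 6370 * S * r + 5460 + 1198 * S ^ 2) +
      (-2090 * r ^ 2 + 5698 * S * r - 2396 - 3256 + 1628 * S ^ 2) * p +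
      (-9768) * p ^ 2 + 0 * p ^ 3 := by
    intro p; unfold kS; ring
  have e1 : 0 ≤ kS r S ((S / 2) ^ 2) := by
    have := kS_diag (r := r) (c := S / 2) (by positivity) (by linarith)
    rwa [show 2 * (S / 2) = S by ring] at this
  rw [form] at e1 ⊢
  rcases le_or_gt S 1 with hS1 | hS1
  · have e0 : 0 ≤ kS r S 0 := kS_zero hS0 hS1
    rw [form] at e0
    exact cubic_interp h0 h1 (by norm_num) e0 e1
  · have e0 : 0 ≤ kS r S (S - 1) := by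
      have := kS_one (r := r) (b := S - 1) (by linarith) (by linarith)
      rwa [show 1 + (S - 1) = S by ring] at this
    rw [form] at e0
    exact cubic_interp h2 h1 (by norm_num) e0 e1

/-- The two-point inequality in terms of `S`, `p`. -/
noncomputable def pS (r S p : ℝ) : ℝ :=
  r ^ 3 * kS r S p - p * (65520 * r) + p / 2 * (87360 * S + 43520 * (S ^ 3 - 3 * p * S) -
    15488 * (S ^ 5 - 5 * S ^ 3 * p + 5 * S * p ^ 2))

theorem pS_diag {r c : ℝ} (hr : 0 ≤ r) (hc : 0 ≤ c) (hc1 : c ≤ 1) : 0 ≤ pS r (2 * c) (c ^ 2) := by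
  have e : pS r (2 * c) (c ^ 2) = (r - 2 * c) ^ 2 * (5460 * (r + 4 * c) +
      (5225 * r ^ 3 + 8160 * c * r ^ 2 + 10880 * c ^ 2 * r + 10880 * c ^ 3) +
      (2035 * r ^ 5 + 825 * c * r ^ 4 - 2750 * c ^ 2 * r ^ 3 - 2904 * c ^ 3 * r ^ 2 -
        3872 * c ^ 4 * r - 3872 * c ^ 5)) := by
    unfold pS kS; ring
  rw [e]
  have hx1 : c ^ 2 ≤ 1 := pow_le_one₀ hc hc1
  have h1 : c ^ 2 * r ^ 3 ≤ 1 * r ^ 3 := by gcongr
  have h2 : c ^ 3 * r ^ 2 ≤ c * r ^ 2 := by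
    have : c ^ 3 = c * c ^ 2 := by ring
    rw [this]; nlinarith [mul_nonneg (mul_nonneg hc (sq_nonneg r)) (sub_nonneg.2 hx1)]
  have h3 : c ^ 4 * r ≤ c ^ 2 * r := by
    have : c ^ 4 = c ^ 2 * c ^ 2 := by ring
    rw [this]; nlinarith [mul_nonneg (mul_nonneg (sq_nonneg c) hr) (sub_nonneg.2 hx1)]
  have h4 : c ^ 5 ≤ c ^ 3 := by
    have : c ^ 5 = c ^ 3 * c ^ 2 := by ring
    rw [this]; nlinarith [mul_nonneg (pow_nonneg hc 3) (sub_nonneg.2 hx1)]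
  have p1 : 0 ≤ r ^ 3 := by positivity
  have p2 : 0 ≤ c * r ^ 2 := by positivity
  have p3 : 0 ≤ c ^ 2 * r := by positivity
  have p4 : 0 ≤ c ^ 3 := by positivity
  have p5 : 0 ≤ r ^ 5 := by positivity
  have p6 : 0 ≤ c * r ^ 4 := by positivity
  have : 0 ≤ 5460 * (r + 4 * c) +
      (5225 * r ^ 3 + 8160 * c * r ^ 2 + 10880 * c ^ 2 * r + 10880 * c ^ 3) +
      (2035 * r ^ 5 + 825 * c * r ^ 4 - 2750 * c ^ 2 * r ^ 3 - 2904 * c ^ 3 * r ^ 2 -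
        3872 * c ^ 4 * r - 3872 * c ^ 5) := by nlinarith
  positivity

theorem pS_zero {r a : ℝ} (hr : 0 ≤ r) (ha : 0 ≤ a) (ha1 : a ≤ 1) : 0 ≤ pS r a 0 := by
  have e : pS r a 0 = r ^ 3 * kS r a 0 := by unfold pS; ring
  rw [e]
  have := kS_zero (r := r) ha ha1
  positivity

theorem pS_one {r b : ℝ} (hr : 0 ≤ r) (hb : 0 ≤ b) (hb1 : b ≤ 1) : 0 ≤ pS r (1 + b) b := by
  obtain ⟨y, hy⟩ : ∃ y, y = 1 - b := ⟨_, rfl⟩
  have hy0 : 0 ≤ y := by linarith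
  have e : 828 * 2 * pS r (1 + b) b = 42539328 * ((r - 1 - b) ^ 2 * b) +
      20647008 * ((r - 1 - b) ^ 2 * r * b) +
      8703936 * ((r - 1 - b) ^ 2 * r ^ 2 * b) +
      8018352 * ((r - 2) ^ 2 * b * y) +
      5232960 * ((r - 2) ^ 2 * b) +
      4161060 * ((r - 2 * b) ^ 2 * r ^ 2 * b * y) +
      4098600 * ((r - 1 - b) ^ 2 * r ^ 3) +
      3949576 * ((r - 2 * b) ^ 2 * r * y) +
      3861792 * ((r - 2) ^ 2 * b ^ 2 * y ^ 2) +
      3361756 * ((r - 1 - b) ^ 2 * r ^ 5) +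
      3281472 * ((r - 1 - b) ^ 2 * r * b * y) +
      3206016 * ((r - 2 * b) ^ 2 * b ^ 3 * y) +
      2870864 * ((r - 2) ^ 2 * r * b ^ 2 * y) +
      2525572 * ((r - 2) ^ 2 * r ^ 2 * b * y) +
      2235600 * ((r - 2 * b) ^ 2 * b ^ 2 * y) +
      2046000 * ((r - 2 * b) ^ 2 * r ^ 3 * y) +
      1655648 * ((r - 1 - b) ^ 2 * r ^ 3 * y) +
      1413576 * ((r - 2) ^ 2 * r * b * y) +
      1321824 * ((r - 2 * b) ^ 2 * r * y ^ 4) +
      1321824 * ((r - 2 * b) ^ 2 * r * b ^ 3 * y) +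
      970416 * ((r - 2) ^ 2 * b ^ 2 * y ^ 3) +
      650284 * ((r - 1 - b) ^ 2 * r ^ 4 * b) +
      611608 * ((r - 2) ^ 2 * r ^ 2 * b ^ 2 * y) +
      554512 * ((r - 2 * b) ^ 2 * r ^ 2 * y) +
      405264 * ((r - 1 - b) ^ 2 * r ^ 4) +
      289556 * ((r - 2 * b) ^ 2 * r ^ 4) +
      210960 * ((r - 2) ^ 2 * r * b ^ 2 * y ^ 3) +
      198232 * ((r - 2) ^ 2 * r ^ 3 * b * y) +
      59772 * ((r - 2) ^ 2 * r ^ 3 * b * y ^ 2) +
      42192 * ((r - 2 * b) ^ 2 * r ^ 3 * b * y ^ 2) +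
      31644 * ((r - 2 * b) ^ 2 * r ^ 2 * b * y ^ 2) +
      17580 * ((r - 1 - b) ^ 2 * r ^ 5 * b * y) +
      14064 * ((r - 2 * b) ^ 2 * r ^ 4 * b ^ 2) +
      10548 * ((r - 2) ^ 2 * r ^ 3 * b * y ^ 4) +
      7032 * ((r - 2 * b) ^ 2 * r ^ 5 * b ^ 2) +
      7032 * ((r - 2) ^ 2 * r ^ 5 * y ^ 2) +
      7032 * ((r - 2 * b) ^ 2 * r ^ 4 * b ^ 3) +
      3516 * ((r - 2) ^ 2 * r ^ 4 * b * y ^ 4) +
      3516 * (r ^ 6 * y ^ 5) +
      1172 * ((r - 2 * b) ^ 2 * r ^ 5 * b ^ 3) +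
      879 * ((r - 2) ^ 2 * r ^ 5 * y ^ 3) +
      293 * ((r - 2 * b) ^ 2 * r ^ 5 * y ^ 3) := by
    subst hy; unfold pS kS; ring
  have h : 0 ≤ 828 * 2 * pS r (1 + b) b := by
    rw [e]; positivity
  linarith

theorem pS_nonneg {r a b : ℝ} (hr : 0 ≤ r) (ha : 0 ≤ a) (ha1 : a ≤ 1) (hb : 0 ≤ b)
    (hb1 : b ≤ 1) : 0 ≤ pS r (a + b) (a * b) := by
  obtain ⟨h1, h0, h2⟩ := interp_pts ha ha1 hb hb1
  set S := a + b with hS
  set p := a * b with hp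
  have hS0 : 0 ≤ S := by positivity
  have hS2 : S ≤ 2 := by linarith
  have form : ∀ p : ℝ, pS r S p = (r ^ 3 * (2035 * r ^ 4 - 7315 / 2 * S * r ^ 3 +
      1045 * (5 + S ^ 2) * r ^ 2 - 6370 * S * r + 5460 + 1198 * S ^ 2)) +
      (r ^ 3 * (-2090 * r ^ 2 + 5698 * S * r - 2396 - 3256 + 1628 * S ^ 2) - 65520 * r +
        43680 * S + 21760 * S ^ 3 - 7744 * S ^ 5) * p +
      (-9768 * r ^ 3 - 65280 * S + 38720 * S ^ 3) * p ^ 2 + (-38720 * S) * p ^ 3 := by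
    intro p; unfold pS kS; ring
  have e1 : 0 ≤ pS r S ((S / 2) ^ 2) := by
    have := pS_diag (r := r) (c := S / 2) hr (by positivity) (by linarith)
    rwa [show 2 * (S / 2) = S by ring] at this
  rw [form] at e1 ⊢
  have hr3 : 0 ≤ r ^ 3 := by positivity
  rcases le_or_gt S 1 with hS1 | hS1
  · have e0 : 0 ≤ pS r S 0 := pS_zero hr hS0 hS1
    rw [form] at e0
    refine cubic_interp h0 h1 ?_ e0 e1
    have q1 : S ^ 3 ≤ S := by
      have : S ^ 2 ≤ 1 := pow_le_one₀ hS0 hS1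
      nlinarith [mul_nonneg hS0 (sub_nonneg.2 this)]
    have q2 : 0 ≤ S * (p + 0 + (S / 2) ^ 2) := by positivity
    linarith
  · have e0 : 0 ≤ pS r S (S - 1) := by
      have := pS_one (r := r) (b := S - 1) hr (by linarith) (by linarith)
      rwa [show 1 + (S - 1) = S by ring] at this
    rw [form] at e0
    refine cubic_interp h2 h1 ?_ e0 e1
    have q1 : 0 ≤ S * (p - (S - 1)) := mul_nonneg hS0 (by linarith)
    have q2 : -65280 * S + 38720 * S ^ 3 - 38720 * S * (2 * (S - 1) + (S / 2) ^ 2) ≤ 0 := by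
      nlinarith [mul_nonneg hS0 (mul_nonneg (sub_nonneg.2 hS1.le) (sub_nonneg.2 hS2)),
        mul_nonneg hS0 (sq_nonneg (S - 1))]
    nlinarith

/-- The kernel times `r⁴` (with `|a b|` for the angular term). -/
noncomputable def k8 (r a b : ℝ) : ℝ :=
  2035 * r ^ 4 + 1045 * ((5 + a ^ 2 + b ^ 2) * r ^ 2 - 7 / 2 * (a + b) * r ^ 3) +
    1820 * (3 + 2 * (a ^ 2 + b ^ 2) - 7 / 2 * (a + b) * r) -
    1628 * (3 / 2 * (a ^ 2 + b ^ 2) + 4 * a ^ 2 * b ^ 2 + 2 * |a * b| - |a * b| * (a ^ 2 + b ^ 2)) +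
    5698 * r * (a * b) * (a + b)

theorem k8_pos_pos {r a b : ℝ} (ha : 0 ≤ a) (ha1 : a ≤ 1) (hb : 0 ≤ b) (hb1 : b ≤ 1) :
    0 ≤ k8 r a b := by
  have h := kS_nonneg (r := r) ha ha1 hb hb1
  have e : k8 r a b = kS r (a + b) (a * b) := by
    unfold k8 kS
    rw [abs_of_nonneg (mul_nonneg ha hb)]
    ring
  rwa [e]

theorem aux_t {t : ℝ} (ht : 0 ≤ t) (ht1 : t ≤ 1) :
    (t * (12068 - 5698 * t)) ^ 2 ≤ 4 * 4600 * (1344 + 7372 * t - 2058 * t ^ 2) := by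
  have h2 : t * (12068 - 5698 * t) ≤ 6370 := by
    have : 0 ≤ (1 - t) * (6370 - 5698 * t) := mul_nonneg (by linarith) (by linarith)
    nlinarith [this]
  have h0 : 0 ≤ t * (12068 - 5698 * t) := by
    apply mul_nonneg ht; linarith
  have h1 : (t * (12068 - 5698 * t)) ^ 2 ≤ 6370 * (t * (12068 - 5698 * t)) := by
    rw [pow_two]; gcongr
  refine h1.trans ?_
  have h3 : t ^ 2 ≤ t := by nlinarith
  nlinarith [h3]

theorem k8_pos_neg {r a b : ℝ} (hr : 0 ≤ r) (ha : 0 ≤ a) (ha1 : a ≤ 1) (hb : 0 ≤ b) (hb1 : b ≤ 1) :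
    0 ≤ k8 r a (-b) := by
  have hab : 0 ≤ a * b := mul_nonneg ha hb
  have hab1 : a * b ≤ 1 := mul_le_one₀ ha1 hb hb1
  have e : k8 r a (-b) = 2035 * (r ^ 2 - 133 / 148 * (a - b) * r) ^ 2 +
      ((5225 + 1045 * (a ^ 2 + b ^ 2) - 2035 * (133 / 148) ^ 2 * (a - b) ^ 2) * r ^ 2 +
        (-(6370 + 5698 * (a * b)) * (a - b)) * r +
        (5460 + 1198 * (a ^ 2 + b ^ 2) - 6512 * (a * b) ^ 2 - 3256 * (a * b) +
          1628 * (a * b) * (a ^ 2 + b ^ 2))) := by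
    unfold k8
    rw [show a * -b = -(a * b) by ring, abs_neg, abs_of_nonneg hab]
    ring
  rw [e]
  have hC : 0 ≤ 5460 + 1198 * (a ^ 2 + b ^ 2) - 6512 * (a * b) ^ 2 - 3256 * (a * b) +
          1628 * (a * b) * (a ^ 2 + b ^ 2) := by
    nlinarith [sq_nonneg (a - b), mul_nonneg hab (sq_nonneg (a - b)), mul_nonneg hab (sub_nonneg.2 hab1)]
  have hA : 0 < 5225 + 1045 * (a ^ 2 + b ^ 2) - 2035 * (133 / 148) ^ 2 * (a - b) ^ 2 := by
    nlinarith [mul_nonneg ha hb, pow_le_one₀ ha ha1 (n := 2), pow_le_one₀ hb hb1 (n := 2)]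
  rcases le_or_gt a b with h | h
  · have h1 : 0 ≤ (-(6370 + 5698 * (a * b)) * (a - b)) * r := by
      have : (-(6370 + 5698 * (a * b)) * (a - b)) * r = (6370 + 5698 * (a * b)) * (b - a) * r := by
        ring
      rw [this]
      have : 0 ≤ b - a := by linarith
      positivity
    have h2 : 0 ≤ (5225 + 1045 * (a ^ 2 + b ^ 2) - 2035 * (133 / 148) ^ 2 * (a - b) ^ 2) * r ^ 2 := by
      positivity
    have h3 : 0 ≤ 2035 * (r ^ 2 - 133 / 148 * (a - b) * r) ^ 2 := by positivity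
    linarith
  · have h1 : 0 ≤ (5225 + 1045 * (a ^ 2 + b ^ 2) - 2035 * (133 / 148) ^ 2 * (a - b) ^ 2) * r ^ 2 +
        (-(6370 + 5698 * (a * b)) * (a - b)) * r +
        (5460 + 1198 * (a ^ 2 + b ^ 2) - 6512 * (a * b) ^ 2 - 3256 * (a * b) +
          1628 * (a * b) * (a ^ 2 + b ^ 2)) := by
      refine quad_nonneg' hA ?_
      have hpt : a * b ≤ 1 - (a - b) := by nlinarith [mul_nonneg (sub_nonneg.2 ha1) hb]
      have ht : 0 ≤ a - b := by linarith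
      have ht1 : a - b ≤ 1 := by linarith
      have e5 : a ^ 2 + b ^ 2 = (a - b) ^ 2 + 2 * (a * b) := by ring
      rw [e5]
      generalize a * b = p at hab hab1 hpt
      generalize a - b = t at hpt ht ht1
      have b1 : (-(6370 + 5698 * p) * t) ^ 2 ≤ (t * (12068 - 5698 * t)) ^ 2 := by
        have : (-(6370 + 5698 * p) * t) ^ 2 = ((6370 + 5698 * p) * t) ^ 2 := by ring
        rw [this]
        have : (6370 + 5698 * p) * t ≤ t * (12068 - 5698 * t) := by nlinarith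
        gcongr
      have b2 : 4600 ≤ 5225 + 1045 * (t ^ 2 + 2 * p) - 2035 * (133 / 148) ^ 2 * t ^ 2 := by
        nlinarith
      have b3 : 1344 + 7372 * t - 2058 * t ^ 2 ≤ 5460 + 1198 * (t ^ 2 + 2 * p) - 6512 * p ^ 2 -
          3256 * p + 1628 * p * (t ^ 2 + 2 * p) := by
        nlinarith [mul_nonneg hab (sq_nonneg t)]
      have b4 : 0 ≤ 1344 + 7372 * t - 2058 * t ^ 2 := by nlinarith
      have b5 := aux_t ht ht1
      calc (-(6370 + 5698 * p) * t) ^ 2 ≤ 4 * 4600 * (1344 + 7372 * t - 2058 * t ^ 2) := b1.trans b5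
        _ ≤ 4 * (5225 + 1045 * (t ^ 2 + 2 * p) - 2035 * (133 / 148) ^ 2 * t ^ 2) *
          (5460 + 1198 * (t ^ 2 + 2 * p) - 6512 * p ^ 2 -
          3256 * p + 1628 * p * (t ^ 2 + 2 * p)) := by gcongr
    positivity

theorem k8_neg_neg {r a b : ℝ} (hr : 0 ≤ r) (ha : 0 ≤ a) (ha1 : a ≤ 1) (hb : 0 ≤ b) (hb1 : b ≤ 1) :
    0 ≤ k8 r (-a) (-b) := by
  have h := k8_pos_pos (r := 0) ha ha1 hb hb1
  have hab : 0 ≤ a * b := mul_nonneg ha hb
  have e : k8 r (-a) (-b) = k8 0 a b + (2035 * r ^ 4 + 1045 * ((5 + a ^ 2 + b ^ 2) * r ^ 2 +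
      7 / 2 * (a + b) * r ^ 3) + (6370 - 5698 * (a * b)) * (a + b) * r) := by
    unfold k8
    rw [show -a * -b = a * b by ring]
    ring
  have : 0 ≤ 6370 - 5698 * (a * b) := by
    have : a * b ≤ 1 := mul_le_one₀ ha1 hb hb1
    linarith
  rw [e]
  positivity

theorem k8_nonneg {r a b : ℝ} (hr : 0 ≤ r) (ha : |a| ≤ 1) (hb : |b| ≤ 1) : 0 ≤ k8 r a b := by
  have hsymm : ∀ a b : ℝ, k8 r a b = k8 r b a := by
    intro a b; unfold k8; rw [mul_comm b a]; ring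
  rcases le_total 0 a with h1 | h1 <;> rcases le_total 0 b with h2 | h2
  · rw [abs_of_nonneg h1] at ha
    rw [abs_of_nonneg h2] at hb
    exact k8_pos_pos h1 ha h2 hb
  · rw [abs_of_nonneg h1] at ha
    rw [abs_of_nonpos h2] at hb
    have := k8_pos_neg hr h1 ha (neg_nonneg.2 h2) hb
    rwa [neg_neg] at this
  · rw [abs_of_nonpos h1] at ha
    rw [abs_of_nonneg h2] at hb
    have := k8_pos_neg hr h2 hb (neg_nonneg.2 h1) ha
    rwa [neg_neg, ← hsymm] at this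
  · rw [abs_of_nonpos h1] at ha
    rw [abs_of_nonpos h2] at hb
    have := k8_neg_neg hr (neg_nonneg.2 h1) ha (neg_nonneg.2 h2) hb
    rwa [neg_neg, neg_neg] at this

/-- boundary function -/
noncomputable def f (c : ℝ) : ℝ := 87360 * c + 43520 * c ^ 3 - 15488 * c ^ 5

theorem pi8 {r a b : ℝ} (hr : 0 ≤ r) (ha : 0 ≤ a) (ha1 : a ≤ 1) (hb : 0 ≤ b) (hb1 : b ≤ 1) :
    a * b * (65520 * r - (f a + f b) / 2) ≤ r ^ 3 * k8 r a b := by
  have h := pS_nonneg hr ha ha1 hb hb1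
  have e : k8 r a b = kS r (a + b) (a * b) := by
    unfold k8 kS
    rw [abs_of_nonneg (mul_nonneg ha hb)]
    ring
  rw [e]
  unfold pS at h
  unfold f
  nlinarith [h]

end P8

end Vale.Agent.P219.TP
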