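import Vale.Agent.P219.TP.CertTools
import Vale.Agent.P219.TP.PolyEight

/-! # The certificate in dimension 8

`φ(r,a) = 1045/r + (1820 - 1628 a²)/r³`, `λ = 2035`, `s = 65520`. -/

open MeasureTheory Set Metric Filter Topology
open scoped ENNReal ContDiff

namespace Vale.Agent.P219.TP

theorem fderiv_quad {g h : ℝ → ℝ} {g' h' s : ℝ} (hg : HasDerivAt g g' s) (hh : HasDerivAt h h' s)
    (c x y : ℝ) :
    fderiv ℝ (fun p : ℝ × ℝ => g p.1 + h p.1 * p.2 ^ 2) (s, c) (x, y) =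
      (g' + h' * c ^ 2) * x + 2 * h s * c * y := by
  have h1 : HasFDerivAt (fun p : ℝ × ℝ => g p.1)
      ((ContinuousLinearMap.toSpanSingleton ℝ g').comp (ContinuousLinearMap.fst ℝ ℝ ℝ)) (s, c) :=
    HasFDerivAt.comp (g := g) (f := Prod.fst) (s, c) hg.hasFDerivAt hasFDerivAt_fst
  have h2 : HasFDerivAt (fun p : ℝ × ℝ => h p.1)
      ((ContinuousLinearMap.toSpanSingleton ℝ h').comp (ContinuousLinearMap.fst ℝ ℝ ℝ)) (s, c) :=
    HasFDerivAt.comp (g := h) (f := Prod.fst) (s, c) hh.hasFDerivAt hasFDerivAt_fst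
  have h3' : HasDerivAt (fun t : ℝ => t ^ 2) (2 * c) c := by
    have := hasDerivAt_pow 2 c
    simpa using this
  have h3 : HasFDerivAt (fun p : ℝ × ℝ => p.2 ^ 2)
      ((ContinuousLinearMap.toSpanSingleton ℝ (2 * c)).comp (ContinuousLinearMap.snd ℝ ℝ ℝ))
      (s, c) :=
    HasFDerivAt.comp (g := fun t : ℝ => t ^ 2) (f := Prod.snd) (s, c) h3'.hasFDerivAt
      hasFDerivAt_snd
  have h4 : HasFDerivAt (fun p : ℝ × ℝ => g p.1 + h p.1 * p.2 ^ 2) _ (s, c) :=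
    h1.add (h2.mul h3)
  rw [h4.fderiv]
  simp
  ring

/-- The singular multiplier, regularised. -/
noncomputable def P8.g (η s : ℝ) : ℝ := 1045 / (s + η ^ 2) + 1820 / (s + η ^ 2) ^ 2

/-- The singular multiplier, regularised. -/
noncomputable def P8.h (η s : ℝ) : ℝ := -1628 / (s + η ^ 2) ^ 3

theorem P8.hasDerivAt_g {η s : ℝ} (h : s + η ^ 2 ≠ 0) :
    HasDerivAt (P8.g η) (-1045 / (s + η ^ 2) ^ 2 - 3640 / (s + η ^ 2) ^ 3) s := by
  unfold P8.g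
  have h1 : HasDerivAt (fun s : ℝ => s + η ^ 2) 1 s := (hasDerivAt_id s).add_const _
  refine (((hasDerivAt_const s (1045 : ℝ)).div h1 h).add
    ((hasDerivAt_const s (1820 : ℝ)).div (h1.fun_pow 2) (pow_ne_zero 2 h))).congr_deriv ?_
  field_simp
  ring

theorem P8.hasDerivAt_h {η s : ℝ} (h : s + η ^ 2 ≠ 0) :
    HasDerivAt (P8.h η) (4884 / (s + η ^ 2) ^ 4) s := by
  unfold P8.h
  have h1 : HasDerivAt (fun s : ℝ => s + η ^ 2) 1 s := (hasDerivAt_id s).add_const _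
  refine ((hasDerivAt_const s (-1628 : ℝ)).div (h1.fun_pow 3) (pow_ne_zero 3 h)).congr_deriv ?_
  field_simp
  ring

/-- The cut-off. -/
noncomputable def chi (t : ℝ) : ℝ := Real.smoothTransition ((11 / 10 - t) * 10)

theorem chi_one {t : ℝ} (h : t ≤ 1) : chi t = 1 :=
  Real.smoothTransition.one_of_one_le (by linarith)

theorem chi_zero {t : ℝ} (h : 11 / 10 ≤ t) : chi t = 0 :=
  Real.smoothTransition.zero_of_nonpos (by linarith)

theorem chi_nonneg (t : ℝ) : 0 ≤ chi t := Real.smoothTransition.nonneg _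

theorem contDiff_chi : ContDiff ℝ ∞ chi :=
  Real.smoothTransition.contDiff.comp ((contDiff_const.sub contDiff_id).mul contDiff_const)

/-- The field. -/
noncomputable def P8.Phi (η : ℝ) (p : ℝ × ℝ) : ℝ :=
  chi (p.2 ^ 2 / (p.1 + η ^ 2)) * (P8.g η p.1 + P8.h η p.1 * p.2 ^ 2)

theorem P8.Phi_contDiff {η : ℝ} : ContDiffOn ℝ ∞ (P8.Phi η) {p | -η ^ 2 < p.1} := by
  have hD : ContDiffOn ℝ ∞ (fun p : ℝ × ℝ => p.1 + η ^ 2) {p | -η ^ 2 < p.1} :=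
    (contDiff_fst.add contDiff_const).contDiffOn
  have hD0 : ∀ p ∈ {p : ℝ × ℝ | -η ^ 2 < p.1}, p.1 + η ^ 2 ≠ 0 := by
    intro p hp
    have : -η ^ 2 < p.1 := hp
    linarith
  have h2 : ContDiffOn ℝ ∞ (fun p : ℝ × ℝ => p.2 ^ 2) {p | -η ^ 2 < p.1} :=
    (contDiff_snd.pow 2).contDiffOn
  unfold P8.Phi P8.g P8.h
  refine ContDiffOn.mul (contDiff_chi.comp_contDiffOn (h2.div hD hD0)) ?_
  refine ContDiffOn.add (ContDiffOn.add (contDiffOn_const.div hD hD0) (contDiffOn_const.div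
    (hD.pow 2) fun p hp => pow_ne_zero 2 (hD0 p hp))) (ContDiffOn.mul (contDiffOn_const.div
    (hD.pow 3) fun p hp => pow_ne_zero 3 (hD0 p hp)) h2)

theorem P8.Phi_nonneg {η : ℝ} (hη : 0 < η) {p : ℝ × ℝ} (hp : 0 ≤ p.1) : 0 ≤ P8.Phi η p := by
  unfold P8.Phi
  have hD : 0 < p.1 + η ^ 2 := by positivity
  rcases le_or_gt (11 / 10) (p.2 ^ 2 / (p.1 + η ^ 2)) with h | h
  · rw [chi_zero h, zero_mul]
  · refine mul_nonneg (chi_nonneg _) ?_
    rw [div_lt_iff₀ hD] at h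
    unfold P8.g P8.h
    have : 1045 / (p.1 + η ^ 2) + 1820 / (p.1 + η ^ 2) ^ 2 + -1628 / (p.1 + η ^ 2) ^ 3 * p.2 ^ 2 =
        (1045 * (p.1 + η ^ 2) ^ 2 + (1820 * (p.1 + η ^ 2) - 1628 * p.2 ^ 2)) /
          (p.1 + η ^ 2) ^ 3 := by
      field_simp
      ring
    rw [this]
    have : 0 ≤ 1820 * (p.1 + η ^ 2) - 1628 * p.2 ^ 2 := by linarith
    positivity

theorem P8.Phi_eventuallyEq {η : ℝ} (hη : 0 < η) {r a : ℝ} (ha : |a| ≤ 1) :
    P8.Phi η =ᶠ[𝓝 (r ^ 2, r * a)] fun p => P8.g η p.1 + P8.h η p.1 * p.2 ^ 2 := by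
  have ho : IsOpen {p : ℝ × ℝ | p.2 ^ 2 < p.1 + η ^ 2} :=
    isOpen_lt (by fun_prop) (by fun_prop)
  have hm : (r ^ 2, r * a) ∈ {p : ℝ × ℝ | p.2 ^ 2 < p.1 + η ^ 2} := by
    have ha2 : a ^ 2 ≤ 1 := by nlinarith [sq_abs a, abs_nonneg a]
    have : 0 < η ^ 2 := by positivity
    change (r * a) ^ 2 < r ^ 2 + η ^ 2
    nlinarith [mul_nonneg (sq_nonneg r) (sub_nonneg.2 ha2)]
  filter_upwards [ho.mem_nhds hm] with p hp
  have hp' : p.2 ^ 2 < p.1 + η ^ 2 := hp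
  unfold P8.Phi
  rw [chi_one, one_mul]
  have hD : 0 < p.1 + η ^ 2 := lt_of_le_of_lt (sq_nonneg _) hp'
  rw [div_le_one hD]
  exact hp'.le

theorem P8.Phi_eq {η : ℝ} (hη : 0 < η) {r a : ℝ} (ha : |a| ≤ 1) :
    P8.Phi η (r ^ 2, r * a) = P8.g η (r ^ 2) + P8.h η (r ^ 2) * (r * a) ^ 2 :=
  (P8.Phi_eventuallyEq hη ha).self_of_nhds

theorem P8.fderiv_Phi {η : ℝ} (hη : 0 < η) {r a : ℝ} (ha : |a| ≤ 1) (x y : ℝ) :
    fderiv ℝ (P8.Phi η) (r ^ 2, r * a) (x, y) =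
      ((-1045 / (r ^ 2 + η ^ 2) ^ 2 - 3640 / (r ^ 2 + η ^ 2) ^ 3) +
        4884 / (r ^ 2 + η ^ 2) ^ 4 * (r * a) ^ 2) * x +
      2 * (-1628 / (r ^ 2 + η ^ 2) ^ 3) * (r * a) * y := by
  have h0 : r ^ 2 + η ^ 2 ≠ 0 := by positivity
  rw [(P8.Phi_eventuallyEq hη ha).fderiv_eq,
    fderiv_quad (P8.hasDerivAt_g h0) (P8.hasDerivAt_h h0)]
  rfl

theorem sqrt_le_aux {a b : ℝ} (ha : |a| ≤ 1) (hb : |b| ≤ 1) :
    √((1 - a ^ 2) * (1 - b ^ 2)) ≤ 1 - (a ^ 2 + b ^ 2) / 2 := by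
  have ha2 : a ^ 2 ≤ 1 := by nlinarith [sq_abs a, abs_nonneg a]
  have hb2 : b ^ 2 ≤ 1 := by nlinarith [sq_abs b, abs_nonneg b]
  rw [Real.sqrt_le_left (by linarith)]
  nlinarith [sq_nonneg (a ^ 2 - b ^ 2)]

/-- lower bound of the kernel by the singular kernel at `ρ = √(r² + η²)` -/
theorem P8.ker_ge {η : ℝ} (hη : 0 < η) {lam r a b q ρ : ℝ} (hr : 0 ≤ r) (ha : |a| ≤ 1)
    (hb : |b| ≤ 1) (hρ : 0 < ρ) (hρ2 : ρ ^ 2 = r ^ 2 + η ^ 2) (hq : r = q * ρ) (hq0 : 0 ≤ q)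
    (hq1 : q ≤ 1) (hl : 2035 ≤ lam) :
    P8.k8 ρ (q * a) (q * b) ≤ ker 7 (P8.Phi η) lam r a b * ρ ^ 4 := by
  have ha2 : a ^ 2 ≤ 1 := by nlinarith [sq_abs a, abs_nonneg a]
  have hb2 : b ^ 2 ≤ 1 := by nlinarith [sq_abs b, abs_nonneg b]
  have hw := sqrt_le_aux ha hb
  set w := √((1 - a ^ 2) * (1 - b ^ 2)) with hwd
  have hw' : √((1 - b ^ 2) * (1 - a ^ 2)) = w := by rw [hwd, mul_comm]
  have hw0 : 0 ≤ w := Real.sqrt_nonneg _
  have habs : ∀ x : ℝ, r * |2 * (-1628 / ρ ^ 6) * (r * x)| = 3256 / ρ ^ 6 * r ^ 2 * |x| := by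
    intro x
    rw [abs_mul, abs_mul, abs_mul, abs_div, abs_of_nonneg hr]
    rw [abs_of_pos (show (0 : ℝ) < ρ ^ 6 by positivity)]
    norm_num
    ring
  have e : ker 7 (P8.Phi η) lam r a b * ρ ^ 4 - P8.k8 ρ (q * a) (q * b) =
      (lam - 2035) * ρ ^ 4 + 2090 * (1 - q ^ 2) * ρ ^ 2 +
      3256 * q ^ 2 * (|a| * |b|) * (1 - (a ^ 2 + b ^ 2) / 2 - w) +
      (1 - q ^ 2) * (7280 - 1628 * q ^ 2 * (3 * (a ^ 2 + b ^ 2) - 2 * a ^ 2 * b ^ 2 -
        (|a| * |b|) * (a ^ 2 + b ^ 2))) := by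
    unfold ker ker0 kap
    simp only [P8.fderiv_Phi hη ha, P8.fderiv_Phi hη hb, P8.Phi_eq hη ha, P8.Phi_eq hη hb]
    unfold P8.g P8.h
    rw [← hρ2, hw', ← hwd]
    simp only [mul_zero, zero_add, mul_one, add_zero]
    have e1 : ∀ x : ℝ, r * |2 * (-1628 / (ρ ^ 2) ^ 3) * (r * x)| =
        3256 / ρ ^ 6 * r ^ 2 * |x| := by
      intro x; rw [← habs x]; ring_nf
    rw [e1, e1]
    unfold P8.k8
    have e2 : |q * a * (q * b)| = q ^ 2 * (|a| * |b|) := by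
      rw [abs_mul, abs_mul, abs_mul, abs_of_nonneg hq0]; ring
    rw [e2, hq]
    field_simp
    ring
  have hab : 0 ≤ |a| * |b| := by positivity
  have hq2 : q ^ 2 ≤ 1 := pow_le_one₀ hq0 hq1
  have t1 : 0 ≤ (lam - 2035) * ρ ^ 4 := mul_nonneg (by linarith) (by positivity)
  have t2 : 0 ≤ 2090 * (1 - q ^ 2) * ρ ^ 2 :=
    mul_nonneg (mul_nonneg (by norm_num) (by linarith)) (by positivity)
  have t3 : 0 ≤ 3256 * q ^ 2 * (|a| * |b|) * (1 - (a ^ 2 + b ^ 2) / 2 - w) :=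
    mul_nonneg (by positivity) (by linarith)
  have t4 : 0 ≤ (1 - q ^ 2) * (7280 - 1628 * q ^ 2 * (3 * (a ^ 2 + b ^ 2) - 2 * a ^ 2 * b ^ 2 -
        (|a| * |b|) * (a ^ 2 + b ^ 2))) := by
    refine mul_nonneg (by linarith) ?_
    have h1 : 3 * (a ^ 2 + b ^ 2) - 2 * a ^ 2 * b ^ 2 - (|a| * |b|) * (a ^ 2 + b ^ 2) ≤ 4 := by
      have h2 : a ^ 2 * b ^ 2 = (|a| * |b|) ^ 2 := by rw [mul_pow, sq_abs, sq_abs]
      have h3 : a ^ 2 * b ^ 2 ≤ |a| * |b| := by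
        rw [h2]
        have : |a| * |b| ≤ 1 := mul_le_one₀ ha (abs_nonneg _) hb
        nlinarith
      nlinarith [mul_nonneg (sub_nonneg.2 ha2) (sub_nonneg.2 hb2),
        mul_nonneg (sq_nonneg a) (sq_nonneg b), mul_nonneg hab (sq_nonneg (|a| - |b|)),
        sq_abs a, sq_abs b]
    have h4 : q ^ 2 * (3 * (a ^ 2 + b ^ 2) - 2 * a ^ 2 * b ^ 2 -
        (|a| * |b|) * (a ^ 2 + b ^ 2)) ≤ 4 := by
      by_contra hcon
      push Not at hcon
      have : q ^ 2 * (3 * (a ^ 2 + b ^ 2) - 2 * a ^ 2 * b ^ 2 -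
        (|a| * |b|) * (a ^ 2 + b ^ 2)) ≤ q ^ 2 * 4 := by gcongr
      linarith
    linarith
  linarith

theorem P8.exists_rho {η r : ℝ} (hη : 0 < η) (hr : 0 ≤ r) : ∃ ρ q : ℝ, 0 < ρ ∧
    ρ ^ 2 = r ^ 2 + η ^ 2 ∧ r = q * ρ ∧ 0 ≤ q ∧ q ≤ 1 ∧ r ≤ ρ := by
  have hpos : 0 < r ^ 2 + η ^ 2 := by positivity
  have hρ : 0 < √(r ^ 2 + η ^ 2) := Real.sqrt_pos.2 hpos
  have hρ2 : √(r ^ 2 + η ^ 2) ^ 2 = r ^ 2 + η ^ 2 := Real.sq_sqrt hpos.le
  have hrρ : r ≤ √(r ^ 2 + η ^ 2) := by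
    have : r ^ 2 ≤ √(r ^ 2 + η ^ 2) ^ 2 := by rw [hρ2]; nlinarith
    exact (pow_le_pow_iff_left₀ hr hρ.le two_ne_zero).1 this
  refine ⟨√(r ^ 2 + η ^ 2), r / √(r ^ 2 + η ^ 2), hρ, hρ2, by field_simp, by positivity, ?_, hrρ⟩
  rw [div_le_one hρ]; exact hrρ

theorem P8.ker_nonneg {η : ℝ} (hη : 0 < η) {lam r a b : ℝ} (hl : 2035 ≤ lam) (hr : 0 ≤ r)
    (ha : |a| ≤ 1) (hb : |b| ≤ 1) : 0 ≤ ker 7 (P8.Phi η) lam r a b := by
  obtain ⟨ρ, q, hρ, hρ2, hq, hq0, hq1, -⟩ := P8.exists_rho hη hr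
  have h := P8.ker_ge hη hr ha hb hρ hρ2 hq hq0 hq1 hl
  have h1 : |q * a| ≤ 1 := by
    rw [abs_mul, abs_of_nonneg hq0]; exact mul_le_one₀ hq1 (abs_nonneg _) ha
  have h2 : |q * b| ≤ 1 := by
    rw [abs_mul, abs_of_nonneg hq0]; exact mul_le_one₀ hq1 (abs_nonneg _) hb
  have h3 := (P8.k8_nonneg hρ.le h1 h2).trans h
  exact nonneg_of_mul_nonneg_left h3 (by positivity)

theorem P8.f_nonneg {c : ℝ} (h0 : 0 ≤ c) (h1 : c ≤ 1) : 0 ≤ P8.f c := by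
  unfold P8.f
  have : c ^ 5 ≤ c := by
    calc c ^ 5 ≤ c ^ 1 := pow_le_pow_of_le_one h0 h1 (by norm_num)
      _ = c := pow_one c
  have : 0 ≤ c ^ 3 := by positivity
  linarith

theorem P8.f_mono {x c : ℝ} (h0 : 0 ≤ x) (h : x ≤ c) (h1 : c ≤ 1) : P8.f x ≤ P8.f c := by
  unfold P8.f
  have hc0 : 0 ≤ c := h0.trans h
  have e : (87360 * c + 43520 * c ^ 3 - 15488 * c ^ 5) - (87360 * x + 43520 * x ^ 3 -
      15488 * x ^ 5) = (c - x) * (87360 + 43520 * (c ^ 2 + c * x + x ^ 2) -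
        15488 * (c ^ 4 + c ^ 3 * x + c ^ 2 * x ^ 2 + c * x ^ 3 + x ^ 4)) := by ring
  have hx1 : x ≤ 1 := h.trans h1
  have b1 : c ^ 4 ≤ 1 := pow_le_one₀ hc0 h1
  have b2 : c ^ 3 * x ≤ 1 := mul_le_one₀ (pow_le_one₀ hc0 h1) h0 hx1
  have b3 : c ^ 2 * x ^ 2 ≤ 1 := mul_le_one₀ (pow_le_one₀ hc0 h1) (by positivity)
    (pow_le_one₀ h0 hx1)
  have b4 : c * x ^ 3 ≤ 1 := mul_le_one₀ h1 (by positivity) (pow_le_one₀ h0 hx1)
  have b5 : x ^ 4 ≤ 1 := pow_le_one₀ h0 hx1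
  have b6 : 0 ≤ c ^ 2 + c * x + x ^ 2 := by positivity
  have : 0 ≤ (c - x) * (87360 + 43520 * (c ^ 2 + c * x + x ^ 2) -
        15488 * (c ^ 4 + c ^ 3 * x + c ^ 2 * x ^ 2 + c * x ^ 3 + x ^ 4)) :=
    mul_nonneg (by linarith) (by linarith)
  linarith

/-- Passage from the singular two-point inequality to the regularised one. -/
theorem regularise {m : ℕ} {s η r a b ρ q X K : ℝ} (hs : 0 ≤ s) (hη : 0 < η)
    (hρ : 0 < ρ) (hρ2 : ρ ^ 2 = r ^ 2 + η ^ 2) (hr : 0 ≤ r) (hq : r = q * ρ) (hq0 : 0 ≤ q)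
    (hq1 : q ≤ 1) (hab : 0 ≤ a * b) (hX : 0 ≤ X) (hK0 : 0 ≤ K)
    (hK : (q * a) * (q * b) * (s * ρ - X) ≤ K * ρ ^ m) :
    a * b * (s * r - X - ((m : ℝ) / 2 + 1) * s * η) ≤ K * r ^ m := by
  rcases le_or_gt (s * ρ) X with hX0 | hX0
  · have h5 : s * r - X - ((m : ℝ) / 2 + 1) * s * η ≤ 0 := by
      have h1 : r ≤ ρ := by rw [hq]; nlinarith
      have h2 : s * r ≤ s * ρ := by gcongr
      have h3 : 0 ≤ ((m : ℝ) / 2 + 1) * s * η := by positivity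
      linarith
    calc a * b * (s * r - X - ((m : ℝ) / 2 + 1) * s * η) ≤ 0 :=
          mul_nonpos_of_nonneg_of_nonpos hab h5
      _ ≤ K * r ^ m := by positivity
  · have h6 : K * r ^ m = q ^ m * (K * ρ ^ m) := by rw [hq]; ring
    have h7 : q ^ m * ((q * a) * (q * b) * (s * ρ - X)) ≤ K * r ^ m := by
      rw [h6]; gcongr
    refine le_trans ?_ h7
    have h8 : s * r - X - ((m : ℝ) / 2 + 1) * s * η ≤ q ^ (m + 2) * (s * ρ - X) := by
      -- `r (1 - q^(m+1)) ≤ (m + 1) r (1 - q) ≤ ...`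
      have b1 : 1 - q ^ (m + 1) ≤ ((m : ℝ) + 1) * (1 - q) := by
        have := one_add_mul_le_pow (a := q - 1) (by linarith) (m + 1)
        push_cast at this
        have h : 1 + (q - 1) = q := by ring
        rw [h] at this
        linarith
      have b2 : r * (1 - q) ≤ η / 2 := by
        -- ρ² (1 - q²) = η²
        have c1 : (1 - q) * (1 + q) * ρ ^ 2 = η ^ 2 := by
          have : r ^ 2 = q ^ 2 * ρ ^ 2 := by rw [hq]; ring
          nlinarith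
        have c2 : r * (1 - q) * ((1 + q) * ρ ^ 2) ≤ η / 2 * ((1 + q) * ρ ^ 2) := by
          have e1 : r * (1 - q) * ((1 + q) * ρ ^ 2) = r * ((1 - q) * (1 + q) * ρ ^ 2) := by ring
          rw [e1, c1, hρ2]
          have c3 : 2 * (r * η) ≤ r ^ 2 + η ^ 2 := by nlinarith [sq_nonneg (r - η)]
          have c4 : 0 ≤ η * q * (r ^ 2 + η ^ 2) := by positivity
          nlinarith [mul_nonneg hη.le (sub_nonneg.2 c3)]
        exact le_of_mul_le_mul_right c2 (by positivity)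
      have b3 : q ^ (m + 2) ≤ 1 := pow_le_one₀ hq0 hq1
      have b4 : q ^ (m + 2) * (s * ρ - X) = s * r * q ^ (m + 1) - q ^ (m + 2) * X := by
        rw [hq]; ring
      rw [b4]
      have b5 : q ^ (m + 2) * X ≤ 1 * X := by gcongr
      have b6 : s * (r * (1 - q ^ (m + 1))) ≤ s * (((m : ℝ) + 1) * (η / 2)) := by
        have : r * (1 - q ^ (m + 1)) ≤ ((m : ℝ) + 1) * (η / 2) := by
          calc r * (1 - q ^ (m + 1)) ≤ r * (((m : ℝ) + 1) * (1 - q)) := by gcongr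
            _ = ((m : ℝ) + 1) * (r * (1 - q)) := by ring
            _ ≤ ((m : ℝ) + 1) * (η / 2) := by gcongr
        gcongr
      have b7 : 0 ≤ s * η := by positivity
      nlinarith
    calc a * b * (s * r - X - ((m : ℝ) / 2 + 1) * s * η) ≤ a * b * (q ^ (m + 2) * (s * ρ - X)) := by
          gcongr
      _ = q ^ m * ((q * a) * (q * b) * (s * ρ - X)) := by ring

theorem P8.pi_ker {η : ℝ} (hη : 0 < η) {lam r a b : ℝ} (hl : 2035 ≤ lam) (hr : 0 < r)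
    (ha : 0 ≤ a) (ha1 : a ≤ 1) (hb : 0 ≤ b) (hb1 : b ≤ 1) :
    a * b * (65520 * r - (P8.f a + P8.f b) / 2 - 9 / 2 * 65520 * η) ≤
      ker 7 (P8.Phi η) lam r a b * r ^ 7 := by
  have haa : |a| ≤ 1 := by rwa [abs_of_nonneg ha]
  have hbb : |b| ≤ 1 := by rwa [abs_of_nonneg hb]
  obtain ⟨ρ, q, hρ, hρ2, hq, hq0, hq1, -⟩ := P8.exists_rho hη hr.le
  have hK := P8.ker_ge hη hr.le haa hbb hρ hρ2 hq hq0 hq1 hl
  have hK0 := P8.ker_nonneg hη hl hr.le haa hbb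
  have hqa : q * a ≤ a := by nlinarith
  have hqb : q * b ≤ b := by nlinarith
  have hpi := P8.pi8 hρ.le (mul_nonneg hq0 ha) (hqa.trans ha1) (mul_nonneg hq0 hb) (hqb.trans hb1)
  have f1 := P8.f_mono (mul_nonneg hq0 ha) hqa ha1
  have f2 := P8.f_mono (mul_nonneg hq0 hb) hqb hb1
  have f3 := P8.f_nonneg ha ha1
  have f4 := P8.f_nonneg hb hb1
  have key : (q * a) * (q * b) * (65520 * ρ - (P8.f a + P8.f b) / 2) ≤
      ker 7 (P8.Phi η) lam r a b * ρ ^ 7 := by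
    calc (q * a) * (q * b) * (65520 * ρ - (P8.f a + P8.f b) / 2) ≤
        (q * a) * (q * b) * (65520 * ρ - (P8.f (q * a) + P8.f (q * b)) / 2) := by
          refine mul_le_mul_of_nonneg_left (by linarith) (by positivity)
      _ ≤ ρ ^ 3 * P8.k8 ρ (q * a) (q * b) := hpi
      _ ≤ ρ ^ 3 * (ker 7 (P8.Phi η) lam r a b * ρ ^ 4) := by gcongr
      _ = ker 7 (P8.Phi η) lam r a b * ρ ^ 7 := by ring
  have := regularise (m := 7) (s := 65520) (by norm_num) hη hρ hρ2 hr.le hq hq0 hq1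
    (mul_nonneg ha hb) (by linarith) hK0 key
  norm_num at this ⊢
  linarith

theorem sphere_moment_six {n : ℕ} (hn : 1 ≤ n) {e : E n} (he : ‖e‖ = 1) :
    ∫ u : sphere (0 : E n) 1, max 0 (inner ℝ e (u : E n)) ^ 6
      ∂((volume : Measure (E n)).toSphere) = 15 * sig n / (2 * (n * (n + 2) * (n + 4))) := by
  rw [sphere_moment hn (by norm_num) he, sig_eq_gamma hn]
  have hn' : (0 : ℝ) < n := by exact_mod_cast hn
  have hG : 0 < Real.Gamma ((n : ℝ) / 2) := Real.Gamma_pos_of_pos (by positivity)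
  have h1 : Real.Gamma (((n : ℝ) + (6 : ℕ)) / 2) =
      (n / 2 + 2) * ((n / 2 + 1) * (n / 2 * Real.Gamma (n / 2))) := by
    rw [← Real.Gamma_add_one (by positivity), ← Real.Gamma_add_one (by positivity)]
    have : (n : ℝ) / 2 + 2 = (n / 2 + 1) + 1 := by ring
    rw [this, ← Real.Gamma_add_one (by positivity)]
    congr 1; push_cast; ring
  have h2 : Real.Gamma ((((6 : ℕ) : ℝ) + 1) / 2) =
      (1 / 2 + 2) * ((1 / 2 + 1) * (1 / 2 * √Real.pi)) := by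
    rw [← Real.Gamma_one_half_eq, ← Real.Gamma_add_one (by norm_num),
      ← Real.Gamma_add_one (by norm_num)]
    have : (1 : ℝ) / 2 + 2 = (1 / 2 + 1) + 1 := by ring
    rw [this, ← Real.Gamma_add_one (by norm_num)]
    congr 1; push_cast; ring
  have h3 : Real.pi ^ (((n : ℝ) - 1) / 2) * √Real.pi = Real.pi ^ ((n : ℝ) / 2) := by
    rw [Real.sqrt_eq_rpow, ← Real.rpow_add Real.pi_pos]; congr 1; ring
  rw [h1, h2, ← h3]
  field_simp
  ring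

theorem P8.continuous_f : Continuous P8.f := by unfold P8.f; fun_prop

theorem P8.integral_f {e : E 8} (he : ‖e‖ = 1) :
    ∫ u : sphere (0 : E 8) 1, P8.f (max 0 (inner ℝ e (u : E 8))) * max 0 (inner ℝ e (u : E 8))
      ∂((volume : Measure (E 8)).toSphere) = 6155 * sig 8 := by
  have h1 : ∀ u : sphere (0 : E 8) 1,
      P8.f (max 0 (inner ℝ e (u : E 8))) * max 0 (inner ℝ e (u : E 8)) =
      87360 * max 0 (inner ℝ e (u : E 8)) ^ 2 + (43520 * max 0 (inner ℝ e (u : E 8)) ^ 4 +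
        (-15488) * max 0 (inner ℝ e (u : E 8)) ^ 6) := by
    intro u
    unfold P8.f
    ring
  simp only [h1]
  have c1 : Continuous fun u : sphere (0 : E 8) 1 => max 0 (inner ℝ e (u : E 8)) ^ 2 := by fun_prop
  have c2 : Continuous fun u : sphere (0 : E 8) 1 => max 0 (inner ℝ e (u : E 8)) ^ 4 := by fun_prop
  have c3 : Continuous fun u : sphere (0 : E 8) 1 => max 0 (inner ℝ e (u : E 8)) ^ 6 := by fun_prop
  have i1 := (integrable_sphere c1).const_mul (87360 : ℝ)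
  have i2 := (integrable_sphere c2).const_mul (43520 : ℝ)
  have i3 := (integrable_sphere c3).const_mul (-15488 : ℝ)
  have i23 : Integrable (fun u : sphere (0 : E 8) 1 =>
      43520 * max 0 (inner ℝ e (u : E 8)) ^ 4 + -15488 * max 0 (inner ℝ e (u : E 8)) ^ 6)
      ((volume : Measure (E 8)).toSphere) := i2.add i3
  rw [integral_add i1 i23, integral_add i2 i3,
    integral_const_mul, integral_const_mul, integral_const_mul,
    sphere_moment_two (by norm_num) he, sphere_moment_four (by norm_num) he,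
    sphere_moment_six (by norm_num) he]
  push_cast
  ring

/-- The certificate in dimension 8. -/
noncomputable def certEight : Cert 8 where
  lam := 2035
  s := 65520
  F := 6155
  f := P8.f
  lam_pos := by norm_num
  s_nonneg := by norm_num
  f_cont := P8.continuous_f
  f_nonneg a ha := P8.f_nonneg ha.1 ha.2
  hF e he := (P8.integral_f he).le
  balance := by norm_num
  approx ε hε := by
    have hη : 0 < ε / 294840 := by positivity
    refine ⟨P8.Phi (ε / 294840), (ε / 294840) ^ 2, by positivity, P8.Phi_contDiff, ?_, ?_, ?_⟩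
    · intro p hp
      exact P8.Phi_nonneg hη hp
    · intro r a b hr ha hb
      exact P8.ker_nonneg hη (by linarith) hr ha hb
    · intro r a b hr ha ha1 hb hb1
      have h := P8.pi_ker hη (lam := 2035 + ε) (by linarith) hr ha ha1 hb hb1
      have e1 : 9 / 2 * 65520 * (ε / 294840) = ε := by ring
      rw [e1] at h
      exact h

end Vale.Agent.P219.TP
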