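import Vale.Agent.P219.TP.PolyTen3

/-! # The certificate in dimension 10

`φ(r,a) = 132/r + 513/r³ + 470/r⁵ - (648 a + 336 a³)/r⁴`, `λ = 381`, `s = 16920`. -/

open MeasureTheory Set Metric Filter Topology
open scoped ENNReal ContDiff

namespace Vale.Agent.P219.TP

theorem fderiv_cubic {g h k : ℝ → ℝ} {g' h' k' s : ℝ} (hg : HasDerivAt g g' s)
    (hh : HasDerivAt h h' s) (hk : HasDerivAt k k' s) (c x y : ℝ) :
    fderiv ℝ (fun p : ℝ × ℝ => g p.1 + h p.1 * p.2 + k p.1 * p.2 ^ 3) (s, c) (x, y) =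
      (g' + h' * c + k' * c ^ 3) * x + (h s + 3 * k s * c ^ 2) * y := by
  have h1 : HasFDerivAt (fun p : ℝ × ℝ => g p.1)
      ((ContinuousLinearMap.toSpanSingleton ℝ g').comp (ContinuousLinearMap.fst ℝ ℝ ℝ)) (s, c) :=
    HasFDerivAt.comp (g := g) (f := Prod.fst) (s, c) hg.hasFDerivAt hasFDerivAt_fst
  have h2 : HasFDerivAt (fun p : ℝ × ℝ => h p.1)
      ((ContinuousLinearMap.toSpanSingleton ℝ h').comp (ContinuousLinearMap.fst ℝ ℝ ℝ)) (s, c) :=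
    HasFDerivAt.comp (g := h) (f := Prod.fst) (s, c) hh.hasFDerivAt hasFDerivAt_fst
  have h3 : HasFDerivAt (fun p : ℝ × ℝ => k p.1)
      ((ContinuousLinearMap.toSpanSingleton ℝ k').comp (ContinuousLinearMap.fst ℝ ℝ ℝ)) (s, c) :=
    HasFDerivAt.comp (g := k) (f := Prod.fst) (s, c) hk.hasFDerivAt hasFDerivAt_fst
  have h4' : HasDerivAt (fun t : ℝ => t ^ 3) (3 * c ^ 2) c := by
    have := hasDerivAt_pow 3 c
    simpa using this
  have h4 : HasFDerivAt (fun p : ℝ × ℝ => p.2 ^ 3)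
      ((ContinuousLinearMap.toSpanSingleton ℝ (3 * c ^ 2)).comp (ContinuousLinearMap.snd ℝ ℝ ℝ))
      (s, c) :=
    HasFDerivAt.comp (g := fun t : ℝ => t ^ 3) (f := Prod.snd) (s, c) h4'.hasFDerivAt
      hasFDerivAt_snd
  have h5 : HasFDerivAt (fun p : ℝ × ℝ => p.2) (ContinuousLinearMap.snd ℝ ℝ ℝ) (s, c) :=
    hasFDerivAt_snd
  have h6 : HasFDerivAt (fun p : ℝ × ℝ => g p.1 + h p.1 * p.2 + k p.1 * p.2 ^ 3) _ (s, c) :=
    (h1.add (h2.mul h5)).add (h3.mul h4)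
  rw [h6.fderiv]
  simp
  ring

namespace P10

/-- radial part -/
noncomputable def g (η s : ℝ) : ℝ :=
  132 / (s + η ^ 2) + 513 / (s + η ^ 2) ^ 2 + 470 / (s + η ^ 2) ^ 3

/-- linear part -/
noncomputable def h (η s : ℝ) : ℝ := -648 / (s + η ^ 2) ^ 3

/-- cubic part -/
noncomputable def k (η s : ℝ) : ℝ := -336 / (s + η ^ 2) ^ 4

theorem hasDerivAt_g {η s : ℝ} (h : s + η ^ 2 ≠ 0) :
    HasDerivAt (g η) (-132 / (s + η ^ 2) ^ 2 - 1026 / (s + η ^ 2) ^ 3 -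
      1410 / (s + η ^ 2) ^ 4) s := by
  unfold g
  have h1 : HasDerivAt (fun s : ℝ => s + η ^ 2) 1 s := (hasDerivAt_id s).add_const _
  refine ((((hasDerivAt_const s (132 : ℝ)).div h1 h).add
    ((hasDerivAt_const s (513 : ℝ)).div (h1.fun_pow 2) (pow_ne_zero 2 h))).add
    ((hasDerivAt_const s (470 : ℝ)).div (h1.fun_pow 3) (pow_ne_zero 3 h))).congr_deriv ?_
  field_simp
  ring

theorem hasDerivAt_h {η s : ℝ} (h0 : s + η ^ 2 ≠ 0) :
    HasDerivAt (h η) (1944 / (s + η ^ 2) ^ 4) s := by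
  unfold h
  have h1 : HasDerivAt (fun s : ℝ => s + η ^ 2) 1 s := (hasDerivAt_id s).add_const _
  refine ((hasDerivAt_const s (-648 : ℝ)).div (h1.fun_pow 3) (pow_ne_zero 3 h0)).congr_deriv ?_
  field_simp
  ring

theorem hasDerivAt_k {η s : ℝ} (h0 : s + η ^ 2 ≠ 0) :
    HasDerivAt (k η) (1344 / (s + η ^ 2) ^ 5) s := by
  unfold k
  have h1 : HasDerivAt (fun s : ℝ => s + η ^ 2) 1 s := (hasDerivAt_id s).add_const _
  refine ((hasDerivAt_const s (-336 : ℝ)).div (h1.fun_pow 4) (pow_ne_zero 4 h0)).congr_deriv ?_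
  field_simp
  ring

/-- The cut-off. -/
noncomputable def chi2 (t : ℝ) : ℝ := Real.smoothTransition ((21 / 20 - t) * 20)

theorem chi2_one {t : ℝ} (h : t ≤ 1) : chi2 t = 1 :=
  Real.smoothTransition.one_of_one_le (by linarith)

theorem chi2_zero {t : ℝ} (h : 21 / 20 ≤ t) : chi2 t = 0 :=
  Real.smoothTransition.zero_of_nonpos (by linarith)

theorem chi2_nonneg (t : ℝ) : 0 ≤ chi2 t := Real.smoothTransition.nonneg _

theorem contDiff_chi2 : ContDiff ℝ ∞ chi2 :=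
  Real.smoothTransition.contDiff.comp ((contDiff_const.sub contDiff_id).mul contDiff_const)

/-- The field. -/
noncomputable def Phi (η : ℝ) (p : ℝ × ℝ) : ℝ :=
  chi2 (p.2 ^ 2 / (p.1 + η ^ 2)) * (g η p.1 + h η p.1 * p.2 + k η p.1 * p.2 ^ 3)

theorem Phi_contDiff {η : ℝ} : ContDiffOn ℝ ∞ (Phi η) {p | -η ^ 2 < p.1} := by
  have hD : ContDiffOn ℝ ∞ (fun p : ℝ × ℝ => p.1 + η ^ 2) {p | -η ^ 2 < p.1} :=
    (contDiff_fst.add contDiff_const).contDiffOn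
  have hD0 : ∀ p ∈ {p : ℝ × ℝ | -η ^ 2 < p.1}, p.1 + η ^ 2 ≠ 0 := by
    intro p hp
    have : -η ^ 2 < p.1 := hp
    linarith
  have h1 : ContDiffOn ℝ ∞ (fun p : ℝ × ℝ => p.2) {p | -η ^ 2 < p.1} :=
    contDiff_snd.contDiffOn
  have h2 : ContDiffOn ℝ ∞ (fun p : ℝ × ℝ => p.2 ^ 2) {p | -η ^ 2 < p.1} :=
    (contDiff_snd.pow 2).contDiffOn
  have h3 : ContDiffOn ℝ ∞ (fun p : ℝ × ℝ => p.2 ^ 3) {p | -η ^ 2 < p.1} :=
    (contDiff_snd.pow 3).contDiffOn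
  have hDk : ∀ m : ℕ, ∀ p ∈ {p : ℝ × ℝ | -η ^ 2 < p.1}, (p.1 + η ^ 2) ^ m ≠ 0 :=
    fun m p hp => pow_ne_zero m (hD0 p hp)
  unfold Phi g h k
  refine ContDiffOn.mul (contDiff_chi2.comp_contDiffOn (h2.div hD hD0)) ?_
  refine ContDiffOn.add (ContDiffOn.add ?_ ?_) ?_
  · exact ((contDiffOn_const.div hD hD0).add (contDiffOn_const.div (hD.pow 2) (hDk 2))).add
      (contDiffOn_const.div (hD.pow 3) (hDk 3))
  · exact (contDiffOn_const.div (hD.pow 3) (hDk 3)).mul h1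
  · exact (contDiffOn_const.div (hD.pow 4) (hDk 4)).mul h3

theorem aux_phi {D y : ℝ} (hD : 0 < D) (h : y ^ 2 ≤ 21 / 20 * D) :
    0 ≤ 132 * D ^ 3 + 513 * D ^ 2 + 470 * D - 648 * y * D - 336 * y ^ 3 := by
  -- `y ≤ |y|`
  have h1 : y ≤ |y| := le_abs_self y
  have h2 : y ^ 3 ≤ 21 / 20 * D * |y| := by
    calc y ^ 3 = y ^ 2 * y := by ring
      _ ≤ y ^ 2 * |y| := by gcongr
      _ ≤ 21 / 20 * D * |y| := by gcongr
  have h3 : y * D ≤ |y| * D := by gcongr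
  have h4 : |y| ^ 2 ≤ 21 / 20 * D := by rwa [sq_abs]
  have hz : 0 ≤ |y| := abs_nonneg y
  generalize |y| = z at *
  have h5 : 0 ≤ 132 * D ^ 2 + 513 * D + 470 - 5004 / 5 * z := by
    have h6 : 20 / 21 * z ^ 2 ≤ D := by linarith
    have h7 : (20 / 21 * z ^ 2) ^ 2 ≤ D ^ 2 := by gcongr
    nlinarith [sq_nonneg (z - 78 / 100), sq_nonneg (z ^ 2 - 6 / 10)]
  have h6 : 0 ≤ D * (132 * D ^ 2 + 513 * D + 470 - 5004 / 5 * z) := by positivity
  nlinarith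

theorem Phi_nonneg {η : ℝ} (hη : 0 < η) {p : ℝ × ℝ} (hp : 0 ≤ p.1) : 0 ≤ Phi η p := by
  unfold Phi
  have hD : 0 < p.1 + η ^ 2 := by positivity
  rcases le_or_gt (21 / 20) (p.2 ^ 2 / (p.1 + η ^ 2)) with h' | h'
  · rw [chi2_zero h', zero_mul]
  · refine mul_nonneg (chi2_nonneg _) ?_
    rw [div_lt_iff₀ hD] at h'
    unfold g h k
    have : 132 / (p.1 + η ^ 2) + 513 / (p.1 + η ^ 2) ^ 2 + 470 / (p.1 + η ^ 2) ^ 3 +
        -648 / (p.1 + η ^ 2) ^ 3 * p.2 + -336 / (p.1 + η ^ 2) ^ 4 * p.2 ^ 3 =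
        (132 * (p.1 + η ^ 2) ^ 3 + 513 * (p.1 + η ^ 2) ^ 2 + 470 * (p.1 + η ^ 2) -
          648 * p.2 * (p.1 + η ^ 2) - 336 * p.2 ^ 3) / (p.1 + η ^ 2) ^ 4 := by
      field_simp
      ring
    rw [this]
    have := aux_phi hD h'.le
    positivity

theorem Phi_eventuallyEq {η : ℝ} (hη : 0 < η) {r a : ℝ} (ha : |a| ≤ 1) :
    Phi η =ᶠ[𝓝 (r ^ 2, r * a)] fun p => g η p.1 + h η p.1 * p.2 + k η p.1 * p.2 ^ 3 := by
  have ho : IsOpen {p : ℝ × ℝ | p.2 ^ 2 < p.1 + η ^ 2} :=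
    isOpen_lt (by fun_prop) (by fun_prop)
  have hm : (r ^ 2, r * a) ∈ {p : ℝ × ℝ | p.2 ^ 2 < p.1 + η ^ 2} := by
    have ha2 : a ^ 2 ≤ 1 := by nlinarith [sq_abs a, abs_nonneg a]
    have : 0 < η ^ 2 := by positivity
    change (r * a) ^ 2 < r ^ 2 + η ^ 2
    nlinarith [mul_nonneg (sq_nonneg r) (sub_nonneg.2 ha2)]
  filter_upwards [ho.mem_nhds hm] with p hp
  have hp' : p.2 ^ 2 < p.1 + η ^ 2 := hp
  unfold Phi
  rw [chi2_one, one_mul]
  have hD : 0 < p.1 + η ^ 2 := lt_of_le_of_lt (sq_nonneg _) hp'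
  rw [div_le_one hD]
  exact hp'.le

theorem Phi_eq {η : ℝ} (hη : 0 < η) {r a : ℝ} (ha : |a| ≤ 1) :
    Phi η (r ^ 2, r * a) = g η (r ^ 2) + h η (r ^ 2) * (r * a) + k η (r ^ 2) * (r * a) ^ 3 :=
  (Phi_eventuallyEq hη ha).self_of_nhds

theorem fderiv_Phi {η : ℝ} (hη : 0 < η) {r a : ℝ} (ha : |a| ≤ 1) (x y : ℝ) :
    fderiv ℝ (Phi η) (r ^ 2, r * a) (x, y) =
      ((-132 / (r ^ 2 + η ^ 2) ^ 2 - 1026 / (r ^ 2 + η ^ 2) ^ 3 -
      1410 / (r ^ 2 + η ^ 2) ^ 4) +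
        1944 / (r ^ 2 + η ^ 2) ^ 4 * (r * a) + 1344 / (r ^ 2 + η ^ 2) ^ 5 * (r * a) ^ 3) * x +
      (-648 / (r ^ 2 + η ^ 2) ^ 3 + 3 * (-336 / (r ^ 2 + η ^ 2) ^ 4) * (r * a) ^ 2) * y := by
  have h0 : r ^ 2 + η ^ 2 ≠ 0 := by positivity
  rw [(Phi_eventuallyEq hη ha).fderiv_eq,
    fderiv_cubic (hasDerivAt_g h0) (hasDerivAt_h h0) (hasDerivAt_k h0)]
  rfl

theorem aux_bracket {x y : ℝ} (hx : 0 ≤ x) (hx1 : x ≤ 1) (hy : 0 ≤ y) (hy1 : y ≤ 1) :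
    648 * (x * (6 - y ^ 2) + y * (6 - x ^ 2)) +
      336 * (x ^ 3 * (8 - 3 * y ^ 2) + y ^ 3 * (8 - 3 * x ^ 2)) ≤ 9840 := by
  have h1 : x * (6 - y ^ 2) + y * (6 - x ^ 2) ≤ 10 := by
    nlinarith [mul_nonneg (sub_nonneg.2 hx1) (sub_nonneg.2 hy1), mul_nonneg hx hy,
      mul_nonneg (mul_nonneg hx hy) (sub_nonneg.2 hx1),
      mul_nonneg (mul_nonneg hx hy) (sub_nonneg.2 hy1)]
  have h2 : x ^ 3 * (8 - 3 * y ^ 2) + y ^ 3 * (8 - 3 * x ^ 2) ≤ 10 := by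
    have k1 : x ^ 3 ≤ x ^ 2 := pow_le_pow_of_le_one hx hx1 (by norm_num)
    have k2 : y ^ 3 ≤ y ^ 2 := pow_le_pow_of_le_one hy hy1 (by norm_num)
    have k3 : x ^ 2 ≤ 1 := pow_le_one₀ hx hx1
    have k4 : y ^ 2 ≤ 1 := pow_le_one₀ hy hy1
    have k5 : 0 ≤ 8 - 3 * y ^ 2 := by linarith
    have k6 : 0 ≤ 8 - 3 * x ^ 2 := by linarith
    have k7 : x ^ 3 * (8 - 3 * y ^ 2) ≤ x ^ 2 * (8 - 3 * y ^ 2) := by gcongr
    have k8 : y ^ 3 * (8 - 3 * x ^ 2) ≤ y ^ 2 * (8 - 3 * x ^ 2) := by gcongr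
    nlinarith [mul_nonneg (sub_nonneg.2 k3) (sub_nonneg.2 k4)]
  linarith

/-- lower bound of the kernel by the singular kernel at `ρ = √(r² + η²)` -/
theorem ker_ge {η : ℝ} (hη : 0 < η) {lam r a b q ρ : ℝ} (hr : 0 ≤ r) (ha : |a| ≤ 1)
    (hb : |b| ≤ 1) (hρ : 0 < ρ) (hρ2 : ρ ^ 2 = r ^ 2 + η ^ 2) (hq : r = q * ρ) (hq0 : 0 ≤ q)
    (hq1 : q ≤ 1) (hl : 381 ≤ lam) :
    k10 ρ (q * a) (q * b) √((1 - (q * a) ^ 2) * (1 - (q * b) ^ 2)) ≤
      ker 9 (Phi η) lam r a b * ρ ^ 6 := by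
  have ha2 : a ^ 2 ≤ 1 := by nlinarith [sq_abs a, abs_nonneg a]
  have hb2 : b ^ 2 ≤ 1 := by nlinarith [sq_abs b, abs_nonneg b]
  have hq2 : q ^ 2 ≤ 1 := pow_le_one₀ hq0 hq1
  have hqa : (q * a) ^ 2 ≤ a ^ 2 := by
    rw [mul_pow]; nlinarith [sq_nonneg a]
  have hqb : (q * b) ^ 2 ≤ b ^ 2 := by
    rw [mul_pow]; nlinarith [sq_nonneg b]
  have hw : √((1 - a ^ 2) * (1 - b ^ 2)) ≤ √((1 - (q * a) ^ 2) * (1 - (q * b) ^ 2)) := by
    apply Real.sqrt_le_sqrt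
    apply mul_le_mul <;> linarith
  refine (k10_mono hρ.le hw).trans ?_
  set w := √((1 - a ^ 2) * (1 - b ^ 2)) with hwd
  have hw' : √((1 - b ^ 2) * (1 - a ^ 2)) = w := by rw [hwd, mul_comm]
  have habs : ∀ x : ℝ, r * |(-648 / (ρ ^ 2) ^ 3 + 3 * (-336 / (ρ ^ 2) ^ 4) * (r * x) ^ 2)| =
      r * (648 / ρ ^ 6 + 1008 / ρ ^ 8 * (r * x) ^ 2) := by
    intro x
    have : -648 / (ρ ^ 2) ^ 3 + 3 * (-336 / (ρ ^ 2) ^ 4) * (r * x) ^ 2 =
      -(648 / ρ ^ 6 + 1008 / ρ ^ 8 * (r * x) ^ 2) := by ring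
    rw [this, abs_neg, abs_of_nonneg (by positivity)]
  have e : ker 9 (Phi η) lam r a b * ρ ^ 6 - k10 ρ (q * a) (q * b) w =
      (lam - 381) * ρ ^ 6 + (1 - q ^ 2) * (1 / 2 * (528 * ρ ^ 4 + 4104 * ρ ^ 2 + 5640 -
        ρ * (648 * (q * a * (6 - b ^ 2) + q * b * (6 - a ^ 2)) +
          336 * ((q * a) ^ 3 * (8 - 3 * b ^ 2) + (q * b) ^ 3 * (8 - 3 * a ^ 2))))) := by
    unfold ker ker0 kap
    simp only [fderiv_Phi hη ha, fderiv_Phi hη hb, Phi_eq hη ha, Phi_eq hη hb]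
    unfold g h k
    rw [← hρ2, hw', ← hwd]
    simp only [mul_zero, zero_add, mul_one, add_zero]
    rw [habs, habs]
    unfold k10
    have e2 : ∀ x : ℝ, |q * x| = q * |x| := by
      intro x; rw [abs_mul, abs_of_nonneg hq0]
    rw [e2, e2, hq]
    field_simp
    ring
  have t1 : 0 ≤ (lam - 381) * ρ ^ 6 := mul_nonneg (by linarith) (by positivity)
  have hbr : 648 * (q * a * (6 - b ^ 2) + q * b * (6 - a ^ 2)) +
          336 * ((q * a) ^ 3 * (8 - 3 * b ^ 2) + (q * b) ^ 3 * (8 - 3 * a ^ 2)) ≤ 9840 := by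
    have h1 := aux_bracket (abs_nonneg a) ha (abs_nonneg b) hb
    rw [sq_abs, sq_abs] at h1
    have g1 : q * a ≤ |a| := by
      calc q * a ≤ q * |a| := by gcongr; exact le_abs_self a
        _ ≤ 1 * |a| := by gcongr
        _ = |a| := one_mul _
    have g2 : q * b ≤ |b| := by
      calc q * b ≤ q * |b| := by gcongr; exact le_abs_self b
        _ ≤ 1 * |b| := by gcongr
        _ = |b| := one_mul _
    have g3 : (q * a) ^ 3 ≤ |a| ^ 3 := (Odd.pow_le_pow (by decide)).2 g1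
    have g4 : (q * b) ^ 3 ≤ |b| ^ 3 := (Odd.pow_le_pow (by decide)).2 g2
    have g5 : 0 ≤ 6 - b ^ 2 := by linarith
    have g6 : 0 ≤ 6 - a ^ 2 := by linarith
    have g7 : 0 ≤ 8 - 3 * b ^ 2 := by linarith
    have g8 : 0 ≤ 8 - 3 * a ^ 2 := by linarith
    refine le_trans ?_ h1
    gcongr
  have t2 : 0 ≤ 528 * ρ ^ 4 + 4104 * ρ ^ 2 + 5640 -
        ρ * (648 * (q * a * (6 - b ^ 2) + q * b * (6 - a ^ 2)) +
          336 * ((q * a) ^ 3 * (8 - 3 * b ^ 2) + (q * b) ^ 3 * (8 - 3 * a ^ 2))) := by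
    have : ρ * (648 * (q * a * (6 - b ^ 2) + q * b * (6 - a ^ 2)) +
          336 * ((q * a) ^ 3 * (8 - 3 * b ^ 2) + (q * b) ^ 3 * (8 - 3 * a ^ 2))) ≤ ρ * 9840 := by
      gcongr
    nlinarith [sq_nonneg (ρ ^ 2 - 1), sq_nonneg (ρ - 1)]
  have t3 : 0 ≤ (1 - q ^ 2) * (1 / 2 * (528 * ρ ^ 4 + 4104 * ρ ^ 2 + 5640 -
        ρ * (648 * (q * a * (6 - b ^ 2) + q * b * (6 - a ^ 2)) +
          336 * ((q * a) ^ 3 * (8 - 3 * b ^ 2) + (q * b) ^ 3 * (8 - 3 * a ^ 2))))) :=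
    mul_nonneg (by linarith) (by linarith)
  linarith

theorem ker_nonneg {η : ℝ} (hη : 0 < η) {lam r a b : ℝ} (hl : 381 ≤ lam) (hr : 0 ≤ r)
    (ha : |a| ≤ 1) (hb : |b| ≤ 1) : 0 ≤ ker 9 (Phi η) lam r a b := by
  obtain ⟨ρ, q, hρ, hρ2, hq, hq0, hq1, -⟩ := P8.exists_rho hη hr
  have h := ker_ge hη hr ha hb hρ hρ2 hq hq0 hq1 hl
  have h1 : |q * a| ≤ 1 := by
    rw [abs_mul, abs_of_nonneg hq0]; exact mul_le_one₀ hq1 (abs_nonneg _) ha
  have h2 : |q * b| ≤ 1 := by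
    rw [abs_mul, abs_of_nonneg hq0]; exact mul_le_one₀ hq1 (abs_nonneg _) hb
  have h3 := (k10_nonneg hρ.le h1 h2).trans h
  exact nonneg_of_mul_nonneg_left h3 (by positivity)

theorem pi_ker {η : ℝ} (hη : 0 < η) {lam r a b : ℝ} (hl : 381 ≤ lam) (hr : 0 < r)
    (ha : 0 ≤ a) (ha1 : a ≤ 1) (hb : 0 ≤ b) (hb1 : b ≤ 1) :
    a * b * (16920 * r - (f a + f b) / 2 - 11 / 2 * 16920 * η) ≤
      ker 9 (Phi η) lam r a b * r ^ 9 := by
  have haa : |a| ≤ 1 := by rwa [abs_of_nonneg ha]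
  have hbb : |b| ≤ 1 := by rwa [abs_of_nonneg hb]
  obtain ⟨ρ, q, hρ, hρ2, hq, hq0, hq1, -⟩ := P8.exists_rho hη hr.le
  have hK := ker_ge hη hr.le haa hbb hρ hρ2 hq hq0 hq1 hl
  have hK0 := ker_nonneg hη hl hr.le haa hbb
  have hqa : q * a ≤ a := by nlinarith
  have hqb : q * b ≤ b := by nlinarith
  have hpi := pi10 hρ.le (mul_nonneg hq0 ha) (hqa.trans ha1) (mul_nonneg hq0 hb) (hqb.trans hb1)
  have f1 := f_mono (mul_nonneg hq0 ha) hqa ha1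
  have f2 := f_mono (mul_nonneg hq0 hb) hqb hb1
  have f3 := f_nonneg ha ha1
  have f4 := f_nonneg hb hb1
  have key : (q * a) * (q * b) * (16920 * ρ - (f a + f b) / 2) ≤
      ker 9 (Phi η) lam r a b * ρ ^ 9 := by
    calc (q * a) * (q * b) * (16920 * ρ - (f a + f b) / 2) ≤
        (q * a) * (q * b) * (16920 * ρ - (f (q * a) + f (q * b)) / 2) := by
          refine mul_le_mul_of_nonneg_left (by linarith) (by positivity)
      _ ≤ ρ ^ 3 * k10 ρ (q * a) (q * b) √((1 - (q * a) ^ 2) * (1 - (q * b) ^ 2)) := hpi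
      _ ≤ ρ ^ 3 * (ker 9 (Phi η) lam r a b * ρ ^ 6) := by gcongr
      _ = ker 9 (Phi η) lam r a b * ρ ^ 9 := by ring
  have := regularise (m := 9) (s := 16920) (by norm_num) hη hρ hρ2 hr.le hq hq0 hq1
    (mul_nonneg ha hb) (by linarith) hK0 key
  norm_num at this ⊢
  linarith

end P10

theorem sphere_moment_eight {n : ℕ} (hn : 1 ≤ n) {e : E n} (he : ‖e‖ = 1) :
    ∫ u : sphere (0 : E n) 1, max 0 (inner ℝ e (u : E n)) ^ 8
      ∂((volume : Measure (E n)).toSphere) =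
      105 * sig n / (2 * (n * (n + 2) * (n + 4) * (n + 6))) := by
  rw [sphere_moment hn (by norm_num) he, sig_eq_gamma hn]
  have hn' : (0 : ℝ) < n := by exact_mod_cast hn
  have hG : 0 < Real.Gamma ((n : ℝ) / 2) := Real.Gamma_pos_of_pos (by positivity)
  have h1 : Real.Gamma (((n : ℝ) + (8 : ℕ)) / 2) =
      (n / 2 + 3) * ((n / 2 + 2) * ((n / 2 + 1) * (n / 2 * Real.Gamma (n / 2)))) := by
    rw [← Real.Gamma_add_one (by positivity), ← Real.Gamma_add_one (by positivity)]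
    have : (n : ℝ) / 2 + 2 = (n / 2 + 1) + 1 := by ring
    rw [this, ← Real.Gamma_add_one (by positivity)]
    have : (n : ℝ) / 2 + 3 = (n / 2 + 1 + 1) + 1 := by ring
    rw [this, ← Real.Gamma_add_one (by positivity)]
    congr 1; push_cast; ring
  have h2 : Real.Gamma ((((8 : ℕ) : ℝ) + 1) / 2) =
      (1 / 2 + 3) * ((1 / 2 + 2) * ((1 / 2 + 1) * (1 / 2 * √Real.pi))) := by
    rw [← Real.Gamma_one_half_eq, ← Real.Gamma_add_one (by norm_num),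
      ← Real.Gamma_add_one (by norm_num)]
    have : (1 : ℝ) / 2 + 2 = (1 / 2 + 1) + 1 := by ring
    rw [this, ← Real.Gamma_add_one (by norm_num)]
    have : (1 : ℝ) / 2 + 3 = (1 / 2 + 1 + 1) + 1 := by ring
    rw [this, ← Real.Gamma_add_one (by norm_num)]
    congr 1; push_cast; ring
  have h3 : Real.pi ^ (((n : ℝ) - 1) / 2) * √Real.pi = Real.pi ^ ((n : ℝ) / 2) := by
    rw [Real.sqrt_eq_rpow, ← Real.rpow_add Real.pi_pos]; congr 1; ring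
  rw [h1, h2, ← h3]
  field_simp
  ring

theorem P10.continuous_f : Continuous P10.f := by unfold P10.f; fun_prop

theorem P10.integral_f {e : E 10} (he : ‖e‖ = 1) :
    ∫ u : sphere (0 : E 10) 1, P10.f (max 0 (inner ℝ e (u : E 10))) *
      max 0 (inner ℝ e (u : E 10)) ∂((volume : Measure (E 10)).toSphere) = 1311 * sig 10 := by
  have h1 : ∀ u : sphere (0 : E 10) 1,
      P10.f (max 0 (inner ℝ e (u : E 10))) * max 0 (inner ℝ e (u : E 10)) =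
      22560 * max 0 (inner ℝ e (u : E 10)) ^ 2 + (14880 * max 0 (inner ℝ e (u : E 10)) ^ 4 +
        (4032 * max 0 (inner ℝ e (u : E 10)) ^ 6 +
          (-10752) * max 0 (inner ℝ e (u : E 10)) ^ 8)) := by
    intro u
    unfold P10.f
    ring
  simp only [h1]
  have c1 : Continuous fun u : sphere (0 : E 10) 1 => max 0 (inner ℝ e (u : E 10)) ^ 2 := by
    fun_prop
  have c2 : Continuous fun u : sphere (0 : E 10) 1 => max 0 (inner ℝ e (u : E 10)) ^ 4 := by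
    fun_prop
  have c3 : Continuous fun u : sphere (0 : E 10) 1 => max 0 (inner ℝ e (u : E 10)) ^ 6 := by
    fun_prop
  have c4 : Continuous fun u : sphere (0 : E 10) 1 => max 0 (inner ℝ e (u : E 10)) ^ 8 := by
    fun_prop
  have i1 := (integrable_sphere c1).const_mul (22560 : ℝ)
  have i2 := (integrable_sphere c2).const_mul (14880 : ℝ)
  have i3 := (integrable_sphere c3).const_mul (4032 : ℝ)
  have i4 := (integrable_sphere c4).const_mul (-10752 : ℝ)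
  have i34 : Integrable (fun u : sphere (0 : E 10) 1 =>
      4032 * max 0 (inner ℝ e (u : E 10)) ^ 6 + -10752 * max 0 (inner ℝ e (u : E 10)) ^ 8)
      ((volume : Measure (E 10)).toSphere) := i3.add i4
  have i234 : Integrable (fun u : sphere (0 : E 10) 1 =>
      14880 * max 0 (inner ℝ e (u : E 10)) ^ 4 + (4032 * max 0 (inner ℝ e (u : E 10)) ^ 6 +
        -10752 * max 0 (inner ℝ e (u : E 10)) ^ 8))
      ((volume : Measure (E 10)).toSphere) := i2.add i34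
  rw [integral_add i1 i234, integral_add i2 i34, integral_add i3 i4,
    integral_const_mul, integral_const_mul, integral_const_mul, integral_const_mul,
    sphere_moment_two (by norm_num) he, sphere_moment_four (by norm_num) he,
    sphere_moment_six (by norm_num) he, sphere_moment_eight (by norm_num) he]
  push_cast
  ring

/-- The certificate in dimension 10. -/
noncomputable def certTen : Cert 10 where
  lam := 381
  s := 16920
  F := 1311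
  f := P10.f
  lam_pos := by norm_num
  s_nonneg := by norm_num
  f_cont := P10.continuous_f
  f_nonneg a ha := P10.f_nonneg ha.1 ha.2
  hF e he := (P10.integral_f he).le
  balance := by norm_num
  approx ε hε := by
    have hη : 0 < ε / 93060 := by positivity
    refine ⟨P10.Phi (ε / 93060), (ε / 93060) ^ 2, by positivity, P10.Phi_contDiff, ?_, ?_, ?_⟩
    · intro p hp
      exact P10.Phi_nonneg hη hp
    · intro r a b hr ha hb
      exact P10.ker_nonneg hη (by linarith) hr ha hb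
    · intro r a b hr ha ha1 hb hb1
      have h := P10.pi_ker hη (lam := 381 + ε) (by linarith) hr ha ha1 hb hb1
      have e1 : 11 / 2 * 16920 * (ε / 93060) = ε := by ring
      rw [e1] at h
      exact h

end Vale.Agent.P219.TP
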