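import Vale.Agent.P219.TP.CertEight

/-! # Half moments of odd order in odd dimension -/

open MeasureTheory Set Metric
open scoped ENNReal ContDiff

namespace Vale.Agent.P219.TP

/-- Half moments of odd order in odd dimension. -/
theorem half_moment_odd (i j : ℕ) {e : E (2 * i + 1)} (he : ‖e‖ = 1) :
    ∫ u : sphere (0 : E (2 * i + 1)) 1, max 0 (inner ℝ e (u : E (2 * i + 1))) ^ (2 * j + 1)
      ∂((volume : Measure (E (2 * i + 1))).toSphere) =
      Real.pi ^ i * (j.factorial / (i + j).factorial) := by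
  rw [sphere_moment (by omega) (by omega) he]
  have h1 : ((((2 * j + 1 : ℕ) : ℝ)) + 1) / 2 = (j : ℝ) + 1 := by push_cast; ring
  have h2 : ((((2 * i + 1 : ℕ) : ℝ)) + ((2 * j + 1 : ℕ) : ℝ)) / 2 = ((i + j : ℕ) : ℝ) + 1 := by
    push_cast; ring
  have h3 : ((((2 * i + 1 : ℕ) : ℝ)) - 1) / 2 = (i : ℝ) := by push_cast; ring
  rw [h1, h2, h3, Real.Gamma_nat_eq_factorial, Real.Gamma_nat_eq_factorial, Real.rpow_natCast]
  ring

theorem sig_five : sig 5 = 8 / 3 * Real.pi ^ 2 := by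
  rw [sig_eq_gamma (by norm_num)]
  have h1 : Real.Gamma (((5 : ℕ) : ℝ) / 2) = 3 / 4 * √Real.pi := by
    have e : (((5 : ℕ) : ℝ) / 2) = (1 / 2 + 1) + 1 := by norm_num
    rw [e, Real.Gamma_add_one (by norm_num), Real.Gamma_add_one (by norm_num),
      Real.Gamma_one_half_eq]
    ring
  have h2 : Real.pi ^ (((5 : ℕ) : ℝ) / 2) = Real.pi ^ 2 * √Real.pi := by
    rw [Real.sqrt_eq_rpow, ← Real.rpow_natCast, ← Real.rpow_add Real.pi_pos]
    congr 1; norm_num
  rw [h1, h2]
  have h3 : √Real.pi ≠ 0 := (Real.sqrt_pos.2 Real.pi_pos).ne'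
  field_simp
  norm_num

theorem sig_seven : sig 7 = 16 / 15 * Real.pi ^ 3 := by
  rw [sig_eq_gamma (by norm_num)]
  have h1 : Real.Gamma (((7 : ℕ) : ℝ) / 2) = 15 / 8 * √Real.pi := by
    have e : (((7 : ℕ) : ℝ) / 2) = ((1 / 2 + 1) + 1) + 1 := by norm_num
    rw [e, Real.Gamma_add_one (by norm_num), Real.Gamma_add_one (by norm_num),
      Real.Gamma_add_one (by norm_num), Real.Gamma_one_half_eq]
    ring
  have h2 : Real.pi ^ (((7 : ℕ) : ℝ) / 2) = Real.pi ^ 3 * √Real.pi := by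
    rw [Real.sqrt_eq_rpow, ← Real.rpow_natCast, ← Real.rpow_add Real.pi_pos]
    congr 1; norm_num
  rw [h1, h2]
  have h3 : √Real.pi ≠ 0 := (Real.sqrt_pos.2 Real.pi_pos).ne'
  field_simp
  norm_num

theorem integral_poly {n : ℕ} (a2 a3 a4 a5 a6 a7 : ℝ) (e : E n) :
    ∫ u : sphere (0 : E n) 1, (a2 * max 0 (inner ℝ e (u : E n)) ^ 2 +
      (a3 * max 0 (inner ℝ e (u : E n)) ^ 3 + (a4 * max 0 (inner ℝ e (u : E n)) ^ 4 +
      (a5 * max 0 (inner ℝ e (u : E n)) ^ 5 + (a6 * max 0 (inner ℝ e (u : E n)) ^ 6 +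
        a7 * max 0 (inner ℝ e (u : E n)) ^ 7))))) ∂((volume : Measure (E n)).toSphere) =
    a2 * (∫ u : sphere (0 : E n) 1, max 0 (inner ℝ e (u : E n)) ^ 2
      ∂((volume : Measure (E n)).toSphere)) +
    (a3 * (∫ u : sphere (0 : E n) 1, max 0 (inner ℝ e (u : E n)) ^ 3
      ∂((volume : Measure (E n)).toSphere)) +
    (a4 * (∫ u : sphere (0 : E n) 1, max 0 (inner ℝ e (u : E n)) ^ 4
      ∂((volume : Measure (E n)).toSphere)) +
    (a5 * (∫ u : sphere (0 : E n) 1, max 0 (inner ℝ e (u : E n)) ^ 5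
      ∂((volume : Measure (E n)).toSphere)) +
    (a6 * (∫ u : sphere (0 : E n) 1, max 0 (inner ℝ e (u : E n)) ^ 6
      ∂((volume : Measure (E n)).toSphere)) +
    a7 * (∫ u : sphere (0 : E n) 1, max 0 (inner ℝ e (u : E n)) ^ 7
      ∂((volume : Measure (E n)).toSphere)))))) := by
  have c : ∀ (k : ℕ) (a : ℝ), Integrable (fun u : sphere (0 : E n) 1 =>
      a * max 0 (inner ℝ e (u : E n)) ^ k) ((volume : Measure (E n)).toSphere) := by
    intro k a
    exact (integrable_sphere (by fun_prop)).const_mul a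
  have add : ∀ f g : sphere (0 : E n) 1 → ℝ, Integrable f ((volume : Measure (E n)).toSphere) →
      Integrable g ((volume : Measure (E n)).toSphere) →
      Integrable (fun u => f u + g u) ((volume : Measure (E n)).toSphere) :=
    fun f g hf hg => hf.add hg
  have c67 := add _ _ (c 6 a6) (c 7 a7)
  have c57 := add _ _ (c 5 a5) c67
  have c47 := add _ _ (c 4 a4) c57
  have c37 := add _ _ (c 3 a3) c47
  rw [integral_add (c 2 a2) c37, integral_add (c 3 a3) c47, integral_add (c 4 a4) c57,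
    integral_add (c 5 a5) c67, integral_add (c 6 a6) (c 7 a7)]
  simp only [integral_const_mul]

end Vale.Agent.P219.TP
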