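import Vale.Agent.P219.TP.PolyEleven4
import Vale.Agent.P219.TP.CertTen
import Vale.Agent.P219.TP.OddMoments

set_option linter.all false

/-! # The certificate in dimension 11 -/

open MeasureTheory Set Metric Filter Topology
open scoped ENNReal ContDiff

namespace Vale.Agent.P219.TP

namespace P11

/-- `∂N/∂r` -/
def Nr (r a : ℝ) : ℝ := -25225 * a + 23012 * r + 27520 * a ^ 2 + 40960 * r * a -
    39360 * r ^ 2 - 10173 * a ^ 3 - 62544 * r * a ^ 2 - 3396 * r ^ 2 * a + 28900 * r ^ 3 + 28328 * r * a ^ 3 + 4992 * r ^ 2 * a ^ 2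
    - 668 * r ^ 3 * a - 5165 * r ^ 4 - 16329 * r ^ 2 * a ^ 3 + 15060 * r ^ 3 * a ^ 2 - 4860 *
    r ^ 4 * a + 966 * r ^ 5

theorem N_deriv {u v : ℝ → ℝ} {u' v' t : ℝ} (hu : HasDerivAt u u' t) (hv : HasDerivAt v v' t) :
    HasDerivAt (fun t => N (u t) (v t)) (Nr (u t) (v t) * u' + NA (u t) (v t) * v') t := by
  unfold N
  refine ((((((((((((((((((hasDerivAt_const t (2400 : ℝ)).fun_sub
    ((hu.const_mul (25225 : ℝ)).fun_mul hv)).fun_add ((hu.fun_pow 2).const_mul (11506 : ℝ))).fun_add ((hu.const_mul (27520 :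
    ℝ)).fun_mul (hv.fun_pow 2))).fun_add (((hu.fun_pow 2).const_mul (20480 : ℝ)).fun_mul
    hv)).fun_sub ((hu.fun_pow 3).const_mul (13120 : ℝ))).fun_sub ((hu.const_mul (10173 :
    ℝ)).fun_mul (hv.fun_pow 3))).fun_sub (((hu.fun_pow 2).const_mul (31272 : ℝ)).fun_mul
    (hv.fun_pow 2))).fun_sub (((hu.fun_pow 3).const_mul (1132 : ℝ)).fun_mul hv)).fun_add
    ((hu.fun_pow 4).const_mul (7225 : ℝ))).fun_add (((hu.fun_pow 2).const_mul (14164 :
    ℝ)).fun_mul (hv.fun_pow 3))).fun_add (((hu.fun_pow 3).const_mul (1664 : ℝ)).fun_mul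
    (hv.fun_pow 2))).fun_sub (((hu.fun_pow 4).const_mul (167 : ℝ)).fun_mul hv)).fun_sub
    ((hu.fun_pow 5).const_mul (1033 : ℝ))).fun_sub (((hu.fun_pow 3).const_mul (5443 :
    ℝ)).fun_mul (hv.fun_pow 3))).fun_add (((hu.fun_pow 4).const_mul (3765 : ℝ)).fun_mul
    (hv.fun_pow 2))).fun_sub (((hu.fun_pow 5).const_mul (972 : ℝ)).fun_mul hv)).fun_add
    ((hu.fun_pow 6).const_mul (161 : ℝ))).congr_deriv ?_
  unfold Nr NA
  norm_num
  ring

theorem NR_eq (r a : ℝ) : NR r a = 7 * N r a - r * Nr r a := by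
  unfold NR N Nr; ring

theorem f_hasDerivAt (c : ℝ) : HasDerivAt f (f' c) c := by
  unfold f f'
  refine ((((((((hasDerivAt_id' c).const_mul (115200 : ℝ)).fun_add
    ((hasDerivAt_pow 3 c).const_mul (426640 : ℝ))).fun_sub
    ((hasDerivAt_pow 4 c).const_mul (1536000 : ℝ))).fun_add
    ((hasDerivAt_pow 5 c).const_mul (1646720 : ℝ))).fun_add
    ((hasDerivAt_pow 6 c).const_mul (1904640 : ℝ))).fun_sub
    ((hasDerivAt_pow 7 c).const_mul (4993552 : ℝ))).fun_add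
    ((hasDerivAt_pow 8 c).const_mul (3230720 : ℝ))).fun_sub
    ((hasDerivAt_pow 9 c).const_mul (623808 : ℝ)) |>.congr_deriv ?_
  norm_num
  ring

theorem f_mono {x c : ℝ} (h0 : 0 ≤ x) (h : x ≤ c) (h1 : c ≤ 1) : f x ≤ f c := by
  have hm : MonotoneOn f (Icc (0 : ℝ) 1) := by
    refine monotoneOn_of_deriv_nonneg (convex_Icc 0 1) ?_ ?_ ?_
    · exact fun x _ => (f_hasDerivAt x).continuousAt.continuousWithinAt
    · exact fun x _ => (f_hasDerivAt x).differentiableAt.differentiableWithinAt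
    · intro x hx
      rw [interior_Icc] at hx
      rw [(f_hasDerivAt x).deriv]
      exact f'_nonneg hx.1.le hx.2.le
  exact hm ⟨h0, h.trans h1⟩ ⟨h0.trans h, h1⟩ h

/-- The field without cut-off. -/
noncomputable def F (η : ℝ) (p : ℝ × ℝ) : ℝ :=
  N (√(p.1 + η ^ 2)) (p.2 / √(p.1 + η ^ 2)) / √(p.1 + η ^ 2) ^ 7

theorem contDiff_N : ContDiff ℝ ∞ (fun p : ℝ × ℝ => N p.1 p.2) := by
  unfold N
  fun_prop

theorem F_contDiff {η : ℝ} : ContDiffOn ℝ ∞ (F η) {p | -η ^ 2 < p.1} := by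
  have hD : ContDiffOn ℝ ∞ (fun p : ℝ × ℝ => p.1 + η ^ 2) {p | -η ^ 2 < p.1} :=
    (contDiff_fst.add contDiff_const).contDiffOn
  have hD0 : ∀ p ∈ {p : ℝ × ℝ | -η ^ 2 < p.1}, 0 < p.1 + η ^ 2 := by
    intro p hp
    have : -η ^ 2 < p.1 := hp
    linarith
  have hρ : ContDiffOn ℝ ∞ (fun p : ℝ × ℝ => √(p.1 + η ^ 2)) {p | -η ^ 2 < p.1} :=
    hD.sqrt fun p hp => (hD0 p hp).ne'
  have hρ0 : ∀ p ∈ {p : ℝ × ℝ | -η ^ 2 < p.1}, √(p.1 + η ^ 2) ≠ 0 :=
    fun p hp => (Real.sqrt_pos.2 (hD0 p hp)).ne'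
  have hA : ContDiffOn ℝ ∞ (fun p : ℝ × ℝ => p.2 / √(p.1 + η ^ 2)) {p | -η ^ 2 < p.1} :=
    contDiff_snd.contDiffOn.div hρ hρ0
  have hN : ContDiffOn ℝ ∞ (fun p : ℝ × ℝ => N (√(p.1 + η ^ 2)) (p.2 / √(p.1 + η ^ 2)))
      {p | -η ^ 2 < p.1} := by
    have := contDiff_N.comp_contDiffOn (hρ.prodMk hA)
    simpa only [Function.comp_def] using this
  have h7 := hN.div (hρ.pow 7) fun p hp => pow_ne_zero 7 (hρ0 p hp)
  unfold F
  exact h7

/-- Partial derivatives of the field. -/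
theorem F_deriv1 {η s c ρ : ℝ} (hρ : 0 < ρ) (h : ρ ^ 2 = s + η ^ 2) :
    HasDerivAt (fun s => F η (s, c))
      (-(NR ρ (c / ρ) + c / ρ * NA ρ (c / ρ)) / (2 * ρ ^ 9)) s := by
  have hs : √(s + η ^ 2) = ρ := by rw [← h, Real.sqrt_sq hρ.le]
  have h0 : s + η ^ 2 ≠ 0 := by rw [← h]; positivity
  have hu : HasDerivAt (fun s => √(s + η ^ 2)) (1 / (2 * ρ)) s := by
    have := ((hasDerivAt_id' s).add_const (η ^ 2)).sqrt h0
    rw [hs] at this
    exact this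
  have hv : HasDerivAt (fun s => c / √(s + η ^ 2)) (-(c / ρ) * (1 / (2 * ρ)) / ρ) s := by
    refine ((hasDerivAt_const s c).fun_div hu (by rw [hs]; exact hρ.ne')).congr_deriv ?_
    rw [hs]
    field_simp
    ring
  have hN := N_deriv hu hv
  have hF := hN.fun_div (hu.fun_pow 7) (by rw [hs]; positivity)
  refine hF.congr_deriv ?_
  simp only [hs]
  rw [NR_eq]
  generalize N ρ (c / ρ) = n0
  generalize Nr ρ (c / ρ) = n1
  generalize NA ρ (c / ρ) = n2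
  have hρ' := hρ.ne'
  norm_num
  field_simp
  ring

theorem F_deriv2 {η s c ρ : ℝ} (hρ : 0 < ρ) (h : ρ ^ 2 = s + η ^ 2) :
    HasDerivAt (fun c => F η (s, c)) (NA ρ (c / ρ) / ρ ^ 8) c := by
  have hs : √(s + η ^ 2) = ρ := by rw [← h, Real.sqrt_sq hρ.le]
  have hv : HasDerivAt (fun c => c / ρ) (1 / ρ) c := (hasDerivAt_id' c).div_const ρ
  have hN := (N_deriv (hasDerivAt_const c ρ) hv).div_const (ρ ^ 7)
  have e : (fun c => F η (s, c)) = fun c => N ρ (c / ρ) / ρ ^ 7 := by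
    funext c; unfold F; simp only [hs]
  rw [e]
  refine hN.congr_deriv ?_
  have hρ' := hρ.ne'
  field_simp
  ring

theorem fderiv_F {η s c ρ : ℝ} (hρ : 0 < ρ) (h : ρ ^ 2 = s + η ^ 2) :
    fderiv ℝ (F η) (s, c) (1, 0) = -(NR ρ (c / ρ) + c / ρ * NA ρ (c / ρ)) / (2 * ρ ^ 9) ∧
    fderiv ℝ (F η) (s, c) (0, 1) = NA ρ (c / ρ) / ρ ^ 8 := by
  have ho : IsOpen {p : ℝ × ℝ | -η ^ 2 < p.1} := isOpen_lt (by fun_prop) (by fun_prop)
  have hm : (s, c) ∈ {p : ℝ × ℝ | -η ^ 2 < p.1} := by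
    have : 0 < ρ ^ 2 := by positivity
    change -η ^ 2 < s
    linarith
  have hd : DifferentiableAt ℝ (F η) (s, c) :=
    (F_contDiff.contDiffAt (ho.mem_nhds hm)).differentiableAt (by norm_num)
  have d1 : HasDerivAt (fun s : ℝ => (s, c)) (1, 0) s :=
    (hasDerivAt_id' s).prodMk (hasDerivAt_const s c)
  have d2 : HasDerivAt (fun c : ℝ => (s, c)) (0, 1) c :=
    (hasDerivAt_const c s).prodMk (hasDerivAt_id' c)
  have h1 : HasDerivAt (F η ∘ fun s : ℝ => (s, c)) (fderiv ℝ (F η) (s, c) (1, 0)) s :=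
    HasFDerivAt.comp_hasDerivAt s hd.hasFDerivAt d1
  have h2 : HasDerivAt (F η ∘ fun c : ℝ => (s, c)) (fderiv ℝ (F η) (s, c) (0, 1)) c :=
    HasFDerivAt.comp_hasDerivAt c hd.hasFDerivAt d2
  exact ⟨h1.unique (F_deriv1 hρ h), h2.unique (F_deriv2 hρ h)⟩

/-- The field. -/
noncomputable def Phi (η : ℝ) (p : ℝ × ℝ) : ℝ := P10.chi2 (p.2 ^ 2 / (p.1 + η ^ 2)) * F η p

theorem Phi_contDiff {η : ℝ} : ContDiffOn ℝ ∞ (Phi η) {p | -η ^ 2 < p.1} := by
  have hD : ContDiffOn ℝ ∞ (fun p : ℝ × ℝ => p.1 + η ^ 2) {p | -η ^ 2 < p.1} :=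
    (contDiff_fst.add contDiff_const).contDiffOn
  have hD0 : ∀ p ∈ {p : ℝ × ℝ | -η ^ 2 < p.1}, p.1 + η ^ 2 ≠ 0 := by
    intro p hp
    have : -η ^ 2 < p.1 := hp
    linarith
  have h2 : ContDiffOn ℝ ∞ (fun p : ℝ × ℝ => p.2 ^ 2) {p | -η ^ 2 < p.1} :=
    (contDiff_snd.pow 2).contDiffOn
  exact ContDiffOn.mul (P10.contDiff_chi2.comp_contDiffOn (h2.div hD hD0)) F_contDiff

theorem Phi_nonneg {η : ℝ} (hη : 0 < η) {p : ℝ × ℝ} (hp : 0 ≤ p.1) : 0 ≤ Phi η p := by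
  unfold Phi
  have hD : 0 < p.1 + η ^ 2 := by positivity
  rcases le_or_gt (21 / 20) (p.2 ^ 2 / (p.1 + η ^ 2)) with h' | h'
  · rw [P10.chi2_zero h', zero_mul]
  · refine mul_nonneg (P10.chi2_nonneg _) ?_
    have hρ : 0 < √(p.1 + η ^ 2) := Real.sqrt_pos.2 hD
    have hA : |p.2 / √(p.1 + η ^ 2)| ≤ 41 / 40 := by
      apply abs_le_of_sq_le_sq _ (by norm_num)
      rw [div_pow, Real.sq_sqrt hD.le]
      refine h'.le.trans (by norm_num)
    exact div_nonneg (N_nonneg hρ.le hA) (by positivity)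

theorem Phi_eventuallyEq {η : ℝ} (hη : 0 < η) {r a : ℝ} (ha : |a| ≤ 1) :
    Phi η =ᶠ[𝓝 (r ^ 2, r * a)] F η := by
  have ho : IsOpen {p : ℝ × ℝ | p.2 ^ 2 < p.1 + η ^ 2} :=
    isOpen_lt (by fun_prop) (by fun_prop)
  have hm : (r ^ 2, r * a) ∈ {p : ℝ × ℝ | p.2 ^ 2 < p.1 + η ^ 2} := by
    have ha2 : a ^ 2 ≤ 1 := by nlinarith [sq_abs a, abs_nonneg a]
    have : 0 < η ^ 2 := by positivity
    change (r * a) ^ 2 < r ^ 2 + η ^ 2
    nlinarith [mul_nonneg (sq_nonneg r) (sub_nonneg.2 ha2)]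
  filter_upwards [ho.mem_nhds hm] with p hp
  have hp' : p.2 ^ 2 < p.1 + η ^ 2 := hp
  unfold Phi
  rw [P10.chi2_one, one_mul]
  have hD : 0 < p.1 + η ^ 2 := lt_of_le_of_lt (sq_nonneg _) hp'
  rw [div_le_one hD]
  exact hp'.le

/-- Values of the field and of its derivatives. -/
theorem Phi_vals {η : ℝ} (hη : 0 < η) {r a q ρ : ℝ} (ha : |a| ≤ 1) (hρ : 0 < ρ)
    (hρ2 : ρ ^ 2 = r ^ 2 + η ^ 2) (hq : r = q * ρ) :
    Phi η (r ^ 2, r * a) = N ρ (q * a) / ρ ^ 7 ∧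
    fderiv ℝ (Phi η) (r ^ 2, r * a) (1, 0) =
      -(NR ρ (q * a) + q * a * NA ρ (q * a)) / (2 * ρ ^ 9) ∧
    fderiv ℝ (Phi η) (r ^ 2, r * a) (0, 1) = NA ρ (q * a) / ρ ^ 8 := by
  have e : r * a / ρ = q * a := by rw [hq]; field_simp
  have h := fderiv_F (c := r * a) hρ hρ2
  rw [e] at h
  refine ⟨?_, ?_, ?_⟩
  · rw [(Phi_eventuallyEq hη ha).self_of_nhds]
    unfold F
    have hs : √(r ^ 2 + η ^ 2) = ρ := by rw [← hρ2, Real.sqrt_sq hρ.le]
    simp only [hs, e]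
  · rw [(Phi_eventuallyEq hη ha).fderiv_eq]; exact h.1
  · rw [(Phi_eventuallyEq hη ha).fderiv_eq]; exact h.2

/-- lower bound of the kernel by the singular kernel at `ρ = √(r² + η²)` -/
theorem ker_ge {η : ℝ} (hη : 0 < η) {lam r a b q ρ : ℝ} (hr : 0 ≤ r) (ha : |a| ≤ 1)
    (hb : |b| ≤ 1) (hρ : 0 < ρ) (hρ2 : ρ ^ 2 = r ^ 2 + η ^ 2) (hq : r = q * ρ) (hq0 : 0 ≤ q)
    (hq1 : q ≤ 1) (hl : 1660 ≤ lam) :
    k11 ρ (q * a) (q * b) (ww (q * a) (q * b)) ≤ ker 10 (Phi η) lam r a b * ρ ^ 7 := by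
  obtain ⟨a0, a1, a2⟩ := Phi_vals hη ha hρ hρ2 hq
  obtain ⟨b0, b1, b2⟩ := Phi_vals hη hb hρ hρ2 hq
  have hA : |q * a| ≤ |a| := by
    rw [abs_mul, abs_of_nonneg hq0]; exact mul_le_of_le_one_left (abs_nonneg _) hq1
  have hB : |q * b| ≤ |b| := by
    rw [abs_mul, abs_of_nonneg hq0]; exact mul_le_of_le_one_left (abs_nonneg _) hq1
  have nA := NA_nonpos hρ.le (hA.trans ha)
  have nB := NA_nonpos hρ.le (hB.trans hb)
  have hX := X_nonneg hρ.le hA hB ha hb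
  have hw := ww_mono hq0 hq1 ha hb
  have hq2 : q ^ 2 ≤ 1 := pow_le_one₀ hq0 hq1
  have c1 : |NA ρ (q * a) / ρ ^ 8| = -(NA ρ (q * a)) / ρ ^ 8 := by
    rw [abs_div, abs_of_nonpos nA, abs_of_pos (by positivity : 0 < ρ ^ 8)]
  have c2 : |NA ρ (q * b) / ρ ^ 8| = -(NA ρ (q * b)) / ρ ^ 8 := by
    rw [abs_div, abs_of_nonpos nB, abs_of_pos (by positivity : 0 < ρ ^ 8)]
  have c3 : |q * a| = q * |a| := by rw [abs_mul, abs_of_nonneg hq0]
  have c4 : |q * b| = q * |b| := by rw [abs_mul, abs_of_nonneg hq0]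
  have key : ker 10 (Phi η) lam r a b * ρ ^ 7 -
      k11 ρ (q * a) (q * b) (ww (q * a) (q * b)) = (lam - 1660) * ρ ^ 7 +
      (1 / 2 * ((1 - q ^ 2) * (NR ρ (q * a) + NR ρ (q * b) +
        ((1 - b ^ 2) * (q * a * NA ρ (q * a)) + (1 - a ^ 2) * (q * b * NA ρ (q * b))))) +
      1 / 2 * (q * (-NA ρ (q * a) * |b| + -NA ρ (q * b) * |a|) *
        (ww (q * a) (q * b) - ww a b))) := by
    have w1 : √((1 - a ^ 2) * (1 - b ^ 2)) = ww a b := rfl
    have w2 : √((1 - b ^ 2) * (1 - a ^ 2)) = ww a b := by rw [mul_comm]; rfl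
    unfold ker ker0 kap k11
    rw [a0, a1, a2, b0, b1, b2, c1, c2, c3, c4, w1, w2]
    generalize ww (q * a) (q * b) = w'
    generalize ww a b = w
    generalize N ρ (q * a) = n1
    generalize N ρ (q * b) = n2
    generalize NA ρ (q * a) = n3
    generalize NA ρ (q * b) = n4
    generalize NR ρ (q * a) = n5
    generalize NR ρ (q * b) = n6
    generalize |a| = a'
    generalize |b| = b'
    rw [hq]
    push_cast
    have hρ' := hρ.ne'
    field_simp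
    ring
  have t1 : 0 ≤ (lam - 1660) * ρ ^ 7 := mul_nonneg (by linarith) (by positivity)
  have t2 : 0 ≤ (1 - q ^ 2) * (NR ρ (q * a) + NR ρ (q * b) +
        ((1 - b ^ 2) * (q * a * NA ρ (q * a)) + (1 - a ^ 2) * (q * b * NA ρ (q * b)))) :=
    mul_nonneg (by linarith) hX
  have t3 : 0 ≤ q * (-NA ρ (q * a) * |b| + -NA ρ (q * b) * |a|) *
        (ww (q * a) (q * b) - ww a b) := by
    refine mul_nonneg (mul_nonneg hq0 (add_nonneg ?_ ?_)) (by linarith)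
    · exact mul_nonneg (by linarith) (abs_nonneg _)
    · exact mul_nonneg (by linarith) (abs_nonneg _)
  linarith

theorem ker_nonneg {η : ℝ} (hη : 0 < η) {lam r a b : ℝ} (hl : 1660 ≤ lam) (hr : 0 ≤ r)
    (ha : |a| ≤ 1) (hb : |b| ≤ 1) : 0 ≤ ker 10 (Phi η) lam r a b := by
  obtain ⟨ρ, q, hρ, hρ2, hq, hq0, hq1, -⟩ := P8.exists_rho hη hr
  have h := ker_ge hη hr ha hb hρ hρ2 hq hq0 hq1 hl
  have h1 : |q * a| ≤ 1 := by
    rw [abs_mul, abs_of_nonneg hq0]; exact mul_le_one₀ hq1 (abs_nonneg _) ha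
  have h2 : |q * b| ≤ 1 := by
    rw [abs_mul, abs_of_nonneg hq0]; exact mul_le_one₀ hq1 (abs_nonneg _) hb
  have h3 := (k11_pos hρ h1 h2).le.trans h
  exact nonneg_of_mul_nonneg_left h3 (by positivity)

theorem pi_ker {η : ℝ} (hη : 0 < η) {lam r a b : ℝ} (hl : 1660 ≤ lam) (hr : 0 < r)
    (ha : 0 ≤ a) (ha1 : a ≤ 1) (hb : 0 ≤ b) (hb1 : b ≤ 1) :
    a * b * (86400 * r - (f a + f b) / 2 - 6 * 86400 * η) ≤
      ker 10 (Phi η) lam r a b * r ^ 10 := by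
  have haa : |a| ≤ 1 := by rwa [abs_of_nonneg ha]
  have hbb : |b| ≤ 1 := by rwa [abs_of_nonneg hb]
  obtain ⟨ρ, q, hρ, hρ2, hq, hq0, hq1, -⟩ := P8.exists_rho hη hr.le
  have hK := ker_ge hη hr.le haa hbb hρ hρ2 hq hq0 hq1 hl
  have hK0 := ker_nonneg hη hl hr.le haa hbb
  have hqa : q * a ≤ a := by nlinarith
  have hqb : q * b ≤ b := by nlinarith
  have hpi := p11_nonneg hρ (mul_nonneg hq0 ha) (hqa.trans ha1) (mul_nonneg hq0 hb)
    (hqb.trans hb1)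
  unfold p11 at hpi
  have f1 := f_mono (mul_nonneg hq0 ha) hqa ha1
  have f2 := f_mono (mul_nonneg hq0 hb) hqb hb1
  have f3 := f_nonneg ha ha1
  have f4 := f_nonneg hb hb1
  have key : (q * a) * (q * b) * (86400 * ρ - (f a + f b) / 2) ≤
      ker 10 (Phi η) lam r a b * ρ ^ 10 := by
    calc (q * a) * (q * b) * (86400 * ρ - (f a + f b) / 2) ≤
        (q * a) * (q * b) * (86400 * ρ - (f (q * a) + f (q * b)) / 2) := by
          refine mul_le_mul_of_nonneg_left (by linarith) (by positivity)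
      _ ≤ ρ ^ 3 * k11 ρ (q * a) (q * b) (ww (q * a) (q * b)) := by linarith
      _ ≤ ρ ^ 3 * (ker 10 (Phi η) lam r a b * ρ ^ 7) := by gcongr
      _ = ker 10 (Phi η) lam r a b * ρ ^ 10 := by ring
  have := regularise (m := 10) (s := 86400) (by norm_num) hη hρ hρ2 hr.le hq hq0 hq1
    (mul_nonneg ha hb) (by linarith) hK0 key
  norm_num at this ⊢
  linarith

/-! ### Moments in dimension 11 -/

theorem Gamma_half (j : ℕ) : Real.Gamma ((j : ℝ) + 11 / 2) =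
    ((j : ℝ) + 9 / 2) * ((j : ℝ) + 7 / 2) * ((j : ℝ) + 5 / 2) * ((j : ℝ) + 3 / 2) *
      ((j : ℝ) + 1 / 2) * Real.Gamma ((j : ℝ) + 1 / 2) := by
  have e : (j : ℝ) + 11 / 2 = (((((j : ℝ) + 1 / 2 + 1) + 1) + 1) + 1) + 1 := by ring
  have hj : (0 : ℝ) ≤ j := Nat.cast_nonneg j
  rw [e, Real.Gamma_add_one (by positivity), Real.Gamma_add_one (by positivity),
    Real.Gamma_add_one (by positivity), Real.Gamma_add_one (by positivity),
    Real.Gamma_add_one (by positivity)]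
  ring

theorem sig_eleven : sig 11 = 64 / 945 * Real.pi ^ 5 := by
  rw [sig_eq_gamma (by norm_num)]
  have h1 : Real.Gamma (((11 : ℕ) : ℝ) / 2) = 945 / 32 * √Real.pi := by
    have := Gamma_half 0
    simp only [Nat.cast_zero, zero_add] at this
    rw [show (((11 : ℕ) : ℝ) / 2) = 11 / 2 by norm_num, this, Real.Gamma_one_half_eq]
    ring
  have h2 : Real.pi ^ (((11 : ℕ) : ℝ) / 2) = Real.pi ^ 5 * √Real.pi := by
    rw [Real.sqrt_eq_rpow, ← Real.rpow_natCast, ← Real.rpow_add Real.pi_pos]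
    congr 1; norm_num
  rw [h1, h2]
  have h3 : √Real.pi ≠ 0 := (Real.sqrt_pos.2 Real.pi_pos).ne'
  field_simp
  norm_num

theorem moment_even {j : ℕ} (hj : 1 ≤ j) {e : E 11} (he : ‖e‖ = 1) :
    ∫ u : sphere (0 : E 11) 1, max 0 (inner ℝ e (u : E 11)) ^ (2 * j)
      ∂((volume : Measure (E 11)).toSphere) =
      Real.pi ^ 5 / (((j : ℝ) + 9 / 2) * ((j : ℝ) + 7 / 2) * ((j : ℝ) + 5 / 2) *
        ((j : ℝ) + 3 / 2) * ((j : ℝ) + 1 / 2)) := by
  rw [sphere_moment (by norm_num) (by omega) he]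
  have h1 : (((2 * j : ℕ) : ℝ) + 1) / 2 = (j : ℝ) + 1 / 2 := by push_cast; ring
  have h2 : (((11 : ℕ) : ℝ) + ((2 * j : ℕ) : ℝ)) / 2 = (j : ℝ) + 11 / 2 := by push_cast; ring
  have h3 : (((11 : ℕ) : ℝ) - 1) / 2 = ((5 : ℕ) : ℝ) := by norm_num
  have hj : (0 : ℝ) ≤ j := Nat.cast_nonneg j
  have hG : 0 < Real.Gamma ((j : ℝ) + 1 / 2) := Real.Gamma_pos_of_pos (by positivity)
  rw [h1, h2, h3, Gamma_half, Real.rpow_natCast]
  field_simp

theorem integral_f {e : E 11} (he : ‖e‖ = 1) :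
    ∫ u : sphere (0 : E 11) 1, f (max 0 (inner ℝ e (u : E 11))) * max 0 (inner ℝ e (u : E 11))
      ∂((volume : Measure (E 11)).toSphere) = 68140 / 11 * sig 11 := by
  have c : ∀ (k : ℕ) (a : ℝ), Integrable (fun u : sphere (0 : E 11) 1 =>
      a * max 0 (inner ℝ e (u : E 11)) ^ k) ((volume : Measure (E 11)).toSphere) := by
    intro k a
    exact (integrable_sphere (by fun_prop)).const_mul a
  have h1 : ∀ u : sphere (0 : E 11) 1,
      f (max 0 (inner ℝ e (u : E 11))) * max 0 (inner ℝ e (u : E 11)) =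
      (((((((115200 * max 0 (inner ℝ e (u : E 11)) ^ 2 +
      426640 * max 0 (inner ℝ e (u : E 11)) ^ 4) +
      (-1536000) * max 0 (inner ℝ e (u : E 11)) ^ 5) +
      1646720 * max 0 (inner ℝ e (u : E 11)) ^ 6) +
      1904640 * max 0 (inner ℝ e (u : E 11)) ^ 7) +
      (-4993552) * max 0 (inner ℝ e (u : E 11)) ^ 8) +
      3230720 * max 0 (inner ℝ e (u : E 11)) ^ 9) +
      (-623808) * max 0 (inner ℝ e (u : E 11)) ^ 10) := by
    intro u
    unfold f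
    ring
  simp only [h1]
  have c2 := (c 2 115200).add (c 4 426640)
  have c3 := c2.add (c 5 (-1536000))
  have c4 := c3.add (c 6 1646720)
  have c5 := c4.add (c 7 1904640)
  have c6 := c5.add (c 8 (-4993552))
  have c7 := c6.add (c 9 3230720)
  simp only [Pi.add_def] at c2 c3 c4 c5 c6 c7
  rw [integral_add c7 (c 10 _), integral_add c6 (c 9 _), integral_add c5 (c 8 _),
    integral_add c4 (c 7 _), integral_add c3 (c 6 _), integral_add c2 (c 5 _),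
    integral_add (c 2 _) (c 4 _)]
  simp only [integral_const_mul]
  have m2 := moment_even (j := 1) le_rfl he
  have m4 := moment_even (j := 2) (by norm_num) he
  have m6 := moment_even (j := 3) (by norm_num) he
  have m8 := moment_even (j := 4) (by norm_num) he
  have m10 := moment_even (j := 5) (by norm_num) he
  have m5 := half_moment_odd 5 2 he
  have m7 := half_moment_odd 5 3 he
  have m9 := half_moment_odd 5 4 he
  norm_num at m2 m4 m6 m8 m10 m5 m7 m9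
  rw [m2, m4, m5, m6, m7, m8, m9, m10, sig_eleven]
  norm_num [Nat.factorial]
  ring

theorem continuous_f : Continuous f := by unfold f; fun_prop

end P11

/-- The certificate in dimension 11. -/
noncomputable def certEleven : Cert 11 where
  lam := 1660
  s := 86400
  F := 68140 / 11
  f := P11.f
  lam_pos := by norm_num
  s_nonneg := by norm_num
  f_cont := P11.continuous_f
  f_nonneg a ha := P11.f_nonneg ha.1 ha.2
  hF e he := (P11.integral_f he).le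
  balance := by norm_num
  approx ε hε := by
    have hη : 0 < ε / 518400 := by positivity
    refine ⟨P11.Phi (ε / 518400), (ε / 518400) ^ 2, by positivity, P11.Phi_contDiff, ?_, ?_, ?_⟩
    · intro p hp
      exact P11.Phi_nonneg hη hp
    · intro r a b hr ha hb
      exact P11.ker_nonneg hη (by linarith) hr ha hb
    · intro r a b hr ha ha1 hb hb1
      have h := P11.pi_ker hη (lam := 1660 + ε) (by linarith) hr ha ha1 hb hb1
      have e1 : 6 * 86400 * (ε / 518400) = ε := by ring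
      rw [e1] at h
      exact h

end Vale.Agent.P219.TP
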