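import Vale.Agent.P219.TP.PolyFive
import Vale.Agent.P219.TP.OddMoments

/-! # The certificate in dimension 5

Field `(V(ρ) - a W(ρ)) ∇ρ` with `V = Vi` for `ρ ≤ 2`, `V = 5760 + 9600/ρ` for `ρ ≥ 2`. -/

open MeasureTheory Set Metric
open scoped ENNReal ContDiff

namespace Vale.Agent.P219.TP

noncomputable def P5.Wi (l : ℝ) : ℝ :=
  4 * (2 - l) * (720 + 11988 * l + 92 * l ^ 2 - 2193 * l ^ 3) / (2 + l) ^ 2

noncomputable def P5.Wi' (l : ℝ) : ℝ := P5.Wp l / (2 + l) ^ 3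

noncomputable def P5.Vi (l : ℝ) : ℝ :=
  23040 - 12660 * l + 4500 * l ^ 2 - 645 * l ^ 3 + l / 2 * P5.Wi l

noncomputable def P5.Vi' (l : ℝ) : ℝ :=
  -12660 + 9000 * l - 1935 * l ^ 2 + P5.Wi l / 2 + l / 2 * P5.Wi' l

noncomputable def P5.Vo (l : ℝ) : ℝ := 5760 + 9600 / l

noncomputable def P5.Vo' (l : ℝ) : ℝ := -9600 / l ^ 2

theorem P5.inOK_in {l : ℝ} (hl : 0 < l) (hl2 : l ≤ 2) :
    InOK 4 49920 829440 P5.f 0 (P5.Vi l) (P5.Vi' l) (P5.Wi l) (P5.Wi' l) l := by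
  have h0 := hl.le
  have hD : (0 : ℝ) < (2 + l) ^ 3 := by positivity
  have eW : P5.Wi l * (2 + l) ^ 3 = P5.Wn l := by
    unfold P5.Wi P5.Wn
    field_simp
  have eW' : P5.Wi' l * (2 + l) ^ 3 = P5.Wp l := by
    unfold P5.Wi'
    field_simp
  refine inOK_mk2 (m := 4) (L := l ^ 3) (D := (2 + l) ^ 3) (Vn := P5.Vn l) (Vp := P5.Vp l)
    (Wn := P5.Wn l) (Wp := P5.Wp l) (G := P5.G) hl (by positivity) (by ring) hD
    ?_ ?_ eW eW' (P5.W_nonneg h0 hl2) (sub_nonneg.1 (P5.WV h0 hl2)) ?_ ?_ (P5.N1 h0 hl2) ?_ ?_ ?_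
    P5.f_add P5.G_nonneg ?_
  · unfold P5.Vi P5.Vn
    rw [← eW]; ring
  · unfold P5.Vi' P5.Vp
    rw [← eW, ← eW']; ring
  · have := P5.C1 h0 hl2
    linarith
  · have := P5.C2 h0 hl2
    linarith
  · have := P5.N2 h0 hl2
    push_cast
    linarith
  · intro S hS hS2
    exact_mod_cast P5.A h0 hl2 hS hS2
  · intro S hS hS2
    exact_mod_cast P5.B h0 hl2 hS hS2
  · intro S hS hS2
    exact_mod_cast P5.Q h0 hl2 hS hS2

theorem P5.inOK_out {l : ℝ} (hl : 2 ≤ l) :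
    InOK 4 49920 829440 P5.f 0 (P5.Vo l) (P5.Vo' l) 0 0 l := by
  have h0 : 0 < l := by linarith
  have hD : (0 : ℝ) < l ^ 2 := by positivity
  have hU : 0 ≤ P5.Un l := by unfold P5.Un; positivity
  have hU' : P5.Up l ≤ 0 := by unfold P5.Up; norm_num
  have hlU : l * P5.Up l ≤ 0 := mul_nonpos_of_nonneg_of_nonpos h0.le hU'
  refine inOK_mk2 (m := 4) (L := l ^ 3) (D := l ^ 2) (Vn := P5.Un l) (Vp := P5.Up l)
    (Wn := 0) (Wp := 0) (G := P5.G) h0 (by positivity) (by ring) hD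
    ?_ ?_ (by ring) (by ring) le_rfl (by linarith) (by linarith) (by linarith)
    ?_ ?_ ?_ ?_ P5.f_add P5.G_nonneg ?_
  · unfold P5.Vo P5.Un
    field_simp
  · unfold P5.Vo' P5.Up
    field_simp
  · have := mul_nonneg h0.le hU
    linarith
  · have := mul_nonneg h0.le hU
    push_cast
    linarith
  · intro S hS hS2
    exact_mod_cast P5.Ao hl hS hS2
  · intro S hS hS2
    exact_mod_cast P5.Bo hl hS hS2
  · intro S hS hS2
    exact_mod_cast P5.Qo hl hS hS2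

theorem P5.hasDerivAt_f (c : ℝ) : HasDerivAt P5.f (P5.f1 c) c := by
  have h := ((((((hasDerivAt_id c).const_mul 1105920).add ((hasDerivAt_pow 2 c).const_mul
    11520)).add ((hasDerivAt_pow 3 c).const_mul 570240)).sub ((hasDerivAt_pow 4 c).const_mul
    1372800)).add ((hasDerivAt_pow 5 c).const_mul 1296000)).sub ((hasDerivAt_pow 6 c).const_mul
    412800)
  refine h.congr_deriv ?_
  unfold P5.f1
  norm_num
  ring

theorem P5.continuous_f : Continuous P5.f := by unfold P5.f; fun_prop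

theorem P5.mono_f : MonotoneOn P5.f (Icc 0 1) := by
  refine monotoneOn_of_deriv_nonneg (convex_Icc 0 1) P5.continuous_f.continuousOn
    (fun c _ => (P5.hasDerivAt_f c).differentiableAt.differentiableWithinAt) ?_
  intro c hc
  rw [interior_Icc] at hc
  rw [(P5.hasDerivAt_f c).deriv]
  exact P5.f1_nonneg hc.1.le hc.2.le

theorem P5.f_zero : P5.f 0 = 0 := by simp [P5.f]

theorem P5.f_nonneg {c : ℝ} (h0 : 0 ≤ c) (h1 : c ≤ 1) : 0 ≤ P5.f c := by
  rw [← P5.f_zero]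
  exact P5.mono_f ⟨le_rfl, zero_le_one⟩ ⟨h0, h1⟩ h0

theorem P5.hasDerivAt_Wi {l : ℝ} (hl : 0 < l) : HasDerivAt P5.Wi (P5.Wi' l) l := by
  have h1 : HasDerivAt (fun l : ℝ => 4 * (2 - l)) (-4) l :=
    (((hasDerivAt_id l).const_sub 2).const_mul 4).congr_deriv (by norm_num)
  have h2 : HasDerivAt (fun l : ℝ => 720 + 11988 * l + 92 * l ^ 2 - 2193 * l ^ 3)
      (11988 + 184 * l - 6579 * l ^ 2) l :=
    ((((hasDerivAt_const l (720 : ℝ)).add ((hasDerivAt_id l).const_mul 11988)).add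
      ((hasDerivAt_pow 2 l).const_mul 92)).sub ((hasDerivAt_pow 3 l).const_mul 2193)).congr_deriv
      (by norm_num; ring)
  have h3 : HasDerivAt (fun l : ℝ => (2 + l) ^ 2) (2 * (2 + l)) l :=
    (((hasDerivAt_id l).const_add 2).pow 2).congr_deriv (by norm_num)
  have h4 : (2 + l) ^ 2 ≠ 0 := by positivity
  refine ((h1.mul h2).div h3 h4).congr_deriv ?_
  have h5 : (2 + l) ≠ 0 := by positivity
  simp only [P5.Wi', P5.Wp, Pi.mul_apply]
  field_simp
  ring

theorem P5.hasDerivAt_Vi {l : ℝ} (hl : 0 < l) : HasDerivAt P5.Vi (P5.Vi' l) l := by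
  have h2 : HasDerivAt (fun l : ℝ => 23040 - 12660 * l + 4500 * l ^ 2 - 645 * l ^ 3)
      (-12660 + 9000 * l - 1935 * l ^ 2) l :=
    ((((hasDerivAt_const l (23040 : ℝ)).sub ((hasDerivAt_id l).const_mul 12660)).add
      ((hasDerivAt_pow 2 l).const_mul 4500)).sub ((hasDerivAt_pow 3 l).const_mul 645)).congr_deriv
      (by norm_num; ring)
  refine (h2.add (((hasDerivAt_id l).div_const 2).mul (P5.hasDerivAt_Wi hl))).congr_deriv ?_
  simp only [P5.Vi', id]
  ring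

theorem P5.hasDerivAt_Vo {l : ℝ} (hl : 0 < l) : HasDerivAt P5.Vo (P5.Vo' l) l := by
  refine (((hasDerivAt_inv hl.ne').const_mul 9600).const_add 5760).congr_deriv ?_
  unfold P5.Vo'
  ring

theorem P5.contDiffOn_Wi : ContDiffOn ℝ ∞ P5.Wi (Ioi 0) := by
  unfold P5.Wi
  refine ContDiffOn.div (by fun_prop) (by fun_prop) ?_
  intro l hl
  have : (0 : ℝ) < l := hl
  positivity

theorem P5.contDiffOn_Vi : ContDiffOn ℝ ∞ P5.Vi (Ioi 0) := by
  unfold P5.Vi
  refine ContDiffOn.add (by fun_prop) (ContDiffOn.mul (by fun_prop) P5.contDiffOn_Wi)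

theorem P5.contDiffOn_Vo : ContDiffOn ℝ ∞ P5.Vo (Ioi 0) := by
  unfold P5.Vo
  refine ContDiffOn.add (by fun_prop) (ContDiffOn.div (by fun_prop) (by fun_prop) ?_)
  intro l hl
  exact (show (0 : ℝ) < l from hl).ne'

theorem P5.regData : ∀ ε > 0, RegData 4 49920 829440 P5.f ε := by
  have c1 : ContinuousAt P5.Wi' 2 := by
    unfold P5.Wi' P5.Wp
    exact ContinuousAt.div (by fun_prop) (by fun_prop) (by norm_num)
  have c0 : ContinuousAt P5.Wi 2 := (P5.hasDerivAt_Wi (by norm_num)).continuousAt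
  refine glue (C := 0) (by norm_num) (by norm_num) (fun a h0 h1 => P5.f_nonneg h0 h1) le_rfl
    P5.contDiffOn_Vi P5.contDiffOn_Wi P5.contDiffOn_Vo (fun l hl => P5.hasDerivAt_Vi hl)
    (fun l hl => P5.hasDerivAt_Wi hl) (fun l hl => P5.hasDerivAt_Vo hl) ?_ c1 ?_ ?_ ?_ ?_
    (fun l h1 h2 => P5.inOK_in h1 h2) (fun l h1 => P5.inOK_out h1)
  · unfold P5.Vi'
    fun_prop
  · unfold P5.Vo'
    exact ContinuousAt.div (by fun_prop) (by fun_prop) (by norm_num)
  · norm_num [P5.Vi, P5.Vo, P5.Wi]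
  · norm_num [P5.Wi]
  · norm_num [P5.Vi, P5.Wi]

theorem P5.integral_f {e : E 5} (he : ‖e‖ = 1) :
    ∫ u : sphere (0 : E 5) 1, P5.f (max 0 (inner ℝ e (u : E 5))) * max 0 (inner ℝ e (u : E 5))
      ∂((volume : Measure (E 5)).toSphere) = 115968 * sig 5 := by
  have h1 : ∀ u : sphere (0 : E 5) 1,
      P5.f (max 0 (inner ℝ e (u : E 5))) * max 0 (inner ℝ e (u : E 5)) =
      1105920 * max 0 (inner ℝ e (u : E 5)) ^ 2 + (11520 * max 0 (inner ℝ e (u : E 5)) ^ 3 +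
      (570240 * max 0 (inner ℝ e (u : E 5)) ^ 4 + ((-1372800) * max 0 (inner ℝ e (u : E 5)) ^ 5 +
      (1296000 * max 0 (inner ℝ e (u : E 5)) ^ 6 +
        (-412800) * max 0 (inner ℝ e (u : E 5)) ^ 7)))) := by
    intro u
    unfold P5.f
    ring
  simp only [h1, integral_poly]
  rw [sphere_moment_two (by norm_num) he, sphere_moment_four (by norm_num) he,
    sphere_moment_six (by norm_num) he, half_moment_odd 2 1 he, half_moment_odd 2 2 he,
    half_moment_odd 2 3 he, sig_five]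
  norm_num [Nat.factorial]
  ring

/-- The certificate in dimension 5. -/
noncomputable def certFive : Cert 5 where
  lam := 49920
  s := 829440
  F := 115968
  f := P5.f
  lam_pos := by norm_num
  s_nonneg := by norm_num
  f_cont := P5.continuous_f
  f_nonneg a ha := P5.f_nonneg ha.1 ha.2
  hF e he := (P5.integral_f he).le
  balance := by norm_num
  approx := reg_approx (m := 4) (by norm_num) P5.mono_f P5.f_zero.ge P5.regData

end Vale.Agent.P219.TP
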