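import Vale.Agent.P219.TP.CertTools

/-! # The certificate in dimension 4 (zero field, constant kernel: Croke's case) -/

open MeasureTheory Set Metric
open scoped ENNReal ContDiff

namespace Vale.Agent.P219.TP

/-- the kernel of the zero field is constant -/
theorem ker_zero (m : ℕ) (lam r a b : ℝ) : ker m (fun _ => (0 : ℝ)) lam r a b = lam := by
  have h : ∀ x y : ℝ, ker0 m (fun _ => (0 : ℝ)) lam r x y = lam := by
    intro x y
    unfold ker0 kap
    simp
  unfold ker
  rw [h, h]
  ring

/-- the boundary function in dimension 4 -/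
noncomputable def f4 (c : ℝ) : ℝ := 16 * c

/-- the polynomial of the certificate in dimension 4 -/
noncomputable def P4 (l a b : ℝ) : ℝ := l ^ 3 - 12 * (a * b) * l + 8 * (a * b) * (a + b)

theorem P4_id (l a b : ℝ) : (a + b) ^ 2 * P4 l a b =
    (a - b) ^ 2 * l ^ 3 + 4 * (a * b) * ((l - (a + b)) ^ 2 * (l + 2 * (a + b))) := by
  unfold P4
  ring

theorem P4_nonneg {l a b : ℝ} (hl : 0 ≤ l) (ha : 0 ≤ a) (hb : 0 ≤ b) : 0 ≤ P4 l a b := by
  rcases eq_or_lt_of_le (add_nonneg ha hb) with h | h
  · have h1 : a = 0 := by linarith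
    unfold P4
    rw [h1]
    simp only [zero_mul, mul_zero, sub_zero, add_zero]
    positivity
  · have h1 := P4_id l a b
    have h2 : 0 ≤ (a + b) ^ 2 * P4 l a b := by
      rw [h1]
      positivity
    exact nonneg_of_mul_nonneg_right h2 (by positivity)

theorem P4_eq {l a b : ℝ} (hl : 0 < l) (ha : 0 < a) (hb : 0 < b) (h : P4 l a b = 0) :
    l = 2 * a ∧ l = 2 * b := by
  have h1 := P4_id l a b
  rw [h, mul_zero] at h1
  have t1 : 0 ≤ (a - b) ^ 2 * l ^ 3 := by positivity
  have t2 : 0 ≤ 4 * (a * b) * ((l - (a + b)) ^ 2 * (l + 2 * (a + b))) := by positivity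
  have z1 : (a - b) ^ 2 * l ^ 3 = 0 := by linarith
  have z2 : 4 * (a * b) * ((l - (a + b)) ^ 2 * (l + 2 * (a + b))) = 0 := by linarith
  have e1 : a - b = 0 := by
    rcases mul_eq_zero.1 z1 with h2 | h2
    · exact pow_eq_zero_iff two_ne_zero |>.1 h2
    · exact absurd h2 (by positivity)
  have e2 : l - (a + b) = 0 := by
    rcases mul_eq_zero.1 z2 with h2 | h2
    · exact absurd h2 (by positivity)
    · rcases mul_eq_zero.1 h2 with h3 | h3
      · exact pow_eq_zero_iff two_ne_zero |>.1 h3
      · exact absurd h3 (by positivity)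
  constructor <;> linarith

theorem f4_ineq {r a b : ℝ} (hr : 0 ≤ r) (ha : 0 ≤ a) (hb : 0 ≤ b) :
    a * b * (12 * r - (f4 a + f4 b) / 2) ≤ r ^ 3 := by
  have h1 := P4_nonneg hr ha hb
  unfold P4 at h1
  unfold f4
  nlinarith [h1]

theorem continuous_f4 : Continuous f4 := by unfold f4; fun_prop

theorem integral_f4 {e : E 4} (he : ‖e‖ = 1) :
    ∫ u : sphere (0 : E 4) 1, f4 (max 0 (inner ℝ e (u : E 4))) * max 0 (inner ℝ e (u : E 4))
      ∂((volume : Measure (E 4)).toSphere) = 2 * sig 4 := by
  have h1 : ∀ u : sphere (0 : E 4) 1,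
      f4 (max 0 (inner ℝ e (u : E 4))) * max 0 (inner ℝ e (u : E 4)) =
      16 * max 0 (inner ℝ e (u : E 4)) ^ 2 := by
    intro u
    unfold f4
    ring
  simp only [h1]
  rw [integral_const_mul, sphere_moment_two (by norm_num) he]
  push_cast
  ring

/-- The certificate in dimension 4. -/
noncomputable def certFour : Cert 4 where
  lam := 1
  s := 12
  F := 2
  f := f4
  lam_pos := one_pos
  s_nonneg := by norm_num
  f_cont := continuous_f4
  f_nonneg a ha := by
    have := ha.1
    unfold f4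
    positivity
  hF e he := (integral_f4 he).le
  balance := by norm_num
  approx ε hε := by
    refine ⟨fun _ => 0, 1, one_pos, contDiffOn_const, fun _ _ => le_rfl, ?_, ?_⟩
    · intro r a b _ _ _
      rw [ker_zero]
      positivity
    · intro r a b hr ha ha1 hb hb1
      rw [ker_zero]
      have h1 := f4_ineq hr.le ha hb
      have h2 : 0 ≤ a * b * ε := by positivity
      have h3 : 0 ≤ ε * r ^ 3 := by positivity
      show a * b * (12 * r - (f4 a + f4 b) / 2 - ε) ≤ (1 + ε) * r ^ 3
      nlinarith [h1, h2, h3]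

end Vale.Agent.P219.TP
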