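import Vale.Agent.P219.TP.Glue

/-! # The conditions of a certificate at one radius, in terms of `S = a + b`, `p = ab` -/

open MeasureTheory Set Metric
open scoped ENNReal ContDiff

namespace Vale.Agent.P219.TP

/-- The kernel for nonnegative `a`, `b`, in terms of `a + b` and `ab`. -/
theorem l_sk {m : ℕ} {v v' w w' l a b : ℝ} (hl : 0 < l) (ha : 0 ≤ a) (hb : 0 ≤ b) :
    l * sk m v v' w w' l a b =
      l * v' * (1 - ((a + b) ^ 2 - 2 * (a * b)) / 2) - l * w' * (a + b) * (1 - a * b) / 2 +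
        v * (m - 1 + ((a + b) ^ 2 - 2 * (a * b)) / 2) - w * (a + b) * (m - 1 + a * b) / 2 -
        m / 2 * l * v * (a + b) + m * l * w * (a * b) -
        w * (a + b) * (1 - ((a + b) ^ 2 - 2 * (a * b)) / 2) / 2 := by
  unfold sk skx
  rw [abs_of_nonneg ha, abs_of_nonneg hb]
  field_simp
  ring

theorem prod_abs_le {a b : ℝ} (ha : |a| ≤ 1) (hb : |b| ≤ 1) :
    |a| * |b| - a * b ≤ (|a| - a) + (|b| - b) := by
  have h1 := abs_nonneg a
  have h2 := abs_nonneg b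
  rcases abs_cases a with ⟨e1, h3⟩ | ⟨e1, h3⟩ <;> rcases abs_cases b with ⟨e2, h4⟩ | ⟨e2, h4⟩ <;>
    rw [e1] at ha h1 <;> rw [e2] at hb h2 <;> rw [e1, e2] <;> nlinarith

theorem sk_abs_aux {m : ℕ} {v w w' l b A : ℝ} (hA : 0 ≤ A) (hb : |b| ≤ 1)
    (N1 : 0 ≤ m * v - 2 * m * w + m * w / l)
    (N2 : 0 ≤ w' + (m - 1) * w / l + m * v - 2 * m * w) :
    0 ≤ A * (w' * (1 - b ^ 2) + w / l * (m - 1 + b ^ 2) + m * v - 2 * m * w) := by
  have hb2 : b ^ 2 ≤ 1 := by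
    rw [← sq_abs]; exact pow_le_one₀ (abs_nonneg b) hb
  refine mul_nonneg hA ?_
  have h := add_nonneg (mul_nonneg (sub_nonneg.2 hb2) N2) (mul_nonneg (sq_nonneg b) N1)
  refine h.trans_eq ?_
  ring

theorem sk_abs {m : ℕ} {v v' w w' l a b : ℝ} (hw : 0 ≤ w)
    (N1 : 0 ≤ m * v - 2 * m * w + m * w / l)
    (N2 : 0 ≤ w' + (m - 1) * w / l + m * v - 2 * m * w)
    (ha : |a| ≤ 1) (hb : |b| ≤ 1) :
    sk m v v' w w' l |a| |b| ≤ sk m v v' w w' l a b := by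
  have hA : 0 ≤ |a| - a := sub_nonneg.2 (le_abs_self a)
  have hB : 0 ≤ |b| - b := sub_nonneg.2 (le_abs_self b)
  have h1 := sk_abs_aux hA hb N1 N2
  have h2 := sk_abs_aux hB ha N1 N2
  have h3 : 0 ≤ m * w * ((|a| - a) + (|b| - b) - (|a| * |b| - a * b)) :=
    mul_nonneg (mul_nonneg (Nat.cast_nonneg m) hw) (sub_nonneg.2 (prod_abs_le ha hb))
  have key : sk m v v' w w' l a b - sk m v v' w w' l |a| |b| =
      ((|a| - a) * (w' * (1 - b ^ 2) + w / l * (m - 1 + b ^ 2) + m * v - 2 * m * w)) / 2 +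
      ((|b| - b) * (w' * (1 - a ^ 2) + w / l * (m - 1 + a ^ 2) + m * v - 2 * m * w)) / 2 +
      m * w * ((|a| - a) + (|b| - b) - (|a| * |b| - a * b)) := by
    unfold sk skx
    rw [abs_abs, abs_abs, sq_abs, sq_abs]
    ring
  linarith

theorem lin_nonneg {A T p q : ℝ} (h0 : 0 ≤ A) (h1 : 0 ≤ A + q * T) (hp : 0 ≤ p) (hq : p ≤ q) :
    0 ≤ A + p * T := by
  rcases le_or_gt 0 T with h | h
  · have := mul_nonneg hp h
    linarith
  · have := mul_nonneg (sub_nonneg.2 hq) (neg_nonneg.2 h.le)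
    linarith

/-- Abstract form of the verification at one radius. -/
theorem inOK_mk {m : ℕ} {lam s C v v' w w' l L den : ℝ} {f A T F : ℝ → ℝ} {G : ℝ → ℝ → ℝ}
    (hl : 0 < l) (hL0 : 0 ≤ L) (hL : l ^ m = l * L) (hden : 0 < den)
    (hw : 0 ≤ w) (hwv : 11 / 10 * w ≤ v) (hC : v' + |w'| + 2 * w / l ≤ v / l + C * l ^ 2)
    (N1 : 0 ≤ m * v - 2 * m * w + m * w / l)
    (N2 : 0 ≤ w' + (m - 1) * w / l + m * v - 2 * m * w)
    (hT : ∀ a b, 0 ≤ a → 0 ≤ b →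
      l * den * (lam + sk m v v' w w' l a b) = A (a + b) + a * b * T (a + b))
    (hA : ∀ S, 0 ≤ S → S ≤ 2 → 0 ≤ A S)
    (hB : ∀ S, 0 ≤ S → S ≤ 2 → 0 ≤ A S + S ^ 2 / 4 * T S)
    (hF : ∀ a b, f a + f b = F (a + b) + ((a + b) ^ 2 / 4 - a * b) * G (a + b) (a * b))
    (hG : ∀ S p, 0 ≤ S → S ≤ 2 → 0 ≤ p → S - 1 ≤ p → p ≤ S ^ 2 / 4 → 0 ≤ G S p)
    (hQ : ∀ S, 0 ≤ S → S ≤ 2 →
      0 ≤ L * A S + S ^ 2 / 4 * (L * T S - (s * l - F S / 2) * den)) :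
    InOK m lam s f C v v' w w' l := by
  have dom : ∀ a b : ℝ, 0 ≤ a → a ≤ 1 → 0 ≤ b → b ≤ 1 →
      0 ≤ a + b ∧ a + b ≤ 2 ∧ 0 ≤ a * b ∧ a + b - 1 ≤ a * b ∧ a * b ≤ (a + b) ^ 2 / 4 := by
    intro a b ha ha1 hb hb1
    refine ⟨by linarith, by linarith, mul_nonneg ha hb, ?_, ?_⟩
    · have := mul_nonneg (sub_nonneg.2 ha1) (sub_nonneg.2 hb1)
      linarith
    · have := sq_nonneg (a - b)
      linarith
  refine ⟨hw, hwv, hC, ?_, ?_⟩
  · intro a b ha hb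
    have h0 := sk_abs hw N1 N2 ha hb (v' := v')
    obtain ⟨d1, d2, d3, -, d5⟩ := dom |a| |b| (abs_nonneg a) ha (abs_nonneg b) hb
    have h1 := hT |a| |b| (abs_nonneg a) (abs_nonneg b)
    have h2 := lin_nonneg (hA _ d1 d2) (hB _ d1 d2) d3 d5
    rw [← h1] at h2
    have h3 : 0 ≤ lam + sk m v v' w w' l |a| |b| := nonneg_of_mul_nonneg_right h2 (by positivity)
    linarith
  · intro a b ha ha1 hb hb1
    obtain ⟨d1, d2, d3, d4, d5⟩ := dom a b ha ha1 hb hb1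
    have h1 := hT a b ha hb
    have h2 := lin_nonneg (mul_nonneg hL0 (hA _ d1 d2)) (hQ _ d1 d2) d3 d5
    have h3 := mul_nonneg (mul_nonneg (mul_nonneg d3 (sub_nonneg.2 d5)) (hG _ _ d1 d2 d3 d4 d5))
      hden.le
    have h4 : 0 ≤ den * ((lam + sk m v v' w w' l a b) * l ^ m -
        a * b * (s * l - (f a + f b) / 2)) := by
      rw [hL, hF]
      have e : den * ((lam + sk m v v' w w' l a b) * (l * L) - a * b * (s * l -
          (F (a + b) + ((a + b) ^ 2 / 4 - a * b) * G (a + b) (a * b)) / 2)) =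
          L * (l * den * (lam + sk m v v' w w' l a b)) - a * b * (s * l - F (a + b) / 2) * den +
          (a * b * ((a + b) ^ 2 / 4 - a * b) * G (a + b) (a * b) * den) / 2 := by ring
      rw [e, h1]
      linarith
    have h5 := nonneg_of_mul_nonneg_right h4 hden
    linarith

/-- The constant coefficient (in `p = ab`) of `l D (λ + κ)`. -/
noncomputable def gA (m lam l D Vn Vp Wn Wp S : ℝ) : ℝ :=
  lam * l * D + l * Vp * (1 - S ^ 2 / 2) - l * Wp * S / 2 + Vn * (m - 1 + S ^ 2 / 2) -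
    Wn * S * (m - 1) / 2 - m / 2 * l * Vn * S - Wn * S * (1 - S ^ 2 / 2) / 2

/-- The linear coefficient (in `p = ab`) of `l D (λ + κ)`. -/
noncomputable def gT (m l Vn Vp Wn Wp S : ℝ) : ℝ :=
  l * Vp + l * Wp * S / 2 - Vn - Wn * S + m * l * Wn

/-- `inOK_mk` for a field given by `Vn = v D`, … -/
theorem inOK_mk2 {m : ℕ} {lam s C v v' w w' l L D Vn Vp Wn Wp : ℝ} {f : ℝ → ℝ} {G : ℝ → ℝ → ℝ}
    (hl : 0 < l) (hL0 : 0 ≤ L) (hL : l ^ m = l * L) (hD : 0 < D)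
    (hVn : v * D = Vn) (hVp : v' * D = Vp) (hWn : w * D = Wn) (hWp : w' * D = Wp)
    (hw : 0 ≤ Wn) (hwv : 11 / 10 * Wn ≤ Vn)
    (hC1 : l * Vp + l * Wp + 2 * Wn ≤ Vn + C * l ^ 3 * D)
    (hC2 : l * Vp - l * Wp + 2 * Wn ≤ Vn + C * l ^ 3 * D)
    (N1 : 0 ≤ l * Vn - 2 * l * Wn + Wn)
    (N2 : 0 ≤ l * Wp + (m - 1) * Wn + m * l * Vn - 2 * m * l * Wn)
    (hA : ∀ S, 0 ≤ S → S ≤ 2 → 0 ≤ gA m lam l D Vn Vp Wn Wp S)
    (hB : ∀ S, 0 ≤ S → S ≤ 2 →
      0 ≤ gA m lam l D Vn Vp Wn Wp S + S ^ 2 / 4 * gT m l Vn Vp Wn Wp S)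
    (hF : ∀ a b, f a + f b = 2 * f ((a + b) / 2) + ((a + b) ^ 2 / 4 - a * b) * G (a + b) (a * b))
    (hG : ∀ S p, 0 ≤ S → S ≤ 2 → 0 ≤ p → S - 1 ≤ p → p ≤ S ^ 2 / 4 → 0 ≤ G S p)
    (hQ : ∀ S, 0 ≤ S → S ≤ 2 →
      0 ≤ L * gA m lam l D Vn Vp Wn Wp S +
        S ^ 2 / 4 * (L * gT m l Vn Vp Wn Wp S - (s * l - 2 * f (S / 2) / 2) * D)) :
    InOK m lam s f C v v' w w' l := by
  subst hVn hVp hWn hWp
  have hlD : 0 < l * D := mul_pos hl hD
  refine inOK_mk (A := fun S => gA m lam l D (v * D) (v' * D) (w * D) (w' * D) S)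
    (T := fun S => gT m l (v * D) (v' * D) (w * D) (w' * D) S)
    (F := fun S => 2 * f (S / 2)) (G := G)
    hl hL0 hL hD (nonneg_of_mul_nonneg_left hw hD) ?_ ?_ ?_ ?_ ?_ hA hB hF hG hQ
  · refine le_of_mul_le_mul_right ?_ hD
    linarith
  · have e1 : l * D * (v' + |w'| + 2 * w / l) = l * (v' * D) + l * D * |w'| + 2 * (w * D) := by
      field_simp
    have e2 : l * D * (v / l + C * l ^ 2) = v * D + C * l ^ 3 * D := by
      field_simp
    refine le_of_mul_le_mul_left ?_ hlD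
    rw [e1, e2]
    rcases abs_cases w' with ⟨h, -⟩ | ⟨h, -⟩ <;> rw [h] <;> linarith
  · refine nonneg_of_mul_nonneg_right (a := l * D) ?_ hlD
    have e : l * D * (m * v - 2 * m * w + m * w / l) =
        m * (l * (v * D) - 2 * l * (w * D) + w * D) := by
      field_simp
    rw [e]
    exact mul_nonneg (Nat.cast_nonneg m) N1
  · refine nonneg_of_mul_nonneg_right (a := l * D) ?_ hlD
    have e : l * D * (w' + (m - 1) * w / l + m * v - 2 * m * w) =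
        l * (w' * D) + (m - 1) * (w * D) + m * l * (v * D) - 2 * m * l * (w * D) := by
      field_simp
    rw [e]
    exact N2
  · intro a b ha hb
    have h := l_sk (m := m) (v := v) (v' := v') (w := w) (w' := w') hl ha hb
    have e : l * D * (lam + sk m v v' w w' l a b) =
        lam * l * D + D * (l * sk m v v' w w' l a b) := by ring
    rw [e, h]
    simp only [gA, gT]
    ring

theorem conc_nonneg {α β γ p p0 p1 : ℝ} (hγ : 0 ≤ γ) (h0 : 0 ≤ α + β * p0 - γ * p0 ^ 2)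
    (h1 : 0 ≤ α + β * p1 - γ * p1 ^ 2) (hp0 : p0 ≤ p) (hp1 : p ≤ p1) :
    0 ≤ α + β * p - γ * p ^ 2 := by
  rcases eq_or_lt_of_le (hp0.trans hp1) with h | h
  · have : p = p0 := le_antisymm (hp1.trans h.ge) hp0
    rw [this]; exact h0
  · have k1 := mul_nonneg (sub_nonneg.2 hp1) h0
    have k2 := mul_nonneg (sub_nonneg.2 hp0) h1
    have k3 := mul_nonneg (mul_nonneg (mul_nonneg hγ (sub_nonneg.2 hp1)) (sub_nonneg.2 hp0))
      (sub_nonneg.2 h.le)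
    refine nonneg_of_mul_nonneg_right (a := p1 - p0) ?_ (sub_pos.2 h)
    linarith

end Vale.Agent.P219.TP
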