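import Vale.Agent.P219.TP.PolySeven
import Vale.Agent.P219.TP.OddMoments

/-! # The certificate in dimension 7

Field `(V(ρ) - a W(ρ)) ∇ρ` with `V = Vi` for `ρ ≤ 2`, `V = 18668/ρ + 13644/ρ²` for `ρ ≥ 2`. -/

open MeasureTheory Set Metric
open scoped ENNReal ContDiff

namespace Vale.Agent.P219.TP

noncomputable def P7.Wi (l : ℝ) : ℝ := P7.M l / (l * (2 + l) ^ 3)

noncomputable def P7.Wi' (l : ℝ) : ℝ :=
  (P7.M1 l * l * (2 + l) - P7.M l * (2 + 4 * l)) / (l ^ 2 * (2 + l) ^ 4)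

noncomputable def P7.Vi (l : ℝ) : ℝ :=
  31480 / l ^ 2 + 5291 - 208 * l + l / 2 * P7.Wi l

noncomputable def P7.Vi' (l : ℝ) : ℝ :=
  -62960 / l ^ 3 - 208 + P7.Wi l / 2 + l / 2 * P7.Wi' l

noncomputable def P7.Vo (l : ℝ) : ℝ := 18668 / l + 13644 / l ^ 2

noncomputable def P7.Vo' (l : ℝ) : ℝ := -18668 / l ^ 2 - 27288 / l ^ 3

theorem P7.inOK_in {l : ℝ} (hl : 0 < l) (hl2 : l ≤ 2) :
    InOK 6 42432 1133280 P7.f 0 (P7.Vi l) (P7.Vi' l) (P7.Wi l) (P7.Wi' l) l := by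
  have h0 := hl.le
  have hD : (0 : ℝ) < l ^ 3 * (2 + l) ^ 4 := by positivity
  have eW : P7.Wi l * (l ^ 3 * (2 + l) ^ 4) = P7.Wn l := by
    unfold P7.Wi P7.Wn
    field_simp
  have eW' : P7.Wi' l * (l ^ 3 * (2 + l) ^ 4) = P7.Wp l := by
    unfold P7.Wi' P7.Wp
    field_simp
  refine inOK_mk2 (m := 6) (L := l ^ 5) (D := l ^ 3 * (2 + l) ^ 4) (Vn := P7.Vn l)
    (Vp := P7.Vp l) (Wn := P7.Wn l) (Wp := P7.Wp l) (G := P7.G) hl (by positivity) (by ring) hD
    ?_ ?_ eW eW' (P7.W_nonneg h0 hl2) (sub_nonneg.1 (P7.WV h0 hl2)) ?_ ?_ (P7.N1 h0 hl2) ?_ ?_ ?_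
    P7.f_add P7.G_nonneg ?_
  · unfold P7.Vi P7.Vn
    rw [← eW]
    field_simp
  · unfold P7.Vi' P7.Vp
    rw [← eW, ← eW']
    field_simp
  · have := P7.C1 h0 hl2
    linarith
  · have := P7.C2 h0 hl2
    linarith
  · have := P7.N2 h0 hl2
    push_cast
    linarith
  · intro S hS hS2
    exact_mod_cast P7.A h0 hl2 hS hS2
  · intro S hS hS2
    exact_mod_cast P7.B h0 hl2 hS hS2
  · intro S hS hS2
    exact_mod_cast P7.Q h0 hl2 hS hS2

theorem P7.inOK_out {l : ℝ} (hl : 2 ≤ l) :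
    InOK 6 42432 1133280 P7.f 0 (P7.Vo l) (P7.Vo' l) 0 0 l := by
  have h0 : 0 < l := by linarith
  have hD : (0 : ℝ) < l ^ 3 := by positivity
  have hU : 0 ≤ P7.Un l := by unfold P7.Un; positivity
  have hU' : P7.Up l ≤ 0 := by unfold P7.Up; linarith
  have hlU : l * P7.Up l ≤ 0 := mul_nonpos_of_nonneg_of_nonpos h0.le hU'
  refine inOK_mk2 (m := 6) (L := l ^ 5) (D := l ^ 3) (Vn := P7.Un l) (Vp := P7.Up l)
    (Wn := 0) (Wp := 0) (G := P7.G) h0 (by positivity) (by ring) hD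
    ?_ ?_ (by ring) (by ring) le_rfl (by linarith) (by linarith) (by linarith)
    ?_ ?_ ?_ ?_ P7.f_add P7.G_nonneg ?_
  · unfold P7.Vo P7.Un
    field_simp
  · unfold P7.Vo' P7.Up
    field_simp
  · have := mul_nonneg h0.le hU
    linarith
  · have := mul_nonneg h0.le hU
    push_cast
    linarith
  · intro S hS hS2
    exact_mod_cast P7.Ao hl hS hS2
  · intro S hS hS2
    exact_mod_cast P7.Bo hl hS hS2
  · intro S hS hS2
    exact_mod_cast P7.Qo hl hS hS2

theorem P7.hasDerivAt_f (c : ℝ) : HasDerivAt P7.f (P7.f1 c) c := by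
  have h := (((((hasDerivAt_id c).const_mul 1511040).add ((hasDerivAt_pow 3 c).const_mul
    1420000)).sub ((hasDerivAt_pow 4 c).const_mul 2635776)).add ((hasDerivAt_pow 5 c).const_mul
    1862432)).sub ((hasDerivAt_pow 6 c).const_mul 159744)
  refine h.congr_deriv ?_
  unfold P7.f1
  norm_num
  ring

theorem P7.continuous_f : Continuous P7.f := by unfold P7.f; fun_prop

theorem P7.mono_f : MonotoneOn P7.f (Icc 0 1) := by
  refine monotoneOn_of_deriv_nonneg (convex_Icc 0 1) P7.continuous_f.continuousOn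
    (fun c _ => (P7.hasDerivAt_f c).differentiableAt.differentiableWithinAt) ?_
  intro c hc
  rw [interior_Icc] at hc
  rw [(P7.hasDerivAt_f c).deriv]
  exact P7.f1_nonneg hc.1.le hc.2.le

theorem P7.f_zero : P7.f 0 = 0 := by simp [P7.f]

theorem P7.f_nonneg {c : ℝ} (h0 : 0 ≤ c) (h1 : c ≤ 1) : 0 ≤ P7.f c := by
  rw [← P7.f_zero]
  exact P7.mono_f ⟨le_rfl, zero_le_one⟩ ⟨h0, h1⟩ h0

theorem P7.hasDerivAt_M (l : ℝ) : HasDerivAt P7.M (P7.M1 l) l := by
  have h1 : HasDerivAt (fun l : ℝ => 2 * (2 - l)) (-2) l :=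
    (((hasDerivAt_id l).const_sub 2).const_mul 2).congr_deriv (by norm_num)
  have h2 : HasDerivAt (fun l : ℝ => 139724 + 114712 * l + 20579 * l ^ 2 - 1456 * l ^ 3)
      (114712 + 41158 * l - 4368 * l ^ 2) l :=
    ((((hasDerivAt_const l (139724 : ℝ)).add ((hasDerivAt_id l).const_mul 114712)).add
      ((hasDerivAt_pow 2 l).const_mul 20579)).sub ((hasDerivAt_pow 3 l).const_mul
      1456)).congr_deriv (by norm_num; ring)
  refine (h1.mul h2).congr_deriv ?_
  unfold P7.M1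
  ring

theorem P7.hasDerivAt_Wi {l : ℝ} (hl : 0 < l) : HasDerivAt P7.Wi (P7.Wi' l) l := by
  have h3 : HasDerivAt (fun l : ℝ => l * (2 + l) ^ 3) ((2 + l) ^ 3 + 3 * l * (2 + l) ^ 2) l :=
    ((hasDerivAt_id l).mul (((hasDerivAt_id l).const_add 2).pow 3)).congr_deriv
      (by norm_num; ring)
  have h4 : l * (2 + l) ^ 3 ≠ 0 := by positivity
  refine ((P7.hasDerivAt_M l).div h3 h4).congr_deriv ?_
  have h5 : (2 + l) ≠ 0 := by positivity
  unfold P7.Wi'
  field_simp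
  ring

theorem P7.hasDerivAt_Vi {l : ℝ} (hl : 0 < l) : HasDerivAt P7.Vi (P7.Vi' l) l := by
  have h1 : HasDerivAt (fun l : ℝ => 31480 / l ^ 2) (-62960 / l ^ 3) l := by
    refine ((hasDerivAt_const l (31480 : ℝ)).div (hasDerivAt_pow 2 l) (by positivity)).congr_deriv
      ?_
    field_simp
    norm_num
    ring
  have h2 := ((h1.add_const 5291).sub ((hasDerivAt_id l).const_mul 208)).add
    (((hasDerivAt_id l).div_const 2).mul (P7.hasDerivAt_Wi hl))
  refine h2.congr_deriv ?_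
  simp only [P7.Vi', id]
  ring

theorem P7.hasDerivAt_Vo {l : ℝ} (hl : 0 < l) : HasDerivAt P7.Vo (P7.Vo' l) l := by
  have h1 : HasDerivAt (fun l : ℝ => 13644 / l ^ 2) (-27288 / l ^ 3) l := by
    refine ((hasDerivAt_const l (13644 : ℝ)).div (hasDerivAt_pow 2 l) (by positivity)).congr_deriv
      ?_
    field_simp
    norm_num
    ring
  have h2 : HasDerivAt (fun l : ℝ => 18668 / l) (-18668 / l ^ 2) l := by
    refine ((hasDerivAt_const l (18668 : ℝ)).div (hasDerivAt_id l) hl.ne').congr_deriv ?_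
    simp
  refine (h2.add h1).congr_deriv ?_
  unfold P7.Vo'
  ring

theorem P7.contDiffOn_Wi : ContDiffOn ℝ ∞ P7.Wi (Ioi 0) := by
  unfold P7.Wi P7.M
  refine ContDiffOn.div (by fun_prop) (by fun_prop) ?_
  intro l hl
  have : (0 : ℝ) < l := hl
  positivity

theorem P7.contDiffOn_inv2 (c : ℝ) : ContDiffOn ℝ ∞ (fun l : ℝ => c / l ^ 2) (Ioi 0) := by
  refine ContDiffOn.div (by fun_prop) (by fun_prop) ?_
  intro l hl
  have : (0 : ℝ) < l := hl
  positivity

theorem P7.contDiffOn_Vi : ContDiffOn ℝ ∞ P7.Vi (Ioi 0) := by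
  unfold P7.Vi
  exact (((P7.contDiffOn_inv2 _).add (by fun_prop)).sub (by fun_prop)).add
    (ContDiffOn.mul (by fun_prop) P7.contDiffOn_Wi)

theorem P7.contDiffOn_Vo : ContDiffOn ℝ ∞ P7.Vo (Ioi 0) := by
  unfold P7.Vo
  refine ContDiffOn.add (ContDiffOn.div (by fun_prop) (by fun_prop) ?_) (P7.contDiffOn_inv2 _)
  intro l hl
  exact (show (0 : ℝ) < l from hl).ne'

theorem P7.regData : ∀ ε > 0, RegData 6 42432 1133280 P7.f ε := by
  have c1 : ContinuousAt P7.Wi' 2 := by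
    unfold P7.Wi' P7.M1 P7.M
    exact ContinuousAt.div (by fun_prop) (by fun_prop) (by norm_num)
  have c0 : ContinuousAt P7.Wi 2 := (P7.hasDerivAt_Wi (by norm_num)).continuousAt
  have c3 : ∀ a : ℝ, ContinuousAt (fun l : ℝ => a / l ^ 3) 2 := fun a =>
    ContinuousAt.div (by fun_prop) (by fun_prop) (by norm_num)
  have c2 : ∀ a : ℝ, ContinuousAt (fun l : ℝ => a / l ^ 2) 2 := fun a =>
    ContinuousAt.div (by fun_prop) (by fun_prop) (by norm_num)
  refine glue (C := 0) (by norm_num) (by norm_num) (fun a h0 h1 => P7.f_nonneg h0 h1) le_rfl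
    P7.contDiffOn_Vi P7.contDiffOn_Wi P7.contDiffOn_Vo (fun l hl => P7.hasDerivAt_Vi hl)
    (fun l hl => P7.hasDerivAt_Wi hl) (fun l hl => P7.hasDerivAt_Vo hl) ?_ c1 ?_ ?_ ?_ ?_
    (fun l h1 h2 => P7.inOK_in h1 h2) (fun l h1 => P7.inOK_out h1)
  · have := c3 (-62960)
    unfold P7.Vi'
    fun_prop
  · have h3 := c3 27288
    have h2 := c2 (-18668)
    unfold P7.Vo'
    fun_prop
  · norm_num [P7.Vi, P7.Vo, P7.Wi, P7.M]
  · norm_num [P7.Wi, P7.M]
  · norm_num [P7.Vi, P7.Wi, P7.M]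

theorem P7.integral_f {e : E 7} (he : ‖e‖ = 1) :
    ∫ u : sphere (0 : E 7) 1, P7.f (max 0 (inner ℝ e (u : E 7))) * max 0 (inner ℝ e (u : E 7))
      ∂((volume : Measure (E 7)).toSphere) = 836256 / 7 * sig 7 := by
  have h1 : ∀ u : sphere (0 : E 7) 1,
      P7.f (max 0 (inner ℝ e (u : E 7))) * max 0 (inner ℝ e (u : E 7)) =
      1511040 * max 0 (inner ℝ e (u : E 7)) ^ 2 + (0 * max 0 (inner ℝ e (u : E 7)) ^ 3 +
      (1420000 * max 0 (inner ℝ e (u : E 7)) ^ 4 + ((-2635776) * max 0 (inner ℝ e (u : E 7)) ^ 5 +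
      (1862432 * max 0 (inner ℝ e (u : E 7)) ^ 6 +
        (-159744) * max 0 (inner ℝ e (u : E 7)) ^ 7)))) := by
    intro u
    unfold P7.f
    ring
  simp only [h1, integral_poly]
  rw [sphere_moment_two (by norm_num) he, sphere_moment_four (by norm_num) he,
    sphere_moment_six (by norm_num) he, half_moment_odd 3 2 he,
    half_moment_odd 3 3 he, sig_seven]
  norm_num [Nat.factorial]
  ring

/-- The certificate in dimension 7. -/
noncomputable def certSeven : Cert 7 where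
  lam := 42432
  s := 1133280
  F := 836256 / 7
  f := P7.f
  lam_pos := by norm_num
  s_nonneg := by norm_num
  f_cont := P7.continuous_f
  f_nonneg a ha := P7.f_nonneg ha.1 ha.2
  hF e he := (P7.integral_f he).le
  balance := by norm_num
  approx := reg_approx (m := 6) (by norm_num) P7.mono_f P7.f_zero.ge P7.regData

end Vale.Agent.P219.TP
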