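import Vale.Agent.P219.TP.CertTools
import Vale.Agent.P219.CH.Cert6

/-! # The certificate in dimension 6 -/

open MeasureTheory Set Metric
open scoped ENNReal ContDiff

namespace Vale.Agent.P219.TP

/-- the boundary function in dimension 6 -/
noncomputable def f6 (c : ℝ) : ℝ := (480 * c + 96 * c ^ 3) / 17

/-- the multiplier in dimension 6 -/
noncomputable def g6 (η s : ℝ) : ℝ := (10 / 17) / (s + η ^ 2)

theorem hasDerivAt_g6 {η s : ℝ} (h : s + η ^ 2 ≠ 0) :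
    HasDerivAt (g6 η) (-(10 / 17) / (s + η ^ 2) ^ 2) s := by
  unfold g6
  have h1 : HasDerivAt (fun s : ℝ => s + η ^ 2) 1 s := (hasDerivAt_id s).add_const _
  refine ((hasDerivAt_const s (10 / 17 : ℝ)).div h1 h).congr_deriv ?_
  ring

theorem ker6_eq {η : ℝ} (hη : 0 < η) (lam r a b : ℝ) :
    ker 5 (fun p => g6 η p.1) lam r a b =
      lam + (10 / 17) / (r ^ 2 + η ^ 2) ^ 2 * (5 * (r ^ 2 + η ^ 2) -
        r ^ 2 * (2 - a ^ 2 - b ^ 2) - 5 / 2 * (r * (a + b)) * (r ^ 2 + η ^ 2)) := by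
  have h0 : r ^ 2 + η ^ 2 ≠ 0 := by positivity
  rw [ker_radial 5 (hasDerivAt_g6 h0)]
  unfold g6
  field_simp
  ring

/-- lower bound of the kernel by the singular kernel at `ρ = √(r² + η²)` -/
theorem ker6_ge {η : ℝ} (hη : 0 < η) {lam r a b ρ : ℝ} (hr : 0 ≤ r) (ha : |a| ≤ 1) (hb : |b| ≤ 1)
    (hab : 0 ≤ a + b) (hρ : 0 < ρ) (hρ2 : ρ ^ 2 = r ^ 2 + η ^ 2) :
    lam + (10 * (3 + a ^ 2 + b ^ 2) - 25 * (a + b) * ρ) / (17 * ρ ^ 2) ≤
      ker 5 (fun p => g6 η p.1) lam r a b := by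
  rw [ker6_eq hη, ← hρ2]
  have hrρ : r ≤ ρ := by
    have : r ^ 2 ≤ ρ ^ 2 := by rw [hρ2]; nlinarith
    exact (pow_le_pow_iff_left₀ hr hρ.le two_ne_zero).1 this
  have ha2 : a ^ 2 ≤ 1 := by nlinarith [sq_abs a, abs_nonneg a]
  have hb2 : b ^ 2 ≤ 1 := by nlinarith [sq_abs b, abs_nonneg b]
  have key : lam + (10 / 17) / (ρ ^ 2) ^ 2 * (5 * ρ ^ 2 - r ^ 2 * (2 - a ^ 2 - b ^ 2) -
      5 / 2 * (r * (a + b)) * ρ ^ 2) -
      (lam + (10 * (3 + a ^ 2 + b ^ 2) - 25 * (a + b) * ρ) / (17 * ρ ^ 2)) =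
      (10 / 17) / ρ ^ 4 * ((2 - a ^ 2 - b ^ 2) * (ρ ^ 2 - r ^ 2) +
        5 / 2 * (a + b) * (ρ - r) * ρ ^ 2) := by
    field_simp
    ring
  have h1 : 0 ≤ (10 / 17) / ρ ^ 4 * ((2 - a ^ 2 - b ^ 2) * (ρ ^ 2 - r ^ 2) +
        5 / 2 * (a + b) * (ρ - r) * ρ ^ 2) := by
    have h2 : 0 ≤ 2 - a ^ 2 - b ^ 2 := by linarith
    have h3 : 0 ≤ ρ - r := by linarith
    have h4 : 0 ≤ ρ ^ 2 - r ^ 2 := by rw [hρ2]; nlinarith
    positivity
  linarith

theorem ker6_nonneg {η : ℝ} (hη : 0 < η) {lam r a b : ℝ} (hl : 1 ≤ lam) (hr : 0 ≤ r)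
    (ha : |a| ≤ 1) (hb : |b| ≤ 1) : 0 ≤ ker 5 (fun p => g6 η p.1) lam r a b := by
  have ha2 : a ^ 2 ≤ 1 := by nlinarith [sq_abs a, abs_nonneg a]
  have hb2 : b ^ 2 ≤ 1 := by nlinarith [sq_abs b, abs_nonneg b]
  rcases le_or_gt 0 (a + b) with hab | hab
  · have hpos : 0 < r ^ 2 + η ^ 2 := by positivity
    have hρ : 0 < √(r ^ 2 + η ^ 2) := Real.sqrt_pos.2 hpos
    have hρ2 : √(r ^ 2 + η ^ 2) ^ 2 = r ^ 2 + η ^ 2 := Real.sq_sqrt hpos.le
    refine le_trans ?_ (ker6_ge hη hr ha hb hab hρ hρ2)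
    set ρ := √(r ^ 2 + η ^ 2)
    have h1 := CH.k6 hρ ha hb
    have h2 : lam + (10 * (3 + a ^ 2 + b ^ 2) - 25 * (a + b) * ρ) / (17 * ρ ^ 2) =
        (lam - 1) + (17 * ρ ^ 2 + 10 * (3 + a ^ 2 + b ^ 2) - 25 * (a + b) * ρ) /
          (17 * ρ ^ 2) := by
      field_simp
      ring
    rw [h2]
    have h3 : 0 ≤ lam - 1 := by linarith
    positivity
  · rw [ker6_eq hη]
    have hpos : 0 < r ^ 2 + η ^ 2 := by positivity
    have h1 : 0 ≤ 5 * (r ^ 2 + η ^ 2) - r ^ 2 * (2 - a ^ 2 - b ^ 2) -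
        5 / 2 * (r * (a + b)) * (r ^ 2 + η ^ 2) := by
      have h2 : 0 ≤ r * -(a + b) * (r ^ 2 + η ^ 2) :=
        mul_nonneg (mul_nonneg hr (by linarith)) hpos.le
      nlinarith [sq_nonneg r, sq_nonneg a, sq_nonneg b, sq_nonneg η,
        mul_nonneg (sq_nonneg r) (sq_nonneg a), mul_nonneg (sq_nonneg r) (sq_nonneg b)]
    positivity

theorem pi6_ker {η : ℝ} (hη : 0 < η) {lam r a b : ℝ} (hl : 1 ≤ lam) (hr : 0 < r)
    (ha : 0 ≤ a) (ha1 : a ≤ 1) (hb : 0 ≤ b) (hb1 : b ≤ 1) :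
    a * b * (360 / 17 * r - (f6 a + f6 b) / 2 - 360 / 17 * η) ≤
      ker 5 (fun p => g6 η p.1) lam r a b * r ^ 5 := by
  have haa : |a| ≤ 1 := by rwa [abs_of_nonneg ha]
  have hbb : |b| ≤ 1 := by rwa [abs_of_nonneg hb]
  have hpos : 0 < r ^ 2 + η ^ 2 := by positivity
  have hρ : 0 < √(r ^ 2 + η ^ 2) := Real.sqrt_pos.2 hpos
  have hρ2 : √(r ^ 2 + η ^ 2) ^ 2 = r ^ 2 + η ^ 2 := Real.sq_sqrt hpos.le
  have hK := ker6_ge hη (lam := lam) hr.le haa hbb (by linarith) hρ hρ2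
  have hK0 := ker6_nonneg hη hl hr.le haa hbb
  set ρ := √(r ^ 2 + η ^ 2) with hρd
  set K := ker 5 (fun p => g6 η p.1) lam r a b with hKd
  have hρr : r ≤ ρ := by
    have : r ^ 2 ≤ ρ ^ 2 := by rw [hρ2]; nlinarith
    exact (pow_le_pow_iff_left₀ hr.le hρ.le two_ne_zero).1 this
  set X : ℝ := 360 / 17 * ρ - (f6 a + f6 b) / 2 with hX
  have hab : 0 ≤ a * b := mul_nonneg ha hb
  have hff : 0 ≤ (f6 a + f6 b) / 2 := by unfold f6; positivity
  -- the singular inequality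
  have hpi : a * b * X ≤ K * ρ ^ 5 := by
    have h1 := CH.pi6 hρ ha hb
    have h2 : (lam + (10 * (3 + a ^ 2 + b ^ 2) - 25 * (a + b) * ρ) / (17 * ρ ^ 2)) * ρ ^ 5 ≤
        K * ρ ^ 5 := by gcongr
    refine le_trans ?_ h2
    have h3 : (lam + (10 * (3 + a ^ 2 + b ^ 2) - 25 * (a + b) * ρ) / (17 * ρ ^ 2)) * ρ ^ 5 =
        (17 * ρ ^ 5 - 25 * (a + b) * ρ ^ 4 + 10 * (3 + a ^ 2 + b ^ 2) * ρ ^ 3) / 17 +
          (lam - 1) * ρ ^ 5 := by
      field_simp
      ring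
    rw [h3, hX]
    unfold f6
    have h4 : 0 ≤ (lam - 1) * ρ ^ 5 := mul_nonneg (by linarith) (by positivity)
    nlinarith [h1, h4]
  rcases le_or_gt X 0 with hX0 | hX0
  · have h5 : 360 / 17 * r - (f6 a + f6 b) / 2 - 360 / 17 * η ≤ 0 := by
      have : 360 / 17 * r ≤ 360 / 17 * ρ := by gcongr
      linarith
    calc a * b * (360 / 17 * r - (f6 a + f6 b) / 2 - 360 / 17 * η) ≤ 0 :=
          mul_nonpos_of_nonneg_of_nonpos hab h5
      _ ≤ K * r ^ 5 := by positivity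
  · set q := r / ρ with hq
    have hq0 : 0 ≤ q := by positivity
    have hq1 : q ≤ 1 := by rw [hq, div_le_one hρ]; exact hρr
    have hrq : r = q * ρ := by rw [hq]; field_simp
    have h6 : K * r ^ 5 = q ^ 5 * (K * ρ ^ 5) := by rw [hrq]; ring
    have h7 : q ^ 5 * (a * b * X) ≤ K * r ^ 5 := by
      rw [h6]; gcongr
    refine le_trans ?_ h7
    have h8 : 360 / 17 * r - (f6 a + f6 b) / 2 - 360 / 17 * η ≤ q ^ 5 * X := by
      -- `r (1 - q⁴) ≤ η`
      have h9 : r * (1 - q ^ 4) ≤ η := by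
        have h10 : (1 - q ^ 2) * ρ ^ 2 = η ^ 2 := by
          rw [hq]; field_simp; rw [hρ2]; ring
        have h11 : r * (1 - q ^ 4) * ρ ^ 2 ≤ η * ρ ^ 2 := by
          have e1 : r * (1 - q ^ 4) * ρ ^ 2 = r * (1 + q ^ 2) * ((1 - q ^ 2) * ρ ^ 2) := by ring
          rw [e1, h10]
          have h12 : q ^ 2 ≤ 1 := pow_le_one₀ hq0 hq1
          have h13 : r * (1 + q ^ 2) * η ^ 2 ≤ r * 2 * η ^ 2 := by gcongr; linarith
          refine h13.trans ?_
          rw [hρ2]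
          nlinarith [sq_nonneg (r - η), mul_pos hη hη, mul_nonneg hη.le (sq_nonneg (r - η))]
        exact le_of_mul_le_mul_right h11 (by positivity)
      have h14 : q ^ 5 ≤ 1 := pow_le_one₀ hq0 hq1
      have h15 : q ^ 5 * X = 360 / 17 * (r * q ^ 4) - q ^ 5 * ((f6 a + f6 b) / 2) := by
        rw [hX, hrq]; ring
      rw [h15]
      have h16 : q ^ 5 * ((f6 a + f6 b) / 2) ≤ 1 * ((f6 a + f6 b) / 2) := by gcongr
      nlinarith [h9, h16]
    have h17 := mul_le_mul_of_nonneg_left h8 hab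
    linarith [h17]

theorem continuous_f6 : Continuous f6 := by unfold f6; fun_prop

theorem integral_f6 {e : E 6} (he : ‖e‖ = 1) :
    ∫ u : sphere (0 : E 6) 1, f6 (max 0 (inner ℝ e (u : E 6))) * max 0 (inner ℝ e (u : E 6))
      ∂((volume : Measure (E 6)).toSphere) = 43 / 17 * sig 6 := by
  have h1 : ∀ u : sphere (0 : E 6) 1,
      f6 (max 0 (inner ℝ e (u : E 6))) * max 0 (inner ℝ e (u : E 6)) =
      480 / 17 * max 0 (inner ℝ e (u : E 6)) ^ 2 + 96 / 17 * max 0 (inner ℝ e (u : E 6)) ^ 4 := by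
    intro u
    unfold f6
    ring
  simp only [h1]
  have c1 : Continuous fun u : sphere (0 : E 6) 1 => max 0 (inner ℝ e (u : E 6)) ^ 2 := by fun_prop
  have c2 : Continuous fun u : sphere (0 : E 6) 1 => max 0 (inner ℝ e (u : E 6)) ^ 4 := by fun_prop
  rw [integral_add ((integrable_sphere c1).const_mul _) ((integrable_sphere c2).const_mul _),
    integral_const_mul, integral_const_mul, sphere_moment_two (by norm_num) he,
    sphere_moment_four (by norm_num) he]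
  push_cast
  ring

/-- The certificate in dimension 6. -/
noncomputable def certSix : Cert 6 where
  lam := 1
  s := 360 / 17
  F := 43 / 17
  f := f6
  lam_pos := one_pos
  s_nonneg := by norm_num
  f_cont := continuous_f6
  f_nonneg a ha := by
    have := ha.1
    unfold f6
    positivity
  hF e he := (integral_f6 he).le
  balance := by norm_num
  approx ε hε := by
    have hη : 0 < 17 / 360 * ε := by positivity
    refine ⟨fun p => g6 (17 / 360 * ε) p.1, (17 / 360 * ε) ^ 2, by positivity, ?_, ?_, ?_, ?_⟩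
    · unfold g6
      refine ContDiffOn.div contDiffOn_const ?_ ?_
      · exact (contDiff_fst.add contDiff_const).contDiffOn
      · intro p hp
        have : -(17 / 360 * ε) ^ 2 < p.1 := hp
        linarith
    · intro p hp
      unfold g6
      positivity
    · intro r a b hr ha hb
      exact ker6_nonneg hη (by linarith) hr ha hb
    · intro r a b hr ha ha1 hb hb1
      have h := pi6_ker hη (lam := 1 + ε) (by linarith) hr ha ha1 hb hb1
      have e1 : 360 / 17 * (17 / 360 * ε) = ε := by ring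
      rw [e1] at h
      exact h

end Vale.Agent.P219.TP
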