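import Vale.Agent.P219.TP.Moments

/-! # Tools for certificates -/

open MeasureTheory Set Metric
open scoped ENNReal ContDiff

namespace Vale.Agent.P219.TP

theorem fderiv_radial {g : ℝ → ℝ} {g' s : ℝ} (hg : HasDerivAt g g' s) (c x y : ℝ) :
    fderiv ℝ (fun p : ℝ × ℝ => g p.1) (s, c) (x, y) = g' * x := by
  have h1 : HasFDerivAt (fun p : ℝ × ℝ => g p.1)
      ((ContinuousLinearMap.toSpanSingleton ℝ g').comp (ContinuousLinearMap.fst ℝ ℝ ℝ)) (s, c) :=
    HasFDerivAt.comp (g := g) (f := Prod.fst) (s, c) hg.hasFDerivAt hasFDerivAt_fst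
  rw [h1.fderiv]
  simp [mul_comm]

/-- The kernel of a radial field `r g(r²) ∇r`. -/
theorem ker_radial (m : ℕ) {g : ℝ → ℝ} {g' r : ℝ} (hg : HasDerivAt g g' (r ^ 2)) (lam a b : ℝ) :
    ker m (fun p => g p.1) lam r a b =
      lam + m * g (r ^ 2) + r ^ 2 * g' * (2 - a ^ 2 - b ^ 2) -
        m / 2 * (r * (a + b) * g (r ^ 2)) := by
  unfold ker ker0 kap
  simp only [fderiv_radial hg]
  simp only [mul_one, mul_zero, abs_zero, zero_mul, sub_zero, add_zero]
  ring

/-- integrals of polynomials over the sphere -/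
theorem integrable_sphere {n : ℕ} {g : sphere (0 : E n) 1 → ℝ} (hg : Continuous g) :
    Integrable g ((volume : Measure (E n)).toSphere) :=
  hg.integrable_of_hasCompactSupport (HasCompactSupport.of_compactSpace _)

end Vale.Agent.P219.TP
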