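import Mathlib

set_option linter.all false

/-! # Kernel checker: nonnegativity of integer polynomials on the unit cube (Bernstein coefficients
with adaptive bisection). `e1 l y`, `e2 l x y`, `e3 l x y z` evaluate coefficient lists; `chk1`,
`chk2`, `chk3` are computable and meant for `decide +kernel`. -/

namespace Vale.Agent.P219.TP.Bern

variable {α : Type}

/-- addition of coefficient lists -/
def addL (f : α → α → α) : List α → List α → List α
  | [], l => l
  | a :: as, [] => a :: as
  | a :: as, b :: bs => f a b :: addL f as bs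

/-- one step of the conversion to the Bernstein form -/
def bstep (f : α → α → α) (z : α) (F : List α) (c : α) : List α :=
  addL f (F ++ [c]) (z :: F)

/-- scaled Bernstein coefficients -/
def bern (f : α → α → α) (z : α) : List α → List α
  | [] => []
  | c :: cs => cs.foldl (bstep f z) [c]

/-- coefficients of `2^n P(x/2)` -/
def dl (sm : ℕ → α → α) : List α → List α
  | [] => []
  | c :: cs => sm (2 ^ cs.length) c :: dl sm cs

/-- coefficients of `P(1+x)` -/
def sh (f : α → α → α) : List α → List α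
  | [] => []
  | c :: cs => addL f (c :: sh f cs) (sh f cs)

/-- the check in one variable over coefficients of type `α` -/
def chkL (f : α → α → α) (z : α) (sm : ℕ → α → α) (g : α → Bool) : ℕ → List α → Bool
  | 0, l => (bern f z l).all g
  | n + 1, l => (bern f z l).all g ||
      (chkL f z sm g n (dl sm l) && chkL f z sm g n (sh f (dl sm l)))

/-- evaluation -/
def eL (e : α → ℝ) : List α → ℝ → ℝ
  | [], _ => 0
  | c :: cs, x => e c + x * eL e cs x

/-- homogeneous evaluation `∑ l_i x^i z^(n-i)` -/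
def hL (e : α → ℝ) : List α → ℝ → ℝ → ℝ
  | [], _, _ => 0
  | c :: cs, x, z => e c * z ^ cs.length + x * hL e cs x z

section
variable {f : α → α → α} {z : α} {sm : ℕ → α → α} {g : α → Bool} {e : α → ℝ}

theorem eL_addL (hf : ∀ a b, e (f a b) = e a + e b) (x : ℝ) :
    ∀ l l' : List α, eL e (addL f l l') x = eL e l x + eL e l' x
  | [], l' => by simp [addL, eL]
  | a :: as, [] => by simp [addL, eL]
  | a :: as, b :: bs => by
    simp only [addL, eL, hf, eL_addL hf x as bs]; ring

theorem length_bstep_aux (f : α → α → α) : ∀ (F : List α) (b c : α),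
    (addL f (F ++ [c]) (b :: F)).length = F.length + 1
  | [], b, c => by simp [addL]
  | a :: F, b, c => by simp [addL, length_bstep_aux f F a c]

theorem hL_aux (hf : ∀ a b, e (f a b) = e a + e b) (x y : ℝ) : ∀ (F : List α) (b c : α),
    hL e (addL f (F ++ [c]) (b :: F)) x y =
      (x + y) * hL e F x y + e c * x ^ F.length + e b * y ^ F.length
  | [], b, c => by simp [addL, hL, hf]; try ring
  | a :: F, b, c => by
    have h := hL_aux hf x y F a c
    have hl := length_bstep_aux f F a c
    simp only [List.cons_append, addL, hL, hf, h, hl, List.length_cons]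
    ring

theorem hL_foldl (hf : ∀ a b, e (f a b) = e a + e b) (hz : e z = 0) (x y : ℝ) (hxy : x + y = 1) :
    ∀ (cs F : List α), hL e (cs.foldl (bstep f z) F) x y = hL e F x y + x ^ F.length * eL e cs x
  | [], F => by simp [eL]
  | c :: cs, F => by
    rw [List.foldl_cons, hL_foldl hf hz x y hxy cs]
    have h1 := hL_aux hf x y F z c
    have h2 : (bstep f z F c).length = F.length + 1 := length_bstep_aux f F z c
    rw [h2]
    unfold bstep
    rw [h1, hxy, hz, eL]
    ring

theorem hL_bern (hf : ∀ a b, e (f a b) = e a + e b) (hz : e z = 0) (x y : ℝ) (hxy : x + y = 1)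
    (l : List α) : hL e (bern f z l) x y = eL e l x := by
  cases l with
  | nil => simp [bern, hL, eL]
  | cons c cs =>
    rw [bern, hL_foldl hf hz x y hxy]
    simp [hL, eL]

theorem hL_nonneg (hg : ∀ a, g a = true → 0 ≤ e a) {x y : ℝ} (hx : 0 ≤ x) (hy : 0 ≤ y) :
    ∀ l : List α, l.all g = true → 0 ≤ hL e l x y
  | [], _ => le_refl _
  | c :: cs, h => by
    rw [List.all_cons, Bool.and_eq_true] at h
    have h1 := hg c h.1
    have h2 := hL_nonneg hg hx hy cs h.2
    rw [hL]
    positivity

theorem eL_dl (hs : ∀ k a, e (sm k a) = k * e a) (x : ℝ) : ∀ l : List α,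
    2 * eL e (dl sm l) x = 2 ^ l.length * eL e l (x / 2)
  | [] => by simp [dl, eL]
  | c :: cs => by
    have h := eL_dl hs x cs
    rw [dl, eL, eL, hs, List.length_cons, pow_succ]
    push_cast
    linear_combination x * h

theorem eL_sh (hf : ∀ a b, e (f a b) = e a + e b) (x : ℝ) : ∀ l : List α,
    eL e (sh f l) x = eL e l (1 + x)
  | [] => by simp [sh, eL]
  | c :: cs => by
    have h := eL_sh hf x cs
    rw [sh, eL_addL hf, eL, eL, h]
    ring

theorem chkL_sound (hf : ∀ a b, e (f a b) = e a + e b) (hz : e z = 0)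
    (hs : ∀ k a, e (sm k a) = k * e a) (hg : ∀ a, g a = true → 0 ≤ e a) :
    ∀ (n : ℕ) (l : List α), chkL f z sm g n l = true → ∀ x : ℝ, 0 ≤ x → x ≤ 1 → 0 ≤ eL e l x := by
  have key : ∀ l : List α, (bern f z l).all g = true → ∀ x : ℝ, 0 ≤ x → x ≤ 1 → 0 ≤ eL e l x := by
    intro l h x hx hx1
    rw [← hL_bern hf hz x (1 - x) (by ring) l]
    exact hL_nonneg hg hx (by linarith) _ h
  intro n
  induction n with
  | zero => intro l h; exact key l h
  | succ n ih =>
    intro l h x hx hx1
    rw [chkL, Bool.or_eq_true, Bool.and_eq_true] at h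
    rcases h with h | ⟨h1, h2⟩
    · exact key l h x hx hx1
    · have hp : (0 : ℝ) < 2 ^ l.length := by positivity
      rcases le_total x (1 / 2) with h | h
      · have h3 := ih _ h1 (2 * x) (by linarith) (by linarith)
        have h4 := eL_dl hs (2 * x) l
        rw [show 2 * x / 2 = x by ring] at h4
        have h5 : 0 ≤ 2 ^ l.length * eL e l x := by rw [← h4]; linarith
        exact nonneg_of_mul_nonneg_right h5 hp
      · have h3 := ih _ h2 (2 * x - 1) (by linarith) (by linarith)
        rw [eL_sh hf] at h3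
        have h4 := eL_dl hs (2 * x) l
        rw [show 2 * x / 2 = x by ring] at h4
        rw [show 1 + (2 * x - 1) = 2 * x by ring] at h3
        have h5 : 0 ≤ 2 ^ l.length * eL e l x := by rw [← h4]; linarith
        exact nonneg_of_mul_nonneg_right h5 hp

end

/-! ### One, two and three variables -/

/-- nonnegativity of an integer -/
def nn : ℤ → Bool
  | Int.ofNat _ => true
  | Int.negSucc _ => false

def sm0 (k : ℕ) (a : ℤ) : ℤ := (k : ℤ) * a
def sm1 (k : ℕ) (a : List ℤ) : List ℤ := a.map (sm0 k)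
def sm2 (k : ℕ) (a : List (List ℤ)) : List (List ℤ) := a.map (sm1 k)

def add1 : List ℤ → List ℤ → List ℤ := addL Int.add
def add2 : List (List ℤ) → List (List ℤ) → List (List ℤ) := addL add1

def chk1 (n : ℕ) (l : List ℤ) : Bool := chkL Int.add 0 sm0 nn n l
def chk2 (n m : ℕ) (l : List (List ℤ)) : Bool := chkL add1 [] sm1 (chk1 m) n l
def chk3 (n m k : ℕ) (l : List (List (List ℤ))) : Bool := chkL add2 [] sm2 (chk2 m k) n l

def e0 (a : ℤ) : ℝ := a
def e1 (l : List ℤ) (y : ℝ) : ℝ := eL e0 l y
def e2 (l : List (List ℤ)) (x y : ℝ) : ℝ := eL (fun c => e1 c y) l x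
def e3 (l : List (List (List ℤ))) (x y w : ℝ) : ℝ := eL (fun c => e2 c y w) l x

theorem e0_add (a b : ℤ) : e0 (Int.add a b) = e0 a + e0 b := by
  show ((a + b : ℤ) : ℝ) = a + b
  push_cast; ring

theorem e0_sm (k : ℕ) (a : ℤ) : e0 (sm0 k a) = k * e0 a := by
  unfold e0 sm0; push_cast; ring

theorem e0_nn (a : ℤ) (h : nn a = true) : 0 ≤ e0 a := by
  cases a with
  | ofNat n => unfold e0; exact Int.cast_nonneg (Int.natCast_nonneg n)
  | negSucc n => simp [nn] at h

theorem chk1_sound {n : ℕ} {l : List ℤ} (h : chk1 n l = true) {y : ℝ} (hy : 0 ≤ y) (hy1 : y ≤ 1) :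
    0 ≤ e1 l y :=
  chkL_sound e0_add (by simp [e0]) e0_sm e0_nn n l h y hy hy1

theorem eL_map {β : Type} {e : β → ℝ} {sm : ℕ → β → β} (hs : ∀ k a, e (sm k a) = k * e a) (k : ℕ)
    (y : ℝ) : ∀ l : List β, eL e (l.map (sm k)) y = k * eL e l y
  | [] => by simp [eL]
  | c :: cs => by
    rw [List.map_cons, eL, eL, hs, eL_map hs k y cs]; ring

theorem e1_add (y : ℝ) (a b : List ℤ) : e1 (add1 a b) y = e1 a y + e1 b y :=
  eL_addL e0_add y a b

theorem e1_sm (y : ℝ) (k : ℕ) (a : List ℤ) : e1 (sm1 k a) y = k * e1 a y :=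
  eL_map e0_sm k y a

theorem chk2_sound {n m : ℕ} {l : List (List ℤ)} (h : chk2 n m l = true) {x y : ℝ} (hx : 0 ≤ x)
    (hx1 : x ≤ 1) (hy : 0 ≤ y) (hy1 : y ≤ 1) : 0 ≤ e2 l x y :=
  chkL_sound (e := fun c => e1 c y) (e1_add y) (by simp [e1, eL]) (e1_sm y)
    (fun a ha => chk1_sound ha hy hy1) n l h x hx hx1

theorem e2_add (x y : ℝ) (a b : List (List ℤ)) : e2 (add2 a b) x y = e2 a x y + e2 b x y :=
  eL_addL (e1_add y) x a b

theorem e2_sm (x y : ℝ) (k : ℕ) (a : List (List ℤ)) : e2 (sm2 k a) x y = k * e2 a x y :=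
  eL_map (e := fun c => e1 c y) (e1_sm y) k x a

theorem chk3_sound {n m k : ℕ} {l : List (List (List ℤ))} (h : chk3 n m k l = true) {x y w : ℝ}
    (hx : 0 ≤ x) (hx1 : x ≤ 1) (hy : 0 ≤ y) (hy1 : y ≤ 1) (hw : 0 ≤ w) (hw1 : w ≤ 1) :
    0 ≤ e3 l x y w :=
  chkL_sound (e := fun c => e2 c y w) (e2_add y w) (by simp [e2, eL]) (e2_sm y w)
    (fun a ha => chk2_sound ha hy hy1 hw hw1) n l h x hx hx1

end Vale.Agent.P219.TP.Bern
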