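import Vale.Agent.P219.TP.Bern

set_option linter.all false
set_option maxRecDepth 100000

/-! # Dimension 9: the polynomial inequalities

Inner field (`l ≤ 21/10`): `V = Vn/l⁴`, `W = Wn/l³`; outer field (`l ≥ 2`):
`V = 10055 + 126820/l²`, `W = 77400/l²`; `λ = 92000`, `s = 3594240`.
The inequalities are checked by the kernel (`Bern.lean`). -/

namespace Vale.Agent.P219.TP
open Bern

/-- `l⁴ V` -/
noncomputable def P9.Vn (l : ℝ) : ℝ :=
  58368 * l ^ 6 - 320000 * l ^ 5 + 630648 * l ^ 4 - 520000 * l ^ 3 + 285600 * l ^ 2 + 99840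

/-- `l³ W` -/
noncomputable def P9.Wn (l : ℝ) : ℝ :=
  129792 * l ^ 4 - 720000 * l ^ 3 + 1435608 * l ^ 2 - 1248000 * l + 591696

/-- `l⁵ V'` -/
noncomputable def P9.Vp (l : ℝ) : ℝ :=
  116736 * l ^ 6 - 320000 * l ^ 5 + 520000 * l ^ 3 - 571200 * l ^ 2 - 399360

/-- `l⁴ W'` -/
noncomputable def P9.Wp (l : ℝ) : ℝ :=
  129792 * l ^ 4 - 1435608 * l ^ 2 + 2496000 * l - 1775088

noncomputable def P9.kx (l a b B t : ℝ) : ℝ :=
  (P9.Vp l - a * l * P9.Wp l) * (1 - b ^ 2) + (P9.Vn l - a * l * P9.Wn l) * (7 + b ^ 2) -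
    8 * (l * P9.Vn l - a * l ^ 2 * P9.Wn l) * b - l * P9.Wn l * B * t

/-- `l⁵` times the inner kernel -/
noncomputable def P9.k (l a b A B t : ℝ) : ℝ :=
  92000 * l ^ 5 + (P9.kx l a b B t + P9.kx l b a A t) / 2

noncomputable def P9.kox (l a b B t : ℝ) : ℝ :=
  (-253640 + a * 154800) * (1 - b ^ 2) +
    (10055 * l ^ 2 + 126820 - a * 77400) * (7 + b ^ 2) -
    8 * (l * (10055 * l ^ 2 + 126820) - a * (l * 77400)) * b - 77400 * B * t

/-- `l³` times the outer kernel -/
noncomputable def P9.ko (l a b A B t : ℝ) : ℝ :=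
  92000 * l ^ 3 + (P9.kox l a b B t + P9.kox l b a A t) / 2

noncomputable def P9.f (c : ℝ) : ℝ :=
  4792320 * c + 10425600 * c ^ 3 - 39936000 * c ^ 4 + 73828608 * c ^ 5 - 12288000 * c ^ 6 - 137258496 * c ^ 7 + 163840000 * c ^ 8 - 56819712 * c ^ 9

def P9.Lpp : List (List (List ℤ)) :=
  [[[31200000000, 0, 655987500000, -3009825000000, 8943160164750, -10499542987500, 4693122141120], [0, -410943750000, 1719900000000, -5949254823750, 10048185000000, -13216559246100, 11435482800000, -4380247331712], [26000000000, 0, 196796250000, -501637500000, 638797154625, 0, -260729007840], [0, 32358375000, -143325000000, 346228273125, -364651875000, 138042613800]],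
  [[0, -410943750000, 1719900000000, -5949254823750, 10048185000000, -13216559246100, 11435482800000, -4380247331712], [0, 0, 2174482800000, -9631440000000, 23266539954000, -24504606000000, 9276463647360], [0, -226508625000, 716625000000, -1038684819375, 364651875000, 138042613800]],
  [[26000000000, 0, 196796250000, -501637500000, 638797154625, 0, -260729007840], [0, -226508625000, 716625000000, -1038684819375, 364651875000, 138042613800]],
  [[0, 32358375000, -143325000000, 346228273125, -364651875000, 138042613800]]]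

theorem P9.chk_pp : chk3 3 3 3 P9.Lpp = true := by decide +kernel

theorem P9.kpp {l a b : ℝ} (hl : 0 ≤ l) (hl2 : l ≤ 21 / 10) (ha : 0 ≤ a) (ha1 : a ≤ 1)
    (hb : 0 ≤ b) (hb1 : b ≤ 1) : 0 ≤ P9.k l a b a b (1 - (a ^ 2 + b ^ 2) / 2) := by
  have h := chk3_sound P9.chk_pp ha ha1 hb hb1 (w := 10 * l / 21) (by linarith) (by linarith)
  have e : (3 / 312500) * e3 P9.Lpp a b (10 * l / 21) =
      P9.k l a b a b (1 - (a ^ 2 + b ^ 2) / 2) := by
    simp only [e3, e2, e1, eL, e0, P9.Lpp, Int.cast_neg, Int.cast_ofNat, Int.cast_zero,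
      Int.cast_one]
    unfold P9.k P9.kx P9.Vn P9.Wn P9.Vp P9.Wp
    ring
  rw [← e]
  positivity

def P9.Lpm : List (List (List ℤ)) :=
  [[[31200000000, 0, 655987500000, -3009825000000, 8943160164750, -10499542987500, 4693122141120], [0, 281510250000, -1146600000000, 4564341731250, -8589577500000, 12664388790900, -11435482800000, 4380247331712], [26000000000, 0, 196796250000, -501637500000, 638797154625, 0, -260729007840], [0, 32358375000, -143325000000, 346228273125, -364651875000, 138042613800]],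
  [[0, -410943750000, 1719900000000, -5949254823750, 10048185000000, -13216559246100, 11435482800000, -4380247331712], [0, 0, -2174482800000, 9631440000000, -23266539954000, 24504606000000, -9276463647360], [0, -226508625000, 716625000000, -1038684819375, 364651875000, 138042613800]],
  [[26000000000, 0, 196796250000, -501637500000, 638797154625, 0, -260729007840], [0, 291225375000, -1003275000000, 1731141365625, -1093955625000, 138042613800]],
  [[0, 32358375000, -143325000000, 346228273125, -364651875000, 138042613800]]]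

theorem P9.chk_pm : chk3 3 3 3 P9.Lpm = true := by decide +kernel

theorem P9.kpm {l a b : ℝ} (hl : 0 ≤ l) (hl2 : l ≤ 21 / 10) (ha : 0 ≤ a) (ha1 : a ≤ 1)
    (hb : 0 ≤ b) (hb1 : b ≤ 1) : 0 ≤ P9.k l a (-b) a b (1 - (a ^ 2 + b ^ 2) / 2) := by
  have h := chk3_sound P9.chk_pm ha ha1 hb hb1 (w := 10 * l / 21) (by linarith) (by linarith)
  have e : (3 / 312500) * e3 P9.Lpm a b (10 * l / 21) =
      P9.k l a (-b) a b (1 - (a ^ 2 + b ^ 2) / 2) := by
    simp only [e3, e2, e1, eL, e0, P9.Lpm, Int.cast_neg, Int.cast_ofNat, Int.cast_zero,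
      Int.cast_one]
    unfold P9.k P9.kx P9.Vn P9.Wn P9.Vp P9.Wp
    ring
  rw [← e]
  positivity

def P9.Lmm : List (List (List ℤ)) :=
  [[[31200000000, 0, 655987500000, -3009825000000, 8943160164750, -10499542987500, 4693122141120], [0, 281510250000, -1146600000000, 4564341731250, -8589577500000, 12664388790900, -11435482800000, 4380247331712], [26000000000, 0, 196796250000, -501637500000, 638797154625, 0, -260729007840], [0, 32358375000, -143325000000, 346228273125, -364651875000, 138042613800]],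
  [[0, 281510250000, -1146600000000, 4564341731250, -8589577500000, 12664388790900, -11435482800000, 4380247331712], [0, 0, 2174482800000, -9631440000000, 23266539954000, -24504606000000, 9276463647360], [0, 291225375000, -1003275000000, 1731141365625, -1093955625000, 138042613800]],
  [[26000000000, 0, 196796250000, -501637500000, 638797154625, 0, -260729007840], [0, 291225375000, -1003275000000, 1731141365625, -1093955625000, 138042613800]],
  [[0, 32358375000, -143325000000, 346228273125, -364651875000, 138042613800]]]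

theorem P9.chk_mm : chk3 3 3 3 P9.Lmm = true := by decide +kernel

theorem P9.kmm {l a b : ℝ} (hl : 0 ≤ l) (hl2 : l ≤ 21 / 10) (ha : 0 ≤ a) (ha1 : a ≤ 1)
    (hb : 0 ≤ b) (hb1 : b ≤ 1) : 0 ≤ P9.k l (-a) (-b) a b (1 - (a ^ 2 + b ^ 2) / 2) := by
  have h := chk3_sound P9.chk_mm ha ha1 hb hb1 (w := 10 * l / 21) (by linarith) (by linarith)
  have e : (3 / 312500) * e3 P9.Lmm a b (10 * l / 21) =
      P9.k l (-a) (-b) a b (1 - (a ^ 2 + b ^ 2) / 2) := by
    simp only [e3, e2, e1, eL, e0, P9.Lmm, Int.cast_neg, Int.cast_ofNat, Int.cast_zero,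
      Int.cast_one]
    unfold P9.k P9.kx P9.Vn P9.Wn P9.Vp P9.Wp
    ring
  rw [← e]
  positivity

def P9.Lopp : List (List (List ℤ)) :=
  [[[73600, 28154, 0, 63410], [-32176, 0, -101456, -23220], [0, 2011, 0, 19023], [0, 0, 0, 1935]],
  [[-32176, 0, -101456, -23220], [0, 0, 123840], [0, 0, 0, -9675]],
  [[0, 2011, 0, 19023], [0, 0, 0, -9675]],
  [[0, 0, 0, 1935]]]

theorem P9.chk_opp : chk3 3 3 3 P9.Lopp = true := by decide +kernel

theorem P9.kopp {l a b : ℝ} (hl : 2 ≤ l) (ha : 0 ≤ a) (ha1 : a ≤ 1)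
    (hb : 0 ≤ b) (hb1 : b ≤ 1) : 0 ≤ P9.ko l a b a b (1 - (a ^ 2 + b ^ 2) / 2) := by
  have hl0 : 0 < l := by linarith
  have h := chk3_sound P9.chk_opp ha ha1 hb hb1 (w := 2 / l) (by positivity)
    (by rw [div_le_one hl0]; exact hl)
  have e : (5 / 4) * l ^ 3 * e3 P9.Lopp a b (2 / l) =
      P9.ko l a b a b (1 - (a ^ 2 + b ^ 2) / 2) := by
    simp only [e3, e2, e1, eL, e0, P9.Lopp, Int.cast_neg, Int.cast_ofNat, Int.cast_zero,
      Int.cast_one]
    unfold P9.ko P9.kox
    field_simp
    ring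
  rw [← e]
  positivity

def P9.Lopm : List (List (List ℤ)) :=
  [[[73600, 28154, 0, 63410], [32176, 0, 101456, 15480], [0, 2011, 0, 19023], [0, 0, 0, 1935]],
  [[-32176, 0, -101456, -23220], [0, 0, -123840], [0, 0, 0, -9675]],
  [[0, 2011, 0, 19023], [0, 0, 0, 13545]],
  [[0, 0, 0, 1935]]]

theorem P9.chk_opm : chk3 3 3 3 P9.Lopm = true := by decide +kernel

theorem P9.kopm {l a b : ℝ} (hl : 2 ≤ l) (ha : 0 ≤ a) (ha1 : a ≤ 1)
    (hb : 0 ≤ b) (hb1 : b ≤ 1) : 0 ≤ P9.ko l a (-b) a b (1 - (a ^ 2 + b ^ 2) / 2) := by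
  have hl0 : 0 < l := by linarith
  have h := chk3_sound P9.chk_opm ha ha1 hb hb1 (w := 2 / l) (by positivity)
    (by rw [div_le_one hl0]; exact hl)
  have e : (5 / 4) * l ^ 3 * e3 P9.Lopm a b (2 / l) =
      P9.ko l a (-b) a b (1 - (a ^ 2 + b ^ 2) / 2) := by
    simp only [e3, e2, e1, eL, e0, P9.Lopm, Int.cast_neg, Int.cast_ofNat, Int.cast_zero,
      Int.cast_one]
    unfold P9.ko P9.kox
    field_simp
    ring
  rw [← e]
  positivity

def P9.Lomm : List (List (List ℤ)) :=
  [[[73600, 28154, 0, 63410], [32176, 0, 101456, 15480], [0, 2011, 0, 19023], [0, 0, 0, 1935]],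
  [[32176, 0, 101456, 15480], [0, 0, 123840], [0, 0, 0, 13545]],
  [[0, 2011, 0, 19023], [0, 0, 0, 13545]],
  [[0, 0, 0, 1935]]]

theorem P9.chk_omm : chk3 3 3 3 P9.Lomm = true := by decide +kernel

theorem P9.komm {l a b : ℝ} (hl : 2 ≤ l) (ha : 0 ≤ a) (ha1 : a ≤ 1)
    (hb : 0 ≤ b) (hb1 : b ≤ 1) : 0 ≤ P9.ko l (-a) (-b) a b (1 - (a ^ 2 + b ^ 2) / 2) := by
  have hl0 : 0 < l := by linarith
  have h := chk3_sound P9.chk_omm ha ha1 hb hb1 (w := 2 / l) (by positivity)
    (by rw [div_le_one hl0]; exact hl)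
  have e : (5 / 4) * l ^ 3 * e3 P9.Lomm a b (2 / l) =
      P9.ko l (-a) (-b) a b (1 - (a ^ 2 + b ^ 2) / 2) := by
    simp only [e3, e2, e1, eL, e0, P9.Lomm, Int.cast_neg, Int.cast_ofNat, Int.cast_zero,
      Int.cast_one]
    unfold P9.ko P9.kox
    field_simp
    ring
  rw [← e]
  positivity

def P9.Lq : List (List ℤ) :=
  [[0, 1872000000000, 0, 4072500000000, -15600000000000, 28839300000000, -4800000000000, -53616600000000, 64000000000000, -22195200000000],
  [982800000000, 0, 8552250000000, -32760000000000, 60562530000000, -10080000000000, -112594860000000, 134400000000000, -46609920000000],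
  [0, 13469793750000, -51597000000000, 95385984750000, -15876000000000, -177336904500000, 211680000000000, -73410624000000],
  [20663606250000, -72235800000000, 133540378650000, -22226400000000, -248271666300000, 296352000000000, -102774873600000],
  [-94809487500000, 161786555988750, -29172150000000, -325856562018750, 388962000000000, -134892021600000],
  [281709545189625, 3063075750000, -410579268143625, 490092120000000, -169963947216000],
  [-330735604106250, -551055904037100, 600362847000000, -208205835339600],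
  [147833347445280, 720435416400000, -249847002407520],
  [0, -275955581897856]]

theorem P9.chk_q : chk2 3 3 P9.Lq = true := by decide +kernel

theorem P9.diag {l c : ℝ} (hl : 0 ≤ l) (hl2 : l ≤ 21 / 10) (hc : 0 ≤ c) (hc1 : c ≤ 1) :
    c ^ 2 * (3594240 * l - P9.f c) ≤ l ^ 3 * P9.k l c c c c (1 - c ^ 2) := by
  have h := chk2_sound P9.chk_q (x := 10 * l / 21) (by linarith) (by linarith) hc hc1
  have e : l ^ 3 * P9.k l c c c c (1 - c ^ 2) - c ^ 2 * (3594240 * l - P9.f c) =
      (l - 2 * c) ^ 2 * ((1 / 1562500) * e2 P9.Lq (10 * l / 21) c) := by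
    simp only [e3, e2, e1, eL, e0, P9.Lq, Int.cast_neg, Int.cast_ofNat, Int.cast_zero,
      Int.cast_one]
    unfold P9.k P9.kx P9.Vn P9.Wn P9.Vp P9.Wp P9.f
    ring
  have : 0 ≤ (l - 2 * c) ^ 2 * ((1 / 1562500) * e2 P9.Lq (10 * l / 21) c) := by positivity
  linarith

def P9.Lqo : List (List ℤ) :=
  [[184000, -160880],
  [70385, 0, 10055],
  [0, -507280, 309600],
  [158525, -116100, 95115, -38700],
  [],
  [],
  [],
  [0, 0, -56160],
  [0, 0, 0, 37440, 0, 81450, -312000, 576786, -96000, -1072332, 1280000, -443904]]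

theorem P9.chk_qo : chk2 4 4 P9.Lqo = true := by decide +kernel

theorem P9.diagO {l c : ℝ} (hl : 2 ≤ l) (hc : 0 ≤ c) (hc1 : c ≤ 1) :
    c ^ 2 * (3594240 * l - P9.f c) ≤ l ^ 5 * P9.ko l c c c c (1 - c ^ 2) := by
  have hl0 : 0 < l := by linarith
  have h := chk2_sound P9.chk_qo (x := 2 / l) (by positivity)
    (by rw [div_le_one hl0]; exact hl) hc hc1
  have e : l ^ 5 * P9.ko l c c c c (1 - c ^ 2) - c ^ 2 * (3594240 * l - P9.f c) =
      (1 / 2) * l ^ 8 * e2 P9.Lqo (2 / l) c := by
    simp only [e3, e2, e1, eL, e0, P9.Lqo, Int.cast_neg, Int.cast_ofNat, Int.cast_zero,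
      Int.cast_one]
    unfold P9.ko P9.kox P9.f
    field_simp
    ring
  have : 0 ≤ (1 / 2) * l ^ 8 * e2 P9.Lqo (2 / l) c := by positivity
  linarith

noncomputable def P9.E1 (l b : ℝ) : ℝ :=
  (3 + b) * (l ^ 3 * P9.k l 1 b 1 b 0 - b * (3594240 * l - P9.f ((1 + b) / 2))) -
    l ^ 4 * P9.Wn l * ((1 + b) ^ 2 * (1 - b)) / 2

def P9.La1 : List (List ℤ) :=
  [[0, 266418816, 407561984, 157221376, -27454720, -68082944, 29590784, 102152704, 33833216, -32762240, -22134784, -3551232],
  [0, -517570560, -172523520],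
  [],
  [177914880, 59304960, 80870400, 26956800],
  [-817144848, -1648679184, -975316464, -143782128],
  [3779427600, 8450836272, 3888672624, 407365200],
  [-10200706002, -22020729498, -8025507054, -451179558],
  [15500132865, 32271619131, 9902099583, 172403397],
  [-13609298592, -26227545012, -7165320588, 53222832],
  [6554911392, 10740934368, 2744282592, -35901792],
  [-1292464512, -1723286016, -430821504]]

theorem P9.chk_a1 : chk2 4 4 P9.La1 = true := by decide +kernel

theorem P9.one_a1 {l c : ℝ} (hl : 0 ≤ l) (hl2 : l ≤ 3 / 2) (hc : 0 ≤ c) (hc1 : c ≤ 1) :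
    0 ≤ P9.E1 l c := by
  have h := chk2_sound P9.chk_a1 (x := 2 * l / 3) (y := c) (by linarith) (by linarith)
    (by linarith) (by linarith)
  have e : (1 / 32) * e2 P9.La1 (2 * l / 3) (c) = P9.E1 l c := by
    simp only [e3, e2, e1, eL, e0, P9.La1, Int.cast_neg, Int.cast_ofNat, Int.cast_zero,
      Int.cast_one]
    unfold P9.E1 P9.k P9.kx P9.Vn P9.Wn P9.Vp P9.Wp P9.f
    ring
  rw [← e]
  positivity

def P9.La2 : List (List ℤ) :=
  [[7247873671875000, -13620965742187500, 4960899472656250, 1819395771484375, -134056250000000, -166218125000000, 36121562500000, 62349062500000, 10325078125000, -4999121093750, -1688750000000, -135468750000],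
  [20442686343750000, -20125704234375000, -1237474335937500, 566331433593750],
  [33411227287500000, -19113950193750000, -1196396071875000, 534972473437500],
  [32951180295000000, -15583312777500000, -1633900713750000, 312960054375000],
  [18848879658000000, -4659254541000000, -803212078500000, 90360461250000],
  [4940031175200000, 1751037879600000, -73128760200000, -22238801100000],
  [-1140840676800000, 1577242821600000, 56594836080000, -30794680440000],
  [-1599127961472000, 149156759232000, -10395913248000, -11108455344000],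
  [-654131154124800, -181939364352000, -23727935232000, -1727317094400],
  [-130452146749440, -66477320110080, -8007334133760, -91908587520],
  [-10587869282304, -7058579521536, -882322440192]]

theorem P9.chk_a2 : chk2 4 4 P9.La2 = true := by decide +kernel

theorem P9.one_a2 {l c : ℝ} (hl : 3 / 2 ≤ l) (hl2 : l ≤ 21 / 10) (hc : 0 ≤ c) (hc1 : c ≤ 1 / 2) :
    0 ≤ P9.E1 l c := by
  have h := chk2_sound P9.chk_a2 (x := (10 * l - 15) / 6) (y := 2 * c) (by linarith) (by linarith)
    (by linarith) (by linarith)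
  have e : (1 / 2500000000) * e2 P9.La2 ((10 * l - 15) / 6) (2 * c) = P9.E1 l c := by
    simp only [e3, e2, e1, eL, e0, P9.La2, Int.cast_neg, Int.cast_ofNat, Int.cast_zero,
      Int.cast_one]
    unfold P9.E1 P9.k P9.kx P9.Vn P9.Wn P9.Vp P9.Wp P9.f
    ring
  rw [← e]
  positivity

def P9.La3 : List (List ℤ) :=
  [[424587323828125, 1740589500781250, 236768565234375, 119062560937500, -5200539843750, -38284528125000, -21052294921875, -5837477343750, -915476171875, -77125000000, -2709375000],
  [1901305448437500, 642737295000000, 269901458437500, -12481295625000, -91882867500000, -50525507812500, -14009945625000, -2197142812500, -185100000000, -6502500000],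
  [1703912643562500, 575968289625000, -30729045937500, -165389161500000, -90945914062500, -25217902125000, -3954857062500, -333180000000, -11704500000],
  [970320424500000, 31393704600000, -262057671900000, -145513462500000, -40348643400000, -6327771300000, -533088000000, -18727200000],
  [196166651310000, -301012240500000, -212402480040000, -60522965100000, -9491656950000, -799632000000, -28090800000],
  [-114399748008000, -230520303432000, -83725259256000, -13667986008000, -1151470080000, -40450752000],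
  [-86848063142400, -79906574131200, -18152300620800, -1612058112000, -56631052800],
  [-22109390069760, -13874882273280, -2074572103680, -77665443840],
  [-2058752360448, -980358266880, -98035826688]]

theorem P9.chk_a3 : chk2 3 3 P9.La3 = true := by decide +kernel

def P9.Lb3 : List (List ℤ) :=
  [[167120929687500, 1018407796875000, 6759000044921875, 23183595703125, 1274988281250, 61966277343750, 27582539062500, -6893507812500, -8042517578125, -2325052734375, -290796875000, -13546875000],
  [-283328634375000, -11909607632812500, -159844893750000, -79243439062500],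
  [7851654064687500, 2213615106562500, 28982837812500, -41313569062500],
  [-851857742250000, 637598223000000, 198308634750000, 12824932500000],
  [-1486752233850000, 1214443323450000, 405879097050000, 29338568550000],
  [-1709745861600000, 1648670445720000, 383461406640000, 17139052440000],
  [-1042638049080000, 1030291868376000, 198955035000000, 4914398952000],
  [-353502271008000, 340098809356800, 59611713350400, 681252249600],
  [-63914562017280, 58438342010880, 9802171791360, 34062612480],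
  [-4835359162368, 4144593567744, 690765594624]]

theorem P9.chk_b3 : chk2 3 3 P9.Lb3 = true := by decide +kernel

theorem P9.one_a3 {l c : ℝ} (hl : 3 / 2 ≤ l) (hl2 : l ≤ 21 / 10) (hc : 1 / 2 ≤ c) (hc1 : c ≤ 1) :
    0 ≤ P9.E1 l c := by
  have h := chk2_sound P9.chk_a3 (x := (10 * l - 15) / 6) (y := 2 * c - 1) (by linarith)
    (by linarith) (by linarith) (by linarith)
  have h' := chk2_sound P9.chk_b3 (x := (10 * l - 15) / 6) (y := 2 * c - 1) (by linarith)
    (by linarith) (by linarith) (by linarith)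
  have e : (l - 1 - c) ^ 2 * ((1 / 100000000) * e2 P9.La3 ((10 * l - 15) / 6) (2 * c - 1)) +
      (1 - c) * ((1 / 1000000000) * e2 P9.Lb3 ((10 * l - 15) / 6) (2 * c - 1)) = P9.E1 l c := by
    simp only [e3, e2, e1, eL, e0, P9.La3, P9.Lb3, Int.cast_neg, Int.cast_ofNat, Int.cast_zero,
      Int.cast_one]
    unfold P9.E1 P9.k P9.kx P9.Vn P9.Wn P9.Vp P9.Wp P9.f
    ring
  rw [← e]
  have : 0 ≤ 1 - c := by linarith
  positivity

theorem P9.one {l b : ℝ} (hl : 0 ≤ l) (hl2 : l ≤ 21 / 10) (hb : 0 ≤ b) (hb1 : b ≤ 1) :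
    b * (3594240 * l - P9.f ((1 + b) / 2)) ≤
      l ^ 3 * P9.k l 1 b 1 b ((1 - b) * (1 + b) / (3 + b)) := by
  have h : 0 ≤ P9.E1 l b := by
    rcases le_or_gt l (3 / 2) with h1 | h1
    · exact P9.one_a1 hl h1 hb hb1
    · rcases le_or_gt b (1 / 2) with h2 | h2
      · exact P9.one_a2 h1.le hl2 hb h2
      · exact P9.one_a3 h1.le hl2 h2.le hb1
  have h3 : 0 < 3 + b := by linarith
  have e : P9.E1 l b = (3 + b) * (l ^ 3 * P9.k l 1 b 1 b ((1 - b) * (1 + b) / (3 + b)) -
      b * (3594240 * l - P9.f ((1 + b) / 2))) := by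
    unfold P9.E1 P9.k P9.kx
    field_simp
    ring
  rw [e] at h
  have := nonneg_of_mul_nonneg_right h h3
  linarith

def P9.Lao : List (List ℤ) :=
  [[9941760, -4408320, -2574080],
  [7239600, 2413200, 482640, 160880],
  [-24349440, -2744320, 1790720],
  [14830320, -2693360, -388080, 902640],
  [],
  [],
  [],
  [0, -5391360, -1797120],
  [0, 2081397, 3184078, 1228292, -214490, -531898, 231178, 798068, 264322, -255955, -172928, -27744]]

theorem P9.chk_ao : chk2 4 4 P9.Lao = true := by decide +kernel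

theorem P9.oneO {l b : ℝ} (hl : 2 ≤ l) (hb : 0 ≤ b) (hb1 : b ≤ 1) :
    b * (3594240 * l - P9.f ((1 + b) / 2)) ≤
      l ^ 5 * P9.ko l 1 b 1 b ((1 - b) * (1 + b) / (3 + b)) := by
  have hl0 : 0 < l := by linarith
  have h := chk2_sound P9.chk_ao (x := 2 / l) (by positivity)
    (by rw [div_le_one hl0]; exact hl) hb hb1
  have h3 : 0 < 3 + b := by linarith
  have e : (3 + b) * (l ^ 5 * P9.ko l 1 b 1 b ((1 - b) * (1 + b) / (3 + b)) -
      b * (3594240 * l - P9.f ((1 + b) / 2))) =
      (1 / 64) * l ^ 8 * e2 P9.Lao (2 / l) b := by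
    simp only [e3, e2, e1, eL, e0, P9.Lao, Int.cast_neg, Int.cast_ofNat, Int.cast_zero,
      Int.cast_one]
    unfold P9.ko P9.kox P9.f
    field_simp
    ring
  have h4 : 0 ≤ (3 + b) * (l ^ 5 * P9.ko l 1 b 1 b ((1 - b) * (1 + b) / (3 + b)) -
      b * (3594240 * l - P9.f ((1 + b) / 2))) := by rw [e]; positivity
  have := nonneg_of_mul_nonneg_right h4 h3
  linarith

def P9.Lg : List (List ℤ) :=
  [[0, 977400, -4368000, 8651790, -1488000, -16889229, 20320000, -7074720],
  [977400, -6240000, 14419650, -2688000, -31901877, 39360000, -13899744],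
  [-4368000, 14419650, -3168000, -41284782, 53920000, -19725984],
  [8651790, -2688000, -41284782, 59520000, -23221728],
  [-1488000, -31901877, 53920000, -23221728],
  [-16889229, 39360000, -19725984],
  [20320000, -13899744],
  [-7074720]]

theorem P9.chk_g : chk2 6 6 P9.Lg = true := by decide +kernel

theorem P9.f_conv {a b : ℝ} (ha : 0 ≤ a) (ha1 : a ≤ 1) (hb : 0 ≤ b) (hb1 : b ≤ 1) :
    P9.f ((a + b) / 2) ≤ (P9.f a + P9.f b) / 2 := by
  have h := chk2_sound P9.chk_g ha ha1 hb hb1
  have e : (P9.f a + P9.f b) / 2 - P9.f ((a + b) / 2) =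
      (a - b) ^ 2 * ((4) * e2 P9.Lg a b) := by
    simp only [e3, e2, e1, eL, e0, P9.Lg, Int.cast_neg, Int.cast_ofNat, Int.cast_zero,
      Int.cast_one]
    unfold P9.f
    ring
  have : 0 ≤ (a - b) ^ 2 * ((4) * e2 P9.Lg a b) := by positivity
  linarith

def P9.Lw : List ℤ :=
  [2935000,
  -13000000,
  31403925,
  -33075000,
  12520872]

theorem P9.chk_w : chk1 6 P9.Lw = true := by decide +kernel

theorem P9.w {l : ℝ} (hl : 0 ≤ l) (hl2 : l ≤ 21 / 10) : 0 ≤ P9.Wn l := by
  have h := chk1_sound P9.chk_w (y := 10 * l / 21) (by linarith) (by linarith)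
  have e : (126 / 625) * e1 P9.Lw (10 * l / 21) = P9.Wn l := by
    simp only [e3, e2, e1, eL, e0, P9.Lw, Int.cast_neg, Int.cast_ofNat, Int.cast_zero,
      Int.cast_one]
    unfold P9.Wn
    ring
  rw [← e]
  positivity

def P9.Lvw : List ℤ :=
  [1040000000,
  -14237685000,
  76182750000,
  -202504190175,
  288206255925,
  -196875450072,
  52145801568]

theorem P9.chk_vw : chk1 6 P9.Lvw = true := by decide +kernel

theorem P9.vw {l : ℝ} (hl : 0 ≤ l) (hl2 : l ≤ 21 / 10) : 0 ≤ P9.Vn l - 11 / 10 * (l * P9.Wn l) := by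
  have h := chk1_sound P9.chk_vw (y := 10 * l / 21) (by linarith) (by linarith)
  have e : (3 / 31250) * e1 P9.Lvw (10 * l / 21) = P9.Vn l - 11 / 10 * (l * P9.Wn l) := by
    simp only [e3, e2, e1, eL, e0, P9.Lvw, Int.cast_neg, Int.cast_ofNat, Int.cast_zero,
      Int.cast_one]
    unfold P9.Vn P9.Wn
    ring
  rw [← e]
  positivity

def P9.Lh1 : List ℤ :=
  [5200000000,
  12943350000,
  39359250000,
  -238818809250,
  419480930925,
  -165651136560,
  -52145801568,
  187613389687500]

theorem P9.chk_h1 : chk1 6 P9.Lh1 = true := by decide +kernel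

theorem P9.h1 {l : ℝ} (hl : 0 ≤ l) (hl2 : l ≤ 21 / 10) : 0 ≤ P9.Vn l + 100000000 * l ^ 7 - P9.Vp l - l * P9.Wp l - 2 * l * P9.Wn l := by
  have h := chk1_sound P9.chk_h1 (y := 10 * l / 21) (by linarith) (by linarith)
  have e : (3 / 31250) * e1 P9.Lh1 (10 * l / 21) = P9.Vn l + 100000000 * l ^ 7 - P9.Vp l - l * P9.Wp l - 2 * l * P9.Wn l := by
    simp only [e3, e2, e1, eL, e0, P9.Lh1, Int.cast_neg, Int.cast_ofNat, Int.cast_zero,
      Int.cast_one]
    unfold P9.Vn P9.Wn P9.Vp P9.Wp
    ring
  rw [← e]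
  positivity

def P9.Lh2 : List ℤ :=
  [5200000000,
  -64716750000,
  268679250000,
  -515801427750,
  419480930925,
  -55217045520,
  -52145801568,
  187613389687500]

theorem P9.chk_h2 : chk1 6 P9.Lh2 = true := by decide +kernel

theorem P9.h2 {l : ℝ} (hl : 0 ≤ l) (hl2 : l ≤ 21 / 10) : 0 ≤ P9.Vn l + 100000000 * l ^ 7 - P9.Vp l + l * P9.Wp l - 2 * l * P9.Wn l := by
  have h := chk1_sound P9.chk_h2 (y := 10 * l / 21) (by linarith) (by linarith)
  have e : (3 / 31250) * e1 P9.Lh2 (10 * l / 21) = P9.Vn l + 100000000 * l ^ 7 - P9.Vp l + l * P9.Wp l - 2 * l * P9.Wn l := by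
    simp only [e3, e2, e1, eL, e0, P9.Lh2, Int.cast_neg, Int.cast_ofNat, Int.cast_zero,
      Int.cast_one]
    unfold P9.Vn P9.Wn P9.Vp P9.Wp
    ring
  rw [← e]
  positivity

def P9.Lj1 : List ℤ :=
  [125690000,
  -29084000,
  -8618825,
  -626560,
  -14592]

theorem P9.chk_j1 : chk1 5 P9.Lj1 = true := by decide +kernel

theorem P9.j1 {l : ℝ} (hl : 2 ≤ l) (hl2 : l ≤ 21 / 10) :
    0 ≤ (10055 * l ^ 4 + 126820 * l ^ 2 - P9.Vn l) - (77400 * l ^ 2 - l * P9.Wn l) := by
  have h := chk1_sound P9.chk_j1 (y := 10 * l - 20) (by linarith) (by linarith)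
  have e : (l - 2) ^ 2 * ((1 / 2500) * e1 P9.Lj1 (10 * l - 20)) =
      (10055 * l ^ 4 + 126820 * l ^ 2 - P9.Vn l) - (77400 * l ^ 2 - l * P9.Wn l) := by
    simp only [e3, e2, e1, eL, e0, P9.Lj1, Int.cast_neg, Int.cast_ofNat, Int.cast_zero,
      Int.cast_one]
    unfold P9.Vn P9.Wn
    ring
  rw [← e]
  have : 0 ≤ l - 2 := by linarith
  positivity

def P9.Lj2 : List ℤ :=
  [6962400000,
  -1832350000,
  -462728000,
  -37514825,
  -1275520,
  -14592]

theorem P9.chk_j2 : chk1 5 P9.Lj2 = true := by decide +kernel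

theorem P9.j2 {l : ℝ} (hl : 2 ≤ l) (hl2 : l ≤ 21 / 10) :
    0 ≤ (10055 * l ^ 4 + 126820 * l ^ 2 - P9.Vn l) + (77400 * l ^ 2 - l * P9.Wn l) := by
  have h := chk1_sound P9.chk_j2 (y := 10 * l - 20) (by linarith) (by linarith)
  have e : (l - 2) * ((1 / 25000) * e1 P9.Lj2 (10 * l - 20)) =
      (10055 * l ^ 4 + 126820 * l ^ 2 - P9.Vn l) + (77400 * l ^ 2 - l * P9.Wn l) := by
    simp only [e3, e2, e1, eL, e0, P9.Lj2, Int.cast_neg, Int.cast_ofNat, Int.cast_zero,
      Int.cast_one]
    unfold P9.Vn P9.Wn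
    ring
  rw [← e]
  have : 0 ≤ l - 2 := by linarith
  positivity

def P9.Lj3 : List ℤ :=
  [4000000000000,
  796518800000,
  60853330000,
  2245906000,
  48066825,
  951040,
  14592]

theorem P9.chk_j3 : chk1 6 P9.Lj3 = true := by decide +kernel

theorem P9.j3 {l : ℝ} (hl : 2 ≤ l) (hl2 : l ≤ 21 / 10) : 0 ≤ 1000000 * l ^ 4 - (10055 * l ^ 4 + 126820 * l ^ 2 - P9.Vn l) := by
  have h := chk1_sound P9.chk_j3 (y := 10 * l - 20) (by linarith) (by linarith)
  have e : (1 / 250000) * e1 P9.Lj3 (10 * l - 20) = 1000000 * l ^ 4 - (10055 * l ^ 4 + 126820 * l ^ 2 - P9.Vn l) := by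
    simp only [e3, e2, e1, eL, e0, P9.Lj3, Int.cast_neg, Int.cast_ofNat, Int.cast_zero,
      Int.cast_one]
    unfold P9.Vn
    ring
  rw [← e]
  positivity

def P9.Lf1 : List ℤ :=
  [18720,
  0,
  122175,
  -624000,
  1441965,
  -288000,
  -3753162,
  5120000,
  -1997568]

theorem P9.chk_f1 : chk1 6 P9.Lf1 = true := by decide +kernel

noncomputable def P9.f1 (l : ℝ) : ℝ :=
  4792320 + 31276800 * l ^ 2 - 159744000 * l ^ 3 + 369143040 * l ^ 4 - 73728000 * l ^ 5 - 960809472 * l ^ 6 + 1310720000 * l ^ 7 - 511377408 * l ^ 8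

theorem P9.f1_nonneg {l : ℝ} (hl : 0 ≤ l) (hl2 : l ≤ 1) : 0 ≤ P9.f1 l := by
  have h := chk1_sound P9.chk_f1 hl hl2
  have e : (256) * e1 P9.Lf1 l = P9.f1 l := by
    simp only [e3, e2, e1, eL, e0, P9.Lf1, Int.cast_neg, Int.cast_ofNat, Int.cast_zero,
      Int.cast_one]
    unfold P9.f1
    ring
  rw [← e]
  positivity

end Vale.Agent.P219.TP
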