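import Vale.Agent.P219.TP.InSMk
import Vale.Agent.P219.TP.OddMoments
import Vale.Agent.P219.TP.PolyNine

/-! # The certificate in dimension 9

Field `(V(ρ) - a W(ρ)) ∇ρ`, with
`V = 58368 ρ² - 320000 ρ + 630648 - 520000/ρ + 285600/ρ² + 99840/ρ⁴`,
`W = 129792 ρ - 720000 + 1435608/ρ - 1248000/ρ² + 591696/ρ³` for `ρ ≤ 2` and
`V = 10055 + 126820/ρ²`, `W = 77400/ρ²` for `ρ ≥ 21/10`. -/

open MeasureTheory Set Metric
open scoped ENNReal ContDiff

namespace Vale.Agent.P219.TP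

noncomputable def P9.Vi (l : ℝ) : ℝ := P9.Vn l / l ^ 4
noncomputable def P9.Vi' (l : ℝ) : ℝ := P9.Vp l / l ^ 5
noncomputable def P9.Wi (l : ℝ) : ℝ := P9.Wn l / l ^ 3
noncomputable def P9.Wi' (l : ℝ) : ℝ := P9.Wp l / l ^ 4
noncomputable def P9.Vo (l : ℝ) : ℝ := 10055 + 126820 / l ^ 2
noncomputable def P9.Vo' (l : ℝ) : ℝ := -253640 / l ^ 3
noncomputable def P9.Wo (l : ℝ) : ℝ := 77400 / l ^ 2
noncomputable def P9.Wo' (l : ℝ) : ℝ := -154800 / l ^ 3

theorem P9.sks_in {l : ℝ} (hl : 0 < l) (a b t : ℝ) :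
    (92000 + sks 8 (P9.Vi l) (P9.Vi' l) (P9.Wi l) (P9.Wi' l) l a b t) * l ^ 8 =
      l ^ 3 * P9.k l a b |a| |b| t := by
  unfold sks skxs P9.Vi P9.Vi' P9.Wi P9.Wi' P9.k P9.kx
  field_simp
  push_cast
  ring

theorem P9.sks_out {l : ℝ} (hl : 0 < l) (a b t : ℝ) :
    (92000 + sks 8 (P9.Vo l) (P9.Vo' l) (P9.Wo l) (P9.Wo' l) l a b t) * l ^ 8 =
      l ^ 5 * P9.ko l a b |a| |b| t := by
  unfold sks skxs P9.Vo P9.Vo' P9.Wo P9.Wo' P9.ko P9.kox
  field_simp
  push_cast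
  ring

theorem P9.inS_in {l : ℝ} (hl : 0 < l) (hl2 : l ≤ 21 / 10) :
    InS 8 92000 3594240 P9.f 100000000 (P9.Vi l) (P9.Vi' l) (P9.Wi l) (P9.Wi' l) l := by
  have h0 := hl.le
  have hp : ∀ {x y : ℝ}, x * l ^ 8 = l ^ 3 * y → 0 ≤ y → 0 ≤ x := by
    intro x y h hy
    have : 0 ≤ x * l ^ 8 := by rw [h]; positivity
    exact nonneg_of_mul_nonneg_left this (by positivity)
  refine inS_mk hl ?_ ?_ ?_ ?_ ?_ ?_ ?_ ?_ fun a b ha ha1 hb hb1 => P9.f_conv ha ha1 hb hb1
  · have := P9.w h0 hl2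
    unfold P9.Wi; positivity
  · have := P9.vw h0 hl2
    unfold P9.Wi P9.Vi
    rw [le_div_iff₀ (by positivity)]
    have e : 11 / 10 * (P9.Wn l / l ^ 3) * l ^ 4 = 11 / 10 * (l * P9.Wn l) := by field_simp
    rw [e]; linarith
  · have h1 := P9.h1 h0 hl2
    have h2 := P9.h2 h0 hl2
    have hq : (P9.Vi' l + |P9.Wi' l| + 2 * P9.Wi l / l) * l ^ 5 ≤
        (P9.Vi l / l + 100000000 * l ^ 2) * l ^ 5 := by
      have e1 : |P9.Wi' l| * l ^ 5 = |l * P9.Wp l| := by
        unfold P9.Wi'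
        rw [abs_div, abs_mul, abs_of_pos (show 0 < l ^ 4 by positivity), abs_of_pos hl]
        field_simp
      have e2 : (P9.Vi' l + |P9.Wi' l| + 2 * P9.Wi l / l) * l ^ 5 =
          P9.Vp l + |l * P9.Wp l| + 2 * l * P9.Wn l := by
        rw [← e1]; unfold P9.Vi' P9.Wi; field_simp
      have e3 : (P9.Vi l / l + 100000000 * l ^ 2) * l ^ 5 =
          P9.Vn l + 100000000 * l ^ 7 := by unfold P9.Vi; field_simp
      rw [e2, e3]
      have : |l * P9.Wp l| ≤ P9.Vn l + 100000000 * l ^ 7 - P9.Vp l - 2 * l * P9.Wn l := by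
        rw [abs_le]; constructor <;> linarith
      linarith
    exact le_of_mul_le_mul_right hq (by positivity)
  · intro a b ha ha1 hb hb1
    refine hp (P9.sks_in hl _ _ _) ?_
    rw [abs_of_nonneg ha, abs_of_nonneg hb]
    exact P9.kpp h0 hl2 ha ha1 hb hb1
  · intro a b ha ha1 hb hb1
    refine hp (P9.sks_in hl _ _ _) ?_
    rw [abs_of_nonneg ha, abs_neg, abs_of_nonneg hb]
    exact P9.kpm h0 hl2 ha ha1 hb hb1
  · intro a b ha ha1 hb hb1
    refine hp (P9.sks_in hl _ _ _) ?_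
    rw [abs_neg, abs_of_nonneg ha, abs_neg, abs_of_nonneg hb]
    exact P9.kmm h0 hl2 ha ha1 hb hb1
  · intro c hc hc1
    rw [P9.sks_in hl, abs_of_nonneg hc]
    exact P9.diag h0 hl2 hc hc1
  · intro b hb hb1
    rw [P9.sks_in hl, abs_one, abs_of_nonneg hb]
    exact P9.one h0 hl2 hb hb1

theorem P9.inS_out {l : ℝ} (hl2 : 2 ≤ l) :
    InS 8 92000 3594240 P9.f 100000000 (P9.Vo l) (P9.Vo' l) (P9.Wo l) (P9.Wo' l) l := by
  have hl : 0 < l := by linarith
  have h0 := hl.le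
  have hp : ∀ {x y : ℝ}, x * l ^ 8 = l ^ 5 * y → 0 ≤ y → 0 ≤ x := by
    intro x y h hy
    have : 0 ≤ x * l ^ 8 := by rw [h]; positivity
    exact nonneg_of_mul_nonneg_left this (by positivity)
  refine inS_mk hl ?_ ?_ ?_ ?_ ?_ ?_ ?_ ?_ fun a b ha ha1 hb hb1 => P9.f_conv ha ha1 hb hb1
  · unfold P9.Wo; positivity
  · unfold P9.Wo P9.Vo
    have : 0 ≤ 1 / l ^ 2 := by positivity
    have e1 : 77400 / l ^ 2 = 77400 * (1 / l ^ 2) := by ring
    have e2 : 126820 / l ^ 2 = 126820 * (1 / l ^ 2) := by ring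
    rw [e1, e2]; linarith
  · unfold P9.Wo P9.Vo P9.Vo' P9.Wo'
    have e0 : |(-154800) / l ^ 3| = 154800 * (1 / l ^ 3) := by
      rw [abs_div, abs_of_pos (show 0 < l ^ 3 by positivity)]; norm_num; ring
    have e1 : 2 * (77400 / l ^ 2) / l = 154800 * (1 / l ^ 3) := by field_simp; norm_num
    have e2 : (10055 + 126820 / l ^ 2) / l = 10055 / l + 126820 * (1 / l ^ 3) := by field_simp
    have e3 : (-253640) / l ^ 3 = -253640 * (1 / l ^ 3) := by ring
    rw [e0, e1, e2, e3]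
    have h1 : 0 ≤ 1 / l ^ 3 := by positivity
    have h2 : 0 ≤ 10055 / l := by positivity
    have h3 : 0 ≤ 100000000 * l ^ 2 := by positivity
    linarith
  · intro a b ha ha1 hb hb1
    refine hp (P9.sks_out hl _ _ _) ?_
    rw [abs_of_nonneg ha, abs_of_nonneg hb]
    exact P9.kopp hl2 ha ha1 hb hb1
  · intro a b ha ha1 hb hb1
    refine hp (P9.sks_out hl _ _ _) ?_
    rw [abs_of_nonneg ha, abs_neg, abs_of_nonneg hb]
    exact P9.kopm hl2 ha ha1 hb hb1
  · intro a b ha ha1 hb hb1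
    refine hp (P9.sks_out hl _ _ _) ?_
    rw [abs_neg, abs_of_nonneg ha, abs_neg, abs_of_nonneg hb]
    exact P9.komm hl2 ha ha1 hb hb1
  · intro c hc hc1
    rw [P9.sks_out hl, abs_of_nonneg hc]
    exact P9.diagO hl2 hc hc1
  · intro b hb hb1
    rw [P9.sks_out hl, abs_one, abs_of_nonneg hb]
    exact P9.oneO hl2 hb hb1

theorem P9.hasDerivAt_Vi {l : ℝ} (hl : 0 < l) : HasDerivAt P9.Vi (P9.Vi' l) l := by
  have h : HasDerivAt P9.Vn (350208 * l ^ 5 - 1600000 * l ^ 4 + 2522592 * l ^ 3 - 1560000 * l ^ 2 +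
      571200 * l) l := by
    have := ((((((hasDerivAt_pow 6 l).const_mul 58368).sub ((hasDerivAt_pow 5 l).const_mul
      320000)).add ((hasDerivAt_pow 4 l).const_mul 630648)).sub ((hasDerivAt_pow 3 l).const_mul
      520000)).add ((hasDerivAt_pow 2 l).const_mul 285600)).add_const (99840 : ℝ)
    refine this.congr_deriv ?_
    norm_num; ring
  refine (h.div (hasDerivAt_pow 4 l) (by positivity)).congr_deriv ?_
  unfold P9.Vi' P9.Vn P9.Vp
  field_simp
  norm_num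
  ring

theorem P9.hasDerivAt_Wi {l : ℝ} (hl : 0 < l) : HasDerivAt P9.Wi (P9.Wi' l) l := by
  have h : HasDerivAt P9.Wn (519168 * l ^ 3 - 2160000 * l ^ 2 + 2871216 * l - 1248000) l := by
    have := (((((hasDerivAt_pow 4 l).const_mul 129792).sub ((hasDerivAt_pow 3 l).const_mul
      720000)).add ((hasDerivAt_pow 2 l).const_mul 1435608)).sub ((hasDerivAt_id l).const_mul
      1248000)).add_const (591696 : ℝ)
    refine this.congr_deriv ?_
    norm_num; ring
  refine (h.div (hasDerivAt_pow 3 l) (by positivity)).congr_deriv ?_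
  unfold P9.Wi' P9.Wn P9.Wp
  field_simp
  norm_num
  ring

theorem P9.hasDerivAt_inv2 {l : ℝ} (hl : 0 < l) (c : ℝ) :
    HasDerivAt (fun l : ℝ => c / l ^ 2) (-(2 * c) / l ^ 3) l := by
  refine ((hasDerivAt_const l c).div (hasDerivAt_pow 2 l) (by positivity)).congr_deriv ?_
  field_simp
  norm_num
  ring

theorem P9.hasDerivAt_Vo {l : ℝ} (hl : 0 < l) : HasDerivAt P9.Vo (P9.Vo' l) l := by
  refine ((P9.hasDerivAt_inv2 hl 126820).const_add (10055 : ℝ)).congr_deriv ?_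
  unfold P9.Vo'; norm_num

theorem P9.hasDerivAt_Wo {l : ℝ} (hl : 0 < l) : HasDerivAt P9.Wo (P9.Wo' l) l := by
  refine (P9.hasDerivAt_inv2 hl 77400).congr_deriv ?_
  unfold P9.Wo'; norm_num

theorem P9.contDiffOn_div {g : ℝ → ℝ} (hg : ContDiff ℝ ∞ g) (k : ℕ) :
    ContDiffOn ℝ ∞ (fun l : ℝ => g l / l ^ k) (Ioi 0) := by
  refine ContDiffOn.div hg.contDiffOn (by fun_prop) ?_
  intro l hl
  have : (0 : ℝ) < l := hl
  positivity

theorem P9.regData : RegDataS 8 92000 3594240 P9.f := by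
  refine glueS (C := 100000000) (D := 1000000) (by norm_num) (by norm_num) ?_ ?_ ?_ ?_
    (fun l hl => P9.hasDerivAt_Vi hl) (fun l hl => P9.hasDerivAt_Wi hl)
    (fun l hl => P9.hasDerivAt_Vo hl) (fun l hl => P9.hasDerivAt_Wo hl)
    (fun l h1 h2 => P9.inS_in h1 h2) (fun l h1 => P9.inS_out h1) ?_
  · exact P9.contDiffOn_div (by unfold P9.Vn; fun_prop) 4
  · exact P9.contDiffOn_div (by unfold P9.Wn; fun_prop) 3
  · exact contDiffOn_const.add (P9.contDiffOn_div contDiff_const 2)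
  · exact P9.contDiffOn_div contDiff_const 2
  · intro l hl hl2
    have hl0 : 0 < l := by linarith
    have j1 := P9.j1 hl hl2
    have j2 := P9.j2 hl hl2
    have j3 := P9.j3 hl hl2
    have e1 : (P9.Vo l - P9.Vi l) * l ^ 4 = 10055 * l ^ 4 + 126820 * l ^ 2 - P9.Vn l := by
      unfold P9.Vo P9.Vi; field_simp
    have e2 : (P9.Wo l - P9.Wi l) * l ^ 4 = 77400 * l ^ 2 - l * P9.Wn l := by
      unfold P9.Wo P9.Wi; field_simp
    have hl4 : 0 < l ^ 4 := by positivity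
    rw [← e1, ← e2] at j1 j2
    rw [← e1] at j3
    refine ⟨?_, ?_⟩
    · rw [abs_le]
      constructor
      · refine le_of_mul_le_mul_right ?_ hl4
        linarith
      · refine le_of_mul_le_mul_right ?_ hl4
        linarith
    · refine le_of_mul_le_mul_right ?_ hl4
      linarith

theorem P9.hasDerivAt_f (c : ℝ) : HasDerivAt P9.f (P9.f1 c) c := by
  have h := ((((((((hasDerivAt_id c).const_mul 4792320).add ((hasDerivAt_pow 3 c).const_mul
    10425600)).sub ((hasDerivAt_pow 4 c).const_mul 39936000)).add ((hasDerivAt_pow 5 c).const_mul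
    73828608)).sub ((hasDerivAt_pow 6 c).const_mul 12288000)).sub ((hasDerivAt_pow 7 c).const_mul
    137258496)).add ((hasDerivAt_pow 8 c).const_mul 163840000)).sub
    ((hasDerivAt_pow 9 c).const_mul 56819712)
  refine h.congr_deriv ?_
  unfold P9.f1
  norm_num
  ring

theorem P9.continuous_f : Continuous P9.f := by unfold P9.f; fun_prop

theorem P9.mono_f : MonotoneOn P9.f (Icc 0 1) := by
  refine monotoneOn_of_deriv_nonneg (convex_Icc 0 1) P9.continuous_f.continuousOn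
    (fun c _ => (P9.hasDerivAt_f c).differentiableAt.differentiableWithinAt) ?_
  intro c hc
  rw [interior_Icc] at hc
  rw [(P9.hasDerivAt_f c).deriv]
  exact P9.f1_nonneg hc.1.le hc.2.le

theorem P9.f_zero : P9.f 0 = 0 := by simp [P9.f]

theorem P9.f_nonneg {c : ℝ} (h0 : 0 ≤ c) (h1 : c ≤ 1) : 0 ≤ P9.f c := by
  rw [← P9.f_zero]
  exact P9.mono_f ⟨le_rfl, zero_le_one⟩ ⟨h0, h1⟩ h0

/-! ### Moments in dimension 9 -/

theorem P9.Gamma_half (j : ℕ) : Real.Gamma ((j : ℝ) + 9 / 2) =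
    ((j : ℝ) + 7 / 2) * ((j : ℝ) + 5 / 2) * ((j : ℝ) + 3 / 2) * ((j : ℝ) + 1 / 2) *
      Real.Gamma ((j : ℝ) + 1 / 2) := by
  have e : (j : ℝ) + 9 / 2 = ((((j : ℝ) + 1 / 2 + 1) + 1) + 1) + 1 := by ring
  have hj : (0 : ℝ) ≤ j := Nat.cast_nonneg j
  rw [e, Real.Gamma_add_one (by positivity), Real.Gamma_add_one (by positivity),
    Real.Gamma_add_one (by positivity), Real.Gamma_add_one (by positivity)]
  ring

theorem P9.sig_nine : sig 9 = 32 / 105 * Real.pi ^ 4 := by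
  rw [sig_eq_gamma (by norm_num)]
  have h1 : Real.Gamma (((9 : ℕ) : ℝ) / 2) = 105 / 16 * √Real.pi := by
    have := P9.Gamma_half 0
    simp only [Nat.cast_zero, zero_add] at this
    rw [show (((9 : ℕ) : ℝ) / 2) = 9 / 2 by norm_num, this, Real.Gamma_one_half_eq]
    ring
  have h2 : Real.pi ^ (((9 : ℕ) : ℝ) / 2) = Real.pi ^ 4 * √Real.pi := by
    rw [Real.sqrt_eq_rpow, ← Real.rpow_natCast, ← Real.rpow_add Real.pi_pos]
    congr 1; norm_num
  rw [h1, h2]
  have h3 : √Real.pi ≠ 0 := (Real.sqrt_pos.2 Real.pi_pos).ne'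
  field_simp
  norm_num

theorem P9.moment_even {j : ℕ} (hj : 1 ≤ j) {e : E 9} (he : ‖e‖ = 1) :
    ∫ u : sphere (0 : E 9) 1, max 0 (inner ℝ e (u : E 9)) ^ (2 * j)
      ∂((volume : Measure (E 9)).toSphere) =
      Real.pi ^ 4 / (((j : ℝ) + 7 / 2) * ((j : ℝ) + 5 / 2) * ((j : ℝ) + 3 / 2) *
        ((j : ℝ) + 1 / 2)) := by
  rw [sphere_moment (by norm_num) (by omega) he]
  have h1 : (((2 * j : ℕ) : ℝ) + 1) / 2 = (j : ℝ) + 1 / 2 := by push_cast; ring
  have h2 : (((9 : ℕ) : ℝ) + ((2 * j : ℕ) : ℝ)) / 2 = (j : ℝ) + 9 / 2 := by push_cast; ring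
  have h3 : (((9 : ℕ) : ℝ) - 1) / 2 = ((4 : ℕ) : ℝ) := by norm_num
  have hj : (0 : ℝ) ≤ j := Nat.cast_nonneg j
  have hG : 0 < Real.Gamma ((j : ℝ) + 1 / 2) := Real.Gamma_pos_of_pos (by positivity)
  rw [h1, h2, h3, P9.Gamma_half, Real.rpow_natCast]
  field_simp

theorem P9.integral_f {e : E 9} (he : ‖e‖ = 1) :
    ∫ u : sphere (0 : E 9) 1, P9.f (max 0 (inner ℝ e (u : E 9))) * max 0 (inner ℝ e (u : E 9))
      ∂((volume : Measure (E 9)).toSphere) = 307360 * sig 9 := by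
  have c : ∀ (k : ℕ) (a : ℝ), Integrable (fun u : sphere (0 : E 9) 1 =>
      a * max 0 (inner ℝ e (u : E 9)) ^ k) ((volume : Measure (E 9)).toSphere) := by
    intro k a
    exact (integrable_sphere (by fun_prop)).const_mul a
  have h1 : ∀ u : sphere (0 : E 9) 1,
      P9.f (max 0 (inner ℝ e (u : E 9))) * max 0 (inner ℝ e (u : E 9)) =
      (((((((4792320 * max 0 (inner ℝ e (u : E 9)) ^ 2 +
      10425600 * max 0 (inner ℝ e (u : E 9)) ^ 4) +
      (-39936000) * max 0 (inner ℝ e (u : E 9)) ^ 5) +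
      73828608 * max 0 (inner ℝ e (u : E 9)) ^ 6) +
      (-12288000) * max 0 (inner ℝ e (u : E 9)) ^ 7) +
      (-137258496) * max 0 (inner ℝ e (u : E 9)) ^ 8) +
      163840000 * max 0 (inner ℝ e (u : E 9)) ^ 9) +
      (-56819712) * max 0 (inner ℝ e (u : E 9)) ^ 10) := by
    intro u
    unfold P9.f
    ring
  simp only [h1]
  have c2 := (c 2 4792320).add (c 4 10425600)
  have c3 := c2.add (c 5 (-39936000))
  have c4 := c3.add (c 6 73828608)
  have c5 := c4.add (c 7 (-12288000))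
  have c6 := c5.add (c 8 (-137258496))
  have c7 := c6.add (c 9 163840000)
  simp only [Pi.add_def] at c2 c3 c4 c5 c6 c7
  rw [integral_add c7 (c 10 _), integral_add c6 (c 9 _), integral_add c5 (c 8 _),
    integral_add c4 (c 7 _), integral_add c3 (c 6 _), integral_add c2 (c 5 _),
    integral_add (c 2 _) (c 4 _)]
  simp only [integral_const_mul]
  have m2 := P9.moment_even (j := 1) le_rfl he
  have m4 := P9.moment_even (j := 2) (by norm_num) he
  have m6 := P9.moment_even (j := 3) (by norm_num) he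
  have m8 := P9.moment_even (j := 4) (by norm_num) he
  have m10 := P9.moment_even (j := 5) (by norm_num) he
  have m5 := half_moment_odd 4 2 he
  have m7 := half_moment_odd 4 3 he
  have m9 := half_moment_odd 4 4 he
  norm_num at m2 m4 m6 m8 m10 m5 m7 m9
  rw [m2, m4, m5, m6, m7, m8, m9, m10, P9.sig_nine]
  norm_num [Nat.factorial]
  ring

/-- The certificate in dimension 9. -/
noncomputable def certNine : Cert 9 where
  lam := 92000
  s := 3594240
  F := 307360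
  f := P9.f
  lam_pos := by norm_num
  s_nonneg := by norm_num
  f_cont := P9.continuous_f
  f_nonneg a ha := P9.f_nonneg ha.1 ha.2
  hF e he := (P9.integral_f he).le
  balance := by norm_num
  approx := regS_approx (m := 8) (by norm_num) P9.mono_f P9.f_zero.ge P9.regData

end Vale.Agent.P219.TP
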