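import Vale.Agent.P219.TP.AreaElem

/-! # Cut-off and uniform bounds of the contraction rate (task A9a) -/

open MeasureTheory Set Metric
open scoped ENNReal ContDiff

namespace Vale.Agent.P219.TP

variable {n : ℕ}

/-- the parameter domain `R > 0` -/
def cutU (n : ℕ) : Set (E n × ℝ × E n) := {z | 0 < z.2.1}

theorem cutU_open : IsOpen (cutU n) := by
  unfold cutU
  exact isOpen_lt continuous_const (by fun_prop)

/-- the argument of `Φ` -/
noncomputable def cutP (z : E n × ℝ × E n) : ℝ × ℝ :=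
  (‖z.2.2‖ ^ 2 / z.2.1 ^ 2, inner ℝ z.2.2 z.1 / z.2.1)

theorem cutP_contDiffOn : ContDiffOn ℝ ∞ (cutP (n := n)) (cutU n) := by
  unfold cutP
  have h1 : ContDiff ℝ ∞ (fun z : E n × ℝ × E n => z.2.1) := by fun_prop
  have h2 : ContDiff ℝ ∞ (fun z : E n × ℝ × E n => z.2.2) := by fun_prop
  have h3 : ContDiff ℝ ∞ (fun z : E n × ℝ × E n => z.1) := by fun_prop
  have hne : ∀ z ∈ cutU n, z.2.1 ≠ 0 := fun z hz => ne_of_gt hz
  refine ContDiffOn.prodMk ?_ ?_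
  · exact (h2.norm_sq ℝ).contDiffOn.div (h1.pow 2).contDiffOn (fun z hz => pow_ne_zero 2 (hne z hz))
  · exact (h2.inner ℝ h3).contDiffOn.div h1.contDiffOn hne

theorem cutP_mapsTo {δ : ℝ} (hδ : 0 < δ) : MapsTo (cutP (n := n)) (cutU n) {p | -δ < p.1} := by
  intro z hz
  have : 0 ≤ ‖z.2.2‖ ^ 2 / z.2.1 ^ 2 := by positivity
  change -δ < ‖z.2.2‖ ^ 2 / z.2.1 ^ 2
  linarith

theorem cut_th_contDiffOn {Φ : ℝ × ℝ → ℝ} {δ : ℝ} (hδ : 0 < δ)
    (hΦ : ContDiffOn ℝ ∞ Φ {p | -δ < p.1}) :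
    ContDiffOn ℝ ∞ (fun z : E n × ℝ × E n => th Φ z.2.1 z.1 z.2.2) (cutU n) := by
  unfold th
  have h1 : ContDiff ℝ ∞ (fun z : E n × ℝ × E n => z.2.1) := by fun_prop
  exact (h1.contDiffOn.inv (fun z hz => ne_of_gt hz)).mul
    (hΦ.comp cutP_contDiffOn (cutP_mapsTo hδ))

/-- compact parameter set -/
def cutK (n : ℕ) (R₀ R₁ L : ℝ) : Set (E n × ℝ × E n) :=
  sphere (0 : E n) 1 ×ˢ (Icc R₀ R₁ ×ˢ closedBall (0 : E n) L)

theorem cutK_compact (R₀ R₁ L : ℝ) : IsCompact (cutK n R₀ R₁ L) :=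
  (isCompact_sphere _ _).prod (isCompact_Icc.prod (isCompact_closedBall _ _))

theorem cutK_subset {R₀ : ℝ} (hR₀ : 0 < R₀) (R₁ L : ℝ) : cutK n R₀ R₁ L ⊆ cutU n := by
  rintro z ⟨_, h2, _⟩
  exact lt_of_lt_of_le hR₀ h2.1

theorem cutK_mem {R₀ R₁ L : ℝ} {ν v : E n} {R : ℝ} (hν : ‖ν‖ = 1) (h0 : R₀ ≤ R) (h1 : R ≤ R₁)
    (hv : ‖v‖ ≤ L) : (ν, R, v) ∈ cutK n R₀ R₁ L :=
  ⟨by simpa using hν, ⟨h0, h1⟩, by simpa using hv⟩

/-- inclusion of the last variable -/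
noncomputable def cutI (n : ℕ) : E n →L[ℝ] E n × ℝ × E n :=
  (ContinuousLinearMap.inr ℝ (E n) (ℝ × E n)).comp (ContinuousLinearMap.inr ℝ ℝ (E n))

theorem cutI_apply (v : E n) : cutI n v = (0, 0, v) := rfl

theorem cutI_norm_le (v : E n) : ‖cutI n v‖ ≤ ‖v‖ := by
  rw [cutI_apply]
  simp [Prod.norm_def]

/-- partial derivative in the last variable -/
theorem cut_hasFDerivAt {F : Type} [NormedAddCommGroup F] [NormedSpace ℝ F]
    {g : E n × ℝ × E n → F} (hg : ContDiffOn ℝ ∞ g (cutU n)) {ν v : E n} {R : ℝ} (hR : 0 < R) :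
    HasFDerivAt (fun v => g (ν, R, v)) ((fderiv ℝ g (ν, R, v)).comp (cutI n)) v := by
  have h1 : HasFDerivAt g (fderiv ℝ g (ν, R, v)) (ν, R, v) :=
    ((hg.contDiffAt (cutU_open.mem_nhds hR)).differentiableAt (by norm_num)).hasFDerivAt
  have h2 : HasFDerivAt (fun v : E n => ((ν, R, v) : E n × ℝ × E n)) (cutI n) v := by
    have h3 : HasFDerivAt (fun v : E n => v) (ContinuousLinearMap.id ℝ (E n)) v :=
      hasFDerivAt_id v
    have := (hasFDerivAt_const (𝕜 := ℝ) ν v).prodMk ((hasFDerivAt_const (𝕜 := ℝ) R v).prodMk h3)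
    exact this
  exact h1.comp v h2

theorem exists_cutoff {Φ : ℝ × ℝ → ℝ} {δ : ℝ} (hδ : 0 < δ)
    (hΦ : ContDiffOn ℝ ∞ Φ {p | -δ < p.1}) (hΦ0 : ∀ p : ℝ × ℝ, 0 ≤ p.1 → 0 ≤ Φ p) {R₀ : ℝ} (R₁ : ℝ)
    (hR₀ : 0 < R₀) (L : ℝ) :
    ∃ M : ℝ, 0 ≤ M ∧ ∀ (ν : E n) (R : ℝ), ‖ν‖ = 1 → R₀ ≤ R → R ≤ R₁ →
      ∃ θ : E n → ℝ, ContDiff ℝ ∞ θ ∧ (∀ v, 0 ≤ θ v) ∧
        (∀ v, ‖v‖ < L → θ v = th Φ R ν v) ∧
        ∀ v v', ‖θ v • v - θ v' • v'‖ ≤ M * ‖v - v'‖ := by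
  let χ : ContDiffBump (0 : E n) := ⟨|L| + 1, |L| + 2, by positivity, by linarith⟩
  have hχ : ContDiff ℝ ∞ (χ : E n → ℝ) := χ.contDiff
  have hth := cut_th_contDiffOn (n := n) hδ hΦ
  have h2 : ContDiff ℝ ∞ (fun z : E n × ℝ × E n => z.2.2) := by fun_prop
  set g : E n × ℝ × E n → E n := fun z => (χ z.2.2 * th Φ z.2.1 z.1 z.2.2) • z.2.2 with hg
  have hgs : ContDiffOn ℝ ∞ g (cutU n) :=
    ((hχ.comp h2).contDiffOn.mul hth).smul h2.contDiffOn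
  obtain ⟨C, hC⟩ := (cutK_compact (n := n) R₀ R₁ (|L| + 2)).exists_bound_of_continuousOn
    ((hgs.continuousOn_fderiv_of_isOpen cutU_open (by norm_num)).mono (cutK_subset hR₀ R₁ _))
  refine ⟨max C 0, le_max_right _ _, fun ν R hν h0 h1 => ?_⟩
  have hR : 0 < R := lt_of_lt_of_le hR₀ h0
  have hs : ContDiff ℝ ∞ (fun v : E n => ((ν, R, v) : E n × ℝ × E n)) := by fun_prop
  have hths : ContDiff ℝ ∞ (fun v => th Φ R ν v) := by
    have := hth.comp_contDiff hs (fun v => hR)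
    exact this
  refine ⟨fun v => χ v * th Φ R ν v, hχ.mul hths, fun v => ?_, fun v hv => ?_, ?_⟩
  · refine mul_nonneg χ.nonneg ?_
    unfold th
    refine mul_nonneg (inv_nonneg.2 hR.le) (hΦ0 _ ?_)
    positivity
  · change χ v * th Φ R ν v = th Φ R ν v
    rw [χ.one_of_mem_closedBall, one_mul]
    rw [mem_closedBall, dist_zero_right]
    change ‖v‖ ≤ |L| + 1
    have := le_abs_self L
    linarith
  · have hd : ∀ v : E n, HasFDerivAt (fun v => g (ν, R, v)) ((fderiv ℝ g (ν, R, v)).comp (cutI n)) v :=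
      fun v => cut_hasFDerivAt hgs hR
    have hb : ∀ v : E n, ‖(fderiv ℝ g (ν, R, v)).comp (cutI n)‖ ≤ max C 0 := by
      intro v
      by_cases hv : ‖v‖ ≤ |L| + 2
      · refine ContinuousLinearMap.opNorm_le_bound _ (le_max_right _ _) fun w => ?_
        have h3 := hC _ (cutK_mem hν h0 h1 hv)
        calc ‖((fderiv ℝ g (ν, R, v)).comp (cutI n)) w‖ = ‖fderiv ℝ g (ν, R, v) (cutI n w)‖ := rfl
          _ ≤ ‖fderiv ℝ g (ν, R, v)‖ * ‖cutI n w‖ := ContinuousLinearMap.le_opNorm _ _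
          _ ≤ max C 0 * ‖w‖ := mul_le_mul (h3.trans (le_max_left _ _)) (cutI_norm_le w)
              (norm_nonneg _) (le_max_right _ _)
      · rw [not_le] at hv
        have h0' : (fun v => g (ν, R, v)) =ᶠ[nhds v] fun _ => 0 := by
          have : {v : E n | |L| + 2 < ‖v‖} ∈ nhds v :=
            (isOpen_lt continuous_const continuous_norm).mem_nhds hv
          filter_upwards [this] with v' hv'
          simp only [hg]
          rw [χ.zero_of_le_dist, zero_mul, zero_smul]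
          rw [dist_zero_right]
          exact le_of_lt hv'
        have h4 := (hd v).congr_of_eventuallyEq h0'.symm
        have h5 := h4.unique (hasFDerivAt_const (0 : E n) v)
        rw [h5, norm_zero]
        exact le_max_right _ _
    intro v v'
    have := Convex.norm_image_sub_le_of_norm_hasFDerivWithin_le (s := (univ : Set (E n)))
      (f := fun v => g (ν, R, v)) (x := v') (y := v)
      (fun v _ => (hd v).hasFDerivWithinAt) (fun v _ => hb v) convex_univ (mem_univ _) (mem_univ _)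
    exact this

theorem th_bounds {Φ : ℝ × ℝ → ℝ} {δ : ℝ} (hδ : 0 < δ)
    (hΦ : ContDiffOn ℝ ∞ Φ {p | -δ < p.1}) {R₀ : ℝ} (R₁ : ℝ) (hR₀ : 0 < R₀) (L : ℝ) :
    ∃ M : ℝ, 0 ≤ M ∧ ∀ (ν v : E n) (R : ℝ), ‖ν‖ = 1 → R₀ ≤ R → R ≤ R₁ → ‖v‖ ≤ L →
      |th Φ R ν v| ≤ M ∧ |th Φ R ν v + fderiv ℝ (th Φ R ν) v v| ≤ M ∧
      ‖v‖ * (R⁻¹ * (R⁻¹ * |fderiv ℝ Φ (‖v‖ ^ 2 / R ^ 2, inner ℝ v ν / R) (0, 1)|)) ≤ M := by
  have hth := cut_th_contDiffOn (n := n) hδ hΦ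
  have hK := cutK_subset (n := n) hR₀ R₁ L
  have hKc := cutK_compact (n := n) R₀ R₁ L
  have c0 : ContinuousOn (fun z : E n × ℝ × E n => th Φ z.2.1 z.1 z.2.2) (cutK n R₀ R₁ L) :=
    hth.continuousOn.mono hK
  obtain ⟨C0, hC0⟩ := hKc.exists_bound_of_continuousOn c0
  have cI : Continuous (fun z : E n × ℝ × E n => cutI n z.2.2) :=
    (cutI n).continuous.comp (by fun_prop)
  have c1 : ContinuousOn (fun z : E n × ℝ × E n =>
      th Φ z.2.1 z.1 z.2.2 + fderiv ℝ (fun z : E n × ℝ × E n => th Φ z.2.1 z.1 z.2.2) z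
        (cutI n z.2.2)) (cutK n R₀ R₁ L) :=
    c0.add (((hth.continuousOn_fderiv_of_isOpen cutU_open (by norm_num)).mono hK).clm_apply
      cI.continuousOn)
  obtain ⟨C1, hC1⟩ := hKc.exists_bound_of_continuousOn c1
  have hopen : IsOpen {p : ℝ × ℝ | -δ < p.1} := isOpen_lt continuous_const continuous_fst
  have c2 : ContinuousOn (fun z : E n × ℝ × E n =>
      ‖z.2.2‖ * (z.2.1⁻¹ * (z.2.1⁻¹ * |fderiv ℝ Φ (cutP z) (0, 1)|))) (cutK n R₀ R₁ L) := by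
    have d1 : ContinuousOn (fun z : E n × ℝ × E n => z.2.1⁻¹) (cutK n R₀ R₁ L) := by
      refine ContinuousOn.inv₀ (by fun_prop) fun z hz => ne_of_gt (hK hz)
    have d2 : ContinuousOn (fun z : E n × ℝ × E n => fderiv ℝ Φ (cutP z)) (cutK n R₀ R₁ L) :=
      ((hΦ.continuousOn_fderiv_of_isOpen hopen (by norm_num)).comp
        (cutP_contDiffOn.continuousOn) (cutP_mapsTo hδ)).mono hK
    have d3 : ContinuousOn (fun z : E n × ℝ × E n => |fderiv ℝ Φ (cutP z) (0, 1)|)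
        (cutK n R₀ R₁ L) := (d2.clm_apply continuousOn_const).abs
    have d4 : ContinuousOn (fun z : E n × ℝ × E n => ‖z.2.2‖) (cutK n R₀ R₁ L) := by fun_prop
    exact d4.mul (d1.mul (d1.mul d3))
  obtain ⟨C2, hC2⟩ := hKc.exists_bound_of_continuousOn c2
  refine ⟨|C0| + |C1| + |C2|, by positivity, fun ν v R hν h0 h1 hv => ?_⟩
  have hm := cutK_mem hν h0 h1 hv
  have hR : 0 < R := lt_of_lt_of_le hR₀ h0
  have hfd : fderiv ℝ (th Φ R ν) v =
      (fderiv ℝ (fun z : E n × ℝ × E n => th Φ z.2.1 z.1 z.2.2) (ν, R, v)).comp (cutI n) :=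
    (cut_hasFDerivAt hth hR).fderiv
  have e0 := hC0 _ hm
  have e1 := hC1 _ hm
  have e2 := hC2 _ hm
  have a0 := le_abs_self C0
  have a1 := le_abs_self C1
  have a2 := le_abs_self C2
  have b0 := abs_nonneg C0
  have b1 := abs_nonneg C1
  have b2 := abs_nonneg C2
  refine ⟨?_, ?_, ?_⟩
  · rw [Real.norm_eq_abs] at e0
    linarith
  · rw [hfd]
    rw [Real.norm_eq_abs] at e1
    change |th Φ R ν v + fderiv ℝ (fun z : E n × ℝ × E n => th Φ z.2.1 z.1 z.2.2) (ν, R, v)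
        (cutI n v)| ≤ _
    change |th Φ R ν v + fderiv ℝ (fun z : E n × ℝ × E n => th Φ z.2.1 z.1 z.2.2) (ν, R, v)
        (cutI n v)| ≤ C1 at e1
    linarith
  · have e3 := (le_abs_self _).trans e2
    change ‖v‖ * (R⁻¹ * (R⁻¹ * |fderiv ℝ Φ (‖v‖ ^ 2 / R ^ 2, inner ℝ v ν / R) (0, 1)|)) ≤ C2 at e3
    linarith

end Vale.Agent.P219.TP
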