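import Mathlib

/-!
# P219, two-point kernel method: definitions

`Geo n` is the abstract output of the geometry of a Cartan-Hadamard metric on `ℝⁿ`:
volume density, orthonormal frame, exponential map, geodesic flow, logarithm, all globally
defined and smooth, Gauss lemma, and the Rauch comparison (monotonicity of Jacobi fields).
-/

open MeasureTheory Set Metric
open scoped ENNReal ContDiff

namespace Vale.Agent.P219.TP

/-- Euclidean space. -/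
abbrev E (n : ℕ) := EuclideanSpace ℝ (Fin n)

/-- Abstract Cartan-Hadamard geometry on `ℝⁿ`. -/
structure Geo (n : ℕ) where
  /-- volume density -/
  w : E n → ℝ
  /-- orthonormal frame: `A x` maps the Euclidean space isometrically to `(T_x M, g_x)` -/
  A : E n → E n →L[ℝ] E n
  /-- `ex x v = exp_x (A x v)` -/
  ex : E n → E n → E n
  /-- `V t x v`: the velocity, in the frame, at time `t` of the geodesic `t ↦ ex x (t v)` -/
  V : ℝ → E n → E n → E n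
  /-- inverse of `ex x` -/
  lg : E n → E n → E n
  /-- `T x v`: differential of `ex x` at `v`, in the frames -/
  T : E n → E n → E n →L[ℝ] E n
  w_smooth : ContDiff ℝ ∞ w
  A_smooth : ContDiff ℝ ∞ A
  ex_smooth : ContDiff ℝ ∞ fun z : E n × E n => ex z.1 z.2
  V_smooth : ContDiff ℝ ∞ fun z : ℝ × E n × E n => V z.1 z.2.1 z.2.2
  lg_smooth : ContDiff ℝ ∞ fun z : E n × E n => lg z.1 z.2
  T_smooth : ContDiff ℝ ∞ fun z : E n × E n => T z.1 z.2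
  w_pos : ∀ x, 0 < w x
  w_det : ∀ x, w x * |(A x).det| = 1
  ex_zero : ∀ x, ex x 0 = x
  ex_lg : ∀ x y, ex x (lg x y) = y
  lg_ex : ∀ x v, lg x (ex x v) = v
  V_zero : ∀ x v, V 0 x v = v
  norm_V : ∀ t x v, ‖V t x v‖ = ‖v‖
  V_smul : ∀ c t x v, V t x (c • v) = c • V (c * t) x v
  ex_flow : ∀ s t x v, ex (ex x (s • v)) (t • V s x v) = ex x ((s + t) • v)
  V_flow : ∀ s t x v, V t (ex x (s • v)) (V s x v) = V (s + t) x v
  ex_deriv : ∀ t x v, HasDerivAt (fun s : ℝ => ex x (s • v)) (A (ex x (t • v)) (V t x v)) t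
  T_spec : ∀ x v z, A (ex x v) (T x v z) = fderiv ℝ (ex x) v z
  gauss : ∀ x v z, inner ℝ (T x v v) (T x v z) = inner ℝ v z
  mono : ∀ (x v z : E n) (s : ℝ), inner ℝ v z = 0 → 0 ≤ s → s ≤ 1 →
    ‖T x (s • v) z‖ ≤ ‖T x v z‖

variable {n : ℕ}

namespace Geo

variable (G : Geo n)

/-- Riemannian volume. -/
noncomputable def vol : Measure (E n) := volume.withDensity fun x => ENNReal.ofReal (G.w x)

/-- Gradient of `h`, in the frame. -/
noncomputable def D (h : E n → ℝ) (x : E n) : E n :=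
  (InnerProductSpace.toDual ℝ (E n)).symm ((fderiv ℝ h x).comp (G.A x))

/-- Total variation `∫ |dh| dvol`. -/
noncomputable def per (h : E n → ℝ) : ℝ := ∫ x, ‖G.D h x‖ ∂G.vol

/-- `∫ h^{n/(n-1)} dvol`. -/
noncomputable def vp (h : E n → ℝ) : ℝ := ∫ x, h x ^ ((n : ℝ) / ((n : ℝ) - 1)) ∂G.vol

/-- Volume of the Euclidean unit ball. -/
noncomputable def om (n : ℕ) : ℝ := (volume : Measure (E n)).real (ball 0 1)

/-- The isoperimetric deficit `∫ |dh| - n ω_n^{1/n} (∫ h^{n/(n-1)})^{(n-1)/n}`. -/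
noncomputable def def' (h : E n → ℝ) : ℝ :=
  G.per h - n * om n ^ (1 / (n : ℝ)) * G.vp h ^ (((n : ℝ) - 1) / n)

/-- Cosine of the angle at `p` between the gradient of `h` and the direction of `q`. -/
noncomputable def ang (h : E n → ℝ) (p q : E n) : ℝ :=
  inner ℝ (G.lg p q) (G.D h p) / (‖G.lg p q‖ * ‖G.D h p‖)

/-- `∫∫ κ(d(p,q), a, b) |dh|(p) |dh|(q) dvol dvol`. -/
noncomputable def pairInt (κ : ℝ → ℝ → ℝ → ℝ) (h : E n → ℝ) : ℝ :=
  ∫ z : E n × E n, κ ‖G.lg z.1 z.2‖ (G.ang h z.1 z.2) (G.ang h z.2 z.1) *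
    (‖G.D h z.1‖ * ‖G.D h z.2‖) ∂(G.vol.prod G.vol)

/-- Test functions supported in the closed geodesic ball of centre `o` and radius `ρ`. -/
structure Cls (o : E n) (ρ : ℝ) (h : E n → ℝ) : Prop where
  smooth : ContDiff ℝ 1 h
  nonneg : ∀ x, 0 ≤ h x
  le_one : ∀ x, h x ≤ 1
  supp : ∀ x, h x ≠ 0 → ‖G.lg o x‖ ≤ ρ

end Geo

/-- Area of the unit sphere. -/
noncomputable def sig (n : ℕ) : ℝ := ((volume : Measure (E n)).toSphere).real univ

/-- The rate of contraction `θ(v) = R⁻¹ Φ(|v|²/R², ⟨v,ν⟩/R)`. -/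
noncomputable def th (Φ : ℝ × ℝ → ℝ) (R : ℝ) (ν v : E n) : ℝ :=
  R⁻¹ * Φ (‖v‖ ^ 2 / R ^ 2, inner ℝ v ν / R)

/-- First variation of area of the field `φ(r,a) ∇r`, `φ(r,a) = r Φ(r², ra)`. -/
noncomputable def kap (m : ℕ) (Φ : ℝ × ℝ → ℝ) (r a b : ℝ) : ℝ :=
  m * Φ (r ^ 2, r * a) +
    (2 * r ^ 2 * fderiv ℝ Φ (r ^ 2, r * a) (1, 0) + r * a * fderiv ℝ Φ (r ^ 2, r * a) (0, 1)) *
      (1 - b ^ 2) -
    r * |fderiv ℝ Φ (r ^ 2, r * a) (0, 1)| * |b| * √((1 - a ^ 2) * (1 - b ^ 2))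

/-- The kernel, before symmetrisation. -/
noncomputable def ker0 (m : ℕ) (Φ : ℝ × ℝ → ℝ) (lam r a b : ℝ) : ℝ :=
  lam + kap m Φ r a b - m * (r * b * Φ (r ^ 2, r * a))

/-- The symmetrised kernel. -/
noncomputable def ker (m : ℕ) (Φ : ℝ × ℝ → ℝ) (lam r a b : ℝ) : ℝ :=
  (ker0 m Φ lam r a b + ker0 m Φ lam r b a) / 2

/-- The contraction towards `p`. -/
noncomputable def Geo.Psi (G : Geo n) (Φ : ℝ × ℝ → ℝ) (R : ℝ) (ν p : E n) (t : ℝ) (x : E n) :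
    E n :=
  G.ex p ((1 - t * th Φ R ν (G.lg p x)) • G.lg p x)

/-- Certificate for the isoperimetric inequality in dimension `n`. -/
structure Cert (n : ℕ) where
  lam : ℝ
  s : ℝ
  F : ℝ
  f : ℝ → ℝ
  lam_pos : 0 < lam
  s_nonneg : 0 ≤ s
  f_cont : Continuous f
  f_nonneg : ∀ a ∈ Icc (0 : ℝ) 1, 0 ≤ f a
  hF : ∀ e : E n, ‖e‖ = 1 →
    ∫ u : sphere (0 : E n) 1, f (max 0 (inner ℝ e (u : E n))) * max 0 (inner ℝ e (u : E n))
      ∂((volume : Measure (E n)).toSphere) ≤ F * sig n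
  balance : s / n - F = lam
  approx : ∀ ε > 0, ∃ Φ : ℝ × ℝ → ℝ, ∃ δ > 0, ContDiffOn ℝ ∞ Φ {p | -δ < p.1} ∧
    (∀ p : ℝ × ℝ, 0 ≤ p.1 → 0 ≤ Φ p) ∧
    (∀ r a b : ℝ, 0 ≤ r → |a| ≤ 1 → |b| ≤ 1 → 0 ≤ ker (n - 1) Φ (lam + ε) r a b) ∧
    (∀ r a b : ℝ, 0 < r → 0 ≤ a → a ≤ 1 → 0 ≤ b → b ≤ 1 →
      a * b * (s * r - (f a + f b) / 2 - ε) ≤ ker (n - 1) Φ (lam + ε) r a b * r ^ (n - 1))

end Vale.Agent.P219.TP
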