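import Vale.Agent.P219.TP.Reg

/-! # Smooth gluing of two fields at `ρ = 2` -/

open MeasureTheory Set Metric Filter Topology
open scoped ENNReal ContDiff

namespace Vale.Agent.P219.TP

theorem smoothTransition_symm (x : ℝ) :
    Real.smoothTransition x + Real.smoothTransition (1 - x) = 1 := by
  unfold Real.smoothTransition
  have h := Real.smoothTransition.pos_denom x
  rw [show 1 - (1 - x) = x by ring, add_comm (expNegInvGlue (1 - x)) (expNegInvGlue x),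
    ← add_div, div_self h.ne']

/-- The slope of the smooth positive part. -/
noncomputable def thd (δ u : ℝ) : ℝ := Real.smoothTransition ((u + δ) / (2 * δ))

/-- The smooth positive part. -/
noncomputable def sgd (δ u : ℝ) : ℝ := ∫ v in (-δ)..u, thd δ v

theorem thd_nonneg (δ u : ℝ) : 0 ≤ thd δ u := Real.smoothTransition.nonneg _

theorem thd_le_one (δ u : ℝ) : thd δ u ≤ 1 := Real.smoothTransition.le_one _

theorem thd_zero {δ u : ℝ} (hδ : 0 < δ) (h : u ≤ -δ) : thd δ u = 0 :=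
  Real.smoothTransition.zero_of_nonpos (div_nonpos_of_nonpos_of_nonneg (by linarith) (by linarith))

theorem thd_one {δ u : ℝ} (hδ : 0 < δ) (h : δ ≤ u) : thd δ u = 1 := by
  refine Real.smoothTransition.one_of_one_le ?_
  rw [le_div_iff₀ (by linarith)]; linarith

theorem contDiff_thd (δ : ℝ) : ContDiff ℝ ∞ (thd δ) :=
  Real.smoothTransition.contDiff.comp ((contDiff_id.add contDiff_const).div_const _)

theorem continuous_thd (δ : ℝ) : Continuous (thd δ) := (contDiff_thd δ).continuous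

theorem thd_symm {δ : ℝ} (hδ : 0 < δ) (u : ℝ) : thd δ u + thd δ (-u) = 1 := by
  have h := smoothTransition_symm ((u + δ) / (2 * δ))
  have e : 1 - (u + δ) / (2 * δ) = (-u + δ) / (2 * δ) := by field_simp; ring
  rw [e] at h
  exact h

theorem hasDerivAt_sgd (δ u : ℝ) : HasDerivAt (sgd δ) (thd δ u) u :=
  ((continuous_thd δ).integral_hasStrictDerivAt (-δ) u).hasDerivAt

theorem contDiff_sgd (δ : ℝ) : ContDiff ℝ ∞ (sgd δ) := by
  rw [contDiff_infty_iff_deriv]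
  refine ⟨fun u => (hasDerivAt_sgd δ u).differentiableAt, ?_⟩
  have : deriv (sgd δ) = thd δ := funext fun u => (hasDerivAt_sgd δ u).deriv
  rw [this]
  exact contDiff_thd δ

theorem sgd_mono {δ : ℝ} : Monotone (sgd δ) :=
  monotone_of_hasDerivAt_nonneg (fun u => hasDerivAt_sgd δ u) fun u => thd_nonneg δ u

theorem sgd_zero {δ u : ℝ} (hδ : 0 < δ) (h : u ≤ -δ) : sgd δ u = 0 := by
  unfold sgd
  rw [intervalIntegral.integral_symm]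
  have : ∫ v in u..(-δ), thd δ v = ∫ v in u..(-δ), (0 : ℝ) := by
    refine intervalIntegral.integral_congr fun v hv => ?_
    rw [uIcc_of_le h] at hv
    exact thd_zero hδ hv.2
  rw [this]; simp

theorem sgd_delta {δ : ℝ} (hδ : 0 < δ) : sgd δ δ = δ := by
  unfold sgd
  have h1 : ∫ v in (-δ)..δ, thd δ (-v) = ∫ v in (-δ)..δ, thd δ v := by
    rw [intervalIntegral.integral_comp_neg]; simp
  have hi : ∀ a b : ℝ, IntervalIntegrable (thd δ) volume a b :=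
    fun a b => (continuous_thd δ).intervalIntegrable a b
  have hi2 : IntervalIntegrable (fun v => thd δ (-v)) volume (-δ) δ :=
    ((continuous_thd δ).comp continuous_neg).intervalIntegrable _ _
  have h2 : ∫ v in (-δ)..δ, (thd δ v + thd δ (-v)) = ∫ v in (-δ)..δ, (1 : ℝ) :=
    intervalIntegral.integral_congr fun v _ => thd_symm hδ v
  rw [intervalIntegral.integral_add (hi _ _) hi2, h1, intervalIntegral.integral_const] at h2
  simp only [smul_eq_mul, mul_one] at h2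
  linarith

theorem sgd_id {δ u : ℝ} (hδ : 0 < δ) (h : δ ≤ u) : sgd δ u = u := by
  have hi : ∀ a b : ℝ, IntervalIntegrable (thd δ) volume a b :=
    fun a b => (continuous_thd δ).intervalIntegrable a b
  have h1 : sgd δ u = sgd δ δ + ∫ v in δ..u, thd δ v :=
    (intervalIntegral.integral_add_adjacent_intervals (hi _ _) (hi _ _)).symm
  have h2 : ∫ v in δ..u, thd δ v = ∫ v in δ..u, (1 : ℝ) := by
    refine intervalIntegral.integral_congr fun v hv => ?_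
    rw [uIcc_of_le h] at hv
    exact thd_one hδ hv.1
  rw [h1, sgd_delta hδ, h2, intervalIntegral.integral_const]
  simp

theorem sgd_nonneg {δ : ℝ} (hδ : 0 < δ) (u : ℝ) : 0 ≤ sgd δ u := by
  rcases le_or_gt u (-δ) with h | h
  · rw [sgd_zero hδ h]
  · have := sgd_mono (δ := δ) h.le
    rwa [sgd_zero hδ le_rfl] at this

theorem le_sgd {δ : ℝ} (hδ : 0 < δ) (u : ℝ) : u ≤ sgd δ u := by
  rcases le_or_gt δ u with h | h
  · rw [sgd_id hδ h]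
  · have hm : Monotone fun x => x - sgd δ x := by
      refine monotone_of_hasDerivAt_nonneg (f' := fun x => 1 - thd δ x) (fun x => ?_) fun x => ?_
      · exact (hasDerivAt_id x).sub (hasDerivAt_sgd δ x)
      · exact sub_nonneg.2 (thd_le_one δ x)
    have := hm h.le
    simp only [sgd_delta hδ] at this
    linarith

/-- Smooth `min ρ 2`. -/
noncomputable def lo (δ ρ : ℝ) : ℝ := 2 - sgd δ (2 - ρ)

/-- Smooth `max ρ 2`. -/
noncomputable def hi (δ ρ : ℝ) : ℝ := ρ + sgd δ (2 - ρ)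

theorem hasDerivAt_lo (δ ρ : ℝ) : HasDerivAt (lo δ) (thd δ (2 - ρ)) ρ := by
  have h1 : HasDerivAt (fun x : ℝ => 2 - x) (-1) ρ := by
    simpa using (hasDerivAt_id ρ).const_sub 2
  have h2 : HasDerivAt (fun x : ℝ => sgd δ (2 - x)) (thd δ (2 - ρ) * -1) ρ :=
    HasDerivAt.comp ρ (hasDerivAt_sgd δ (2 - ρ)) h1
  have h3 := h2.const_sub 2
  refine h3.congr_deriv ?_
  ring

theorem hasDerivAt_hi (δ ρ : ℝ) : HasDerivAt (hi δ) (1 - thd δ (2 - ρ)) ρ := by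
  have h1 : HasDerivAt (fun x : ℝ => 2 - x) (-1) ρ := by
    simpa using (hasDerivAt_id ρ).const_sub 2
  have h2 : HasDerivAt (fun x : ℝ => sgd δ (2 - x)) (thd δ (2 - ρ) * -1) ρ :=
    HasDerivAt.comp ρ (hasDerivAt_sgd δ (2 - ρ)) h1
  have h3 := (hasDerivAt_id ρ).add h2
  refine h3.congr_deriv ?_
  ring

theorem contDiff_lo (δ : ℝ) : ContDiff ℝ ∞ (lo δ) :=
  contDiff_const.sub ((contDiff_sgd δ).comp (contDiff_const.sub contDiff_id))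

theorem contDiff_hi (δ : ℝ) : ContDiff ℝ ∞ (hi δ) :=
  contDiff_id.add ((contDiff_sgd δ).comp (contDiff_const.sub contDiff_id))

theorem lo_left {δ ρ : ℝ} (hδ : 0 < δ) (h : ρ ≤ 2 - δ) : lo δ ρ = ρ := by
  unfold lo; rw [sgd_id hδ (by linarith)]; ring

theorem hi_left {δ ρ : ℝ} (hδ : 0 < δ) (h : ρ ≤ 2 - δ) : hi δ ρ = 2 := by
  unfold hi; rw [sgd_id hδ (by linarith)]; ring

theorem lo_right {δ ρ : ℝ} (hδ : 0 < δ) (h : 2 + δ ≤ ρ) : lo δ ρ = 2 := by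
  unfold lo; rw [sgd_zero hδ (by linarith)]; ring

theorem hi_right {δ ρ : ℝ} (hδ : 0 < δ) (h : 2 + δ ≤ ρ) : hi δ ρ = ρ := by
  unfold hi; rw [sgd_zero hδ (by linarith)]; ring

theorem lo_le {δ : ℝ} (hδ : 0 < δ) (ρ : ℝ) : lo δ ρ ≤ 2 := by
  unfold lo; linarith [sgd_nonneg hδ (2 - ρ)]

theorem le_hi {δ : ℝ} (hδ : 0 < δ) (ρ : ℝ) : 2 ≤ hi δ ρ := by
  unfold hi; linarith [le_sgd hδ (2 - ρ)]

theorem lo_mid {δ ρ : ℝ} (hδ : 0 < δ) (h : 2 - δ < ρ) : 2 - δ ≤ lo δ ρ := by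
  have h1 : sgd δ (2 - ρ) ≤ δ := by
    have := sgd_mono (δ := δ) (show 2 - ρ ≤ δ by linarith)
    rwa [sgd_delta hδ] at this
  unfold lo; linarith

theorem hi_mid {δ ρ : ℝ} (hδ : 0 < δ) (h : 2 - δ < ρ) (h' : ρ < 2 + δ) : hi δ ρ ≤ 2 + 2 * δ := by
  have h1 : sgd δ (2 - ρ) ≤ δ := by
    have := sgd_mono (δ := δ) (show 2 - ρ ≤ δ by linarith)
    rwa [sgd_delta hδ] at this
  unfold hi; linarith

theorem lo_pos {δ ρ : ℝ} (hδ : 0 < δ) (hδ1 : δ ≤ 1) (h : 0 < ρ) : 0 < lo δ ρ := by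
  rcases le_or_gt ρ (2 - δ) with h1 | h1
  · rwa [lo_left hδ h1]
  · linarith [lo_mid hδ h1]

/-- Continuity estimate for the kernel near `ρ = 2`, `w = 0`. -/
theorem skx_near {m : ℕ} {v v' w w' v0 v0' w0' ρ a b κ δ : ℝ} (ha : |a| ≤ 1) (hb : |b| ≤ 1)
    (hρ1 : 1 ≤ ρ) (hρ2 : |ρ - 2| ≤ δ) (hm : 1 ≤ m) (h1 : |v - v0| ≤ κ) (h2 : |v' - v0'| ≤ κ)
    (h3 : |w| ≤ κ) (h4 : |w' - w0'| ≤ κ) :
    skx m v0 v0' 0 w0' 2 a b - ((4 * m + 4) * κ + m * |v0| * δ) ≤ skx m v v' w w' ρ a b := by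
  have hρ0 : 0 < ρ := by linarith
  have hm' : (1 : ℝ) ≤ m := by exact_mod_cast hm
  have hκ : 0 ≤ κ := (abs_nonneg _).trans h3
  have hδ : 0 ≤ δ := (abs_nonneg _).trans hρ2
  have ha2 : a ^ 2 ≤ 1 := by nlinarith [sq_abs a, abs_nonneg a]
  have hb2 : b ^ 2 ≤ 1 := by nlinarith [sq_abs b, abs_nonneg b]
  have hb0 : 0 ≤ b ^ 2 := sq_nonneg b
  have ha0 : 0 ≤ a ^ 2 := sq_nonneg a
  -- first term
  have t1 : |(v' - v0') - a * (w' - w0')| ≤ 2 * κ := by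
    calc |(v' - v0') - a * (w' - w0')| ≤ |v' - v0'| + |a * (w' - w0')| := abs_sub _ _
      _ ≤ κ + 1 * κ := by rw [abs_mul]; gcongr
      _ = 2 * κ := by ring
  have s1 : -(2 * κ) ≤ ((v' - v0') - a * (w' - w0')) * (1 - b ^ 2) := by
    have : |((v' - v0') - a * (w' - w0')) * (1 - b ^ 2)| ≤ 2 * κ := by
      rw [abs_mul, abs_of_nonneg (show 0 ≤ 1 - b ^ 2 by linarith)]
      calc |(v' - v0') - a * (w' - w0')| * (1 - b ^ 2) ≤ 2 * κ * 1 := by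
            gcongr; linarith
        _ = 2 * κ := by ring
    exact (abs_le.1 this).1
  have t2 : |(v - v0) - a * w| ≤ 2 * κ := by
    calc |(v - v0) - a * w| ≤ |v - v0| + |a * w| := abs_sub _ _
      _ ≤ κ + 1 * κ := by rw [abs_mul]; gcongr
      _ = 2 * κ := by ring
  have hinv : ρ⁻¹ ≤ 1 := inv_le_one_of_one_le₀ hρ1
  have t3 : |(v - a * w) / ρ - v0 / 2| ≤ 2 * κ + |v0| * δ := by
    have e : (v - a * w) / ρ - v0 / 2 = ((v - v0) - a * w) * ρ⁻¹ - v0 * ((ρ - 2) * (ρ⁻¹ / 2)) := by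
      field_simp; ring
    rw [e]
    calc |((v - v0) - a * w) * ρ⁻¹ - v0 * ((ρ - 2) * (ρ⁻¹ / 2))| ≤
        |((v - v0) - a * w) * ρ⁻¹| + |v0 * ((ρ - 2) * (ρ⁻¹ / 2))| := abs_sub _ _
      _ = |(v - v0) - a * w| * ρ⁻¹ + |v0| * (|ρ - 2| * (ρ⁻¹ / 2)) := by
          rw [abs_mul, abs_mul, abs_mul, abs_of_pos (inv_pos.2 hρ0),
            abs_of_pos (show 0 < ρ⁻¹ / 2 by positivity)]
      _ ≤ 2 * κ * 1 + |v0| * (δ * 1) := by
          gcongr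
          linarith [inv_pos.2 hρ0]
      _ = 2 * κ + |v0| * δ := by ring
  have s2 : -(m * (2 * κ + |v0| * δ)) ≤ ((v - a * w) / ρ - v0 / 2) * (m - 1 + b ^ 2) := by
    have h0 : 0 ≤ (m : ℝ) - 1 + b ^ 2 := by linarith
    have : |((v - a * w) / ρ - v0 / 2) * (m - 1 + b ^ 2)| ≤ m * (2 * κ + |v0| * δ) := by
      rw [abs_mul, abs_of_nonneg h0]
      calc |(v - a * w) / ρ - v0 / 2| * (m - 1 + b ^ 2) ≤ (2 * κ + |v0| * δ) * m := by
            gcongr; linarith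
        _ = m * (2 * κ + |v0| * δ) := by ring
    exact (abs_le.1 this).1
  have s3 : m * (((v - v0) - a * w) * b) ≤ m * (2 * κ) := by
    have : |((v - v0) - a * w) * b| ≤ 2 * κ := by
      rw [abs_mul]
      calc |(v - v0) - a * w| * |b| ≤ 2 * κ * 1 := by gcongr
        _ = 2 * κ := by ring
    exact mul_le_mul_of_nonneg_left ((le_abs_self _).trans this) (by linarith)
  have s4 : w / ρ * |b| * (1 - (a ^ 2 + b ^ 2) / 2) ≤ κ := by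
    have h5 : |w / ρ * |b| * (1 - (a ^ 2 + b ^ 2) / 2)| ≤ κ := by
      rw [abs_mul, abs_mul, abs_div, abs_abs, abs_of_pos hρ0,
        abs_of_nonneg (show 0 ≤ 1 - (a ^ 2 + b ^ 2) / 2 by linarith)]
      calc |w| / ρ * |b| * (1 - (a ^ 2 + b ^ 2) / 2) ≤ κ / 1 * 1 * 1 := by
            gcongr <;> linarith
        _ = κ := by ring
    exact (le_abs_self _).trans h5
  unfold skx
  have e : (v' - a * w') * (1 - b ^ 2) + (v - a * w) / ρ * (m - 1 + b ^ 2) -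
      m * ((v - a * w) * b) - w / ρ * |b| * (1 - (a ^ 2 + b ^ 2) / 2) =
      ((v0' - a * w0') * (1 - b ^ 2) + (v0 - a * 0) / 2 * (m - 1 + b ^ 2) -
        m * ((v0 - a * 0) * b) - 0 / 2 * |b| * (1 - (a ^ 2 + b ^ 2) / 2)) +
      ((v' - v0') - a * (w' - w0')) * (1 - b ^ 2) +
      ((v - a * w) / ρ - v0 / 2) * (m - 1 + b ^ 2) - m * (((v - v0) - a * w) * b) -
      w / ρ * |b| * (1 - (a ^ 2 + b ^ 2) / 2) := by ring
  rw [e]
  nlinarith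

theorem sk_near {m : ℕ} {v v' w w' v0 v0' w0' ρ a b κ δ : ℝ} (ha : |a| ≤ 1) (hb : |b| ≤ 1)
    (hρ1 : 1 ≤ ρ) (hρ2 : |ρ - 2| ≤ δ) (hm : 1 ≤ m) (h1 : |v - v0| ≤ κ) (h2 : |v' - v0'| ≤ κ)
    (h3 : |w| ≤ κ) (h4 : |w' - w0'| ≤ κ) :
    sk m v0 v0' 0 w0' 2 a b - ((4 * m + 4) * κ + m * |v0| * δ) ≤ sk m v v' w w' ρ a b := by
  have e1 := skx_near ha hb hρ1 hρ2 hm h1 h2 h3 h4
  have e2 := skx_near hb ha hρ1 hρ2 hm h1 h2 h3 h4
  unfold sk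
  linarith

theorem sk_mix {m : ℕ} (v0 x y z θ a b : ℝ) :
    sk m v0 (x * θ + y * (1 - θ)) 0 (z * θ) 2 a b =
      θ * sk m v0 x 0 z 2 a b + (1 - θ) * sk m v0 y 0 0 2 a b := by
  unfold sk skx
  ring

theorem glue_pi {m : ℕ} {s ε κs p F ρ δ : ℝ} (hs : 0 ≤ s) (hε : 0 < ε) (hm : 1 ≤ m)
    (hκs0 : 0 ≤ κs) (hp : 0 ≤ p) (hp1 : p ≤ 1) (hF : 0 ≤ F)
    (hX : p * (s * 2 - F) ≤ κs * 2 ^ m) (hρ1 : 1 ≤ ρ) (hδ : 0 ≤ δ) (hρl : 2 - δ ≤ ρ)
    (hρr : ρ ≤ 2 + δ) (hδ3 : s * (m + 1) * δ ≤ ε / 2) :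
    p * (s * ρ - F) ≤ (κs + ε / 2) * ρ ^ m := by
  have hm' : (1 : ℝ) ≤ m := by exact_mod_cast hm
  have hρm1 : 1 ≤ ρ ^ m := one_le_pow₀ hρ1
  rcases le_or_gt 2 ρ with h8 | h8
  · have h9 : (2 : ℝ) ^ m ≤ ρ ^ m := by gcongr
    have h10 : κs * 2 ^ m ≤ κs * ρ ^ m := mul_le_mul_of_nonneg_left h9 hκs0
    have h11 : ε / 2 * 1 ≤ ε / 2 * ρ ^ m := mul_le_mul_of_nonneg_left hρm1 (by linarith)
    have h12 : p * (s * ρ - F) ≤ p * (s * 2 - F) + ε / 2 := by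
      have : p * (s * (ρ - 2)) ≤ 1 * (s * δ) := by
        gcongr; linarith
      have h13 : s * δ ≤ s * (m + 1) * δ := by
        have : 0 ≤ s * δ * m := by positivity
        linarith
      linarith
    linarith
  · have h9 : (ρ / 2) ^ m ≤ 1 := pow_le_one₀ (by linarith) (by linarith)
    have h10 : 1 - m * (1 - ρ / 2) ≤ (ρ / 2) ^ m := by
      have := one_add_mul_le_pow (a := ρ / 2 - 1) (by linarith) m
      rw [show 1 + (ρ / 2 - 1) = ρ / 2 by ring] at this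
      linarith
    have h11 : (ρ / 2) ^ m * 2 ^ m = ρ ^ m := by rw [← mul_pow]; congr 1; ring
    have h12 : p * (s * 2 - F) * (ρ / 2) ^ m ≤ κs * ρ ^ m := by
      calc p * (s * 2 - F) * (ρ / 2) ^ m ≤ κs * 2 ^ m * (ρ / 2) ^ m :=
            mul_le_mul_of_nonneg_right hX (by positivity)
        _ = κs * ρ ^ m := by rw [← h11]; ring
    have h13 : p * (s * ρ - F) ≤ p * (s * 2 - F) := by
      refine mul_le_mul_of_nonneg_left ?_ hp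
      have : s * ρ ≤ s * 2 := by gcongr
      linarith
    have h14 : ε / 2 * 1 ≤ ε / 2 * ρ ^ m := mul_le_mul_of_nonneg_left hρm1 (by linarith)
    set X := p * (s * 2 - F) with hXd
    have hXs : X ≤ 2 * s := by
      calc X ≤ p * (s * 2) := mul_le_mul_of_nonneg_left (by linarith) hp
        _ ≤ 1 * (s * 2) := mul_le_mul_of_nonneg_right hp1 (by linarith)
        _ = 2 * s := by ring
    have h17 : X - ε / 2 ≤ X * (ρ / 2) ^ m := by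
      rcases le_or_gt X 0 with hX0 | hX0
      · have : X * 1 ≤ X * (ρ / 2) ^ m := mul_le_mul_of_nonpos_left h9 hX0
        linarith
      · have h18 : X * (1 - (ρ / 2) ^ m) ≤ 2 * s * (m * (1 - ρ / 2)) := by
          refine mul_le_mul hXs (by linarith) (by linarith) (by linarith)
        have h19 : 2 * s * (m * (1 - ρ / 2)) ≤ s * (m + 1) * δ := by
          have : (m : ℝ) * (1 - ρ / 2) ≤ m * (δ / 2) := by
            refine mul_le_mul_of_nonneg_left (by linarith) (by linarith)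
          have h20 : 2 * s * (m * (1 - ρ / 2)) ≤ 2 * s * (m * (δ / 2)) :=
            mul_le_mul_of_nonneg_left this (by linarith)
          have : 0 ≤ s * δ := by positivity
          linarith
        linarith
    linarith

theorem glue_h1 {x y z x0 y0 z0 θ w v ρ κ C : ℝ} (t0 : 0 ≤ θ) (t1 : θ ≤ 1) (hρ1 : 1 ≤ ρ)
    (hκ1 : κ ≤ 1) (m3 : |x * θ + y * (1 - θ) - (x0 * θ + y0 * (1 - θ))| ≤ κ)
    (m4 : |z * θ - z0 * θ| ≤ κ) (hw : w ≤ 1) (hv : 0 ≤ v) (hC : 0 ≤ C) :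
    x * θ + y * (1 - θ) + |z * θ| + 2 * w / ρ ≤ v / ρ + (C + |x0| + |y0| + |z0| + 4) * ρ ^ 2 := by
  have hρ : 0 < ρ := by linarith
  have hρ3 : 1 ≤ ρ ^ 2 := by nlinarith
  have a3 := (abs_le.1 m3).2
  have b1 : x0 * θ ≤ |x0| := by
    calc x0 * θ ≤ |x0| * θ := mul_le_mul_of_nonneg_right (le_abs_self _) t0
      _ ≤ |x0| * 1 := mul_le_mul_of_nonneg_left t1 (abs_nonneg _)
      _ = |x0| := mul_one _
  have b2 : y0 * (1 - θ) ≤ |y0| := by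
    calc y0 * (1 - θ) ≤ |y0| * (1 - θ) :=
          mul_le_mul_of_nonneg_right (le_abs_self _) (by linarith)
      _ ≤ |y0| * 1 := mul_le_mul_of_nonneg_left (by linarith) (abs_nonneg _)
      _ = |y0| := mul_one _
  have b3 : |z * θ| ≤ |z0| + κ := by
    have e : z * θ = z0 * θ + (z * θ - z0 * θ) := by ring
    rw [e]
    refine (abs_add_le _ _).trans (add_le_add ?_ m4)
    rw [abs_mul, abs_of_nonneg t0]
    calc |z0| * θ ≤ |z0| * 1 := mul_le_mul_of_nonneg_left t1 (abs_nonneg _)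
      _ = |z0| := mul_one _
  have b4 : 2 * w / ρ ≤ 2 := by
    rw [div_le_iff₀ hρ]
    linarith
  have b5 : 0 ≤ v / ρ := div_nonneg hv hρ.le
  have b6 : C + |x0| + |y0| + |z0| + 4 ≤ (C + |x0| + |y0| + |z0| + 4) * ρ ^ 2 :=
    le_mul_of_one_le_right (by positivity) hρ3
  linarith

theorem glue_near {g : ℝ → ℝ} {κ : ℝ} (hκ : 0 < κ) (hg : ContinuousAt g 2) :
    ∃ δ > 0, ∀ x, |x - 2| < δ → |g x - g 2| < κ := by
  obtain ⟨δ, hδ, h⟩ := Metric.continuousAt_iff.1 hg κ hκ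
  exact ⟨δ, hδ, fun x hx => by simpa [Real.dist_eq] using h (by simpa [Real.dist_eq] using hx)⟩

theorem glue_delta {D A B ε : ℝ} (hD : 0 < D) (hA : 0 ≤ A) (hB : 0 ≤ B) (hε : 0 < ε) :
    ∃ δ : ℝ, 0 < δ ∧ δ ≤ 1 / 2 ∧ 3 * δ ≤ D ∧ A * δ ≤ ε / 4 ∧ B * δ ≤ ε / 2 := by
  refine ⟨min (1 / 2) (min (D / 3) (min (ε / (4 * (A + 1))) (ε / (2 * (B + 1))))),
    by positivity, min_le_left _ _, ?_, ?_, ?_⟩
  · have h : min (1 / 2) (min (D / 3) (min (ε / (4 * (A + 1))) (ε / (2 * (B + 1))))) ≤ D / 3 :=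
      (min_le_right _ _).trans (min_le_left _ _)
    linarith
  · have h : min (1 / 2) (min (D / 3) (min (ε / (4 * (A + 1))) (ε / (2 * (B + 1))))) ≤
        ε / (4 * (A + 1)) := (min_le_right _ _).trans ((min_le_right _ _).trans (min_le_left _ _))
    set x := min (1 / 2) (min (D / 3) (min (ε / (4 * (A + 1))) (ε / (2 * (B + 1)))))
    have hx : 0 < x := by positivity
    rw [le_div_iff₀ (by positivity)] at h
    nlinarith
  · have h : min (1 / 2) (min (D / 3) (min (ε / (4 * (A + 1))) (ε / (2 * (B + 1))))) ≤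
        ε / (2 * (B + 1)) := (min_le_right _ _).trans ((min_le_right _ _).trans (min_le_right _ _))
    set x := min (1 / 2) (min (D / 3) (min (ε / (4 * (A + 1))) (ε / (2 * (B + 1)))))
    have hx : 0 < x := by positivity
    rw [le_div_iff₀ (by positivity)] at h
    nlinarith

theorem glue_mid {Vi Wi Vo Vi' Wi' Vo' : ℝ → ℝ} {κ A B ε : ℝ} (hκ : 0 < κ)
    (cv : ContinuousAt Vi 2) (cw : ContinuousAt Wi 2) (co : ContinuousAt Vo 2)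
    (cVi : ContinuousAt Vi' 2) (cWi : ContinuousAt Wi' 2) (cVo : ContinuousAt Vo' 2)
    (h2 : Vi 2 = Vo 2) (hW2 : Wi 2 = 0) (hA : 0 ≤ A) (hB : 0 ≤ B) (hε : 0 < ε) :
    ∃ δ : ℝ, 0 < δ ∧ δ ≤ 1 / 2 ∧ A * δ ≤ ε / 4 ∧ B * δ ≤ ε / 2 ∧ ∀ ρ, 2 - δ < ρ → ρ < 2 + δ →
      |Vi (lo δ ρ) + Vo (hi δ ρ) - Vi 2 - Vi 2| ≤ 2 * κ ∧ |Wi (lo δ ρ)| ≤ κ ∧
      |Vi' (lo δ ρ) * thd δ (2 - ρ) + Vo' (hi δ ρ) * (1 - thd δ (2 - ρ)) -
        (Vi' 2 * thd δ (2 - ρ) + Vo' 2 * (1 - thd δ (2 - ρ)))| ≤ κ ∧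
      |Wi' (lo δ ρ) * thd δ (2 - ρ) - Wi' 2 * thd δ (2 - ρ)| ≤ κ := by
  obtain ⟨d1, hd1, n1⟩ := glue_near hκ cv
  obtain ⟨d2, hd2, n2⟩ := glue_near hκ cw
  obtain ⟨d3, hd3, n3⟩ := glue_near hκ co
  obtain ⟨d4, hd4, n4⟩ := glue_near hκ cVi
  obtain ⟨d5, hd5, n5⟩ := glue_near hκ cWi
  obtain ⟨d6, hd6, n6⟩ := glue_near hκ cVo
  obtain ⟨D, hD0, hD1, hD2, hD3, hD4, hD5, hD6⟩ : ∃ D > 0, D ≤ d1 ∧ D ≤ d2 ∧ D ≤ d3 ∧ D ≤ d4 ∧
      D ≤ d5 ∧ D ≤ d6 := by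
    refine ⟨min d1 (min d2 (min d3 (min d4 (min d5 d6)))), by positivity, ?_, ?_, ?_, ?_, ?_, ?_⟩
      <;> simp
  obtain ⟨δ, hδ, hδ1, hδD, hδ2, hδ3⟩ := glue_delta hD0 hA hB hε
  refine ⟨δ, hδ, hδ1, hδ2, hδ3, ?_⟩
  intro ρ h h'
  have l1 := lo_mid hδ h
  have l2 := lo_le hδ ρ
  have l3 := le_hi hδ ρ
  have l4 := hi_mid hδ h h'
  have hlo : |lo δ ρ - 2| < D := by rw [abs_lt]; constructor <;> linarith
  have hhi : |hi δ ρ - 2| < D := by rw [abs_lt]; constructor <;> linarith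
  have t0 := thd_nonneg δ (2 - ρ)
  have t1 := thd_le_one δ (2 - ρ)
  set θ := thd δ (2 - ρ)
  have b1 := (n1 _ (hlo.trans_le hD1)).le
  have b2 := (n2 _ (hlo.trans_le hD2)).le
  have b3 := (n3 _ (hhi.trans_le hD3)).le
  have b4 := (n4 _ (hlo.trans_le hD4)).le
  have b5 := (n5 _ (hlo.trans_le hD5)).le
  have b6 := (n6 _ (hhi.trans_le hD6)).le
  rw [hW2, sub_zero] at b2
  refine ⟨?_, b2, ?_, ?_⟩
  · have e : Vi (lo δ ρ) + Vo (hi δ ρ) - Vi 2 - Vi 2 = (Vi (lo δ ρ) - Vi 2) +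
        (Vo (hi δ ρ) - Vo 2) := by rw [h2]; ring
    rw [e]
    refine (abs_add_le _ _).trans ?_
    linarith
  · have e : Vi' (lo δ ρ) * θ + Vo' (hi δ ρ) * (1 - θ) - (Vi' 2 * θ + Vo' 2 * (1 - θ)) =
        (Vi' (lo δ ρ) - Vi' 2) * θ + (Vo' (hi δ ρ) - Vo' 2) * (1 - θ) := by ring
    rw [e]
    refine (abs_add_le _ _).trans ?_
    rw [abs_mul, abs_mul, abs_of_nonneg t0, abs_of_nonneg (sub_nonneg.2 t1)]
    have c1 := mul_le_mul_of_nonneg_right b4 t0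
    have c2 := mul_le_mul_of_nonneg_right b6 (sub_nonneg.2 t1)
    linarith
  · rw [← sub_mul, abs_mul, abs_of_nonneg t0]
    have c1 := mul_le_mul_of_nonneg_right b5 t0
    have c2 := mul_le_mul_of_nonneg_left t1 hκ.le
    linarith

/-- The hypotheses on the inner field. -/
def InOK (m : ℕ) (lam s : ℝ) (f : ℝ → ℝ) (C v v' w w' ρ : ℝ) : Prop :=
  0 ≤ w ∧ 11 / 10 * w ≤ v ∧ v' + |w'| + 2 * w / ρ ≤ v / ρ + C * ρ ^ 2 ∧
    (∀ a b : ℝ, |a| ≤ 1 → |b| ≤ 1 → 0 ≤ lam + sk m v v' w w' ρ a b) ∧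
    (∀ a b : ℝ, 0 ≤ a → a ≤ 1 → 0 ≤ b → b ≤ 1 → a * b * (s * ρ - (f a + f b) / 2) ≤
      (lam + sk m v v' w w' ρ a b) * ρ ^ m)

theorem InOK.mono {m : ℕ} {lam s : ℝ} {f : ℝ → ℝ} {C C' v v' w w' ρ ε : ℝ}
    (h : InOK m lam s f C v v' w w' ρ) (hC : C ≤ C') (hε : 0 ≤ ε) (hρ : 0 < ρ) :
    InOK m (lam + ε) s f C' v v' w w' ρ := by
  obtain ⟨h1, h2, h3, h4, h5⟩ := h
  have hρm : 0 ≤ ρ ^ m := by positivity
  refine ⟨h1, h2, ?_, ?_, ?_⟩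
  · have := mul_le_mul_of_nonneg_right hC (sq_nonneg ρ)
    linarith
  · intro a b ha hb
    linarith [h4 a b ha hb]
  · intro a b ha ha1 hb hb1
    have := h5 a b ha ha1 hb hb1
    have := mul_nonneg hε hρm
    linarith

theorem glue_middle {m : ℕ} (hm : 1 ≤ m) {lam s : ℝ} {f : ℝ → ℝ} (hs : 0 ≤ s)
    (hf : ∀ a, 0 ≤ a → a ≤ 1 → 0 ≤ f a) {C v v' w w' v0 x0 y0 z0 x y z θ κ ε δ ρ : ℝ}
    (hC : 0 ≤ C) (hε : 0 < ε) (hκ : 0 < κ) (hκ1 : κ ≤ 1) (hκ2 : κ ≤ v0 / 8)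
    (hκ3 : (4 * m + 4) * (2 * κ) ≤ ε / 4) (hδ : 0 < δ) (hδ1 : δ ≤ 1 / 2)
    (hδ2 : m * |v0| * δ ≤ ε / 4) (hδ3 : s * (m + 1) * δ ≤ ε / 2)
    (hl : 2 - δ < ρ) (hr : ρ < 2 + δ) (t0 : 0 ≤ θ) (t1 : θ ≤ 1) (hw0 : 0 ≤ w)
    (m1 : |v - v0| ≤ 2 * κ) (m2 : |w| ≤ κ) (hv' : v' = x * θ + y * (1 - θ)) (hw' : w' = z * θ)
    (m3 : |x * θ + y * (1 - θ) - (x0 * θ + y0 * (1 - θ))| ≤ κ) (m4 : |z * θ - z0 * θ| ≤ κ)
    (kin : ∀ a b : ℝ, |a| ≤ 1 → |b| ≤ 1 → 0 ≤ lam + sk m v0 x0 0 z0 2 a b)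
    (pin : ∀ a b : ℝ, 0 ≤ a → a ≤ 1 → 0 ≤ b → b ≤ 1 → a * b * (s * 2 - (f a + f b) / 2) ≤
      (lam + sk m v0 x0 0 z0 2 a b) * 2 ^ m)
    (kout : ∀ a b : ℝ, |a| ≤ 1 → |b| ≤ 1 → 0 ≤ lam + sk m v0 y0 0 0 2 a b)
    (pout : ∀ a b : ℝ, 0 ≤ a → a ≤ 1 → 0 ≤ b → b ≤ 1 → a * b * (s * 2 - (f a + f b) / 2) ≤
      (lam + sk m v0 y0 0 0 2 a b) * 2 ^ m) :
    InOK m (lam + ε) s f (C + |x0| + |y0| + |z0| + 4) v v' w w' ρ := by
  have hρ1 : 1 ≤ ρ := by linarith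
  have hρ2 : |ρ - 2| ≤ δ := by rw [abs_le]; constructor <;> linarith
  have a1 := (abs_le.1 m1).1
  have a2 := (abs_le.1 m2).2
  have hK : ∀ a b : ℝ, |a| ≤ 1 → |b| ≤ 1 →
      (θ * (lam + sk m v0 x0 0 z0 2 a b) + (1 - θ) * (lam + sk m v0 y0 0 0 2 a b)) + ε / 2 ≤
      lam + ε + sk m v v' w w' ρ a b := by
    intro a b ha hb
    have h3 := sk_near (m := m) ha hb hρ1 hρ2 hm m1 (m3.trans (by linarith))
      (m2.trans (by linarith : κ ≤ 2 * κ)) (m4.trans (by linarith))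
    have h4 := sk_mix (m := m) v0 x0 y0 z0 θ a b
    rw [h4, ← hv', ← hw'] at h3
    linarith
  refine ⟨hw0, by linarith, ?_, ?_, ?_⟩
  · rw [hv', hw']
    exact glue_h1 t0 t1 hρ1 hκ1 m3 m4 (a2.trans hκ1) (by linarith) hC
  · intro a b ha hb
    have h3 := hK a b ha hb
    have h4 := mul_nonneg t0 (kin a b ha hb)
    have h5 := mul_nonneg (sub_nonneg.2 t1) (kout a b ha hb)
    linarith
  · intro a b ha ha1 hb hb1
    have haa : |a| ≤ 1 := by rwa [abs_of_nonneg ha]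
    have hbb : |b| ≤ 1 := by rwa [abs_of_nonneg hb]
    have hab : 0 ≤ a * b := mul_nonneg ha hb
    have hab1 : a * b ≤ 1 := mul_le_one₀ ha1 hb hb1
    have hρm : 0 ≤ ρ ^ m := by positivity
    have h3 := hK a b haa hbb
    have h4 := mul_nonneg t0 (kin a b haa hbb)
    have h5 := mul_nonneg (sub_nonneg.2 t1) (kout a b haa hbb)
    have h6 := mul_le_mul_of_nonneg_left (pin a b ha ha1 hb hb1) t0
    have h7 := mul_le_mul_of_nonneg_left (pout a b ha ha1 hb hb1) (sub_nonneg.2 t1)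
    have h8 := hf a ha ha1
    have h9 := hf b hb hb1
    refine le_trans (glue_pi hs hε hm (κs := θ * (lam + sk m v0 x0 0 z0 2 a b) +
      (1 - θ) * (lam + sk m v0 y0 0 0 2 a b)) (by linarith) hab hab1 (by linarith) (by linarith)
      hρ1 hδ.le hl.le hr.le hδ3) (mul_le_mul_of_nonneg_right h3 hρm)

/-- Gluing of the fields `V_i - a W_i` on `(0,2]` and `V_o` on `[2,∞)`. -/
theorem glue {m : ℕ} (hm : 1 ≤ m) {lam s : ℝ} {f : ℝ → ℝ} (hs : 0 ≤ s)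
    (hf : ∀ a, 0 ≤ a → a ≤ 1 → 0 ≤ f a)
    {Vi Wi Vo Vi' Wi' Vo' : ℝ → ℝ} {C : ℝ} (hC : 0 ≤ C)
    (sVi : ContDiffOn ℝ ∞ Vi (Ioi 0)) (sWi : ContDiffOn ℝ ∞ Wi (Ioi 0))
    (sVo : ContDiffOn ℝ ∞ Vo (Ioi 0))
    (dVi : ∀ ρ > 0, HasDerivAt Vi (Vi' ρ) ρ) (dWi : ∀ ρ > 0, HasDerivAt Wi (Wi' ρ) ρ)
    (dVo : ∀ ρ > 0, HasDerivAt Vo (Vo' ρ) ρ)
    (cVi : ContinuousAt Vi' 2) (cWi : ContinuousAt Wi' 2) (cVo : ContinuousAt Vo' 2)
    (h2 : Vi 2 = Vo 2) (hW2 : Wi 2 = 0) (hpos : 0 < Vi 2)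
    (hin : ∀ ρ, 0 < ρ → ρ ≤ 2 → InOK m lam s f C (Vi ρ) (Vi' ρ) (Wi ρ) (Wi' ρ) ρ)
    (hout : ∀ ρ, 2 ≤ ρ → InOK m lam s f C (Vo ρ) (Vo' ρ) 0 0 ρ) :
    ∀ ε > 0, RegData m lam s f ε := by
  intro ε hε
  have hm' : (1 : ℝ) ≤ m := by exact_mod_cast hm
  obtain ⟨κ, hκ, hκ1, hκ2, hκ3⟩ : ∃ κ : ℝ, 0 < κ ∧ κ ≤ 1 ∧ κ ≤ Vi 2 / 8 ∧
      (4 * m + 4) * (2 * κ) ≤ ε / 4 := by
    refine ⟨min 1 (min (Vi 2 / 8) (ε / (32 * (m + 1)))), by positivity, min_le_left _ _,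
      (min_le_right _ _).trans (min_le_left _ _), ?_⟩
    have h : min 1 (min (Vi 2 / 8) (ε / (32 * ((m : ℝ) + 1)))) ≤ ε / (32 * (m + 1)) :=
      (min_le_right _ _).trans (min_le_right _ _)
    rw [le_div_iff₀ (by positivity)] at h
    linarith
  obtain ⟨δ, hδ, hδ1, hδ2, hδ3, mid⟩ := glue_mid (A := m * |Vi 2|) (B := s * (m + 1)) (ε := ε) hκ
    (dVi 2 two_pos).continuousAt (dWi 2 two_pos).continuousAt (dVo 2 two_pos).continuousAt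
    cVi cWi cVo h2 hW2 (by positivity) (by positivity) hε
  have hδ01 : δ ≤ 1 := by linarith
  have hall : ∀ ρ > 0, InOK m (lam + ε) s f (C + |Vi' 2| + |Vo' 2| + |Wi' 2| + 4)
      (Vi (lo δ ρ) + Vo (hi δ ρ) - Vi 2)
      (Vi' (lo δ ρ) * thd δ (2 - ρ) + Vo' (hi δ ρ) * (1 - thd δ (2 - ρ)))
      (Wi (lo δ ρ)) (Wi' (lo δ ρ) * thd δ (2 - ρ)) ρ := by
    intro ρ hρ
    have hCC : C ≤ C + |Vi' 2| + |Vo' 2| + |Wi' 2| + 4 := by
      have h3 := abs_nonneg (Vi' 2)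
      have h4 := abs_nonneg (Vo' 2)
      have h5 := abs_nonneg (Wi' 2)
      linarith
    rcases le_or_gt ρ (2 - δ) with h | h
    · rw [lo_left hδ h, hi_left hδ h, thd_one hδ (by linarith), ← h2]
      simp only [mul_one, sub_self, mul_zero, add_zero, add_sub_cancel_right]
      exact (hin ρ hρ (by linarith)).mono hCC hε.le hρ
    rcases le_or_gt (2 + δ) ρ with h' | h'
    · rw [lo_right hδ h', hi_right hδ h', thd_zero hδ (by linarith), hW2]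
      simp only [mul_zero, zero_add, sub_zero, mul_one, add_sub_cancel_left]
      exact (hout ρ (by linarith)).mono hCC hε.le hρ
    · obtain ⟨m1, m2, m3, m4⟩ := mid ρ h h'
      obtain ⟨-, -, -, kin, pin⟩ := hin 2 two_pos le_rfl
      obtain ⟨-, -, -, kout, pout⟩ := hout 2 le_rfl
      rw [hW2] at kin pin
      rw [← h2] at kout pout
      exact glue_middle hm hs hf hC hε hκ hκ1 hκ2 hκ3 hδ hδ1 hδ2 hδ3 h h' (thd_nonneg _ _)
        (thd_le_one _ _) (hin _ (lo_pos hδ hδ01 hρ) (lo_le hδ ρ)).1 m1 m2 rfl rfl m3 m4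
        kin pin kout pout
  refine ⟨fun ρ => Vi (lo δ ρ) + Vo (hi δ ρ) - Vi 2, fun ρ => Wi (lo δ ρ),
    fun ρ => Vi' (lo δ ρ) * thd δ (2 - ρ) + Vo' (hi δ ρ) * (1 - thd δ (2 - ρ)),
    fun ρ => Wi' (lo δ ρ) * thd δ (2 - ρ), C + |Vi' 2| + |Vo' 2| + |Wi' 2| + 4, by positivity,
    ?_, ?_, ?_, ?_, ?_⟩
  · refine ContDiffOn.sub (ContDiffOn.add (sVi.comp (contDiff_lo δ).contDiffOn fun ρ hρ =>
      lo_pos hδ hδ01 hρ) (sVo.comp (contDiff_hi δ).contDiffOn fun ρ _ => ?_)) contDiffOn_const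
    have := le_hi hδ ρ
    change 0 < hi δ ρ
    linarith
  · exact sWi.comp (contDiff_lo δ).contDiffOn fun ρ hρ => lo_pos hδ hδ01 hρ
  · intro ρ hρ
    have hlo0 := lo_pos hδ hδ01 hρ
    obtain ⟨i1, i2, i3, -, -⟩ := hall ρ hρ
    refine ⟨?_, ?_, i1, i2, i3⟩
    · have h3 : HasDerivAt (fun ρ => Vi (lo δ ρ)) (Vi' (lo δ ρ) * thd δ (2 - ρ)) ρ :=
        HasDerivAt.comp ρ (dVi _ hlo0) (hasDerivAt_lo δ ρ)
      have h4 : HasDerivAt (fun ρ => Vo (hi δ ρ)) (Vo' (hi δ ρ) * (1 - thd δ (2 - ρ))) ρ :=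
        HasDerivAt.comp ρ (dVo _ (by have := le_hi hδ ρ; linarith)) (hasDerivAt_hi δ ρ)
      exact (h3.add h4).sub_const _
    · exact HasDerivAt.comp ρ (dWi _ hlo0) (hasDerivAt_lo δ ρ)
  · intro ρ hρ a b ha hb
    exact (hall ρ hρ).2.2.2.1 a b ha hb
  · intro ρ hρ a b ha ha1 hb hb1
    exact (hall ρ hρ).2.2.2.2 a b ha ha1 hb hb1

end Vale.Agent.P219.TP
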