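import Vale.Agent.P219.TP.RegS

/-! # Gluing of two fields with overlapping domains

The inner field `Vi - a Wi` satisfies all inequalities on `(0, 21/10]`, the outer field
`Vo - a Wo` on `[2, ∞)`, and the outer one is larger on `[2, 21/10]`. Then a smooth convex
combination satisfies them on `(0, ∞)`. -/

open MeasureTheory Set Metric Filter Topology
open scoped ENNReal ContDiff

namespace Vale.Agent.P219.TP

/-- The inequalities at a given distance. -/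
def InS (m : ℕ) (lam s : ℝ) (f : ℝ → ℝ) (C v v' w w' ρ : ℝ) : Prop :=
  0 ≤ w ∧ 11 / 10 * w ≤ v ∧ v' + |w'| + 2 * w / ρ ≤ v / ρ + C * ρ ^ 2 ∧
  (∀ a b : ℝ, |a| ≤ 1 → |b| ≤ 1 → 0 ≤ lam + sks m v v' w w' ρ a b (srt a b)) ∧
  (∀ a b : ℝ, 0 ≤ a → a ≤ 1 → 0 ≤ b → b ≤ 1 →
      a * b * (s * ρ - (f a + f b) / 2) ≤ (lam + sks m v v' w w' ρ a b (srt a b)) * ρ ^ m)

theorem sks_mix {m : ℕ} {v v' w w' y y' z z' ρ a b t θ x u : ℝ} :
    sks m ((1 - θ) * v + θ * y) ((1 - θ) * v' + θ * y' + x) ((1 - θ) * w + θ * z)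
      ((1 - θ) * w' + θ * z' + u) ρ a b t =
    (1 - θ) * sks m v v' w w' ρ a b t + θ * sks m y y' z z' ρ a b t +
      ((x - a * u) * (1 - b ^ 2) + (x - b * u) * (1 - a ^ 2)) / 2 := by
  unfold sks skxs
  ring

theorem jump_nonneg {x u a b : ℝ} (h : |u| ≤ x) (ha : |a| ≤ 1) (hb : |b| ≤ 1) :
    0 ≤ ((x - a * u) * (1 - b ^ 2) + (x - b * u) * (1 - a ^ 2)) / 2 := by
  have h1 : ∀ c : ℝ, |c| ≤ 1 → 0 ≤ x - c * u := by
    intro c hc
    have : c * u ≤ |c| * |u| := by rw [← abs_mul]; exact le_abs_self _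
    have h2 : |c| * |u| ≤ 1 * |u| := mul_le_mul_of_nonneg_right hc (abs_nonneg u)
    linarith
  have ha2 : a ^ 2 ≤ 1 := by nlinarith [sq_abs a, abs_nonneg a]
  have hb2 : b ^ 2 ≤ 1 := by nlinarith [sq_abs b, abs_nonneg b]
  have := mul_nonneg (h1 a ha) (sub_nonneg.2 hb2)
  have := mul_nonneg (h1 b hb) (sub_nonneg.2 ha2)
  linarith

theorem InS.mix {m : ℕ} {lam s : ℝ} {f : ℝ → ℝ} {C v v' w w' y y' z z' ρ θ x u : ℝ}
    (hρ : 1 ≤ ρ) (h0 : 0 ≤ θ) (h1 : θ ≤ 1) (h : InS m lam s f C v v' w w' ρ)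
    (k : InS m lam s f C y y' z z' ρ) (hu : |u| ≤ x) :
    InS m lam s f (C + 2 * x) ((1 - θ) * v + θ * y) ((1 - θ) * v' + θ * y' + x)
      ((1 - θ) * w + θ * z) ((1 - θ) * w' + θ * z' + u) ρ := by
  obtain ⟨a1, a2, a3, a4, a5⟩ := h
  obtain ⟨b1, b2, b3, b4, b5⟩ := k
  have hθ : 0 ≤ 1 - θ := by linarith
  have hx : 0 ≤ x := (abs_nonneg u).trans hu
  refine ⟨by positivity, ?_, ?_, ?_, ?_⟩
  · nlinarith [mul_le_mul_of_nonneg_left a2 hθ, mul_le_mul_of_nonneg_left b2 h0]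
  · have c1 : |(1 - θ) * w' + θ * z' + u| ≤ (1 - θ) * |w'| + θ * |z'| + x := by
      refine (abs_add_le _ _).trans (add_le_add ((abs_add_le _ _).trans ?_) hu)
      rw [abs_mul, abs_mul, abs_of_nonneg hθ, abs_of_nonneg h0]
    have c2 := mul_le_mul_of_nonneg_left a3 hθ
    have c3 := mul_le_mul_of_nonneg_left b3 h0
    have c4 : 1 ≤ ρ ^ 2 := one_le_pow₀ hρ
    have c5 : x * 1 ≤ x * ρ ^ 2 := mul_le_mul_of_nonneg_left c4 hx
    have e1 : 2 * ((1 - θ) * w + θ * z) / ρ = (1 - θ) * (2 * w / ρ) + θ * (2 * z / ρ) := by ring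
    have e2 : ((1 - θ) * v + θ * y) / ρ = (1 - θ) * (v / ρ) + θ * (y / ρ) := by ring
    rw [e1, e2]
    nlinarith
  · intro a b ha hb
    rw [sks_mix]
    have j := jump_nonneg hu ha hb
    have c1 := mul_nonneg hθ (a4 a b ha hb)
    have c2 := mul_nonneg h0 (b4 a b ha hb)
    linarith
  · intro a b ha ha1 hb hb1
    have haa : |a| ≤ 1 := by rwa [abs_of_nonneg ha]
    have hbb : |b| ≤ 1 := by rwa [abs_of_nonneg hb]
    rw [sks_mix]
    have j := jump_nonneg hu haa hbb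
    have c1 := mul_le_mul_of_nonneg_left (a5 a b ha ha1 hb hb1) hθ
    have c2 := mul_le_mul_of_nonneg_left (b5 a b ha ha1 hb hb1) h0
    have c3 : 0 ≤ ((x - a * u) * (1 - b ^ 2) + (x - b * u) * (1 - a ^ 2)) / 2 * ρ ^ m :=
      mul_nonneg j (by positivity)
    linarith

theorem InS.mono {m : ℕ} {lam s : ℝ} {f : ℝ → ℝ} {C C' v v' w w' ρ : ℝ} (hC : C ≤ C')
    (h : InS m lam s f C v v' w w' ρ) : InS m lam s f C' v v' w w' ρ := by
  obtain ⟨a1, a2, a3, a4, a5⟩ := h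
  refine ⟨a1, a2, a3.trans ?_, a4, a5⟩
  have := mul_le_mul_of_nonneg_right hC (sq_nonneg ρ)
  linarith

/-- the gluing function -/
noncomputable def th2 (ρ : ℝ) : ℝ := Real.smoothTransition ((ρ - 2) * 10)

theorem contDiff_th2 : ContDiff ℝ ∞ th2 :=
  Real.smoothTransition.contDiff.comp ((contDiff_id.sub contDiff_const).mul contDiff_const)

theorem th2_nonneg (ρ : ℝ) : 0 ≤ th2 ρ := Real.smoothTransition.nonneg _

theorem th2_le_one (ρ : ℝ) : th2 ρ ≤ 1 := Real.smoothTransition.le_one _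

theorem th2_zero {ρ : ℝ} (h : ρ ≤ 2) : th2 ρ = 0 :=
  Real.smoothTransition.zero_of_nonpos (by linarith)

theorem th2_one {ρ : ℝ} (h : 21 / 10 ≤ ρ) : th2 ρ = 1 :=
  Real.smoothTransition.one_of_one_le (by linarith)

theorem hasDerivAt_th2 (ρ : ℝ) : HasDerivAt th2 (deriv th2 ρ) ρ :=
  ((contDiff_th2.differentiable (by simp)) ρ).hasDerivAt

theorem monotone_th2 : Monotone th2 := by
  intro x y h
  exact Real.smoothTransition.monotone (by linarith)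

theorem deriv_th2_nonneg (ρ : ℝ) : 0 ≤ deriv th2 ρ := monotone_th2.deriv_nonneg

theorem deriv_th2_zero {ρ : ℝ} (h : ρ ≤ 2) : deriv th2 ρ = 0 := by
  have h0 := deriv_th2_nonneg ρ
  have h1 : IsLocalMin th2 ρ := by
    filter_upwards with x
    rw [th2_zero h]; exact th2_nonneg x
  exact h1.deriv_eq_zero

theorem deriv_th2_one {ρ : ℝ} (h : 21 / 10 ≤ ρ) : deriv th2 ρ = 0 := by
  have h1 : IsLocalMax th2 ρ := by
    filter_upwards with x
    rw [th2_one h]; exact th2_le_one x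
  exact h1.deriv_eq_zero

theorem exists_bound_th2 : ∃ M : ℝ, 0 ≤ M ∧ ∀ ρ ∈ Icc (2 : ℝ) (21 / 10), deriv th2 ρ ≤ M := by
  have hc : ContinuousOn (deriv th2) (Icc 2 (21 / 10)) :=
    (contDiff_th2.continuous_deriv (by simp)).continuousOn
  obtain ⟨M, hM⟩ := isCompact_Icc.exists_bound_of_continuousOn hc
  refine ⟨|M|, abs_nonneg M, fun ρ hρ => ?_⟩
  have := hM ρ hρ
  rw [Real.norm_eq_abs] at this
  exact (le_abs_self _).trans (this.trans (le_abs_self M))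

theorem glueS {m : ℕ} {lam s : ℝ} {f : ℝ → ℝ} {Vi Wi Vo Wo Vi' Wi' Vo' Wo' : ℝ → ℝ} {C D : ℝ}
    (hC : 0 ≤ C) (hD : 0 ≤ D)
    (sVi : ContDiffOn ℝ ∞ Vi (Ioi 0)) (sWi : ContDiffOn ℝ ∞ Wi (Ioi 0))
    (sVo : ContDiffOn ℝ ∞ Vo (Ioi 0)) (sWo : ContDiffOn ℝ ∞ Wo (Ioi 0))
    (dVi : ∀ ρ > 0, HasDerivAt Vi (Vi' ρ) ρ) (dWi : ∀ ρ > 0, HasDerivAt Wi (Wi' ρ) ρ)
    (dVo : ∀ ρ > 0, HasDerivAt Vo (Vo' ρ) ρ) (dWo : ∀ ρ > 0, HasDerivAt Wo (Wo' ρ) ρ)
    (hin : ∀ ρ, 0 < ρ → ρ ≤ 21 / 10 → InS m lam s f C (Vi ρ) (Vi' ρ) (Wi ρ) (Wi' ρ) ρ)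
    (hout : ∀ ρ, 2 ≤ ρ → InS m lam s f C (Vo ρ) (Vo' ρ) (Wo ρ) (Wo' ρ) ρ)
    (hj : ∀ ρ, 2 ≤ ρ → ρ ≤ 21 / 10 → |Wo ρ - Wi ρ| ≤ Vo ρ - Vi ρ ∧ Vo ρ - Vi ρ ≤ D) :
    RegDataS m lam s f := by
  obtain ⟨M, hM0, hM⟩ := exists_bound_th2
  set V : ℝ → ℝ := fun ρ => (1 - th2 ρ) * Vi ρ + th2 ρ * Vo ρ with hV
  set W : ℝ → ℝ := fun ρ => (1 - th2 ρ) * Wi ρ + th2 ρ * Wo ρ with hW
  set V' : ℝ → ℝ := fun ρ => (1 - th2 ρ) * Vi' ρ + th2 ρ * Vo' ρ +
    deriv th2 ρ * (Vo ρ - Vi ρ) with hV'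
  set W' : ℝ → ℝ := fun ρ => (1 - th2 ρ) * Wi' ρ + th2 ρ * Wo' ρ +
    deriv th2 ρ * (Wo ρ - Wi ρ) with hW'
  have key : ∀ ρ > 0, InS m lam s f (C + 2 * (M * D)) (V ρ) (V' ρ) (W ρ) (W' ρ) ρ := by
    intro ρ hρ
    rcases le_or_gt ρ 2 with h | h
    · have h1 := hin ρ hρ (by linarith)
      have e1 : V ρ = Vi ρ := by simp only [hV, th2_zero h]; ring
      have e2 : W ρ = Wi ρ := by simp only [hW, th2_zero h]; ring
      have e3 : V' ρ = Vi' ρ := by simp only [hV', th2_zero h, deriv_th2_zero h]; ring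
      have e4 : W' ρ = Wi' ρ := by simp only [hW', th2_zero h, deriv_th2_zero h]; ring
      rw [e1, e2, e3, e4]
      exact h1.mono (by have := mul_nonneg hM0 hD; linarith)
    · rcases le_or_gt (21 / 10) ρ with h' | h'
      · have h1 := hout ρ h.le
        have e1 : V ρ = Vo ρ := by simp only [hV, th2_one h']; ring
        have e2 : W ρ = Wo ρ := by simp only [hW, th2_one h']; ring
        have e3 : V' ρ = Vo' ρ := by simp only [hV', th2_one h', deriv_th2_one h']; ring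
        have e4 : W' ρ = Wo' ρ := by simp only [hW', th2_one h', deriv_th2_one h']; ring
        rw [e1, e2, e3, e4]
        exact h1.mono (by have := mul_nonneg hM0 hD; linarith)
      · obtain ⟨j1, j2⟩ := hj ρ h.le h'.le
        have hd := deriv_th2_nonneg ρ
        have hu : |deriv th2 ρ * (Wo ρ - Wi ρ)| ≤ deriv th2 ρ * (Vo ρ - Vi ρ) := by
          rw [abs_mul, abs_of_nonneg hd]
          exact mul_le_mul_of_nonneg_left j1 hd
        have h1 := InS.mix (by linarith) (th2_nonneg ρ) (th2_le_one ρ) (hin ρ hρ h'.le)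
          (hout ρ h.le) hu
        refine h1.mono ?_
        have hx : 0 ≤ Vo ρ - Vi ρ := (abs_nonneg _).trans j1
        have := mul_le_mul (hM ρ ⟨h.le, h'.le⟩) j2 hx hM0
        linarith
  refine ⟨V, W, V', W', C + 2 * (M * D), by have := mul_nonneg hM0 hD; linarith, ?_, ?_, ?_, ?_,
    ?_⟩
  · exact (contDiffOn_const.sub contDiff_th2.contDiffOn).mul sVi |>.add
      (contDiff_th2.contDiffOn.mul sVo)
  · exact (contDiffOn_const.sub contDiff_th2.contDiffOn).mul sWi |>.add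
      (contDiff_th2.contDiffOn.mul sWo)
  · intro ρ hρ
    obtain ⟨k1, k2, k3, -, -⟩ := key ρ hρ
    refine ⟨?_, ?_, k1, k2, k3⟩
    · refine ((((hasDerivAt_th2 ρ).const_sub 1).mul (dVi ρ hρ)).add
        ((hasDerivAt_th2 ρ).mul (dVo ρ hρ))).congr_deriv ?_
      simp only [hV']; ring
    · refine ((((hasDerivAt_th2 ρ).const_sub 1).mul (dWi ρ hρ)).add
        ((hasDerivAt_th2 ρ).mul (dWo ρ hρ))).congr_deriv ?_
      simp only [hW']; ring
  · intro ρ hρ a b ha hb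
    exact (key ρ hρ).2.2.2.1 a b ha hb
  · intro ρ hρ a b ha ha1 hb hb1
    exact (key ρ hρ).2.2.2.2 a b ha ha1 hb hb1

end Vale.Agent.P219.TP
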