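import Vale.Agent.P219.TP.GlueS

/-! # The inequalities at a given distance from inequalities in one variable `a` or `b`

The kernel of `V - a W` is linear in `p = a b` for fixed `S = a + b`. -/

open MeasureTheory Set Metric Filter Topology
open scoped ENNReal ContDiff

namespace Vale.Agent.P219.TP

theorem srt_le_amgm {a b : ℝ} (ha : |a| ≤ 1) (hb : |b| ≤ 1) :
    srt a b ≤ 1 - (a ^ 2 + b ^ 2) / 2 := sqrt_le_aux ha hb

/-- the tangent bound for the square root, without denominators vanishing at `a + b = 2` -/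
theorem srt_tangent {a b : ℝ} (ha : 0 ≤ a) (ha1 : a ≤ 1) (hb : 0 ≤ b) (hb1 : b ≤ 1) :
    (2 - (a + b)) ^ 2 * srt a b ≤ ((2 - (a + b)) ^ 2 - (a - b) ^ 2) * (1 - (a + b) ^ 2 / 4) +
      (a - b) ^ 2 * ((1 - (a + b - 1)) * (1 + (a + b - 1)) / (3 + (a + b - 1))) := by
  obtain ⟨S, hS⟩ : ∃ S, S = a + b := ⟨_, rfl⟩
  obtain ⟨y, hy⟩ : ∃ y, y = (a - b) ^ 2 := ⟨_, rfl⟩
  have hS0 : 0 ≤ S := by rw [hS]; positivity
  have hy0 : 0 ≤ y := by rw [hy]; positivity
  have hyS : y ≤ (2 - S) ^ 2 := by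
    rw [hy, hS]; nlinarith [mul_nonneg (sub_nonneg.2 ha1) (sub_nonneg.2 hb1)]
  rw [← hS, ← hy]
  -- the square root
  have e1 : srt a b = √((1 + (S ^ 2 - y) / 4) ^ 2 - S ^ 2) := by
    unfold srt
    congr 1
    rw [hS, hy]; ring
  rw [e1]
  have h2S : 0 < 2 + S := by linarith
  have e2 : ((2 - S) ^ 2 - y) * (1 - S ^ 2 / 4) + y * ((1 - (S - 1)) * (1 + (S - 1)) / (3 + (S - 1))) =
      ((2 - S) * ((2 - S) * (2 + S) ^ 2 * (2 - S) - y * (4 + S ^ 2))) / (4 * (2 + S)) := by
    have : 3 + (S - 1) = 2 + S := by ring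
    rw [this]
    field_simp
    ring
  rw [e2, le_div_iff₀ (by positivity)]
  have hX : 0 ≤ (1 + (S ^ 2 - y) / 4) ^ 2 - S ^ 2 := by
    have : (1 + (S ^ 2 - y) / 4) ^ 2 - S ^ 2 = (1 - a ^ 2) * (1 - b ^ 2) := by rw [hS, hy]; ring
    rw [this]
    have ha2 : a ^ 2 ≤ 1 := pow_le_one₀ ha ha1
    have hb2 : b ^ 2 ≤ 1 := pow_le_one₀ hb hb1
    exact mul_nonneg (by linarith) (by linarith)
  have hS2 : S ≤ 2 := by rw [hS]; linarith
  have hY : 0 ≤ (2 - S) * (2 + S) ^ 2 * (2 - S) - y * (4 + S ^ 2) := by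
    have : y * (4 + S ^ 2) ≤ (2 - S) ^ 2 * (4 + S ^ 2) :=
      mul_le_mul_of_nonneg_right hyS (by positivity)
    nlinarith [mul_nonneg hS0 (sq_nonneg (2 - S))]
  set R := √((1 + (S ^ 2 - y) / 4) ^ 2 - S ^ 2) with hR
  have hR0 : 0 ≤ R := Real.sqrt_nonneg _
  have hR2 : R ^ 2 = (1 + (S ^ 2 - y) / 4) ^ 2 - S ^ 2 := Real.sq_sqrt hX
  have h1 : (R * (4 * (2 - S) * (2 + S))) ^ 2 ≤
      ((2 - S) * (2 + S) ^ 2 * (2 - S) - y * (4 + S ^ 2)) ^ 2 := by
    rw [mul_pow, hR2]
    have : ((2 - S) * (2 + S) ^ 2 * (2 - S) - y * (4 + S ^ 2)) ^ 2 -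
      ((1 + (S ^ 2 - y) / 4) ^ 2 - S ^ 2) * (4 * (2 - S) * (2 + S)) ^ 2 = (4 * S * y) ^ 2 := by ring
    nlinarith [sq_nonneg (4 * S * y)]
  have h2 : R * (4 * (2 - S) * (2 + S)) ≤ (2 - S) * (2 + S) ^ 2 * (2 - S) - y * (4 + S ^ 2) :=
    (pow_le_pow_iff_left₀ (mul_nonneg hR0 (mul_nonneg (by linarith) h2S.le)) hY two_ne_zero).1 h1
  have h3 := mul_le_mul_of_nonneg_left h2 (sub_nonneg.2 hS2)
  linarith

theorem sks_swap {m : ℕ} {v v' w w' l a b t : ℝ} :
    sks m v v' w w' l a b t = sks m v v' w w' l b a t := by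
  unfold sks; ring

theorem inS_mk {m : ℕ} {lam s C v v' w w' l : ℝ} {f : ℝ → ℝ} (hl : 0 < l) (hw : 0 ≤ w)
    (hv : 11 / 10 * w ≤ v) (hH : v' + |w'| + 2 * w / l ≤ v / l + C * l ^ 2)
    (hpp : ∀ a b : ℝ, 0 ≤ a → a ≤ 1 → 0 ≤ b → b ≤ 1 →
      0 ≤ lam + sks m v v' w w' l a b (1 - (a ^ 2 + b ^ 2) / 2))
    (hpm : ∀ a b : ℝ, 0 ≤ a → a ≤ 1 → 0 ≤ b → b ≤ 1 →
      0 ≤ lam + sks m v v' w w' l a (-b) (1 - (a ^ 2 + b ^ 2) / 2))
    (hmm : ∀ a b : ℝ, 0 ≤ a → a ≤ 1 → 0 ≤ b → b ≤ 1 →
      0 ≤ lam + sks m v v' w w' l (-a) (-b) (1 - (a ^ 2 + b ^ 2) / 2))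
    (hd : ∀ c : ℝ, 0 ≤ c → c ≤ 1 →
      c ^ 2 * (s * l - f c) ≤ (lam + sks m v v' w w' l c c (1 - c ^ 2)) * l ^ m)
    (h1 : ∀ b : ℝ, 0 ≤ b → b ≤ 1 → b * (s * l - f ((1 + b) / 2)) ≤
      (lam + sks m v v' w w' l 1 b ((1 - b) * (1 + b) / (3 + b))) * l ^ m)
    (hconv : ∀ a b : ℝ, 0 ≤ a → a ≤ 1 → 0 ≤ b → b ≤ 1 → f ((a + b) / 2) ≤ (f a + f b) / 2) :
    InS m lam s f C v v' w w' l := by
  have hlm : 0 < l ^ m := by positivity
  refine ⟨hw, hv, hH, ?_, ?_⟩
  · intro a b ha hb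
    have hm := sks_mono (m := m) (v := v) (v' := v') (w' := w') (a := a) (b := b) hw hl
      (srt_le_amgm ha hb)
    refine le_trans ?_ (show lam + sks m v v' w w' l a b (1 - (a ^ 2 + b ^ 2) / 2) ≤
      lam + sks m v v' w w' l a b (srt a b) by linarith)
    rcases le_total 0 a with ha0 | ha0 <;> rcases le_total 0 b with hb0 | hb0
    · rw [abs_of_nonneg ha0] at ha; rw [abs_of_nonneg hb0] at hb
      exact hpp a b ha0 ha hb0 hb
    · rw [abs_of_nonneg ha0] at ha; rw [abs_of_nonpos hb0] at hb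
      have := hpm a (-b) ha0 ha (by linarith) hb
      rwa [neg_neg, neg_sq] at this
    · rw [abs_of_nonpos ha0] at ha; rw [abs_of_nonneg hb0] at hb
      have := hpm b (-a) hb0 hb (by linarith) ha
      rw [neg_neg, neg_sq, sks_swap] at this
      rwa [add_comm (a ^ 2)]
    · rw [abs_of_nonpos ha0] at ha; rw [abs_of_nonpos hb0] at hb
      have := hmm (-a) (-b) (by linarith) ha (by linarith) hb
      rwa [neg_neg, neg_neg, neg_sq, neg_sq] at this
  · intro a b ha ha1 hb hb1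
    have haa : |a| ≤ 1 := by rwa [abs_of_nonneg ha]
    have hbb : |b| ≤ 1 := by rwa [abs_of_nonneg hb]
    have hab : 0 ≤ a * b := mul_nonneg ha hb
    have hc := hconv a b ha ha1 hb hb1
    have hstep : a * b * (s * l - (f a + f b) / 2) ≤ a * b * (s * l - f ((a + b) / 2)) :=
      mul_le_mul_of_nonneg_left (by linarith) hab
    refine hstep.trans ?_
    have dia := hd ((a + b) / 2) (by positivity) (by linarith)
    have z1 : 1 < a + b → (a + b - 1) * (s * l - f ((a + b) / 2)) ≤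
        (lam + sks m v v' w w' l 1 (a + b - 1)
          ((1 - (a + b - 1)) * (1 + (a + b - 1)) / (3 + (a + b - 1)))) * l ^ m := by
      intro hS
      have := h1 (a + b - 1) (by linarith) (by linarith)
      rwa [show (1 + (a + b - 1)) / 2 = (a + b) / 2 by ring] at this
    generalize f ((a + b) / 2) = F at dia z1 ⊢
    rcases le_or_gt (a + b) 1 with hS | hS
    · -- `a + b ≤ 1`
      have hm := sks_mono (m := m) (v := v) (v' := v') (w' := w') (a := a) (b := b) hw hl
        (srt_le_amgm haa hbb)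
      have hm2 := mul_le_mul_of_nonneg_right (show lam + sks m v v' w w' l a b
        (1 - (a ^ 2 + b ^ 2) / 2) ≤ lam + sks m v v' w w' l a b (srt a b) by linarith) hlm.le
      refine le_trans ?_ hm2
      have z0 := mul_nonneg (hpp (a + b) 0 (by positivity) hS le_rfl zero_le_one) hlm.le
      rcases eq_or_lt_of_le (show 0 ≤ a + b by positivity) with h0 | h0
      · have ha0 : a = 0 := by linarith
        have hb0 : b = 0 := by linarith
        subst ha0; subst hb0
        have := mul_nonneg (hpp 0 0 le_rfl zero_le_one le_rfl zero_le_one) hlm.le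
        simpa using this
      · have key : (a + b) ^ 2 * ((lam + sks m v v' w w' l a b (1 - (a ^ 2 + b ^ 2) / 2)) * l ^ m -
            a * b * (s * l - F)) =
            (a - b) ^ 2 * ((lam + sks m v v' w w' l (a + b) 0 (1 - ((a + b) ^ 2 + 0 ^ 2) / 2)) *
              l ^ m) +
            4 * (a * b) * ((lam + sks m v v' w w' l ((a + b) / 2) ((a + b) / 2)
              (1 - ((a + b) / 2) ^ 2)) * l ^ m - ((a + b) / 2) ^ 2 * (s * l - F)) := by
          unfold sks skxs
          rw [abs_of_nonneg ha, abs_of_nonneg hb, abs_of_nonneg h0.le, abs_zero,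
            abs_of_nonneg (show 0 ≤ (a + b) / 2 by positivity)]
          ring
        have h3 : 0 ≤ (a + b) ^ 2 * ((lam + sks m v v' w w' l a b (1 - (a ^ 2 + b ^ 2) / 2)) *
            l ^ m - a * b * (s * l - F)) := by
          rw [key]
          have := mul_nonneg (sq_nonneg (a - b)) z0
          have := mul_nonneg (mul_nonneg (show (0 : ℝ) ≤ 4 by norm_num) hab) (sub_nonneg.2 dia)
          linarith
        have h4 := nonneg_of_mul_nonneg_right h3 (by positivity)
        linarith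
    · -- `a + b > 1`
      rcases eq_or_lt_of_le (show a + b ≤ 2 by linarith) with h2 | h2
      · have ha0 : a = 1 := by linarith
        have hb0 : b = 1 := by linarith
        subst ha0; subst hb0
        have : srt 1 1 = 0 := by unfold srt; norm_num
        rw [this]
        norm_num at dia ⊢
        exact dia
      · have ht := srt_tangent ha ha1 hb hb1
        have z1 := z1 hS
        set t1 := (1 - (a + b - 1)) * (1 + (a + b - 1)) / (3 + (a + b - 1)) with ht1
        have hG : 0 ≤ w / l * ((a + b) / 2) * l ^ m := by positivity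
        have hmul := mul_le_mul_of_nonneg_left ht hG
        have key : (2 - (a + b)) ^ 2 * ((lam + sks m v v' w w' l a b (srt a b)) * l ^ m -
            a * b * (s * l - F)) =
            ((2 - (a + b)) ^ 2 - (a - b) ^ 2) * ((lam + sks m v v' w w' l ((a + b) / 2)
              ((a + b) / 2) (1 - ((a + b) / 2) ^ 2)) * l ^ m - ((a + b) / 2) ^ 2 * (s * l - F)) +
            (a - b) ^ 2 * ((lam + sks m v v' w w' l 1 (a + b - 1) t1) * l ^ m -
              (a + b - 1) * (s * l - F)) +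
            (w / l * ((a + b) / 2) * l ^ m * (((2 - (a + b)) ^ 2 - (a - b) ^ 2) *
              (1 - (a + b) ^ 2 / 4) + (a - b) ^ 2 * t1) -
              w / l * ((a + b) / 2) * l ^ m * ((2 - (a + b)) ^ 2 * srt a b)) := by
          generalize srt a b = R
          generalize t1 = T
          unfold sks skxs
          rw [abs_of_nonneg ha, abs_of_nonneg hb, abs_one,
            abs_of_nonneg (show 0 ≤ a + b - 1 by linarith),
            abs_of_nonneg (show 0 ≤ (a + b) / 2 by positivity)]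
          ring
        have hy : (a - b) ^ 2 ≤ (2 - (a + b)) ^ 2 := by
          nlinarith [mul_nonneg (sub_nonneg.2 ha1) (sub_nonneg.2 hb1)]
        have h3 : 0 ≤ (2 - (a + b)) ^ 2 * ((lam + sks m v v' w w' l a b (srt a b)) * l ^ m -
            a * b * (s * l - F)) := by
          rw [key]
          have := mul_nonneg (sub_nonneg.2 hy) (sub_nonneg.2 dia)
          have := mul_nonneg (sq_nonneg (a - b)) (sub_nonneg.2 z1)
          linarith
        have hpos : 0 < (2 - (a + b)) ^ 2 := by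
          have : 0 < 2 - (a + b) := by linarith
          positivity
        have h4 := nonneg_of_mul_nonneg_right h3 hpos
        linarith

end Vale.Agent.P219.TP
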