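import Vale.Agent.P219.TP.Kron

set_option linter.all false

/-! # The certificate in dimension 11: positivity of polynomials, by the kernel -/

namespace Vale.Agent.P219.TP.P11

open Kron



/-- coefficients of the kernel -/
def lA : List (List (List ℤ)) := [[[7200, 16800], [], [16800]],
  [[0, 110080, 165120], [-124900, 29274, -61038], [110080, -330240], [-192042, 122076], [165120],
  [-61038]], [[57530, -351080, -258090], [102400, 385260, 70820], [153420, 312720], [-101980,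
  -141640], [-54630], [70820]], [[-78720, 162304, 148296], [-121852, -406166, -21772], [-247296,
  -13312], [275534, 43544], [-134984], [-21772]], [[50575, 36710, -43135], [130031, 17141],
  [59350, -22590], [-17141], [65725]], [[-8264, -3736], [-80026, 39594], [-396], [-39594]],
  [[1449, -9559], [10330], [9881]], [[1660], [-1610]]]

/-- coefficients of the kernel -/
def lB : List (List (List ℤ)) := [[], [[0, -55040], [-25225,
  30519], [55040], [-30519]], [[0, 62544], [20480, -42492], [-62544], [42492]], [[0, -3328],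
  [-1132, 16329], [3328], [-16329]], [[0, -7530], [-167], [7530]], [[], [-972]]]

/-- coefficients of `f` -/
def lF : List (List ℤ) := [[0, 0, -1536000, 1904640, 3230720], [115200,
  1279920, 8233600, -34954864, -5614272], [0, -9216000, 28569600, 90460160], [426640, 16467200,
  -174774320, -52399872], [-1536000, 28569600, 226150400], [1646720, -104864592, -78599808],
  [1904640, 90460160], [-4993552, -22457088], [3230720], [-623808]]

/-- polynomial in one variable -/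
noncomputable def h1 (e : Ex) (l : List ℤ) : Ex := hor ci e l

/-- polynomial in two variables -/
noncomputable def h2 (c e : Ex) (l : List (List ℤ)) : Ex := hor (h1 e) c l

/-- polynomial in three variables -/
noncomputable def h3 (r c e : Ex) (l : List (List (List ℤ))) : Ex := hor (h2 c e) r l

/-- the kernel -/
noncomputable def xK (r c e D W : Ex) : Ex := .add (.mul D (h3 r c e lA)) (.mul W (h3 r c e lB))

/-- the inequality for pairs -/
noncomputable def xP (r c e D W : Ex) : Ex :=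
  .add (.mul (.mul r (.mul r r)) (xK r c e D W))
    (.mul (.mul D (.add (.mul c c) (.mul (.k 0 1) e))) (.add (h2 c e lF) (.mul (.k 0 86400) r)))

/-- denominator for `c ≤ 1/2` -/
def xD1 : Ex := .add (.k 1 0) (.mul (.k 0 1) (.mul .x .x))

/-- `e` for `c ≤ 1/2` -/
def xE1 : Ex := .mul (.mul .x .x) .z

/-- angular factor for `c ≤ 1/2` -/
def xW1 : Ex := .add (.mul xD1 xD1) (.mul (.k 0 1) (.mul xE1 (.add (.k 1 0) (.mul .x .x))))

/-- `1 - c` -/
def xU : Ex := .add (.k 1 0) (.mul (.k 0 1) .x)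

/-- denominator for `c ≥ 1/2` -/
def xD2 : Ex := .mul (.k 2 0) (.add (.k 1 0) .x)

/-- `e` for `c ≥ 1/2` -/
def xE2 : Ex := .mul (.mul xU xU) (.add (.k 1 0) (.mul (.k 0 1) (.mul .z .z)))

/-- angular factor for `c ≥ 1/2` -/
def xW2 : Ex := .mul (.mul xU .z) (.add (.mul (.k 2 0) (.mul (.add (.k 1 0) .x) (.add (.k 1 0) .x)))
  (.mul (.k 0 1) xE2))

/-- `r = 2 c ρ` -/
def xR1 : Ex := .mul (.mul (.k 2 0) .x) .y

/-- `r = 2 c + y` -/
def xR2 : Ex := .add (.mul (.k 2 0) .x) .y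

/-- `1 - ρ` -/
def xV : Ex := .add (.k 1 0) (.mul (.k 0 1) .y)

/-- weights -/
def xw1 : Ex := .mul (.mul xR1 (.mul xR1 xR1)) (.add (.mul xV xV) .z)

/-- weights -/
def xw2 : Ex := .mul (.mul xR1 (.mul xR1 xR1)) (.add (.mul xV xV)
  (.mul xU (.add (.k 1 0) (.mul (.k 0 1) .z))))

/-- weights -/
def xw3 : Ex := .add (.mul (.mul .y .y) (.add .y .x)) (.mul (.mul .x (.mul .x .x)) .z)

/-- weights -/
def xw4 : Ex := .add (.mul .y .y) (.mul xU (.add (.k 1 0) (.mul (.k 0 1) .z)))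

/-- difference -/
def sb (a b : Ex) : Ex := .add a (.mul (.k 0 1) b)

theorem ckP1 : ct (sb (xP xR1 .x xE1 xD1 xW1) xw1)
    .o
    ⟨0, 1, 2, 2, 0, 1, 1, 1, 0, 1, 1, 1⟩ = true := by
  decide +kernel

theorem ckP2 : ct (sb (xP xR1 .x xE2 xD2 xW2) xw2)
    (.y .o (.x .o .o))
    ⟨1, 2, 2, 2, 0, 1, 1, 1, 0, 1, 1, 1⟩ = true := by
  decide +kernel

theorem ckP3 : ct (sb (xP xR2 .x xE1 xD1 xW1) xw3)
    (.y .o .o)
    ⟨0, 1, 2, 2, 0, 1, 1, 0, 0, 1, 1, 1⟩ = true := by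
  decide +kernel

theorem ckP4 : ct (sb (xP xR2 .x xE2 xD2 xW2) xw4)
    (.y (.x .o .o) .o)
    ⟨1, 2, 2, 2, 0, 1, 1, 0, 0, 1, 1, 1⟩ = true := by
  decide +kernel

theorem ckK1 : ct (sb (xK xR1 .x xE1 xD1 xW1) (.k 1 0))
    .o
    ⟨0, 1, 2, 2, 0, 1, 1, 1, 0, 1, 1, 1⟩ = true := by
  decide +kernel

theorem ckK2 : ct (sb (xK xR1 .x xE2 xD2 xW2) (.k 1 0))
    (.y .o (.x .o (.y .o (.y (.x .o .o) (.x (.y (.x .o .o) .o) (.y .o (.x (.y .o .o) .o)))))))
    ⟨1, 2, 2, 2, 0, 1, 1, 1, 0, 1, 1, 1⟩ = true := by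
  decide +kernel

/-- coefficients of `N` -/
def lN : List (List ℤ) := [[2400], [0, -25225, 27520, -10173], [11506,
  20480, -31272, 14164], [-13120, -1132, 1664, -5443], [7225, -167, 3765], [-1033, -972], [161]]

/-- coefficients of `∂N/∂a` -/
def lNA : List (List ℤ) := [[], [-25225, 55040, -30519], [20480,
  -62544, 42492], [-1132, 3328, -16329], [-167, 7530], [-972]]

/-- coefficients of `7 N - r ∂N/∂r` -/
def lNR : List (List ℤ) := [[16800], [0, -151350, 165120,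
  -61038], [57530, 102400, -156360, 70820], [-52480, -4528, 6656, -21772], [21675, -501, 11295],
  [-2066, -1944], [161]]

/-- coefficients of `f c / c` -/
def lf : List ℤ := [115200, 0, 426640, -1536000, 1646720,
  1904640, -4993552, 3230720, -623808]

/-- coefficients of `f'` -/
def lf' : List ℤ := [115200, 0, 1279920, -6144000, 8233600, 11427840,
  -34954864, 25845760, -5614272]

/-- `N` -/
noncomputable def xN (r a : Ex) : Ex := h2 r a lN

/-- `∂N/∂a` -/
noncomputable def xNA (r a : Ex) : Ex := h2 r a lNA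

/-- `7 N - r ∂N/∂r` -/
noncomputable def xNR (r a : Ex) : Ex := h2 r a lNR

/-- opposite -/
def ng (a : Ex) : Ex := .mul (.k 0 1) a

/-- `1 - a²` -/
def oq (a : Ex) : Ex := .add (.k 1 0) (.mul (.k 0 1) (.mul a a))

/-- `1 - (a² + b²)/2`, twice -/
def xM : Ex := .add (.k 2 0) (.mul (.k 0 1) (.add (.mul .x .x) (.mul .z .z)))

/-- half of the kernel, four times; `s b = |b|` -/
noncomputable def xH (a b s : Ex) : Ex :=
  .add (.add (.mul (.k 20 0) (xN .y a)) (.mul (.k 0 2) (.mul (xNR .y a) (oq b))))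
    (.add (.mul (xNA .y a) (.mul s xM)) (.mul (.k 0 20) (.mul (.mul b .y) (xN .y a))))

/-- the kernel, four times -/
noncomputable def xKK (a b s t : Ex) : Ex :=
  .add (h1 .y [0, 0, 0, 0, 0, 0, 0, 6640]) (.add (xH a b s) (xH b a t))

theorem ckK3 : ct (sb (xKK .x (ng .z) .z .x) (.k 1 0))
    (.y .o (.y (.y (.y (.x .o (.x .o (.x .o (.x .o (.x .o (.x .o (.y (.z .o .o) (.z .o .o)))))))) .o) .o) (.y (.y (.y .o .o) .o) .o)))
    ⟨0, 1, 1, 1, 0, 1, 1, 0, 0, 1, 1, 1⟩ = true := by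
  decide +kernel

theorem ckK4 : ct (sb (xKK (ng .x) (ng .z) .z .x) (.k 1 0))
    (.y .o (.y .o .o))
    ⟨0, 1, 1, 1, 0, 1, 1, 0, 0, 1, 1, 1⟩ = true := by
  decide +kernel

theorem ckA1 : ct (ng (xNA .y .x))
    (.y (.x .o (.x .o (.x .o .o))) (.y (.y .o .o) (.y (.y .o .o) .o)))
    ⟨0, 1, 1, 1, 0, 1, 1, 0, 0, 1, 1, 1⟩ = true := by
  decide +kernel

theorem ckA2 : ct (ng (xNA .y (ng .x)))
    (.y .o (.y (.y (.y .o (.x .o (.y .o (.x .o (.y .o .o))))) (.x .o .o)) .o))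
    ⟨0, 1, 1, 1, 0, 1, 1, 0, 0, 1, 1, 1⟩ = true := by
  decide +kernel

theorem ckB1 : ct (xN .y .x)
    (.y (.y .o (.y .o .o)) (.y .o .o))
    ⟨0, 41, 40, 40, 0, 1, 1, 0, 0, 1, 1, 1⟩ = true := by
  decide +kernel

theorem ckB2 : ct (xN .y (ng .x))
    (.y .o (.y .o .o))
    ⟨0, 41, 40, 40, 0, 1, 1, 0, 0, 1, 1, 1⟩ = true := by
  decide +kernel

theorem ckX1 : ct (.add (.add (xNR .y .x) (xNR .y .z)) (.add (.mul (oq .z) (.mul .x (xNA .y .x))) (.mul (oq .x) (.mul .z (xNA .y .z)))))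
    (.y .o (.y (.y (.y .o .o) .o) (.y .o (.y (.x .o .o) .o))))
    ⟨0, 1, 1, 1, 0, 1, 1, 0, 0, 1, 1, 1⟩ = true := by
  decide +kernel

theorem ckX2 : ct (.add (.add (xNR .y .x) (xNR .y (ng .z))) (.mul (oq .z) (.mul .x (xNA .y .x))))
    (.y .o (.y .o (.y .o .o)))
    ⟨0, 1, 1, 1, 0, 1, 1, 0, 0, 1, 1, 1⟩ = true := by
  decide +kernel

theorem ckC3 : ct (xNR .y (ng .x))
    (.y .o (.y (.y .o .o) .o))
    ⟨0, 1, 1, 1, 0, 1, 1, 0, 0, 1, 1, 1⟩ = true := by
  decide +kernel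

theorem ckF0 : ct (h1 .x lf)
    .o
    ⟨0, 1, 1, 1, 0, 1, 1, 0, 0, 1, 1, 1⟩ = true := by
  decide +kernel

theorem ckF1 : ct (h1 .x lf')
    .o
    ⟨0, 1, 1, 1, 0, 1, 1, 0, 0, 1, 1, 1⟩ = true := by
  decide +kernel

theorem ckF2 : ct (sb (.k 172800 0) (h1 .x lf))
    .o
    ⟨0, 1, 1, 1, 0, 1, 1, 0, 0, 1, 1, 1⟩ = true := by
  decide +kernel

end Vale.Agent.P219.TP.P11
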