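import Vale.Agent.P219.TP.PolyEight

/-! # Polynomial inequalities for the certificate in dimension 10

`φ(r,a) = 132/r + 513/r³ + 470/r⁵ - (648 a + 336 a³)/r⁴`, `λ = 381`, `s = 16920`,
`f(c) = 22560 c + 14880 c³ + 4032 c⁵ - 10752 c⁷`. -/

namespace Vale.Agent.P219.TP

/-- A quartic which is concave between `p₀` and `p₁` (in the sense of divided differences) and
nonnegative at the end points. -/
theorem quartic_interp {g0 g1 g2 g3 g4 p p0 p1 : ℝ} (h0 : p0 ≤ p) (h1 : p ≤ p1)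
    (hc : g2 + g3 * (p + p0 + p1) +
      g4 * (p ^ 2 + p0 ^ 2 + p1 ^ 2 + p * p0 + p * p1 + p0 * p1) ≤ 0)
    (e0 : 0 ≤ g0 + g1 * p0 + g2 * p0 ^ 2 + g3 * p0 ^ 3 + g4 * p0 ^ 4)
    (e1 : 0 ≤ g0 + g1 * p1 + g2 * p1 ^ 2 + g3 * p1 ^ 3 + g4 * p1 ^ 4) :
    0 ≤ g0 + g1 * p + g2 * p ^ 2 + g3 * p ^ 3 + g4 * p ^ 4 := by
  rcases eq_or_lt_of_le (h0.trans h1) with h | h
  · have : p = p0 := le_antisymm (h ▸ h1) h0
    rw [this]; exact e0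
  · have key : (p1 - p0) * (g0 + g1 * p + g2 * p ^ 2 + g3 * p ^ 3 + g4 * p ^ 4) =
        (p1 - p) * (g0 + g1 * p0 + g2 * p0 ^ 2 + g3 * p0 ^ 3 + g4 * p0 ^ 4) +
        (p - p0) * (g0 + g1 * p1 + g2 * p1 ^ 2 + g3 * p1 ^ 3 + g4 * p1 ^ 4) +
        (p - p0) * (p1 - p) * (p1 - p0) * (-(g2 + g3 * (p + p0 + p1) +
          g4 * (p ^ 2 + p0 ^ 2 + p1 ^ 2 + p * p0 + p * p1 + p0 * p1))) := by ring
    have h2 : 0 ≤ (p1 - p0) * (g0 + g1 * p + g2 * p ^ 2 + g3 * p ^ 3 + g4 * p ^ 4) := by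
      rw [key]
      have a1 : 0 ≤ p1 - p := by linarith
      have a2 : 0 ≤ p - p0 := by linarith
      have a3 : 0 ≤ p1 - p0 := by linarith
      have a4 : 0 ≤ -(g2 + g3 * (p + p0 + p1) +
          g4 * (p ^ 2 + p0 ^ 2 + p1 ^ 2 + p * p0 + p * p1 + p0 * p1)) := by linarith
      positivity
    exact nonneg_of_mul_nonneg_right h2 (by linarith)

/-- Tangent bound of the angular factor. -/
theorem w_le_tangent {S p : ℝ} (hS0 : 0 ≤ S) (hS : S < 2) (hp : S - 1 ≤ p) :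
    √((1 + p) ^ 2 - S ^ 2) ≤ 1 - S ^ 2 / 4 + (4 + S ^ 2) / (4 - S ^ 2) * (p - S ^ 2 / 4) := by
  have hD : 0 < 4 - S ^ 2 := by nlinarith
  have e : 1 - S ^ 2 / 4 + (4 + S ^ 2) / (4 - S ^ 2) * (p - S ^ 2 / 4) =
      ((1 + p) * (4 + S ^ 2) - 4 * S ^ 2) / (4 - S ^ 2) := by
    field_simp
    ring
  rw [e, le_div_iff₀ hD]
  have hY : 0 ≤ (1 + p) * (4 + S ^ 2) - 4 * S ^ 2 := by
    nlinarith [sq_nonneg (S - 2), mul_nonneg hS0 (sq_nonneg (S - 2)),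
      mul_nonneg (sub_nonneg.2 hp) (sq_nonneg S)]
  have hX : 0 ≤ (1 + p) ^ 2 - S ^ 2 := by nlinarith
  have h1 : (√((1 + p) ^ 2 - S ^ 2) * (4 - S ^ 2)) ^ 2 ≤
      ((1 + p) * (4 + S ^ 2) - 4 * S ^ 2) ^ 2 := by
    rw [mul_pow, Real.sq_sqrt hX]
    nlinarith [sq_nonneg (S * (4 * p - S ^ 2))]
  exact (pow_le_pow_iff_left₀ (by positivity) hY two_ne_zero).1 h1

theorem w_le_amgm {S p : ℝ} (h : 0 ≤ 1 - S ^ 2 / 2 + p) (h4 : 4 * p ≤ S ^ 2) :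
    √((1 + p) ^ 2 - S ^ 2) ≤ 1 - S ^ 2 / 4 + 1 * (p - S ^ 2 / 4) := by
  rw [Real.sqrt_le_left (by linarith)]
  nlinarith [mul_nonneg (sq_nonneg S) (sub_nonneg.2 h4)]

namespace P10

/-- The kernel (times `r⁶`) for `a, b ≥ 0` in terms of `S = a + b`, `p = a b` and the angular
factor `w`. -/
noncomputable def kS (r S p w : ℝ) : ℝ :=
  381 * r ^ 6 + 132 * ((7 + (S ^ 2 - 2 * p)) * r ^ 4 - 9 / 2 * S * r ^ 5) +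
    513 * ((5 + 2 * (S ^ 2 - 2 * p)) * r ^ 2 - 9 / 2 * S * r ^ 3) +
    470 * ((3 + 3 * (S ^ 2 - 2 * p)) - 9 / 2 * S * r) -
    1 / 2 * r * (648 * (4 * S + 5 * p * S) + 336 * (4 * (S ^ 3 - 3 * p * S) + 5 * p ^ 2 * S)) -
    1 / 2 * (648 * S + 1008 * p * S) * w * r +
    9 / 2 * (1296 * p + 336 * p * (S ^ 2 - 2 * p)) * r ^ 2

theorem kS_diag {r c : ℝ} (hr : 0 ≤ r) (hc : 0 ≤ c) (hc1 : c ≤ 1) :
    0 ≤ kS r (2 * c) (c ^ 2) (1 - c ^ 2) := by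
  obtain ⟨y, hy⟩ : ∃ y, y = 1 - c ^ 2 := ⟨_, rfl⟩
  obtain ⟨z1, hz1⟩ : ∃ z, z = 1 - c := ⟨_, rfl⟩
  obtain ⟨z2, hz2⟩ : ∃ z, z = 1 - c ^ 2 := ⟨_, rfl⟩
  obtain ⟨z3, hz3⟩ : ∃ z, z = 1 - c ^ 3 := ⟨_, rfl⟩
  obtain ⟨z4, hz4⟩ : ∃ z, z = 1 - c ^ 4 := ⟨_, rfl⟩
  have hy0 : 0 ≤ y := by rw [hy]; exact sub_nonneg.2 (pow_le_one₀ hc hc1)
  have h1 : 0 ≤ z1 := by rw [hz1]; exact sub_nonneg.2 hc1
  have h2 : 0 ≤ z2 := by rw [hz2]; exact sub_nonneg.2 (pow_le_one₀ hc hc1)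
  have h3 : 0 ≤ z3 := by rw [hz3]; exact sub_nonneg.2 (pow_le_one₀ hc hc1)
  have h4 : 0 ≤ z4 := by rw [hz4]; exact sub_nonneg.2 (pow_le_one₀ hc hc1)
  have key : 400 * kS r (2 * c) (c ^ 2) (1 - c ^ 2) =
      (-535 * r * c ^ 2 - 612 * r ^ 2 * c + 388 * r ^ 3 + 698 * c - 116 * r) ^ 2 +
      4 * ((-870 * r * c ^ 2 + 389 * r ^ 2 * c + 507 * c - 154 * r) ^ 2) +
      (475 * r * c ^ 2 + 109 * c - 472 * r) ^ 2 +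
      36 * ((-67 * c + 36 * r) ^ 2) +
      2025 * ((c) ^ 2) +
      y * (-1574 * r * c + 677 * r ^ 2 + 478) ^ 2 +
      9 * (y * (124 * r * c - 189) ^ 2) +
      12996 * (y * (1) ^ 2) +
      r * c * y * (-509 * c + 281 * r) ^ 2 +
      9801 * (r * c * y * (c) ^ 2) +
      739 * (r ^ 4 * z2) +
      288 * (r ^ 5 * z1) +
      18 * (r ^ 2 * c ^ 2) +
      1051 * (r ^ 3 * c) +
      59 * (c ^ 2) +
      1712 * (r * c) +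
      1044 * (r * z3) +
      82 * (r * c ^ 5) +
      48 * (r ^ 2 * z4) +
      365 * (r ^ 3 * c ^ 3) +
      522 * ((r - 1) ^ 2) +
      144 * (r ^ 4 * (r - 1) ^ 2) +
      509 +
      458 * (r ^ 2) +
      404 * (r ^ 4) +
      1712 * (r ^ 6) := by
    subst hy hz1 hz2 hz3 hz4
    unfold kS; ring
  have h : 0 ≤ 400 * kS r (2 * c) (c ^ 2) (1 - c ^ 2) := by
    rw [key]; positivity
  linarith

theorem kS_zero {r a : ℝ} (hr : 0 ≤ r) (ha : 0 ≤ a) (ha1 : a ≤ 1) :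
    0 ≤ kS r a 0 (1 - a ^ 2 / 2) := by
  obtain ⟨y, hy⟩ : ∃ y, y = 1 - a := ⟨_, rfl⟩
  have hy0 : 0 ≤ y := by rw [hy]; exact sub_nonneg.2 ha1
  have key : 96 * kS r a 0 (1 - a ^ 2 / 2) =
      164956 * (r * y) +
      141660 * ((r - a) ^ 2 * a) +
      68145 * (a * y) +
      58347 * (a ^ 2 * y) +
      57195 * (y) +
      42255 * ((2 * r - 1) ^ 2 * y) +
      35910 * (1) +
      31305 * ((2 * r - 1) ^ 2 * a * y) +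
      20448 * ((r - a) ^ 2 * r ^ 4) +
      16956 * ((2 * r - 3 * a) ^ 2 * r ^ 2) +
      10350 * ((2 * r - 3 * a) ^ 2) +
      9257 * ((2 * r - 3 * a) ^ 2 * y) +
      9072 * ((r - 1) ^ 2 * r ^ 2) +
      5976 * ((2 * r - 1) ^ 2 * r ^ 2 * y) +
      5440 * ((2 * r - 3 * a) ^ 2 * r * y) +
      4064 * ((2 * r - 1) ^ 2 * r * y) +
      4032 * ((2 * r - 1) ^ 2 * r ^ 3 * y) +
      4032 * ((2 * r - 1) ^ 2 * r ^ 4) +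
      1944 * ((2 * r - 1) ^ 2 * r ^ 2 * a * y) +
      1944 * ((2 * r - 1) ^ 2 * r * a * y) := by
    subst hy
    unfold kS; ring
  have h : 0 ≤ 96 * kS r a 0 (1 - a ^ 2 / 2) := by
    rw [key]; positivity
  linarith

set_option maxHeartbeats 1000000 in
theorem K3_poly {r b : ℝ} (hr : 0 ≤ r) (hb : 0 ≤ b) (hb1 : b ≤ 1) :
    0 ≤ 132 * r ^ 4 * b ^ 3 - 594 * r ^ 5 * b ^ 2 + 381 * r ^ 6 * b + 1512 * r ^ 2 * b ^ 4 + 396 * r ^ 4 * b ^ 2 - 2376 * r ^ 5 * b + 1143 * r ^ 6 - 1008 * r * b ^ 4 + 5562 * r ^ 2 * b ^ 3 - (4617 / 2) * r ^ 3 * b ^ 2 + 1056 * r ^ 4 * b - 1782 * r ^ 5 - 6168 * r * b ^ 3 + 10422 * r ^ 2 * b ^ 2 - 9234 * r ^ 3 * b + 3168 * r ^ 4 + 1410 * b ^ 3 - 12591 * r * b ^ 2 + 25623 * r ^ 2 * b - (13851 / 2) * r ^ 3 + 4230 * b ^ 2 - 20004 * r * b + 10773 * r ^ 2 + 2820 * b - 12573 * r + 8460 := by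
  obtain ⟨y, hy⟩ : ∃ y, y = 1 - b := ⟨_, rfl⟩
  obtain ⟨z1, hz1⟩ : ∃ z, z = 1 - b := ⟨_, rfl⟩
  obtain ⟨z2, hz2⟩ : ∃ z, z = 1 - b ^ 2 := ⟨_, rfl⟩
  obtain ⟨z3, hz3⟩ : ∃ z, z = 1 - b ^ 3 := ⟨_, rfl⟩
  obtain ⟨z4, hz4⟩ : ∃ z, z = 1 - b ^ 4 := ⟨_, rfl⟩
  have hy0 : 0 ≤ y := by rw [hy]; exact sub_nonneg.2 hb1
  have h1 : 0 ≤ z1 := by rw [hz1]; exact sub_nonneg.2 hb1
  have h2 : 0 ≤ z2 := by rw [hz2]; exact sub_nonneg.2 (pow_le_one₀ hb hb1)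
  have h3 : 0 ≤ z3 := by rw [hz3]; exact sub_nonneg.2 (pow_le_one₀ hb hb1)
  have h4 : 0 ≤ z4 := by rw [hz4]; exact sub_nonneg.2 (pow_le_one₀ hb hb1)
  have key : 400 * (132 * r ^ 4 * b ^ 3 - 594 * r ^ 5 * b ^ 2 + 381 * r ^ 6 * b + 1512 * r ^ 2 * b ^ 4 + 396 * r ^ 4 * b ^ 2 - 2376 * r ^ 5 * b + 1143 * r ^ 6 - 1008 * r * b ^ 4 + 5562 * r ^ 2 * b ^ 3 - (4617 / 2) * r ^ 3 * b ^ 2 + 1056 * r ^ 4 * b - 1782 * r ^ 5 - 6168 * r * b ^ 3 + 10422 * r ^ 2 * b ^ 2 - 9234 * r ^ 3 * b + 3168 * r ^ 4 + 1410 * b ^ 3 - 12591 * r * b ^ 2 + 25623 * r ^ 2 * b - (13851 / 2) * r ^ 3 + 4230 * b ^ 2 - 20004 * r * b + 10773 * r ^ 2 + 2820 * b - 12573 * r + 8460) =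
      (40 * r ^ 3 * b ^ 2 + 35 * r ^ 3 * b - 69 * r * b ^ 2 + 561 * r ^ 3 - 844 * b ^ 2 - 154 * r * b - 771 * r ^ 2 + 307 * b - 1368 * r + 1838) ^ 2 +
      (82 * r ^ 3 * b ^ 2 - 260 * r ^ 3 * b - 179 * r * b ^ 2 - 35 * r ^ 3 - 667 * b ^ 2 - 1275 * r * b + 1521 * r ^ 2 + 2168 * b - 1521 * r) ^ 2 +
      (-379 * r ^ 3 * b ^ 2 + 233 * r ^ 3 * b - 226 * r * b ^ 2 + 310 * r ^ 3 + 1679 * b ^ 2 - 1076 * r * b + 424 * r ^ 2 - 1042 * r) ^ 2 +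
      (102 * r ^ 3 * b ^ 2 + 291 * r ^ 3 * b - 620 * r * b ^ 2 - 90 * r ^ 3 - 885 * r * b - 524 * r ^ 2 + 1365 * r) ^ 2 +
      (29 * r ^ 3 * b ^ 2 - 63 * r ^ 3 * b + 133 * r * b ^ 2 + 7 * r ^ 3 + 611 * r * b - 318 * r ^ 2) ^ 2 +
      (-27 * r ^ 3 * b ^ 2 - 3 * r ^ 3 * b + 339 * r * b ^ 2 - 25 * r ^ 3 - 61 * r ^ 2) ^ 2 +
      4 * ((14 * r ^ 3 * b ^ 2 - 29 * r ^ 3 * b - 72 * r ^ 3 + 169 * r ^ 2) ^ 2) +
      (-27 * r ^ 3 * b ^ 2 - 67 * r ^ 3 * b + 92 * r ^ 3) ^ 2 +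
      (-74 * r ^ 3 * b ^ 2 + 73 * r ^ 3 * b) ^ 2 +
      121 * ((r ^ 3 * b ^ 2) ^ 2) +
      b * y * (-363 * r ^ 3 * b + 1994 * b) ^ 2 +
      38809 * (b * y * (r ^ 3 * b) ^ 2) +
      794 * (r ^ 6 * z1) +
      412 * (r ^ 4 * b ^ 3) +
      1264 * (r ^ 4 * z2) +
      1186 * (r ^ 4 * b) +
      854 * (r ^ 5 * z2) +
      648 * (r ^ 5 * b) +
      820 * (r ^ 2 * b ^ 3) +
      2775 * (r ^ 2 * z2) +
      1310 * (r ^ 2 * b) +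
      682 * (r ^ 3 * b ^ 2) +
      308 * (r ^ 3 * z1) +
      1708 * (z3) +
      71 * (b ^ 2) +
      532 * (z1) +
      1038 * (r * b ^ 2) +
      488 * (r * z1) +
      3716 * (r * b ^ 3) +
      450 * (r * b ^ 4) +
      88 * (r ^ 2 * z4) +
      2642 * (r ^ 3 * z3) +
      230 * (z4) +
      1946 * (r ^ 3 * b ^ 4) +
      640 * (r ^ 4 * b ^ 4) +
      521 * (r ^ 6 * b ^ 2) +
      438 * (r ^ 6 * b ^ 3) +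
      471 * (r ^ 6 * z4) +
      460 * ((r - 1) ^ 2) +
      1912 * (r ^ 2 * (r - 1) ^ 2) +
      288 * (r ^ 4 * (r - 1) ^ 2) +
      2826 +
      4307 * (r ^ 2) +
      2579 * (r ^ 4) +
      5627 * (r ^ 6) := by
    subst hy hz1 hz2 hz3 hz4
    ring
  have h : 0 ≤ 400 * (132 * r ^ 4 * b ^ 3 - 594 * r ^ 5 * b ^ 2 + 381 * r ^ 6 * b + 1512 * r ^ 2 * b ^ 4 + 396 * r ^ 4 * b ^ 2 - 2376 * r ^ 5 * b + 1143 * r ^ 6 - 1008 * r * b ^ 4 + 5562 * r ^ 2 * b ^ 3 - (4617 / 2) * r ^ 3 * b ^ 2 + 1056 * r ^ 4 * b - 1782 * r ^ 5 - 6168 * r * b ^ 3 + 10422 * r ^ 2 * b ^ 2 - 9234 * r ^ 3 * b + 3168 * r ^ 4 + 1410 * b ^ 3 - 12591 * r * b ^ 2 + 25623 * r ^ 2 * b - (13851 / 2) * r ^ 3 + 4230 * b ^ 2 - 20004 * r * b + 10773 * r ^ 2 + 2820 * b - 12573 * r + 8460) := by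
    rw [key]; positivity
  linarith

theorem kS_one {r b : ℝ} (hr : 0 ≤ r) (hb : 0 ≤ b) (hb1 : b ≤ 1) :
    0 ≤ kS r (1 + b) b ((1 - b ^ 2) / (3 + b)) := by
  have h := K3_poly hr hb hb1
  have e : (3 + b) * kS r (1 + b) b ((1 - b ^ 2) / (3 + b)) =
      132 * r ^ 4 * b ^ 3 - 594 * r ^ 5 * b ^ 2 + 381 * r ^ 6 * b + 1512 * r ^ 2 * b ^ 4 + 396 * r ^ 4 * b ^ 2 - 2376 * r ^ 5 * b + 1143 * r ^ 6 - 1008 * r * b ^ 4 + 5562 * r ^ 2 * b ^ 3 - (4617 / 2) * r ^ 3 * b ^ 2 + 1056 * r ^ 4 * b - 1782 * r ^ 5 - 6168 * r * b ^ 3 + 10422 * r ^ 2 * b ^ 2 - 9234 * r ^ 3 * b + 3168 * r ^ 4 + 1410 * b ^ 3 - 12591 * r * b ^ 2 + 25623 * r ^ 2 * b - (13851 / 2) * r ^ 3 + 4230 * b ^ 2 - 20004 * r * b + 10773 * r ^ 2 + 2820 * b - 12573 * r + 8460 := by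
    unfold kS; field_simp; ring
  rw [← e] at h
  have h5 : 0 < 3 + b := by linarith
  exact nonneg_of_mul_nonneg_right h h5

/-- The two-point inequality in terms of `S`, `p`, `w`. -/
noncomputable def pS (r S p w : ℝ) : ℝ :=
  r ^ 3 * kS r S p w - 16920 * p * r + p / 2 * (22560 * S + 14880 * (S ^ 3 - 3 * p * S) +
    4032 * (S ^ 5 - 5 * S ^ 3 * p + 5 * S * p ^ 2) -
    10752 * (S ^ 7 - 7 * S ^ 5 * p + 14 * S ^ 3 * p ^ 2 - 7 * S * p ^ 3))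

theorem pS_diag {r c : ℝ} (hr : 0 ≤ r) (hc : 0 ≤ c) (hc1 : c ≤ 1) :
    0 ≤ pS r (2 * c) (c ^ 2) (1 - c ^ 2) := by
  obtain ⟨y, hy⟩ : ∃ y, y = 1 - c := ⟨_, rfl⟩
  have hy0 : 0 ≤ y := by rw [hy]; exact sub_nonneg.2 hc1
  have e : pS r (2 * c) (c ^ 2) (1 - c ^ 2) = (r - 2 * c) ^ 2 * (-2688 * c ^ 7 - 2688 * r * c ^ 6 - 2016 * r ^ 2 * c ^ 5 - 1344 * r ^ 3 * c ^ 4 - 1008 * r ^ 4 * c ^ 3 + 84 * r ^ 5 * c ^ 2 + 336 * r ^ 6 * c + 381 * r ^ 7 + 1008 * c ^ 5 + 1008 * r * c ^ 4 + 756 * r ^ 2 * c ^ 3 + 504 * r ^ 3 * c ^ 2 - 921 * r ^ 4 * c + 924 * r ^ 5 + 3720 * c ^ 3 + 3720 * r * c ^ 2 + 2790 * r ^ 2 * c + 2565 * r ^ 3 + 5640 * c + 1410 * r) := by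
    unfold pS kS; ring
  have key : 64 * (-2688 * c ^ 7 - 2688 * r * c ^ 6 - 2016 * r ^ 2 * c ^ 5 - 1344 * r ^ 3 * c ^ 4 - 1008 * r ^ 4 * c ^ 3 + 84 * r ^ 5 * c ^ 2 + 336 * r ^ 6 * c + 381 * r ^ 7 + 1008 * c ^ 5 + 1008 * r * c ^ 4 + 756 * r ^ 2 * c ^ 3 + 504 * r ^ 3 * c ^ 2 - 921 * r ^ 4 * c + 924 * r ^ 5 + 3720 * c ^ 3 + 3720 * r * c ^ 2 + 2790 * r ^ 2 * c + 2565 * r ^ 3 + 5640 * c + 1410 * r) =
      360960 * (c) +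
      172032 * (r * c ^ 4 * y) +
      172032 * (c ^ 6 * y) +
      172032 * (c ^ 5 * y) +
      172032 * (r * c ^ 5 * y) +
      164160 * (r ^ 3) +
      129024 * (r ^ 2 * c ^ 3 * y) +
      129024 * (r ^ 2 * c ^ 4 * y) +
      107520 * (c ^ 4 * y) +
      107520 * (c ^ 3 * y) +
      107520 * (r * c ^ 3 * y) +
      91776 * (r ^ 3 * c ^ 2 * y) +
      90240 * (r) +
      90240 * (r ^ 2 * c ^ 2 * y) +
      86016 * (r ^ 3 * c ^ 3 * y) +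
      73584 * (r ^ 4 * c * y) +
      65424 * (r ^ 4 * c ^ 2 * y) +
      59520 * ((r - 2) ^ 2 * r * c ^ 2) +
      44640 * ((r - 2) ^ 2 * r ^ 2 * c) +
      44640 * ((r - 2) ^ 2 * r ^ 3 * c) +
      36960 * ((r - 2) ^ 2 * r ^ 2 * c ^ 2) +
      32640 * ((r - 2) ^ 2 * c ^ 3) +
      26992 * (r ^ 6) +
      17943 * (r ^ 5 * y) +
      17636 * (r ^ 7) +
      14201 * (r ^ 5) +
      7200 * ((r - 2) ^ 2 * r ^ 3 * c ^ 2) +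
      6748 * ((r - 2) ^ 2 * r ^ 5 * y) +
      6748 * ((r - 1 / 2) ^ 2 * r ^ 5 * c) +
      5760 * ((r - 2) ^ 2 * r * c ^ 3) +
      912 * ((r - c) ^ 2 * r ^ 4 * c) +
      348 * ((r - 2) ^ 2 * r ^ 4 * c) := by
    subst hy
    ring
  have h : 0 ≤ 64 * (-2688 * c ^ 7 - 2688 * r * c ^ 6 - 2016 * r ^ 2 * c ^ 5 - 1344 * r ^ 3 * c ^ 4 - 1008 * r ^ 4 * c ^ 3 + 84 * r ^ 5 * c ^ 2 + 336 * r ^ 6 * c + 381 * r ^ 7 + 1008 * c ^ 5 + 1008 * r * c ^ 4 + 756 * r ^ 2 * c ^ 3 + 504 * r ^ 3 * c ^ 2 - 921 * r ^ 4 * c + 924 * r ^ 5 + 3720 * c ^ 3 + 3720 * r * c ^ 2 + 2790 * r ^ 2 * c + 2565 * r ^ 3 + 5640 * c + 1410 * r) := by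
    rw [key]; positivity
  have h1 : 0 ≤ -2688 * c ^ 7 - 2688 * r * c ^ 6 - 2016 * r ^ 2 * c ^ 5 - 1344 * r ^ 3 * c ^ 4 - 1008 * r ^ 4 * c ^ 3 + 84 * r ^ 5 * c ^ 2 + 336 * r ^ 6 * c + 381 * r ^ 7 + 1008 * c ^ 5 + 1008 * r * c ^ 4 + 756 * r ^ 2 * c ^ 3 + 504 * r ^ 3 * c ^ 2 - 921 * r ^ 4 * c + 924 * r ^ 5 + 3720 * c ^ 3 + 3720 * r * c ^ 2 + 2790 * r ^ 2 * c + 2565 * r ^ 3 + 5640 * c + 1410 * r := by linarith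
  rw [e]
  positivity

theorem pS_zero {r a : ℝ} (hr : 0 ≤ r) (ha : 0 ≤ a) (ha1 : a ≤ 1) :
    0 ≤ pS r a 0 (1 - a ^ 2 / 2) := by
  have e : pS r a 0 (1 - a ^ 2 / 2) = r ^ 3 * kS r a 0 (1 - a ^ 2 / 2) := by unfold pS; ring
  rw [e]
  have := kS_zero hr ha ha1
  positivity

/-- `(3 + b) pS` on the edge `a = 1`. -/
noncomputable def E3 (r b : ℝ) : ℝ :=
  132 * r ^ 7 * b ^ 3 - 594 * r ^ 8 * b ^ 2 + 381 * r ^ 9 * b - 5376 * b ^ 9 + 1512 * r ^ 5 * b ^ 4 + 396 * r ^ 7 * b ^ 2 - 2376 * r ^ 8 * b + 1143 * r ^ 9 - 16128 * b ^ 8 - 1008 * r ^ 4 * b ^ 4 + 5562 * r ^ 5 * b ^ 3 - (4617 / 2) * r ^ 6 * b ^ 2 + 1056 * r ^ 7 * b - 1782 * r ^ 8 + 2016 * b ^ 7 - 6168 * r ^ 4 * b ^ 3 + 10422 * r ^ 5 * b ^ 2 - 9234 * r ^ 6 * b + 3168 * r ^ 7 + 6048 * b ^ 6 + 1410 * r ^ 3 * b ^ 3 - 12591 * r ^ 4 * b ^ 2 + 25623 * r ^ 5 * b - (13851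 / 2) * r ^ 6 + 7440 * b ^ 5 + 4230 * r ^ 3 * b ^ 2 - 20004 * r ^ 4 * b + 10773 * r ^ 5 + 22320 * b ^ 4 + 2820 * r ^ 3 * b - 12573 * r ^ 4 + 11280 * b ^ 3 - 16920 * r * b ^ 2 + 8460 * r ^ 3 + 49200 * b ^ 2 - 50760 * r * b + 46080 * b

theorem E3_eq {r b : ℝ} (hb : 0 ≤ b) :
    (3 + b) * pS r (1 + b) b ((1 - b ^ 2) / (3 + b)) = E3 r b := by
  unfold pS kS E3
  have : 3 + b ≠ 0 := by positivity
  field_simp
  ring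

theorem aux_C {r : ℝ} (hr : 0 ≤ r) : 0 ≤ 2286 * r ^ 6 - 3564 * r ^ 5 + 6336 * r ^ 4 - 13851 * r ^ 3 + 21546 * r ^ 2 - 25146 * r + 16920 := by
  have key : 130 * (2286 * r ^ 6 - 3564 * r ^ 5 + 6336 * r ^ 4 - 13851 * r ^ 3 + 21546 * r ^ 2 - 25146 * r + 16920) =
      247810 * (r ^ 4) +
      102726 * ((3 * r - 4) ^ 2 * r ^ 2) +
      87984 * ((4 * r - 5) ^ 2) +
      62595 * ((1 * r - 2) ^ 2 * r) +
      36056 * ((1 * r - 2) ^ 2 * r ^ 3) +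
      33020 * ((3 * r - 4) ^ 2 * r ^ 4) +
      18319 * ((4 * r - 5) ^ 2 * r ^ 3) := by
    ring
  have h : 0 ≤ 130 * (2286 * r ^ 6 - 3564 * r ^ 5 + 6336 * r ^ 4 - 13851 * r ^ 3 + 21546 * r ^ 2 - 25146 * r + 16920) := by
    rw [key]; positivity
  linarith

theorem aux_L {r : ℝ} (hr : 0 ≤ r) : 0 ≤ 16 * (1143 * r ^ 9 - 1782 * r ^ 8 + 3168 * r ^ 7 - (13851 / 2) * r ^ 6 + 10773 * r ^ 5 - 12573 * r ^ 4 + 8460 * r ^ 3) + (381 * r ^ 9 - 2414 * r ^ 8 + 1056 * r ^ 7 - 9379 * r ^ 6 + 25623 * r ^ 5 - 20816 * r ^ 4 + 2820 * r ^ 3 - 51818 * r + 46079) := by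
  have key : 4838400 * (16 * (1143 * r ^ 9 - 1782 * r ^ 8 + 3168 * r ^ 7 - (13851 / 2) * r ^ 6 + 10773 * r ^ 5 - 12573 * r ^ 4 + 8460 * r ^ 3) + (381 * r ^ 9 - 2414 * r ^ 8 + 1056 * r ^ 7 - 9379 * r ^ 6 + 25623 * r ^ 5 - 20816 * r ^ 4 + 2820 * r ^ 3 - 51818 * r + 46079)) =
      50064060942 * ((1 * r - 2) ^ 2 * r) +
      26105929185 * ((2 * r - 1) ^ 2 * r ^ 3) +
      21565575514 * ((4 * r - 3) ^ 2) +
      9818546400 * ((3 * r - 4) ^ 2 * r ^ 5) +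
      6567456000 * ((3 * r - 4) ^ 2 * r) +
      5645505600 * ((4 * r - 5) ^ 2 * r ^ 7) +
      4761741600 * ((4 * r - 5) ^ 2 * r ^ 6) +
      4407380313 * ((10 * r - 11) ^ 2 * r ^ 3) +
      3206494886 * ((2 * r - 3) ^ 2) +
      2113232760 * ((10 * r - 11) ^ 2 * r ^ 5) := by
    ring
  have h : 0 ≤ 4838400 * (16 * (1143 * r ^ 9 - 1782 * r ^ 8 + 3168 * r ^ 7 - (13851 / 2) * r ^ 6 + 10773 * r ^ 5 - 12573 * r ^ 4 + 8460 * r ^ 3) + (381 * r ^ 9 - 2414 * r ^ 8 + 1056 * r ^ 7 - 9379 * r ^ 6 + 25623 * r ^ 5 - 20816 * r ^ 4 + 2820 * r ^ 3 - 51818 * r + 46079)) := by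
    rw [key]; positivity
  linarith

theorem E3_small {r b : ℝ} (hr : 0 ≤ r) (hb : 0 ≤ b) (hb1 : b ≤ 1 / 16) : 0 ≤ E3 r b := by
  have h1 := aux_C hr
  have h2 := aux_L hr
  have hC : 1143 * r ^ 9 - 1782 * r ^ 8 + 3168 * r ^ 7 - (13851 / 2) * r ^ 6 + 10773 * r ^ 5 - 12573 * r ^ 4 + 8460 * r ^ 3 = r ^ 3 / 2 * (2286 * r ^ 6 - 3564 * r ^ 5 + 6336 * r ^ 4 - 13851 * r ^ 3 + 21546 * r ^ 2 - 25146 * r + 16920) := by ring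
  have h3 : 0 ≤ 1143 * r ^ 9 - 1782 * r ^ 8 + 3168 * r ^ 7 - (13851 / 2) * r ^ 6 + 10773 * r ^ 5 - 12573 * r ^ 4 + 8460 * r ^ 3 := by
    rw [hC]; positivity
  -- `E3 ≥ C₀ + b D`
  have hy : 0 ≤ 1 / 16 - b := by linarith
  have hb2 : b ≤ 1 := by linarith
  have k1 : 0 ≤ r ^ 8 * b * (1 / 16 - b) := by positivity
  have k2 : 0 ≤ r ^ 6 * b * (1 / 16 - b) := by positivity
  have k3 : 0 ≤ r ^ 4 * b * (1 / 16 - b) := by positivity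
  have k4 : 0 ≤ r ^ 4 * b ^ 2 * (1 / 16 - b) := by positivity
  have k5 : 0 ≤ r ^ 4 * b ^ 3 * (1 / 16 - b) := by positivity
  have k6 : 0 ≤ r * b * (1 / 16 - b) := by positivity
  have k7 : 0 ≤ b ^ 2 * (1 - b ^ 6) := mul_nonneg (by positivity) (sub_nonneg.2 (pow_le_one₀ hb hb2))
  have k8 : 0 ≤ b ^ 2 * (1 - b ^ 7) := mul_nonneg (by positivity) (sub_nonneg.2 (pow_le_one₀ hb hb2))
  have hE : (1143 * r ^ 9 - 1782 * r ^ 8 + 3168 * r ^ 7 - (13851 / 2) * r ^ 6 + 10773 * r ^ 5 - 12573 * r ^ 4 + 8460 * r ^ 3) + b * (381 * r ^ 9 - 2414 * r ^ 8 + 1056 * r ^ 7 - 9379 * r ^ 6 + 25623 * r ^ 5 - 20816 * r ^ 4 + 2820 * r ^ 3 - 51818 * r + 46079) ≤ E3 r b := by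
    have hrest : 0 ≤ 132 * r ^ 7 * b ^ 3 + 1512 * r ^ 5 * b ^ 4 + 396 * r ^ 7 * b ^ 2 + 5562 * r ^ 5 * b ^ 3 + 2016 * b ^ 7 + 10422 * r ^ 5 * b ^ 2 + 6048 * b ^ 6 + 1410 * r ^ 3 * b ^ 3 + 7440 * b ^ 5 + 4230 * r ^ 3 * b ^ 2 + 22320 * b ^ 4 + 11280 * b ^ 3 := by positivity
    unfold E3
    have m1 : 0 ≤ r ^ 4 * b := by positivity
    have m2 : 0 ≤ r * b := by positivity
    have m3 : 0 ≤ r ^ 8 * b := by positivity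
    have m4 : 0 ≤ r ^ 6 * b := by positivity
    have m5 : 0 ≤ b ^ 2 := by positivity
    linarith
  have h4 : 0 ≤ (1143 * r ^ 9 - 1782 * r ^ 8 + 3168 * r ^ 7 - (13851 / 2) * r ^ 6 + 10773 * r ^ 5 - 12573 * r ^ 4 + 8460 * r ^ 3) + b * (381 * r ^ 9 - 2414 * r ^ 8 + 1056 * r ^ 7 - 9379 * r ^ 6 + 25623 * r ^ 5 - 20816 * r ^ 4 + 2820 * r ^ 3 - 51818 * r + 46079) := by
    have e : (1143 * r ^ 9 - 1782 * r ^ 8 + 3168 * r ^ 7 - (13851 / 2) * r ^ 6 + 10773 * r ^ 5 - 12573 * r ^ 4 + 8460 * r ^ 3) + b * (381 * r ^ 9 - 2414 * r ^ 8 + 1056 * r ^ 7 - 9379 * r ^ 6 + 25623 * r ^ 5 - 20816 * r ^ 4 + 2820 * r ^ 3 - 51818 * r + 46079) =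
      16 * ((1 / 16 - b) * (1143 * r ^ 9 - 1782 * r ^ 8 + 3168 * r ^ 7 - (13851 / 2) * r ^ 6 + 10773 * r ^ 5 - 12573 * r ^ 4 + 8460 * r ^ 3)) + b * (16 * (1143 * r ^ 9 - 1782 * r ^ 8 + 3168 * r ^ 7 - (13851 / 2) * r ^ 6 + 10773 * r ^ 5 - 12573 * r ^ 4 + 8460 * r ^ 3) + (381 * r ^ 9 - 2414 * r ^ 8 + 1056 * r ^ 7 - 9379 * r ^ 6 + 25623 * r ^ 5 - 20816 * r ^ 4 + 2820 * r ^ 3 - 51818 * r + 46079)) := by ring
    rw [e]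
    positivity
  exact h4.trans hE

theorem aux_Mp {r b : ℝ} (hr : 0 ≤ r) (hb : 0 ≤ b) (hb1 : b ≤ 1) :
    0 ≤ -237 * b ^ 7 - 156 * r * b ^ 6 - 75 * r ^ 2 * b ^ 5 + 6 * r ^ 3 * b ^ 4 + 87 * r ^ 4 * b ^ 3 + 168 * r ^ 5 * b ^ 2 + 381 * r ^ 6 * b + 1083 * b ^ 6 + 720 * r * b ^ 5 + 195 * r ^ 2 * b ^ 4 - 492 * r ^ 3 * b ^ 3 + 171 * r ^ 4 * b ^ 2 + 672 * r ^ 5 * b + 1143 * r ^ 6 + 2067 * b ^ 5 - (651 / 2) * r * b ^ 4 - 1593 * r ^ 2 * b ^ 3 - (5001 / 2) * r ^ 3 * b ^ 2 + 741 * r ^ 4 * b + 504 * r ^ 5 - 16641 * b ^ 4 - 12489 * r * b ^ 3 - 5997 * r ^ 2 * b ^ 2 - 3366 * r ^ 3 * b + 3033 * r ^ 4 - 9888 * b ^ 3 + 4725 * r * b ^ 2 + 9357 * r ^ 2 * b - (2727 / 2) * r ^ 3 + 25608 * b ^ 2 + 14829 * r * b + 5013 * r ^ 2 + 10728 * b - (2367 / 2) * r + 1080 := by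
  obtain ⟨y, hy⟩ : ∃ y, y = 1 - b := ⟨_, rfl⟩
  have hy0 : 0 ≤ y := by rw [hy]; exact sub_nonneg.2 hb1
  have key : 15360 * (-237 * b ^ 7 - 156 * r * b ^ 6 - 75 * r ^ 2 * b ^ 5 + 6 * r ^ 3 * b ^ 4 + 87 * r ^ 4 * b ^ 3 + 168 * r ^ 5 * b ^ 2 + 381 * r ^ 6 * b + 1083 * b ^ 6 + 720 * r * b ^ 5 + 195 * r ^ 2 * b ^ 4 - 492 * r ^ 3 * b ^ 3 + 171 * r ^ 4 * b ^ 2 + 672 * r ^ 5 * b + 1143 * r ^ 6 + 2067 * b ^ 5 - (651 / 2) * r * b ^ 4 - 1593 * r ^ 2 * b ^ 3 - (5001 / 2) * r ^ 3 * b ^ 2 + 741 * r ^ 4 * b + 504 * r ^ 5 - 16641 * b ^ 4 - 12489 * r * b ^ 3 - 5997 * r ^ 2 * b ^ 2 - 3366 * r ^ 3 * b + 3033 * r ^ 4 - 9888 * b ^ 3 + 4725 * r * b ^ 2 + 9357 * r ^ 2 * b - (2727 / 2) * r ^ 3 + 25608 * b ^ 2 + 14829 * r * b + 5013 * r ^ 2 + 10728 * b - (2367 / 2) * r + 1080) =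
      430921166 * (b ^ 2 * y) +
      303821508 * ((1 * r) ^ 2 * b * y) +
      187605146 * (b) +
      168660787 * (b ^ 3 * y) +
      123883560 * (r * b) +
      88331124 * (r * b ^ 2 * y) +
      36980616 * (r) +
      24614400 * ((1 * r - 1) ^ 2 * r ^ 2) +
      15248862 * ((2 * r - 1) ^ 2 * y ^ 2) +
      13651954 * (b * y ^ 5) +
      12381828 * ((2 * r - 1 * b) ^ 2 * b ^ 2) +
      11375040 * ((2 * r - 1 * b) ^ 2 * r ^ 2 * b) +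
      7959216 * ((1 * r - 1 * b) ^ 2 * b ^ 4) +
      7907362 * (b ^ 4 * y ^ 3) +
      7071360 * ((2 * r - 1) ^ 2 * r * y) +
      6324480 * ((2 * r - 1 * b) ^ 2 * r ^ 3) +
      6177531 * ((2 * r - 1 * b) ^ 2 * b ^ 3 * y) +
      4784640 * ((1 * r - 1) ^ 2 * r ^ 2 * b) +
      4468660 * (b ^ 4 * y ^ 2) +
      4389120 * ((2 * r - 1) ^ 2 * r ^ 4) +
      4388160 * ((2 * r - 1 * b) ^ 2 * r ^ 2) +
      3736320 * ((2 * r - 1) ^ 2 * r ^ 3 * b) +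
      3668002 * (b ^ 7) +
      2710563 * ((2 * r - 1 * b) ^ 2 * y ^ 4) +
      1899483 * ((2 * r - 1 * b) ^ 2 * y ^ 3) +
      1562880 * ((2 * r - 1 * b) ^ 2 * r ^ 2 * b ^ 2) +
      1463040 * ((2 * r - 1) ^ 2 * r ^ 4 * b) +
      1031166 * (y ^ 4) +
      645120 * ((2 * r - 1) ^ 2 * r ^ 3 * b ^ 2) +
      599040 * ((2 * r - 1 * b) ^ 2 * b * y ^ 4) +
      357120 * ((2 * r - 1) ^ 2 * r ^ 2 * b ^ 3) +
      353808 * ((2 * r - 1) ^ 2 * b ^ 5) +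
      308772 * ((2 * r - 1) ^ 2 * y ^ 6) +
      307200 * ((2 * r - 1 * b) ^ 2 * r ^ 3 * b) +
      102924 * ((2 * r - 1) ^ 2 * b ^ 6 * y) +
      102924 * ((2 * r - 1) ^ 2 * b ^ 3 * y ^ 4) +
      7680 * ((2 * r - 1 * b) ^ 2 * r ^ 2 * y ^ 4) +
      7680 * ((2 * r - 1 * b) ^ 2 * r ^ 2 * b ^ 3 * y) := by
    subst hy
    ring
  have h : 0 ≤ 15360 * (-237 * b ^ 7 - 156 * r * b ^ 6 - 75 * r ^ 2 * b ^ 5 + 6 * r ^ 3 * b ^ 4 + 87 * r ^ 4 * b ^ 3 + 168 * r ^ 5 * b ^ 2 + 381 * r ^ 6 * b + 1083 * b ^ 6 + 720 * r * b ^ 5 + 195 * r ^ 2 * b ^ 4 - 492 * r ^ 3 * b ^ 3 + 171 * r ^ 4 * b ^ 2 + 672 * r ^ 5 * b + 1143 * r ^ 6 + 2067 * b ^ 5 - (651 / 2) * r * b ^ 4 - 1593 * r ^ 2 * b ^ 3 - (5001 / 2) * r ^ 3 * b ^ 2 + 741 * r ^ 4 * b + 504 * r ^ 5 - 16641 * b ^ 4 - 12489 * r * b ^ 3 - 5997 * r ^ 2 * b ^ 2 - 3366 * r ^ 3 * b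 + 3033 * r ^ 4 - 9888 * b ^ 3 + 4725 * r * b ^ 2 + 9357 * r ^ 2 * b - (2727 / 2) * r ^ 3 + 25608 * b ^ 2 + 14829 * r * b + 5013 * r ^ 2 + 10728 * b - (2367 / 2) * r + 1080) := by
    rw [key]; positivity
  linarith

/-- the three coefficients -/
noncomputable def m0 (b : ℝ) : ℝ := -318 * b ^ 8 + 1284 * b ^ 7 + (10683 / 2) * b ^ 6 - 16728 * b ^ 5 - (64959 / 2) * b ^ 4 + 19650 * b ^ 3 + (78945 / 2) * b ^ 2 + 11154 * b + (6687 / 2)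

noncomputable def R0 (b : ℝ) : ℝ := -81 * b ^ 10 - 5100 * b ^ 9 - (26283 / 2) * b ^ 8 + 4683 * b ^ 7 - 2019 * b ^ 6 - 2685 * b ^ 5 + 27366 * b ^ 4 + 3909 * b ^ 3 - 14388 * b ^ 2 - 807 * b + (4527 / 2)

noncomputable def R1 (b : ℝ) : ℝ := -399 * b ^ 9 + 1323 * b ^ 8 + 9255 * b ^ 7 - 11349 * b ^ 6 - 57312 * b ^ 5 - 14850 * b ^ 4 + 66189 * b ^ 3 + 36189 * b ^ 2 - 34653 * b + 5607

theorem E3_dec (r b : ℝ) : E3 r b = r * (-237 * b ^ 7 - 156 * r * b ^ 6 - 75 * r ^ 2 * b ^ 5 + 6 * r ^ 3 * b ^ 4 + 87 * r ^ 4 * b ^ 3 + 168 * r ^ 5 * b ^ 2 + 381 * r ^ 6 * b + 1083 * b ^ 6 + 720 * r * b ^ 5 + 195 * r ^ 2 * b ^ 4 - 492 * r ^ 3 * b ^ 3 + 171 * r ^ 4 * b ^ 2 + 672 * r ^ 5 * b + 1143 * r ^ 6 + 2067 * b ^ 5 - (651 / 2) * r * b ^ 4 - 1593 * r ^ 2 * b ^ 3 - (5001 / 2) * r ^ 3 * b ^ 2 + 741 * r ^ 4 * b + 504 * r ^ 5 - 16641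 * b ^ 4 - 12489 * r * b ^ 3 - 5997 * r ^ 2 * b ^ 2 - 3366 * r ^ 3 * b + 3033 * r ^ 4 - 9888 * b ^ 3 + 4725 * r * b ^ 2 + 9357 * r ^ 2 * b - (2727 / 2) * r ^ 3 + 25608 * b ^ 2 + 14829 * r * b + 5013 * r ^ 2 + 10728 * b - (2367 / 2) * r + 1080) * (r - 1 - b) ^ 2 +
    (m0 b * (r - 1 - b) ^ 2 + R1 b * (r - 1 - b) + R0 b) := by
  unfold E3 m0 R0 R1; ring

theorem m0_pos {b : ℝ} (hb : 0 ≤ b) (hb1 : b ≤ 1) : 0 < m0 b := by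
  unfold m0
  have h1 : b ^ 8 ≤ b ^ 2 := pow_le_pow_of_le_one hb hb1 (by norm_num)
  have h2 : b ^ 5 ≤ b ^ 2 := pow_le_pow_of_le_one hb hb1 (by norm_num)
  have h3 : b ^ 4 ≤ b ^ 2 := pow_le_pow_of_le_one hb hb1 (by norm_num)
  have h4 : b ^ 5 ≤ b ^ 3 := pow_le_pow_of_le_one hb hb1 (by norm_num)
  have h5 : b ^ 2 ≤ b := by nlinarith
  have h6 : 0 ≤ b ^ 7 := by positivity
  have h7 : 0 ≤ b ^ 6 := by positivity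
  have h8 : 0 ≤ b ^ 2 := by positivity
  have h9 : 0 ≤ b ^ 3 := by positivity
  nlinarith

theorem disc_eq (b : ℝ) : 4 * m0 b * R0 b - R1 b ^ 2 = (1 - b) * (56169 * b ^ 17 - 7070769 * b ^ 16 - 1497672 * b ^ 15 + 209045808 * b ^ 14 + 212793030 * b ^ 13 - 1765716174 * b ^ 12 - 3678455160 * b ^ 11 - 269329968 * b ^ 10 + 5571377505 * b ^ 9 + 7890335775 * b ^ 8 + 3703973040 * b ^ 7 - 3668475888 * b ^ 6 - 2970396864 * b ^ 5 + 1581991920 * b ^ 4 + 226636992 * b ^ 3 - 1000072224 * b ^ 2 + 477627840 * b - 1166400) := by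
  unfold m0 R0 R1; ring

theorem disc_A {b : ℝ} (hb : 1 / 16 ≤ b) (hb1 : b ≤ 1 / 2) :
    0 ≤ 56169 * b ^ 17 - 7070769 * b ^ 16 - 1497672 * b ^ 15 + 209045808 * b ^ 14 + 212793030 * b ^ 13 - 1765716174 * b ^ 12 - 3678455160 * b ^ 11 - 269329968 * b ^ 10 + 5571377505 * b ^ 9 + 7890335775 * b ^ 8 + 3703973040 * b ^ 7 - 3668475888 * b ^ 6 - 2970396864 * b ^ 5 + 1581991920 * b ^ 4 + 226636992 * b ^ 3 - 1000072224 * b ^ 2 + 477627840 * b - 1166400 := by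
  obtain ⟨u, hu⟩ : ∃ u, u = 16 * b - 1 := ⟨_, rfl⟩
  obtain ⟨v, hv⟩ : ∃ v, v = 1 - 2 * b := ⟨_, rfl⟩
  have hu0 : 0 ≤ u := by rw [hu]; linarith
  have hv0 : 0 ≤ v := by rw [hv]; linarith
  have key : 30491346729331195904 * (56169 * b ^ 17 - 7070769 * b ^ 16 - 1497672 * b ^ 15 + 209045808 * b ^ 14 + 212793030 * b ^ 13 - 1765716174 * b ^ 12 - 3678455160 * b ^ 11 - 269329968 * b ^ 10 + 5571377505 * b ^ 9 + 7890335775 * b ^ 8 + 3703973040 * b ^ 7 - 3668475888 * b ^ 6 - 2970396864 * b ^ 5 + 1581991920 * b ^ 4 + 226636992 * b ^ 3 - 1000072224 * b ^ 2 + 477627840 * b - 1166400) =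
      7335972821408600109780914265 * (v ^ 17) +
      21344364768988366152989666967 * (u * v ^ 16) +
      26280192248734757461335559944 * (u ^ 2 * v ^ 15) +
      19021449035241976414368876696 * (u ^ 3 * v ^ 14) +
      9255658905331883133512656716 * (u ^ 4 * v ^ 13) +
      3249501233105716347938472468 * (u ^ 5 * v ^ 12) +
      857929248458783668139791896 * (u ^ 6 * v ^ 11) +
      174639194463980920112936712 * (u ^ 7 * v ^ 10) +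
      27799561397635683048304038 * (u ^ 8 * v ^ 9) +
      3481569880164019484193690 * (u ^ 9 * v ^ 8) +
      342742995196411551545592 * (u ^ 10 * v ^ 7) +
      26319763972798874502120 * (u ^ 11 * v ^ 6) +
      1552836974816831116140 * (u ^ 12 * v ^ 5) +
      68693356953988410420 * (u ^ 13 * v ^ 4) +
      2195904042840895848 * (u ^ 14 * v ^ 3) +
      47938471827782904 * (u ^ 15 * v ^ 2) +
      649154976495561 * (u ^ 16 * v) +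
      4309334863623 * (u ^ 17) := by
    subst hu hv
    ring
  have h : 0 ≤ 30491346729331195904 * (56169 * b ^ 17 - 7070769 * b ^ 16 - 1497672 * b ^ 15 + 209045808 * b ^ 14 + 212793030 * b ^ 13 - 1765716174 * b ^ 12 - 3678455160 * b ^ 11 - 269329968 * b ^ 10 + 5571377505 * b ^ 9 + 7890335775 * b ^ 8 + 3703973040 * b ^ 7 - 3668475888 * b ^ 6 - 2970396864 * b ^ 5 + 1581991920 * b ^ 4 + 226636992 * b ^ 3 - 1000072224 * b ^ 2 + 477627840 * b - 1166400) := by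
    rw [key]; positivity
  linarith

theorem disc_B {b : ℝ} (hb : 1 / 2 ≤ b) (hb1 : b ≤ 1) :
    0 ≤ 56169 * b ^ 17 - 7070769 * b ^ 16 - 1497672 * b ^ 15 + 209045808 * b ^ 14 + 212793030 * b ^ 13 - 1765716174 * b ^ 12 - 3678455160 * b ^ 11 - 269329968 * b ^ 10 + 5571377505 * b ^ 9 + 7890335775 * b ^ 8 + 3703973040 * b ^ 7 - 3668475888 * b ^ 6 - 2970396864 * b ^ 5 + 1581991920 * b ^ 4 + 226636992 * b ^ 3 - 1000072224 * b ^ 2 + 477627840 * b - 1166400 := by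
  obtain ⟨u, hu⟩ : ∃ u, u = 2 * b - 1 := ⟨_, rfl⟩
  obtain ⟨y, hy⟩ : ∃ v, v = 1 - b := ⟨_, rfl⟩
  have hu0 : 0 ≤ u := by rw [hu]; linarith
  have hy0 : 0 ≤ y := by rw [hy]; linarith
  have key : 1 * (56169 * b ^ 17 - 7070769 * b ^ 16 - 1497672 * b ^ 15 + 209045808 * b ^ 14 + 212793030 * b ^ 13 - 1765716174 * b ^ 12 - 3678455160 * b ^ 11 - 269329968 * b ^ 10 + 5571377505 * b ^ 9 + 7890335775 * b ^ 8 + 3703973040 * b ^ 7 - 3668475888 * b ^ 6 - 2970396864 * b ^ 5 + 1581991920 * b ^ 4 + 226636992 * b ^ 3 - 1000072224 * b ^ 2 + 477627840 * b - 1166400) =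
      4309334863623 * (y ^ 17) +
      32123243837736 * (u * y ^ 16) +
      122484307631184 * (u ^ 2 * y ^ 15) +
      347300023704408 * (u ^ 3 * y ^ 14) +
      843866714205990 * (u ^ 4 * y ^ 13) +
      1738207849730040 * (u ^ 5 * y ^ 12) +
      2879535987482220 * (u ^ 6 * y ^ 11) +
      3726794448474552 * (u ^ 7 * y ^ 10) +
      3741707794288815 * (u ^ 8 * y ^ 9) +
      2916502030680768 * (u ^ 9 * y ^ 8) +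
      1765627546957452 * (u ^ 10 * y ^ 7) +
      827117224758576 * (u ^ 11 * y ^ 6) +
      296781640173468 * (u ^ 12 * y ^ 5) +
      79996761618336 * (u ^ 13 * y ^ 4) +
      15663193039296 * (u ^ 14 * y ^ 3) +
      2100792858624 * (u ^ 15 * y ^ 2) +
      172367511552 * (u ^ 16 * y) +
      6511656960 * (u ^ 17) := by
    subst hu hy
    ring
  have h : 0 ≤ 1 * (56169 * b ^ 17 - 7070769 * b ^ 16 - 1497672 * b ^ 15 + 209045808 * b ^ 14 + 212793030 * b ^ 13 - 1765716174 * b ^ 12 - 3678455160 * b ^ 11 - 269329968 * b ^ 10 + 5571377505 * b ^ 9 + 7890335775 * b ^ 8 + 3703973040 * b ^ 7 - 3668475888 * b ^ 6 - 2970396864 * b ^ 5 + 1581991920 * b ^ 4 + 226636992 * b ^ 3 - 1000072224 * b ^ 2 + 477627840 * b - 1166400) := by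
    rw [key]; positivity
  linarith

theorem E3_nonneg {r b : ℝ} (hr : 0 ≤ r) (hb : 0 ≤ b) (hb1 : b ≤ 1) : 0 ≤ E3 r b := by
  rcases le_or_gt b (1 / 16) with h | h
  · exact E3_small hr hb h
  · have h1 : 0 ≤ (1 - b) * (56169 * b ^ 17 - 7070769 * b ^ 16 - 1497672 * b ^ 15 + 209045808 * b ^ 14 + 212793030 * b ^ 13 - 1765716174 * b ^ 12 - 3678455160 * b ^ 11 - 269329968 * b ^ 10 + 5571377505 * b ^ 9 + 7890335775 * b ^ 8 + 3703973040 * b ^ 7 - 3668475888 * b ^ 6 - 2970396864 * b ^ 5 + 1581991920 * b ^ 4 + 226636992 * b ^ 3 - 1000072224 * b ^ 2 + 477627840 * b - 1166400) := by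
      refine mul_nonneg (by linarith) ?_
      rcases le_or_gt b (1 / 2) with h' | h'
      · exact disc_A h.le h'
      · exact disc_B h'.le hb1
    have h2 := aux_Mp hr hb hb1
    have h3 : 0 ≤ m0 b * (r - 1 - b) ^ 2 + R1 b * (r - 1 - b) + R0 b := by
      refine quad_nonneg' (m0_pos hb hb1) ?_
      have := disc_eq b
      linarith
    rw [E3_dec]
    have h4 : 0 ≤ r * (-237 * b ^ 7 - 156 * r * b ^ 6 - 75 * r ^ 2 * b ^ 5 + 6 * r ^ 3 * b ^ 4 + 87 * r ^ 4 * b ^ 3 + 168 * r ^ 5 * b ^ 2 + 381 * r ^ 6 * b + 1083 * b ^ 6 + 720 * r * b ^ 5 + 195 * r ^ 2 * b ^ 4 - 492 * r ^ 3 * b ^ 3 + 171 * r ^ 4 * b ^ 2 + 672 * r ^ 5 * b + 1143 * r ^ 6 + 2067 * b ^ 5 - (651 / 2) * r * b ^ 4 - 1593 * r ^ 2 * b ^ 3 - (5001 / 2) * r ^ 3 * b ^ 2 + 741 * r ^ 4 * b + 504 * r ^ 5 - 16641 * b ^ 4 - 12489 * r * b ^ 3 - 5997 * r ^ 2 *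 b ^ 2 - 3366 * r ^ 3 * b + 3033 * r ^ 4 - 9888 * b ^ 3 + 4725 * r * b ^ 2 + 9357 * r ^ 2 * b - (2727 / 2) * r ^ 3 + 25608 * b ^ 2 + 14829 * r * b + 5013 * r ^ 2 + 10728 * b - (2367 / 2) * r + 1080) * (r - 1 - b) ^ 2 := by positivity
    linarith

theorem pS_one {r b : ℝ} (hr : 0 ≤ r) (hb : 0 ≤ b) (hb1 : b ≤ 1) :
    0 ≤ pS r (1 + b) b ((1 - b ^ 2) / (3 + b)) := by
  have h := E3_nonneg hr hb hb1
  rw [← E3_eq hb] at h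
  exact nonneg_of_mul_nonneg_right h (by linarith)

end P10

end Vale.Agent.P219.TP
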