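import Vale.Agent.P219.TP.PolyEleven
import Vale.Agent.P219.TP.PolyTen

set_option linter.all false

/-! # The certificate in dimension 11: the kernel

`φ(r,a) = r⁻⁶ N(r,a)`, `λ = 1660`, `s = 86400`. -/

namespace Vale.Agent.P219.TP.P11

open Kron

/-- `r⁶ φ(r,a)` -/
def N (r a : ℝ) : ℝ := 2400 - 25225 * r * a + 11506 * r ^ 2 + 27520 * r * a ^
    2 + 20480 * r ^ 2 * a - 13120 * r ^ 3 - 10173 * r * a ^ 3 - 31272 * r ^ 2 * a ^ 2 - 1132 * r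
    ^ 3 * a + 7225 * r ^ 4 + 14164 * r ^ 2 * a ^ 3 + 1664 * r ^ 3 * a ^ 2 - 167 * r ^ 4 * a -
    1033 * r ^ 5 - 5443 * r ^ 3 * a ^ 3 + 3765 * r ^ 4 * a ^ 2 - 972 * r ^ 5 * a + 161 * r ^ 6

/-- `∂N/∂a` -/
def NA (r a : ℝ) : ℝ := -25225 * r + 55040 * r * a + 20480 * r ^ 2 - 30519 * r *
    a ^ 2 - 62544 * r ^ 2 * a - 1132 * r ^ 3 + 42492 * r ^ 2 * a ^ 2 + 3328 * r ^ 3 * a - 167 *
    r ^ 4 - 16329 * r ^ 3 * a ^ 2 + 7530 * r ^ 4 * a - 972 * r ^ 5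

/-- `7 N - r ∂N/∂r` -/
def NR (r a : ℝ) : ℝ := 16800 - 151350 * r * a + 57530 * r ^ 2 + 165120 *
    r * a ^ 2 + 102400 * r ^ 2 * a - 52480 * r ^ 3 - 61038 * r * a ^ 3 - 156360 * r ^ 2 * a ^ 2
    - 4528 * r ^ 3 * a + 21675 * r ^ 4 + 70820 * r ^ 2 * a ^ 3 + 6656 * r ^ 3 * a ^ 2 - 501 * r
    ^ 4 * a - 2066 * r ^ 5 - 21772 * r ^ 3 * a ^ 3 + 11295 * r ^ 4 * a ^ 2 - 1944 * r ^ 5 * a +
    161 * r ^ 6

/-- part of the kernel -/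
def gA (r c e : ℝ) : ℝ := 7200 + 16800 * e + 16800 * c ^ 2 + 110080 *
    r * e - 124900 * r * c + 57530 * r ^ 2 + 165120 * r * e ^ 2 + 29274 * r * c * e + 110080 * r
    * c ^ 2 - 351080 * r ^ 2 * e + 102400 * r ^ 2 * c - 78720 * r ^ 3 - 61038 * r * c * e ^ 2 -
    330240 * r * c ^ 2 * e - 192042 * r * c ^ 3 - 258090 * r ^ 2 * e ^ 2 + 385260 * r ^ 2 * c *
    e + 153420 * r ^ 2 * c ^ 2 + 162304 * r ^ 3 * e - 121852 * r ^ 3 * c + 50575 * r ^ 4 +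
    122076 * r * c ^ 3 * e + 165120 * r * c ^ 4 + 70820 * r ^ 2 * c * e ^ 2 + 312720 * r ^ 2 * c
    ^ 2 * e - 101980 * r ^ 2 * c ^ 3 + 148296 * r ^ 3 * e ^ 2 - 406166 * r ^ 3 * c * e - 247296
    * r ^ 3 * c ^ 2 + 36710 * r ^ 4 * e + 130031 * r ^ 4 * c - 8264 * r ^ 5 - 61038 * r * c ^ 5
    - 141640 * r ^ 2 * c ^ 3 * e - 54630 * r ^ 2 * c ^ 4 - 21772 * r ^ 3 * c * e ^ 2 - 13312 * r
    ^ 3 * c ^ 2 * e + 275534 * r ^ 3 * c ^ 3 - 43135 * r ^ 4 * e ^ 2 + 17141 * r ^ 4 * c * e +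
    59350 * r ^ 4 * c ^ 2 - 3736 * r ^ 5 * e - 80026 * r ^ 5 * c + 1449 * r ^ 6 + 70820 * r ^ 2
    * c ^ 5 + 43544 * r ^ 3 * c ^ 3 * e - 134984 * r ^ 3 * c ^ 4 - 22590 * r ^ 4 * c ^ 2 * e -
    17141 * r ^ 4 * c ^ 3 + 39594 * r ^ 5 * c * e - 396 * r ^ 5 * c ^ 2 - 9559 * r ^ 6 * e +
    10330 * r ^ 6 * c + 1660 * r ^ 7 - 21772 * r ^ 3 * c ^ 5 + 65725 * r ^ 4 * c ^ 4 - 39594 * r
    ^ 5 * c ^ 3 + 9881 * r ^ 6 * c ^ 2 - 1610 * r ^ 7 * c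

/-- part of the kernel -/
def gB (r c e : ℝ) : ℝ := -55040 * r * e - 25225 * r * c + 30519 * r *
    c * e + 55040 * r * c ^ 2 + 62544 * r ^ 2 * e + 20480 * r ^ 2 * c - 30519 * r * c ^ 3 -
    42492 * r ^ 2 * c * e - 62544 * r ^ 2 * c ^ 2 - 3328 * r ^ 3 * e - 1132 * r ^ 3 * c + 42492
    * r ^ 2 * c ^ 3 + 16329 * r ^ 3 * c * e + 3328 * r ^ 3 * c ^ 2 - 7530 * r ^ 4 * e - 167 * r
    ^ 4 * c - 16329 * r ^ 3 * c ^ 3 + 7530 * r ^ 4 * c ^ 2 - 972 * r ^ 5 * c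

/-- mean value of `f` -/
def gF (c e : ℝ) : ℝ := 115200 * c - 1536000 * e ^ 2 + 1279920 * c * e
    + 1904640 * e ^ 3 + 8233600 * c * e ^ 2 - 9216000 * c ^ 2 * e + 426640 * c ^ 3 + 3230720 * e
    ^ 4 - 34954864 * c * e ^ 3 + 28569600 * c ^ 2 * e ^ 2 + 16467200 * c ^ 3 * e - 1536000 * c ^
    4 - 5614272 * c * e ^ 4 + 90460160 * c ^ 2 * e ^ 3 - 174774320 * c ^ 3 * e ^ 2 + 28569600 *
    c ^ 4 * e + 1646720 * c ^ 5 - 52399872 * c ^ 3 * e ^ 3 + 226150400 * c ^ 4 * e ^ 2 -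
    104864592 * c ^ 5 * e + 1904640 * c ^ 6 - 78599808 * c ^ 5 * e ^ 2 + 90460160 * c ^ 6 * e -
    4993552 * c ^ 7 - 22457088 * c ^ 7 * e + 3230720 * c ^ 8 - 623808 * c ^ 9

/-- the function `f` -/
def f (c : ℝ) : ℝ := 115200 * c + 426640 * c ^ 3 - 1536000 * c ^ 4 +
    1646720 * c ^ 5 + 1904640 * c ^ 6 - 4993552 * c ^ 7 + 3230720 * c ^ 8 - 623808 * c ^ 9

/-- `f'` -/
def f' (c : ℝ) : ℝ := 115200 + 1279920 * c ^ 2 - 6144000 * c ^ 3 + 8233600 * c ^ 4 +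
    11427840 * c ^ 5 - 34954864 * c ^ 6 + 25845760 * c ^ 7 - 5614272 * c ^ 8

/-- The kernel times `r⁷`; `w` is the angular factor. -/
noncomputable def k11 (r a b w : ℝ) : ℝ :=
  1660 * r ^ 7 + 1 / 2 * ((10 * N r a - NR r a * (1 - b ^ 2) + NA r a * |b| * w -
      10 * b * r * N r a) +
    (10 * N r b - NR r b * (1 - a ^ 2) + NA r b * |a| * w - 10 * a * r * N r b))

/-- The inequality for pairs. -/
noncomputable def p11 (r a b w : ℝ) : ℝ :=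
  r ^ 3 * k11 r a b w + a * b * ((f a + f b) / 2 - 86400 * r)

theorem ev_xN (x y z : ℝ) (R A : Ex) :
    ev x y z (h2 R A lN) = N (ev x y z R) (ev x y z A) := by
  simp only [h2, h1, ev_hor, ev_ci, lN, horR]
  push_cast
  unfold N
  ring

theorem ev_xNA (x y z : ℝ) (R A : Ex) :
    ev x y z (h2 R A lNA) = NA (ev x y z R) (ev x y z A) := by
  simp only [h2, h1, ev_hor, ev_ci, lNA, horR]
  push_cast
  unfold NA
  ring

theorem ev_xNR (x y z : ℝ) (R A : Ex) :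
    ev x y z (h2 R A lNR) = NR (ev x y z R) (ev x y z A) := by
  simp only [h2, h1, ev_hor, ev_ci, lNR, horR]
  push_cast
  unfold NR
  ring

theorem ev_lA (x y z : ℝ) (R C E : Ex) :
    ev x y z (h3 R C E lA) = gA (ev x y z R) (ev x y z C) (ev x y z E) := by
  simp only [h3, h2, h1, ev_hor, ev_ci, lA, horR]
  push_cast
  unfold gA
  ring

theorem ev_lB (x y z : ℝ) (R C E : Ex) :
    ev x y z (h3 R C E lB) = gB (ev x y z R) (ev x y z C) (ev x y z E) := by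
  simp only [h3, h2, h1, ev_hor, ev_ci, lB, horR]
  push_cast
  unfold gB
  ring

theorem ev_lF (x y z : ℝ) (C E : Ex) :
    ev x y z (h2 C E lF) = gF (ev x y z C) (ev x y z E) := by
  simp only [h2, h1, ev_hor, ev_ci, lF, horR]
  push_cast
  unfold gF
  ring

theorem k11_eq {r c d w : ℝ} (h1 : 0 ≤ c + d) (h2 : 0 ≤ c - d) :
    k11 r (c + d) (c - d) w = gA r c (d ^ 2) + w * gB r c (d ^ 2) := by
  unfold k11
  rw [abs_of_nonneg h1, abs_of_nonneg h2]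
  unfold N NA NR gA gB
  ring

theorem f_eq (c d : ℝ) : (f (c + d) + f (c - d)) / 2 = gF c (d ^ 2) := by
  unfold f gF
  ring

theorem gB_eq (r c d : ℝ) :
    gB r c (d ^ 2) = (NA r (c + d) * (c - d) + NA r (c - d) * (c + d)) / 2 := by
  unfold gB NA
  ring

end Vale.Agent.P219.TP.P11
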