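import Vale.Agent.P219.TP.PolyEleven2

set_option linter.all false

/-! # The certificate in dimension 11: inequalities for the kernel -/

namespace Vale.Agent.P219.TP.P11

open Kron

/-- combination used in the checks -/
noncomputable def gK (r c e D W : ℝ) : ℝ := D * gA r c e + W * gB r c e

/-- combination used in the checks -/
noncomputable def gP (r c e D W : ℝ) : ℝ :=
  r ^ 3 * gK r c e D W + D * (c ^ 2 - e) * (gF c e - 86400 * r)

theorem ev_xK (x y z : ℝ) (R C E D W : Ex) : ev x y z (xK R C E D W) =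
    gK (ev x y z R) (ev x y z C) (ev x y z E) (ev x y z D) (ev x y z W) := by
  simp only [xK, ev, ev_lA, ev_lB]
  rfl

theorem ev_xP (x y z : ℝ) (R C E D W : Ex) : ev x y z (xP R C E D W) =
    gP (ev x y z R) (ev x y z C) (ev x y z E) (ev x y z D) (ev x y z W) := by
  simp only [xP, ev, ev_xK, ev_lF]
  unfold gP
  push_cast
  ring

theorem ev_xR1 (x y z : ℝ) : ev x y z xR1 = 2 * x * y := by
  simp only [xR1, ev]; push_cast; ring

theorem ev_xR2 (x y z : ℝ) : ev x y z xR2 = 2 * x + y := by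
  simp only [xR2, ev]; push_cast; ring

theorem ev_xE1 (x y z : ℝ) : ev x y z xE1 = x ^ 2 * z := by
  simp only [xE1, ev]; ring

theorem ev_xD1 (x y z : ℝ) : ev x y z xD1 = 1 - x ^ 2 := by
  simp only [xD1, ev]; push_cast; ring

theorem ev_xW1 (x y z : ℝ) :
    ev x y z xW1 = (1 - x ^ 2) ^ 2 - x ^ 2 * z * (1 + x ^ 2) := by
  simp only [xW1, ev, ev_xD1, ev_xE1]; push_cast; ring

theorem ev_xE2 (x y z : ℝ) : ev x y z xE2 = (1 - x) ^ 2 * (1 - z ^ 2) := by
  simp only [xE2, xU, ev]; push_cast; ring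

theorem ev_xD2 (x y z : ℝ) : ev x y z xD2 = 2 * (1 + x) := by
  simp only [xD2, ev]; push_cast; ring

theorem ev_xW2 (x y z : ℝ) : ev x y z xW2 =
    (1 - x) * z * (2 * (1 + x) ^ 2 - (1 - x) ^ 2 * (1 - z ^ 2)) := by
  simp only [xW2, xU, ev, ev_xE2]; push_cast; ring

theorem ev_xw1 (x y z : ℝ) : ev x y z xw1 = (2 * x * y) ^ 3 * ((1 - y) ^ 2 + z) := by
  simp only [xw1, xV, ev, ev_xR1]; push_cast; ring

theorem ev_xw2 (x y z : ℝ) :
    ev x y z xw2 = (2 * x * y) ^ 3 * ((1 - y) ^ 2 + (1 - x) * (1 - z)) := by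
  simp only [xw2, xV, xU, ev, ev_xR1]; push_cast; ring

theorem ev_xw3 (x y z : ℝ) : ev x y z xw3 = y ^ 2 * (y + x) + x ^ 3 * z := by
  simp only [xw3, ev]; ring

theorem ev_xw4 (x y z : ℝ) : ev x y z xw4 = y ^ 2 + (1 - x) * (1 - z) := by
  simp only [xw4, xU, ev]; push_cast; ring

theorem ev_sb (x y z : ℝ) (a b : Ex) : ev x y z (sb a b) = ev x y z a - ev x y z b := by
  simp only [sb, ev]; push_cast; ring

theorem cs {t : Ex} {T : Tr} {a1 b1 c1 d1 a2 b2 c2 d2 a3 b3 c3 d3 : ℕ}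
    (h : ct t T ⟨a1, b1, c1, d1, a2, b2, c2, d2, a3, b3, c3, d3⟩ = true)
    (hc : (0 < c1 ∧ 0 < c2 ∧ 0 < c3) ∧ a1 * d1 < b1 * c1 ∧ a2 * d2 < b2 * c2 ∧
      a3 * d3 < b3 * c3) {x y z : ℝ} (hx : (a1 : ℝ) ≤ c1 * x) (hx' : (d1 : ℝ) * x ≤ b1)
    (hy : (a2 : ℝ) ≤ c2 * y) (hy' : (d2 : ℝ) * y ≤ b2) (hz : (a3 : ℝ) ≤ c3 * z)
    (hz' : (d3 : ℝ) * z ≤ b3) : 0 ≤ ev x y z t :=
  ct_sound T (q := ⟨a1, b1, c1, d1, a2, b2, c2, d2, a3, b3, c3, d3⟩) hc.1 h hc.2.1 hc.2.2.1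
    hc.2.2.2 hx hx' hy hy' hz hz'

theorem cP1 {c ρ δ : ℝ} (hc : 0 ≤ c) (hc1 : c ≤ 1 / 2) (hρ : 0 ≤ ρ) (hρ1 : ρ ≤ 1) (hδ : 0 ≤ δ)
    (hδ1 : δ ≤ 1) : (2 * c * ρ) ^ 3 * ((1 - ρ) ^ 2 + δ) ≤
      gP (2 * c * ρ) c (c ^ 2 * δ) (1 - c ^ 2) ((1 - c ^ 2) ^ 2 - c ^ 2 * δ * (1 + c ^ 2)) := by
  have h := cs ckP1 (by norm_num) (x := c) (y := ρ) (z := δ) (by push_cast; linarith)
    (by push_cast; linarith) (by push_cast; linarith) (by push_cast; linarith)
    (by push_cast; linarith) (by push_cast; linarith)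
  rw [ev_sb, ev_xP, ev_xR1, ev_xE1, ev_xD1, ev_xW1, ev_xw1] at h
  exact sub_nonneg.1 h

theorem cP2 {c ρ μ : ℝ} (hc : 1 / 2 ≤ c) (hc1 : c ≤ 1) (hρ : 0 ≤ ρ) (hρ1 : ρ ≤ 1) (hμ : 0 ≤ μ)
    (hμ1 : μ ≤ 1) : (2 * c * ρ) ^ 3 * ((1 - ρ) ^ 2 + (1 - c) * (1 - μ)) ≤
      gP (2 * c * ρ) c ((1 - c) ^ 2 * (1 - μ ^ 2)) (2 * (1 + c))
        ((1 - c) * μ * (2 * (1 + c) ^ 2 - (1 - c) ^ 2 * (1 - μ ^ 2))) := by
  have h := cs ckP2 (by norm_num) (x := c) (y := ρ) (z := μ) (by push_cast; linarith)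
    (by push_cast; linarith) (by push_cast; linarith) (by push_cast; linarith)
    (by push_cast; linarith) (by push_cast; linarith)
  rw [ev_sb, ev_xP, ev_xR1, ev_xE2, ev_xD2, ev_xW2, ev_xw2] at h
  exact sub_nonneg.1 h

theorem cP3 {c y δ : ℝ} (hc : 0 ≤ c) (hc1 : c ≤ 1 / 2) (hy : 0 ≤ y) (hδ : 0 ≤ δ)
    (hδ1 : δ ≤ 1) : y ^ 2 * (y + c) + c ^ 3 * δ ≤
      gP (2 * c + y) c (c ^ 2 * δ) (1 - c ^ 2) ((1 - c ^ 2) ^ 2 - c ^ 2 * δ * (1 + c ^ 2)) := by
  have h := cs ckP3 (by norm_num) (x := c) (y := y) (z := δ) (by push_cast; linarith)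
    (by push_cast; linarith) (by push_cast; linarith) (by push_cast; linarith)
    (by push_cast; linarith) (by push_cast; linarith)
  rw [ev_sb, ev_xP, ev_xR2, ev_xE1, ev_xD1, ev_xW1, ev_xw3] at h
  exact sub_nonneg.1 h

theorem cP4 {c y μ : ℝ} (hc : 1 / 2 ≤ c) (hc1 : c ≤ 1) (hy : 0 ≤ y) (hμ : 0 ≤ μ)
    (hμ1 : μ ≤ 1) : y ^ 2 + (1 - c) * (1 - μ) ≤
      gP (2 * c + y) c ((1 - c) ^ 2 * (1 - μ ^ 2)) (2 * (1 + c))
        ((1 - c) * μ * (2 * (1 + c) ^ 2 - (1 - c) ^ 2 * (1 - μ ^ 2))) := by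
  have h := cs ckP4 (by norm_num) (x := c) (y := y) (z := μ) (by push_cast; linarith)
    (by push_cast; linarith) (by push_cast; linarith) (by push_cast; linarith)
    (by push_cast; linarith) (by push_cast; linarith)
  rw [ev_sb, ev_xP, ev_xR2, ev_xE2, ev_xD2, ev_xW2, ev_xw4] at h
  exact sub_nonneg.1 h

theorem cK1 {c ρ δ : ℝ} (hc : 0 ≤ c) (hc1 : c ≤ 1 / 2) (hρ : 0 ≤ ρ) (hρ1 : ρ ≤ 1) (hδ : 0 ≤ δ)
    (hδ1 : δ ≤ 1) : 1 ≤
      gK (2 * c * ρ) c (c ^ 2 * δ) (1 - c ^ 2) ((1 - c ^ 2) ^ 2 - c ^ 2 * δ * (1 + c ^ 2)) := by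
  have h := cs ckK1 (by norm_num) (x := c) (y := ρ) (z := δ) (by push_cast; linarith)
    (by push_cast; linarith) (by push_cast; linarith) (by push_cast; linarith)
    (by push_cast; linarith) (by push_cast; linarith)
  rw [ev_sb, ev_xK, ev_xR1, ev_xE1, ev_xD1, ev_xW1] at h
  simpa [ev] using h

theorem cK2 {c ρ μ : ℝ} (hc : 1 / 2 ≤ c) (hc1 : c ≤ 1) (hρ : 0 ≤ ρ) (hρ1 : ρ ≤ 1) (hμ : 0 ≤ μ)
    (hμ1 : μ ≤ 1) : 1 ≤
      gK (2 * c * ρ) c ((1 - c) ^ 2 * (1 - μ ^ 2)) (2 * (1 + c))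
        ((1 - c) * μ * (2 * (1 + c) ^ 2 - (1 - c) ^ 2 * (1 - μ ^ 2))) := by
  have h := cs ckK2 (by norm_num) (x := c) (y := ρ) (z := μ) (by push_cast; linarith)
    (by push_cast; linarith) (by push_cast; linarith) (by push_cast; linarith)
    (by push_cast; linarith) (by push_cast; linarith)
  rw [ev_sb, ev_xK, ev_xR1, ev_xE2, ev_xD2, ev_xW2] at h
  simpa [ev] using h

theorem NA_nonpos {r a : ℝ} (hr : 0 ≤ r) (ha : |a| ≤ 1) : NA r a ≤ 0 := by
  have ha' := abs_le.1 ha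
  rcases le_total 0 a with h0 | h0
  · have h := cs ckA1 (by norm_num) (x := a) (y := r) (z := 0) (by push_cast; linarith)
      (by push_cast; linarith) (by push_cast; linarith) (by push_cast; linarith)
      (by push_cast; linarith) (by push_cast; linarith)
    simp only [ng, xNA, ev, ev_xNA] at h
    push_cast at h
    linarith
  · have h := cs ckA2 (by norm_num) (x := -a) (y := r) (z := 0) (by push_cast; linarith)
      (by push_cast; linarith) (by push_cast; linarith) (by push_cast; linarith)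
      (by push_cast; linarith) (by push_cast; linarith)
    simp only [ng, xNA, ev, ev_xNA] at h
    push_cast at h
    rw [show (0 - 1 : ℝ) * -a = a by ring] at h
    linarith

theorem N_nonneg {r a : ℝ} (hr : 0 ≤ r) (ha : |a| ≤ 41 / 40) : 0 ≤ N r a := by
  have ha' := abs_le.1 ha
  rcases le_total 0 a with h0 | h0
  · have h := cs ckB1 (by norm_num) (x := a) (y := r) (z := 0) (by push_cast; linarith)
      (by push_cast; linarith) (by push_cast; linarith) (by push_cast; linarith)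
      (by push_cast; linarith) (by push_cast; linarith)
    simp only [xN, ev, ev_xN] at h
    exact h
  · have h := cs ckB2 (by norm_num) (x := -a) (y := r) (z := 0) (by push_cast; linarith)
      (by push_cast; linarith) (by push_cast; linarith) (by push_cast; linarith)
      (by push_cast; linarith) (by push_cast; linarith)
    simp only [ng, xN, ev, ev_xN] at h
    push_cast at h
    rwa [show (0 - 1 : ℝ) * -a = a by ring] at h

theorem NR_neg {r a : ℝ} (hr : 0 ≤ r) (ha : 0 ≤ a) (ha1 : a ≤ 1) : 0 ≤ NR r (-a) := by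
  have h := cs ckC3 (by norm_num) (x := a) (y := r) (z := 0) (by push_cast; linarith)
    (by push_cast; linarith) (by push_cast; linarith) (by push_cast; linarith)
    (by push_cast; linarith) (by push_cast; linarith)
  simp only [ng, xNR, ev, ev_xNR] at h
  push_cast at h
  rwa [show (0 - 1 : ℝ) * a = -a by ring] at h

theorem X_pos_pos {r a b : ℝ} (hr : 0 ≤ r) (ha : 0 ≤ a) (ha1 : a ≤ 1) (hb : 0 ≤ b)
    (hb1 : b ≤ 1) :
    0 ≤ NR r a + NR r b + ((1 - b ^ 2) * (a * NA r a) + (1 - a ^ 2) * (b * NA r b)) := by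
  have h := cs ckX1 (by norm_num) (x := a) (y := r) (z := b) (by push_cast; linarith)
    (by push_cast; linarith) (by push_cast; linarith) (by push_cast; linarith)
    (by push_cast; linarith) (by push_cast; linarith)
  simp only [oq, xNR, xNA, ev, ev_xNR, ev_xNA] at h
  push_cast at h
  refine le_of_le_of_eq h ?_
  ring

theorem X_pos_neg {r a b : ℝ} (hr : 0 ≤ r) (ha : 0 ≤ a) (ha1 : a ≤ 1) (hb : 0 ≤ b)
    (hb1 : b ≤ 1) : 0 ≤ NR r a + NR r (-b) + (1 - b ^ 2) * (a * NA r a) := by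
  have h := cs ckX2 (by norm_num) (x := a) (y := r) (z := b) (by push_cast; linarith)
    (by push_cast; linarith) (by push_cast; linarith) (by push_cast; linarith)
    (by push_cast; linarith) (by push_cast; linarith)
  simp only [oq, ng, xNR, xNA, ev, ev_xNR, ev_xNA] at h
  push_cast at h
  rw [show (0 - 1 : ℝ) * b = -b by ring] at h
  refine le_of_le_of_eq h ?_
  ring

theorem f_div {c : ℝ} (hc : 0 ≤ c) (hc1 : c ≤ 1) : ∃ g, f c = c * g ∧ 0 ≤ g ∧ g ≤ 172800 := by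
  have h := cs ckF0 (by norm_num) (x := c) (y := 0) (z := 0) (by push_cast; linarith)
    (by push_cast; linarith) (by push_cast; linarith) (by push_cast; linarith)
    (by push_cast; linarith) (by push_cast; linarith)
  have h' := cs ckF2 (by norm_num) (x := c) (y := 0) (z := 0) (by push_cast; linarith)
    (by push_cast; linarith) (by push_cast; linarith) (by push_cast; linarith)
    (by push_cast; linarith) (by push_cast; linarith)
  rw [ev_sb] at h'
  refine ⟨_, ?_, h, ?_⟩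
  · simp only [h1, ev_hor, ev_ci, lf, horR, ev]
    push_cast
    unfold f
    ring
  · simp only [ev] at h'
    push_cast at h'
    linarith

theorem f_nonneg {c : ℝ} (hc : 0 ≤ c) (hc1 : c ≤ 1) : 0 ≤ f c := by
  obtain ⟨g, h, h1, -⟩ := f_div hc hc1
  rw [h]; exact mul_nonneg hc h1

theorem f_le {c : ℝ} (hc : 0 ≤ c) (hc1 : c ≤ 1) : f c ≤ 172800 * c := by
  obtain ⟨g, h, -, h1⟩ := f_div hc hc1
  rw [h]; nlinarith

theorem f'_nonneg {c : ℝ} (hc : 0 ≤ c) (hc1 : c ≤ 1) : 0 ≤ f' c := by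
  have h := cs ckF1 (by norm_num) (x := c) (y := 0) (z := 0) (by push_cast; linarith)
    (by push_cast; linarith) (by push_cast; linarith) (by push_cast; linarith)
    (by push_cast; linarith) (by push_cast; linarith)
  refine le_of_le_of_eq h ?_
  simp only [h1, ev_hor, ev_ci, lf', horR, ev]
  push_cast
  unfold f'
  ring

end Vale.Agent.P219.TP.P11
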