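import Vale.Agent.P219.TP.PolyEleven3

set_option linter.all false

/-! # The certificate in dimension 11: positivity of the kernel -/

namespace Vale.Agent.P219.TP.P11

open Kron

/-- the angular factor -/
noncomputable def ww (a b : ℝ) : ℝ := √((1 - a ^ 2) * (1 - b ^ 2))

theorem geo1 {a b : ℝ} (ha : 0 ≤ a) (ha1 : a ≤ 1) (hb : 0 ≤ b) (hb1 : b ≤ 1) {c d : ℝ}
    (hac : a = c + d) (hbc : b = c - d) (hc : c ≤ 1 / 2) :
    ∃ δ : ℝ, 0 ≤ δ ∧ δ ≤ 1 ∧ d ^ 2 = c ^ 2 * δ ∧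
      (1 - c ^ 2) * ww a b ≤ (1 - c ^ 2) ^ 2 - c ^ 2 * δ * (1 + c ^ 2) := by
  have hc0 : 0 ≤ c := by linarith
  have hd : d ^ 2 ≤ c ^ 2 := by nlinarith [mul_nonneg ha hb]
  obtain ⟨δ, h0, h1, h2⟩ : ∃ δ : ℝ, 0 ≤ δ ∧ δ ≤ 1 ∧ d ^ 2 = c ^ 2 * δ := by
    rcases eq_or_lt_of_le hc0 with h | h
    · subst h
      refine ⟨0, le_rfl, zero_le_one, ?_⟩
      nlinarith [sq_nonneg d]
    · have hc2 : 0 < c ^ 2 := by positivity
      refine ⟨d ^ 2 / c ^ 2, by positivity, (div_le_one hc2).2 hd, ?_⟩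
      field_simp
  refine ⟨δ, h0, h1, h2, ?_⟩
  have hw := w_le_tangent (S := 2 * c) (p := a * b) (by linarith) (by linarith) (by nlinarith)
  have e1 : (1 - a ^ 2) * (1 - b ^ 2) = (1 + a * b) ^ 2 - (2 * c) ^ 2 := by
    rw [hac, hbc]; ring
  unfold ww
  rw [e1]
  have hD : 0 < 1 - c ^ 2 := by nlinarith
  have h4 : (4 : ℝ) - (2 * c) ^ 2 ≠ 0 := by
    have : (4 : ℝ) - (2 * c) ^ 2 = 4 * (1 - c ^ 2) := by ring
    rw [this]; positivity
  have hab : a * b = c ^ 2 - c ^ 2 * δ := by rw [← h2, hac, hbc]; ring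
  have e4 : (4 + (2 * c) ^ 2) / (4 - (2 * c) ^ 2) = (1 + c ^ 2) / (1 - c ^ 2) := by
    rw [div_eq_div_iff h4 hD.ne']; ring
  rw [e4] at hw
  calc (1 - c ^ 2) * √((1 + a * b) ^ 2 - (2 * c) ^ 2) ≤
      (1 - c ^ 2) * (1 - (2 * c) ^ 2 / 4 + (1 + c ^ 2) / (1 - c ^ 2) *
        (a * b - (2 * c) ^ 2 / 4)) := by gcongr
    _ = (1 - c ^ 2) * (1 - c ^ 2) + ((1 + c ^ 2) / (1 - c ^ 2) * (1 - c ^ 2)) *
        (a * b - c ^ 2) := by ring
    _ = (1 - c ^ 2) ^ 2 - c ^ 2 * δ * (1 + c ^ 2) := by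
      rw [div_mul_cancel₀ _ hD.ne', hab]
      ring

theorem geo2 {a b : ℝ} (ha : 0 ≤ a) (ha1 : a ≤ 1) (hb : 0 ≤ b) (hb1 : b ≤ 1) {c d : ℝ}
    (hac : a = c + d) (hbc : b = c - d) (hc : 1 / 2 ≤ c) :
    ∃ μ : ℝ, 0 ≤ μ ∧ μ ≤ 1 ∧ d ^ 2 = (1 - c) ^ 2 * (1 - μ ^ 2) ∧
      2 * (1 + c) * ww a b ≤
        (1 - c) * μ * (2 * (1 + c) ^ 2 - (1 - c) ^ 2 * (1 - μ ^ 2)) := by
  have hc1 : c ≤ 1 := by linarith
  have hd : d ^ 2 ≤ (1 - c) ^ 2 := by nlinarith [mul_nonneg (sub_nonneg.2 ha1) (sub_nonneg.2 hb1)]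
  obtain ⟨μ, h0, h1, h2⟩ : ∃ μ : ℝ, 0 ≤ μ ∧ μ ≤ 1 ∧ d ^ 2 = (1 - c) ^ 2 * (1 - μ ^ 2) := by
    rcases eq_or_lt_of_le hc1 with h | h
    · subst h
      refine ⟨1, zero_le_one, le_rfl, ?_⟩
      nlinarith [sq_nonneg d]
    · have hc2 : 0 < (1 - c) ^ 2 := by
        have : 0 < 1 - c := by linarith
        positivity
      have h3 : d ^ 2 / (1 - c) ^ 2 ≤ 1 := (div_le_one hc2).2 hd
      refine ⟨√(1 - d ^ 2 / (1 - c) ^ 2), Real.sqrt_nonneg _, ?_, ?_⟩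
      · rw [Real.sqrt_le_iff]
        have : 0 ≤ d ^ 2 / (1 - c) ^ 2 := by positivity
        constructor <;> linarith
      · rw [Real.sq_sqrt (by linarith)]
        field_simp
        ring
  refine ⟨μ, h0, h1, h2, ?_⟩
  have hu : 0 ≤ 1 - c := by linarith
  have e1 : (1 - a ^ 2) * (1 - b ^ 2) = ((1 - c) * μ) ^ 2 * ((1 + c) ^ 2 - d ^ 2) := by
    have : (1 - a ^ 2) * (1 - b ^ 2) = ((1 - c) ^ 2 - d ^ 2) * ((1 + c) ^ 2 - d ^ 2) := by
      rw [hac, hbc]; ring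
    rw [this]
    congr 1
    rw [h2]; ring
  unfold ww
  rw [e1, Real.sqrt_mul (by positivity), Real.sqrt_sq (by positivity)]
  have h3 : √((1 + c) ^ 2 - d ^ 2) ≤ (1 + c) - d ^ 2 / (2 * (1 + c)) := by
    have hp : 0 < 1 + c := by linarith
    have h5 : d ^ 2 / (2 * (1 + c)) ≤ 1 + c := by
      rw [div_le_iff₀ (by positivity)]
      nlinarith
    rw [Real.sqrt_le_left (by linarith)]
    have : ((1 + c) - d ^ 2 / (2 * (1 + c))) ^ 2 =
        (1 + c) ^ 2 - d ^ 2 + (d ^ 2 / (2 * (1 + c))) ^ 2 := by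
      field_simp
      ring
    rw [this]
    nlinarith [sq_nonneg (d ^ 2 / (2 * (1 + c)))]
  have hp : 0 < 1 + c := by linarith
  calc 2 * (1 + c) * ((1 - c) * μ * √((1 + c) ^ 2 - d ^ 2)) ≤
      2 * (1 + c) * ((1 - c) * μ * ((1 + c) - d ^ 2 / (2 * (1 + c)))) := by gcongr
    _ = (1 - c) * μ * (2 * (1 + c) ^ 2 - (1 - c) ^ 2 * (1 - μ ^ 2)) := by
      rw [← h2]
      field_simp

theorem gB_nonpos {r a b c d : ℝ} (hr : 0 ≤ r) (ha : 0 ≤ a) (ha1 : a ≤ 1) (hb : 0 ≤ b)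
    (hb1 : b ≤ 1) (hac : a = c + d) (hbc : b = c - d) : gB r c (d ^ 2) ≤ 0 := by
  rw [gB_eq, ← hac, ← hbc]
  have h1 := NA_nonpos hr (a := a) (by rwa [abs_of_nonneg ha])
  have h2 := NA_nonpos hr (a := b) (by rwa [abs_of_nonneg hb])
  have h3 := mul_nonneg_of_nonpos_of_nonpos h1 (neg_nonpos.2 hb)
  have h4 := mul_nonneg_of_nonpos_of_nonpos h2 (neg_nonpos.2 ha)
  nlinarith

theorem k11_ge {r a b c d D W : ℝ} (hr : 0 ≤ r) (ha : 0 ≤ a) (ha1 : a ≤ 1) (hb : 0 ≤ b)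
    (hb1 : b ≤ 1) (hac : a = c + d) (hbc : b = c - d) (hW : D * ww a b ≤ W) :
    gK r c (d ^ 2) D W ≤ D * k11 r a b (ww a b) := by
  have hB := gB_nonpos hr ha ha1 hb hb1 hac hbc
  have hk : k11 r a b (ww a b) = gA r c (d ^ 2) + ww a b * gB r c (d ^ 2) := by
    generalize ww a b = w
    rw [hac, hbc]
    exact k11_eq (by rw [← hac]; exact ha) (by rw [← hbc]; exact hb)
  rw [hk]
  unfold gK
  nlinarith [mul_nonneg_of_nonpos_of_nonpos hB (sub_nonpos.2 hW)]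

theorem p11_ge {r a b c d D W : ℝ} (hr : 0 ≤ r) (ha : 0 ≤ a) (ha1 : a ≤ 1) (hb : 0 ≤ b)
    (hb1 : b ≤ 1) (hac : a = c + d) (hbc : b = c - d) (hW : D * ww a b ≤ W) :
    gP r c (d ^ 2) D W ≤ D * p11 r a b (ww a b) := by
  have h := k11_ge hr ha ha1 hb hb1 hac hbc hW
  have hab : a * b = c ^ 2 - d ^ 2 := by rw [hac, hbc]; ring
  have hf : (f a + f b) / 2 = gF c (d ^ 2) := by rw [hac, hbc]; exact f_eq c d
  unfold gP p11
  rw [hab, hf]
  have h3 := mul_le_mul_of_nonneg_left h (pow_nonneg hr 3)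
  nlinarith

/-- The inequality for pairs, with the case of equality. -/
theorem key {r a b : ℝ} (hr : 0 < r) (ha : 0 ≤ a) (ha1 : a ≤ 1) (hb : 0 ≤ b) (hb1 : b ≤ 1) :
    ∃ D W : ℝ, 0 < D ∧ 0 ≤ W ∧ W ≤ D * p11 r a b (ww a b) ∧ (W = 0 → r = 2 * a ∧ r = 2 * b) ∧
      (a + b < r → 0 < W) := by
  obtain ⟨c, hc⟩ : ∃ c, c = (a + b) / 2 := ⟨_, rfl⟩
  obtain ⟨d, hd⟩ : ∃ d, d = (a - b) / 2 := ⟨_, rfl⟩
  have hac : a = c + d := by rw [hc, hd]; ring
  have hbc : b = c - d := by rw [hc, hd]; ring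
  have hc0 : 0 ≤ c := by rw [hc]; positivity
  have hcs : a + b = 2 * c := by rw [hc]; ring
  have hfin : ∀ {x : ℝ}, x ^ 2 = 0 → r = 2 * c → d ^ 2 = 0 → r = 2 * a ∧ r = 2 * b := by
    intro x _ h1 h2
    have : d = 0 := by simpa using h2
    rw [hac, hbc, this, h1]
    constructor <;> ring
  rcases le_total c (1 / 2) with h | h
  · obtain ⟨δ, g0, g1, g2, g3⟩ := geo1 ha ha1 hb hb1 hac hbc h
    have hP := p11_ge hr.le ha ha1 hb hb1 hac hbc g3
    rw [g2] at hP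
    have hD : 0 < 1 - c ^ 2 := by nlinarith
    rcases le_or_gt r (2 * c) with hrc | hrc
    · have hcp : 0 < c := by linarith
      obtain ⟨ρ, hρ⟩ : ∃ ρ, ρ = r / (2 * c) := ⟨_, rfl⟩
      have hρ0 : 0 < ρ := by rw [hρ]; positivity
      have hρ1 : ρ ≤ 1 := by rw [hρ]; exact (div_le_one (by positivity)).2 hrc
      have hrr : 2 * c * ρ = r := by rw [hρ]; field_simp
      have hm := cP1 hc0 h hρ0.le hρ1 g0 g1
      rw [hrr] at hm
      refine ⟨1 - c ^ 2, r ^ 3 * ((1 - ρ) ^ 2 + δ), hD, by positivity, hm.trans hP, ?_, ?_⟩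
      · intro h0
        have h1 : (1 - ρ) ^ 2 + δ = 0 := by
          rcases mul_eq_zero.1 h0 with h1 | h1
          · exact absurd h1 (by positivity)
          · exact h1
        have h2 : (1 - ρ) ^ 2 = 0 := by nlinarith [sq_nonneg (1 - ρ)]
        have h3 : δ = 0 := by nlinarith [sq_nonneg (1 - ρ)]
        have h4 : ρ = 1 := by
          have : 1 - ρ = 0 := by simpa using h2
          linarith
        refine hfin h2 (by rw [← hrr, h4]; ring) (by rw [g2, h3]; ring)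
      · intro h0; linarith
    · obtain ⟨y, hy⟩ : ∃ y, y = r - 2 * c := ⟨_, rfl⟩
      have hy0 : 0 < y := by linarith
      have hrr : 2 * c + y = r := by linarith
      have hm := cP3 hc0 h hy0.le g0 g1
      rw [hrr] at hm
      have hpos : 0 < y ^ 2 * (y + c) + c ^ 3 * δ := by positivity
      exact ⟨1 - c ^ 2, y ^ 2 * (y + c) + c ^ 3 * δ, hD, hpos.le, hm.trans hP,
        fun h0 => absurd h0 hpos.ne', fun _ => hpos⟩
  · obtain ⟨μ, g0, g1, g2, g3⟩ := geo2 ha ha1 hb hb1 hac hbc h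
    have hP := p11_ge hr.le ha ha1 hb hb1 hac hbc g3
    rw [g2] at hP
    have hD : 0 < 2 * (1 + c) := by positivity
    have hc1 : c ≤ 1 := by linarith
    have k1 : 0 ≤ (1 - c) * (1 - μ) := mul_nonneg (by linarith) (by linarith)
    rcases le_or_gt r (2 * c) with hrc | hrc
    · have hcp : 0 < c := by linarith
      obtain ⟨ρ, hρ⟩ : ∃ ρ, ρ = r / (2 * c) := ⟨_, rfl⟩
      have hρ0 : 0 < ρ := by rw [hρ]; positivity
      have hρ1 : ρ ≤ 1 := by rw [hρ]; exact (div_le_one (by positivity)).2 hrc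
      have hrr : 2 * c * ρ = r := by rw [hρ]; field_simp
      have hm := cP2 h hc1 hρ0.le hρ1 g0 g1
      rw [hrr] at hm
      refine ⟨2 * (1 + c), r ^ 3 * ((1 - ρ) ^ 2 + (1 - c) * (1 - μ)), hD, by positivity,
        hm.trans hP, ?_, ?_⟩
      · intro h0
        have h1 : (1 - ρ) ^ 2 + (1 - c) * (1 - μ) = 0 := by
          rcases mul_eq_zero.1 h0 with h1 | h1
          · exact absurd h1 (by positivity)
          · exact h1
        have h2 : (1 - ρ) ^ 2 = 0 := by nlinarith [sq_nonneg (1 - ρ)]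
        have h3 : (1 - c) * (1 - μ) = 0 := by nlinarith [sq_nonneg (1 - ρ)]
        have h4 : ρ = 1 := by
          have : 1 - ρ = 0 := by simpa using h2
          linarith
        refine hfin h2 (by rw [← hrr, h4]; ring) ?_
        calc d ^ 2 = ((1 - c) * (1 - μ)) * ((1 - c) * (1 + μ)) := by rw [g2]; ring
          _ = 0 := by rw [h3, zero_mul]
      · intro h0; linarith
    · obtain ⟨y, hy⟩ : ∃ y, y = r - 2 * c := ⟨_, rfl⟩
      have hy0 : 0 < y := by linarith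
      have hrr : 2 * c + y = r := by linarith
      have hm := cP4 h hc1 hy0.le g0 g1
      rw [hrr] at hm
      have hpos : 0 < y ^ 2 + (1 - c) * (1 - μ) := by positivity
      exact ⟨2 * (1 + c), y ^ 2 + (1 - c) * (1 - μ), hD, hpos.le, hm.trans hP,
        fun h0 => absurd h0 hpos.ne', fun _ => hpos⟩

theorem p11_nonneg {r a b : ℝ} (hr : 0 < r) (ha : 0 ≤ a) (ha1 : a ≤ 1) (hb : 0 ≤ b)
    (hb1 : b ≤ 1) : 0 ≤ p11 r a b (ww a b) := by
  obtain ⟨D, W, hD, hW, h, -, -⟩ := key hr ha ha1 hb hb1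
  exact nonneg_of_mul_nonneg_right (hW.trans h) hD

theorem p11_eq_zero {r a b : ℝ} (hr : 0 < r) (ha : 0 ≤ a) (ha1 : a ≤ 1) (hb : 0 ≤ b)
    (hb1 : b ≤ 1) (h0 : p11 r a b (ww a b) = 0) : r = 2 * a ∧ r = 2 * b := by
  obtain ⟨D, W, hD, hW, h, h1, -⟩ := key hr ha ha1 hb hb1
  rw [h0, mul_zero] at h
  exact h1 (le_antisymm h hW)

theorem k11_pos_pos {r a b : ℝ} (hr : 0 < r) (ha : 0 ≤ a) (ha1 : a ≤ 1) (hb : 0 ≤ b)
    (hb1 : b ≤ 1) : 0 < k11 r a b (ww a b) := by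
  obtain ⟨c, hc⟩ : ∃ c, c = (a + b) / 2 := ⟨_, rfl⟩
  obtain ⟨d, hd⟩ : ∃ d, d = (a - b) / 2 := ⟨_, rfl⟩
  have hac : a = c + d := by rw [hc, hd]; ring
  have hbc : b = c - d := by rw [hc, hd]; ring
  have hc0 : 0 ≤ c := by rw [hc]; positivity
  have hc1 : c ≤ 1 := by linarith
  rcases le_or_gt r (2 * c) with hrc | hrc
  · have hcp : 0 < c := by linarith
    obtain ⟨ρ, hρ⟩ : ∃ ρ, ρ = r / (2 * c) := ⟨_, rfl⟩
    have hρ0 : 0 < ρ := by rw [hρ]; positivity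
    have hρ1 : ρ ≤ 1 := by rw [hρ]; exact (div_le_one (by positivity)).2 hrc
    have hrr : 2 * c * ρ = r := by rw [hρ]; field_simp
    rcases le_total c (1 / 2) with h | h
    · obtain ⟨δ, g0, g1, g2, g3⟩ := geo1 ha ha1 hb hb1 hac hbc h
      have hP := k11_ge hr.le ha ha1 hb hb1 hac hbc g3
      rw [g2] at hP
      have hD : 0 < 1 - c ^ 2 := by nlinarith
      have hm := cK1 hc0 h hρ0.le hρ1 g0 g1
      rw [hrr] at hm
      have : 0 < (1 - c ^ 2) * k11 r a b (ww a b) := by linarith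
      exact pos_of_mul_pos_right this hD.le
    · obtain ⟨μ, g0, g1, g2, g3⟩ := geo2 ha ha1 hb hb1 hac hbc h
      have hP := k11_ge hr.le ha ha1 hb hb1 hac hbc g3
      rw [g2] at hP
      have hD : 0 < 2 * (1 + c) := by positivity
      have hm := cK2 h hc1 hρ0.le hρ1 g0 g1
      rw [hrr] at hm
      have : 0 < 2 * (1 + c) * k11 r a b (ww a b) := by linarith
      exact pos_of_mul_pos_right this hD.le
  · obtain ⟨D, W, hD, hW, h, -, h1⟩ := key hr ha ha1 hb hb1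
    have h2 := h1 (by linarith)
    have h3 : 0 < p11 r a b (ww a b) := pos_of_mul_pos_right (lt_of_lt_of_le h2 h) hD.le
    have f1 := f_le ha ha1
    have f2 := f_le hb hb1
    have h4 : 0 ≤ a * b * (86400 * r - (f a + f b) / 2) :=
      mul_nonneg (mul_nonneg ha hb) (by linarith)
    have h5 : 0 < r ^ 3 * k11 r a b (ww a b) := by
      unfold p11 at h3
      nlinarith
    exact pos_of_mul_pos_right h5 (by positivity)

/-! ### Other signs -/

theorem ww_nonneg (a b : ℝ) : 0 ≤ ww a b := Real.sqrt_nonneg _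

theorem ww_neg_left (a b : ℝ) : ww (-a) b = ww a b := by unfold ww; rw [neg_sq]

theorem ww_neg_right (a b : ℝ) : ww a (-b) = ww a b := by unfold ww; rw [neg_sq]

theorem ww_comm (a b : ℝ) : ww a b = ww b a := by unfold ww; rw [mul_comm]

theorem ww_le {a b : ℝ} (ha : |a| ≤ 1) (hb : |b| ≤ 1) :
    ww a b ≤ 1 - (a ^ 2 + b ^ 2) / 2 := by
  have h1 : a ^ 2 ≤ 1 := by rw [← sq_abs]; exact pow_le_one₀ (abs_nonneg a) ha
  have h2 : b ^ 2 ≤ 1 := by rw [← sq_abs]; exact pow_le_one₀ (abs_nonneg b) hb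
  unfold ww
  rw [Real.sqrt_le_left (by linarith)]
  nlinarith [sq_nonneg (a ^ 2 - b ^ 2)]

theorem ww_mono {q a b : ℝ} (hq : 0 ≤ q) (hq1 : q ≤ 1) (ha : |a| ≤ 1) (hb : |b| ≤ 1) :
    ww a b ≤ ww (q * a) (q * b) := by
  have h1 : a ^ 2 ≤ 1 := by rw [← sq_abs]; exact pow_le_one₀ (abs_nonneg a) ha
  have h2 : b ^ 2 ≤ 1 := by rw [← sq_abs]; exact pow_le_one₀ (abs_nonneg b) hb
  have hq2 : q ^ 2 ≤ 1 := pow_le_one₀ hq hq1
  have hqa : (q * a) ^ 2 ≤ a ^ 2 := by rw [mul_pow]; nlinarith [sq_nonneg a]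
  have hqb : (q * b) ^ 2 ≤ b ^ 2 := by rw [mul_pow]; nlinarith [sq_nonneg b]
  unfold ww
  apply Real.sqrt_le_sqrt
  apply mul_le_mul <;> linarith

theorem k11_comm (r a b : ℝ) : k11 r a b (ww a b) = k11 r b a (ww b a) := by
  rw [ww_comm b a]
  unfold k11
  ring

theorem k11_anti {r a b w w' : ℝ} (hr : 0 ≤ r) (ha : |a| ≤ 1) (hb : |b| ≤ 1) (h : w ≤ w') :
    k11 r a b w' ≤ k11 r a b w := by
  have h1 := NA_nonpos hr ha
  have h2 := NA_nonpos hr hb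
  have e : k11 r a b w - k11 r a b w' =
      1 / 2 * (-NA r a * |b| + -NA r b * |a|) * (w' - w) := by
    unfold k11; ring
  have h3 : 0 ≤ -NA r a * |b| + -NA r b * |a| :=
    add_nonneg (mul_nonneg (by linarith) (abs_nonneg _)) (mul_nonneg (by linarith) (abs_nonneg _))
  have : 0 ≤ 1 / 2 * (-NA r a * |b| + -NA r b * |a|) * (w' - w) :=
    mul_nonneg (by linarith) (by linarith)
  linarith

theorem ev_xKK (x y z : ℝ) (a b s t : Ex) (hs : ev x y z s = |ev x y z b|)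
    (ht : ev x y z t = |ev x y z a|) (hx : x ^ 2 = ev x y z a ^ 2) (hz : z ^ 2 = ev x y z b ^ 2) :
    ev x y z (xKK a b s t) = 4 * k11 y (ev x y z a) (ev x y z b)
      (1 - (ev x y z a ^ 2 + ev x y z b ^ 2) / 2) := by
  simp only [xKK, xH, xN, xNA, xNR, oq, xM, h1, ev, ev_xN, ev_xNA, ev_xNR, ev_hor, ev_ci, horR,
    hs, ht]
  unfold k11
  push_cast
  generalize ev x y z a = A at *
  generalize ev x y z b = B at *
  generalize |A| = A' at *
  generalize |B| = B' at *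
  generalize N y A = n1
  generalize N y B = n2
  generalize NA y A = n3
  generalize NA y B = n4
  generalize NR y A = n5
  generalize NR y B = n6
  have e : x * x + z * z = A ^ 2 + B ^ 2 := by rw [← hx, ← hz]; ring
  have e2 : (2 - 0 + (0 - 1) * (x * x + z * z) : ℝ) = 2 * (1 - (A ^ 2 + B ^ 2) / 2) := by
    rw [e]; ring
  rw [e2]
  ring

theorem k11_pos_neg {r a b : ℝ} (hr : 0 < r) (ha : 0 ≤ a) (ha1 : a ≤ 1) (hb : 0 ≤ b)
    (hb1 : b ≤ 1) : 0 < k11 r a (-b) (ww a (-b)) := by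
  have h := cs ckK3 (by norm_num) (x := a) (y := r) (z := b) (by push_cast; linarith)
    (by push_cast; linarith) (by push_cast; linarith) (by push_cast; linarith)
    (by push_cast; linarith) (by push_cast; linarith)
  have e1 : ev a r b (ng .z) = -b := by simp only [ng, ev]; push_cast; ring
  rw [ev_sb, ev_xKK a r b _ _ _ _ (by rw [e1, abs_neg, abs_of_nonneg hb]; rfl)
    (by change a = |a|; rw [abs_of_nonneg ha]) rfl (by rw [e1, neg_sq])] at h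
  rw [e1] at h
  change 0 ≤ 4 * k11 r a (-b) (1 - (a ^ 2 + (-b) ^ 2) / 2) - ((1 : ℕ) - (0 : ℕ) : ℝ) at h
  push_cast at h
  have ha' : |a| ≤ 1 := by rwa [abs_of_nonneg ha]
  have hb' : |(-b)| ≤ 1 := by rwa [abs_neg, abs_of_nonneg hb]
  have h2 := k11_anti hr.le ha' hb' (ww_le ha' hb')
  linarith

theorem k11_neg_neg {r a b : ℝ} (hr : 0 < r) (ha : 0 ≤ a) (ha1 : a ≤ 1) (hb : 0 ≤ b)
    (hb1 : b ≤ 1) : 0 < k11 r (-a) (-b) (ww (-a) (-b)) := by
  have h := cs ckK4 (by norm_num) (x := a) (y := r) (z := b) (by push_cast; linarith)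
    (by push_cast; linarith) (by push_cast; linarith) (by push_cast; linarith)
    (by push_cast; linarith) (by push_cast; linarith)
  have e1 : ev a r b (ng .z) = -b := by simp only [ng, ev]; push_cast; ring
  have e2 : ev a r b (ng .x) = -a := by simp only [ng, ev]; push_cast; ring
  rw [ev_sb, ev_xKK a r b _ _ _ _ (by rw [e1, abs_neg, abs_of_nonneg hb]; rfl)
    (by rw [e2, abs_neg, abs_of_nonneg ha]; rfl) (by rw [e2, neg_sq]) (by rw [e1, neg_sq])] at h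
  rw [e1, e2] at h
  change 0 ≤ 4 * k11 r (-a) (-b) (1 - ((-a) ^ 2 + (-b) ^ 2) / 2) - ((1 : ℕ) - (0 : ℕ) : ℝ) at h
  push_cast at h
  have ha' : |(-a)| ≤ 1 := by rwa [abs_neg, abs_of_nonneg ha]
  have hb' : |(-b)| ≤ 1 := by rwa [abs_neg, abs_of_nonneg hb]
  have h2 := k11_anti hr.le ha' hb' (ww_le ha' hb')
  linarith

theorem k11_pos {r a b : ℝ} (hr : 0 < r) (ha : |a| ≤ 1) (hb : |b| ≤ 1) :
    0 < k11 r a b (ww a b) := by
  rcases le_total 0 a with h1 | h1 <;> rcases le_total 0 b with h2 | h2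
  · rw [abs_of_nonneg h1] at ha
    rw [abs_of_nonneg h2] at hb
    exact k11_pos_pos hr h1 ha h2 hb
  · rw [abs_of_nonneg h1] at ha
    rw [abs_of_nonpos h2] at hb
    have := k11_pos_neg hr h1 ha (neg_nonneg.2 h2) hb
    rwa [neg_neg] at this
  · rw [abs_of_nonpos h1] at ha
    rw [abs_of_nonneg h2] at hb
    have := k11_pos_neg hr h2 hb (neg_nonneg.2 h1) ha
    rwa [neg_neg, ← k11_comm] at this
  · rw [abs_of_nonpos h1] at ha
    rw [abs_of_nonpos h2] at hb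
    have := k11_neg_neg hr (neg_nonneg.2 h1) ha (neg_nonneg.2 h2) hb
    rwa [neg_neg, neg_neg] at this

/-! ### The regularisation term -/

theorem X_nonneg {r A B a b : ℝ} (hr : 0 ≤ r) (hA : |A| ≤ |a|) (hB : |B| ≤ |b|) (ha : |a| ≤ 1)
    (hb : |b| ≤ 1) :
    0 ≤ NR r A + NR r B + ((1 - b ^ 2) * (A * NA r A) + (1 - a ^ 2) * (B * NA r B)) := by
  have hA1 : |A| ≤ 1 := hA.trans ha
  have hB1 : |B| ≤ 1 := hB.trans hb
  have nA := NA_nonpos hr hA1
  have nB := NA_nonpos hr hB1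
  have ha2 : a ^ 2 ≤ 1 := by rw [← sq_abs]; exact pow_le_one₀ (abs_nonneg a) ha
  have hb2 : b ^ 2 ≤ 1 := by rw [← sq_abs]; exact pow_le_one₀ (abs_nonneg b) hb
  have hAa : A ^ 2 ≤ a ^ 2 := sq_le_sq.2 hA
  have hBb : B ^ 2 ≤ b ^ 2 := sq_le_sq.2 hB
  -- lower bound of the terms
  have pos : ∀ {x n t u : ℝ}, 0 ≤ x → n ≤ 0 → t ≤ u → u * (x * n) ≤ t * (x * n) := by
    intro x n t u hx hn htu
    have : x * n ≤ 0 := mul_nonpos_of_nonneg_of_nonpos hx hn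
    nlinarith
  have neg : ∀ {x n t : ℝ}, x ≤ 0 → n ≤ 0 → 0 ≤ t → 0 ≤ t * (x * n) := by
    intro x n t hx hn ht
    exact mul_nonneg ht (mul_nonneg_of_nonpos_of_nonpos hx hn)
  rcases le_total 0 A with h1 | h1 <;> rcases le_total 0 B with h2 | h2
  · rw [abs_of_nonneg h1] at hA1
    rw [abs_of_nonneg h2] at hB1
    have h := X_pos_pos hr h1 hA1 h2 hB1
    have k1 := pos h1 nA (t := 1 - b ^ 2) (u := 1 - B ^ 2) (by linarith)
    have k2 := pos h2 nB (t := 1 - a ^ 2) (u := 1 - A ^ 2) (by linarith)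
    linarith
  · rw [abs_of_nonneg h1] at hA1
    rw [abs_of_nonpos h2] at hB1
    have h := X_pos_neg hr h1 hA1 (neg_nonneg.2 h2) hB1
    rw [neg_neg, neg_sq] at h
    have k1 := pos h1 nA (t := 1 - b ^ 2) (u := 1 - B ^ 2) (by linarith)
    have k2 := neg h2 nB (t := 1 - a ^ 2) (by linarith)
    linarith
  · rw [abs_of_nonpos h1] at hA1
    rw [abs_of_nonneg h2] at hB1
    have h := X_pos_neg hr h2 hB1 (neg_nonneg.2 h1) hA1
    rw [neg_neg, neg_sq] at h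
    have k1 := neg h1 nA (t := 1 - b ^ 2) (by linarith)
    have k2 := pos h2 nB (t := 1 - a ^ 2) (u := 1 - A ^ 2) (by linarith)
    linarith
  · rw [abs_of_nonpos h1] at hA1
    rw [abs_of_nonpos h2] at hB1
    have g1 := NR_neg hr (neg_nonneg.2 h1) hA1
    have g2 := NR_neg hr (neg_nonneg.2 h2) hB1
    rw [neg_neg] at g1 g2
    have k1 := neg h1 nA (t := 1 - b ^ 2) (by linarith)
    have k2 := neg h2 nB (t := 1 - a ^ 2) (by linarith)
    linarith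

end Vale.Agent.P219.TP.P11
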