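import Vale.Agent.P219.TP.InMk

/-! # Polynomial inequalities for the certificate in dimension 5 -/

open MeasureTheory Set Metric
open scoped ENNReal ContDiff

set_option linter.unusedSimpArgs false

namespace Vale.Agent.P219.TP

/-- The function `f` of the certificate. -/
noncomputable def P5.f (c : ℝ) : ℝ :=
  1105920 * c + 11520 * c ^ 2 + 570240 * c ^ 3 - 1372800 * c ^ 4 + 1296000 * c ^ 5 - 412800 * c ^ 6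

/-- Its derivative. -/
noncomputable def P5.f1 (c : ℝ) : ℝ :=
  1105920 + 23040 * c + 1710720 * c ^ 2 - 5491200 * c ^ 3 + 6480000 * c ^ 4 - 2476800 * c ^ 5

theorem P5.f1_nonneg {c : ℝ} (h0 : 0 ≤ c) (h1 : c ≤ 1) : 0 ≤ P5.f1 c := by
  have key : ∀ u : ℝ, 0 ≤ u → 0 ≤
      1105920 * u ^ 5 + 5552640 * c * u ^ 4 + 12862080 * c ^ 2 * u ^ 3 +
      10838400 * c ^ 3 * u ^ 2 + 6251520 * c ^ 4 * u + 1351680 * c ^ 5 := by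
    intro u hu; positivity
  refine (key (1 - c) (sub_nonneg.2 h1)).trans_eq ?_
  simp only [P5.f1]; ring

/-- The second difference of `f`. -/
noncomputable def P5.G (S p : ℝ) : ℝ :=
  (23040 + 1710720 * S - 4804800 * S ^ 2 + 4860000 * S ^ 3 - 1599600 * S ^ 4) +
    (2745600 - 6480000 * S + 3508800 * S ^ 2) * p - 825600 * p ^ 2

theorem P5.f_add (a b : ℝ) : P5.f a + P5.f b =
    2 * P5.f ((a + b) / 2) + ((a + b) ^ 2 / 4 - a * b) * P5.G (a + b) (a * b) := by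
  simp only [P5.f, P5.G]; ring

theorem P5.G0 {S : ℝ} (h0 : 0 ≤ S) (h1 : S ≤ 1) :
    0 ≤ (23040 + 1710720 * S - 4804800 * S ^ 2 + 4860000 * S ^ 3 - 1599600 * S ^ 4) +
      (2745600 - 6480000 * S + 3508800 * S ^ 2) * 0 -
      825600 * 0 ^ 2 := by
  have key : ∀ x u : ℝ, 0 ≤ x → 0 ≤ u → 0 ≤
      23040 * u ^ 4 + 1802880 * x * u ^ 3 + 465600 * x ^ 2 * u ^ 2 + 474720 * x ^ 3 * u +
      189360 * x ^ 4 := by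
    intro x u hx hu; positivity
  refine (key (S - 0) (1 - S) (sub_nonneg.2 h0) (sub_nonneg.2 h1)).trans_eq ?_
  ring

theorem P5.G1 {S : ℝ} (h0 : 1 ≤ S) (h1 : S ≤ 2) :
    0 ≤ (23040 + 1710720 * S - 4804800 * S ^ 2 + 4860000 * S ^ 3 - 1599600 * S ^ 4) +
      (2745600 - 6480000 * S + 3508800 * S ^ 2) * (S - 1) -
      825600 * (S - 1) ^ 2 := by
  have key : ∀ x u : ℝ, 0 ≤ x → 0 ≤ u → 0 ≤
      189360 * u ^ 4 + 814560 * x * u ^ 3 + 1197120 * x ^ 2 * u ^ 2 + 2678400 * x ^ 3 * u +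
      506880 * x ^ 4 := by
    intro x u hx hu; positivity
  refine (key (S - 1) (2 - S) (sub_nonneg.2 h0) (sub_nonneg.2 h1)).trans_eq ?_
  ring

theorem P5.G2 {S : ℝ} (h0 : 0 ≤ S) (h1 : S ≤ 1) :
    0 ≤ (23040 + 1710720 * S - 4804800 * S ^ 2 + 4860000 * S ^ 3 - 1599600 * S ^ 4) +
      (2745600 - 6480000 * S + 3508800 * S ^ 2) * (S ^ 2 / 4) -
      825600 * (S ^ 2 / 4) ^ 2 := by
  have key : ∀ x u : ℝ, 0 ≤ x → 0 ≤ u → 0 ≤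
      23040 * u ^ 4 + 1802880 * x * u ^ 3 + 1152000 * x ^ 2 * u ^ 2 + 227520 * x ^ 3 * u +
      81360 * x ^ 4 := by
    intro x u hx hu; positivity
  refine (key (S - 0) (1 - S) (sub_nonneg.2 h0) (sub_nonneg.2 h1)).trans_eq ?_
  ring

theorem P5.G3 {S : ℝ} (h0 : 1 ≤ S) (h1 : S ≤ 2) :
    0 ≤ (23040 + 1710720 * S - 4804800 * S ^ 2 + 4860000 * S ^ 3 - 1599600 * S ^ 4) +
      (2745600 - 6480000 * S + 3508800 * S ^ 2) * (S ^ 2 / 4) -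
      825600 * (S ^ 2 / 4) ^ 2 := by
  have key : ∀ x u : ℝ, 0 ≤ x → 0 ≤ u → 0 ≤
      81360 * u ^ 4 + 423360 * x * u ^ 3 + 1739520 * x ^ 2 * u ^ 2 + 2678400 * x ^ 3 * u +
      506880 * x ^ 4 := by
    intro x u hx hu; positivity
  refine (key (S - 1) (2 - S) (sub_nonneg.2 h0) (sub_nonneg.2 h1)).trans_eq ?_
  ring

theorem P5.G_nonneg (S p : ℝ) (h0 : 0 ≤ S) (h2 : S ≤ 2) (hp : 0 ≤ p) (hp1 : S - 1 ≤ p)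
    (hp2 : p ≤ S ^ 2 / 4) : 0 ≤ P5.G S p := by
  unfold P5.G
  rcases le_total S 1 with h | h
  · exact conc_nonneg (by norm_num) (P5.G0 h0 h) (P5.G2 h0 h) hp hp2
  · exact conc_nonneg (by norm_num) (P5.G1 h h2) (P5.G3 h h2) hp1 hp2

/-- `v D`. -/
noncomputable def P5.Wn (l : ℝ) : ℝ :=
  4 * (2 - l) * (720 + 11988 * l + 92 * l ^ 2 - 2193 * l ^ 3) * (2 + l)

noncomputable def P5.Wp (l : ℝ) : ℝ :=
  (93024 - 94432 * l - 53736 * l ^ 2 + 35088 * l ^ 3) * (2 + l) -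
    2 * (4 * (2 - l) * (720 + 11988 * l + 92 * l ^ 2 - 2193 * l ^ 3))

noncomputable def P5.Vn (l : ℝ) : ℝ :=
  (23040 - 12660 * l + 4500 * l ^ 2 - 645 * l ^ 3) * (2 + l) ^ 3 + l / 2 * P5.Wn l

noncomputable def P5.Vp (l : ℝ) : ℝ :=
  (-12660 + 9000 * l - 1935 * l ^ 2) * (2 + l) ^ 3 + P5.Wn l / 2 + l / 2 * P5.Wp l

theorem P5.W_nonneg {l : ℝ} (hl : 0 ≤ l) (hl2 : l ≤ 2) :
    0 ≤ P5.Wn l := by
  have key : ∀ u : ℝ, 0 ≤ u → 0 ≤ 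
      360 * u ^ 5 + 13788 * l * u ^ 4 + 51376 * l ^ 2 * u ^ 3 + 54240 * l ^ 3 * u ^ 2 +
      7520 * l ^ 4 * u := by
    intro u hu; positivity
  refine (key (2 - l) (sub_nonneg.2 hl2)).trans_eq ?_
  simp only [P5.Vn, P5.Vp, P5.Wn, P5.Wp]; ring

theorem P5.WV {l : ℝ} (hl : 0 ≤ l) (hl2 : l ≤ 2) :
    0 ≤ P5.Vn l - 11 / 10 * P5.Wn l := by
  have key : ∀ u : ℝ, 0 ≤ u → 0 ≤ 
      2682 * u ^ 6 + 75768 / 5 * l * u ^ 5 + 215119 / 5 * l ^ 2 * u ^ 4 +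
      425096 / 5 * l ^ 3 * u ^ 3 + 99592 * l ^ 4 * u ^ 2 + 51944 * l ^ 5 * u + 10560 * l ^ 6 := by
    intro u hu; positivity
  refine (key (2 - l) (sub_nonneg.2 hl2)).trans_eq ?_
  simp only [P5.Vn, P5.Vp, P5.Wn, P5.Wp]; ring

theorem P5.C1 {l : ℝ} (hl : 0 ≤ l) (hl2 : l ≤ 2) :
    0 ≤ P5.Vn l - l * P5.Vp l - l * P5.Wp l - 2 * P5.Wn l := by
  have key : ∀ u : ℝ, 0 ≤ u → 0 ≤ 
      2520 * u ^ 6 + 6318 * l * u ^ 5 + 12520 * l ^ 2 * u ^ 4 + 86532 * l ^ 3 * u ^ 3 +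
      207528 * l ^ 4 * u ^ 2 + 160080 * l ^ 5 * u + 22880 * l ^ 6 := by
    intro u hu; positivity
  refine (key (2 - l) (sub_nonneg.2 hl2)).trans_eq ?_
  simp only [P5.Vn, P5.Vp, P5.Wn, P5.Wp]; ring

theorem P5.C2 {l : ℝ} (hl : 0 ≤ l) (hl2 : l ≤ 2) :
    0 ≤ P5.Vn l - l * P5.Vp l + l * P5.Wp l - 2 * P5.Wn l := by
  have key : ∀ u : ℝ, 0 ≤ u → 0 ≤ 
      2520 * u ^ 6 + 17226 * l * u ^ 5 + 31824 * l ^ 2 * u ^ 4 + 27800 * l ^ 3 * u ^ 3 +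
      50720 * l ^ 4 * u ^ 2 + 62880 * l ^ 5 * u + 15360 * l ^ 6 := by
    intro u hu; positivity
  refine (key (2 - l) (sub_nonneg.2 hl2)).trans_eq ?_
  simp only [P5.Vn, P5.Vp, P5.Wn, P5.Wp]; ring

theorem P5.N1 {l : ℝ} (hl : 0 ≤ l) (hl2 : l ≤ 2) :
    0 ≤ l * P5.Vn l - 2 * l * P5.Wn l + P5.Wn l := by
  have key : ∀ u : ℝ, 0 ≤ u → 0 ≤ 
      90 * u ^ 7 + 6147 * l * u ^ 6 + 28615 * l ^ 2 * u ^ 5 + 56395 * l ^ 3 * u ^ 4 +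
      79336 * l ^ 4 * u ^ 3 + 89120 * l ^ 5 * u ^ 2 + 50440 * l ^ 6 * u + 10560 * l ^ 7 := by
    intro u hu; positivity
  refine (key (2 - l) (sub_nonneg.2 hl2)).trans_eq ?_
  simp only [P5.Vn, P5.Vp, P5.Wn, P5.Wp]; ring

theorem P5.N2 {l : ℝ} (hl : 0 ≤ l) (hl2 : l ≤ 2) :
    0 ≤ l * P5.Wp l + 3 * P5.Wn l + 4 * l * P5.Vn l - 8 * l * P5.Wn l := by
  have key : ∀ u : ℝ, 0 ≤ u → 0 ≤ 
      270 * u ^ 7 + 23688 * l * u ^ 6 + 102185 * l ^ 2 * u ^ 5 + 173028 * l ^ 3 * u ^ 4 +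
      221615 * l ^ 4 * u ^ 3 + 275658 * l ^ 5 * u ^ 2 + 173700 * l ^ 6 * u + 40360 * l ^ 7 := by
    intro u hu; positivity
  refine (key (2 - l) (sub_nonneg.2 hl2)).trans_eq ?_
  simp only [P5.Vn, P5.Vp, P5.Wn, P5.Wp]; ring

theorem P5.A_key {l u S v : ℝ} (hl : 0 ≤ l) (hu : 0 ≤ u) (hS : 0 ≤ S) (hv : 0 ≤ v) :
    0 ≤ 
      v ^ 3 * (540 * u ^ 7 + 21735 / 4 * l * u ^ 6 + 101565 / 4 * l ^ 2 * u ^ 5 +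
      524805 / 8 * l ^ 3 * u ^ 4 + 769623 / 8 * l ^ 4 * u ^ 3 + 318089 / 4 * l ^ 5 * u ^ 2 +
      72215 / 2 * l ^ 6 * u + 7685 * l ^ 7) + S * v ^ 2 * (1575 * u ^ 7 +
      101655 / 8 * l * u ^ 6 + 430785 / 8 * l ^ 2 * u ^ 5 + 274509 / 2 * l ^ 3 * u ^ 4 +
      811473 / 4 * l ^ 4 * u ^ 3 + 342129 / 2 * l ^ 5 * u ^ 2 + 82615 * l ^ 6 * u +
      18010 * l ^ 7) + S ^ 2 * v * (1890 * u ^ 7 + 25425 / 2 * l * u ^ 6 +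
      91359 / 2 * l ^ 2 * u ^ 5 + 871775 / 8 * l ^ 3 * u ^ 4 + 1290689 / 8 * l ^ 4 * u ^ 3 +
      569191 / 4 * l ^ 5 * u ^ 2 + 148345 / 2 * l ^ 6 * u + 15355 * l ^ 7) +
      S ^ 3 * (1755 / 2 * u ^ 7 + 50769 / 8 * l * u ^ 6 + 177437 / 8 * l ^ 2 * u ^ 5 +
      191967 / 4 * l ^ 3 * u ^ 4 + 260527 / 4 * l ^ 4 * u ^ 3 + 110171 / 2 * l ^ 5 * u ^ 2 +
      28135 * l ^ 6 * u + 5030 * l ^ 7) := by
  positivity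

theorem P5.A {l S : ℝ} (hl : 0 ≤ l) (hl2 : l ≤ 2) (hS : 0 ≤ S)
    (hS2 : S ≤ 2) :
    0 ≤ gA 4 49920 l ((2 + l) ^ 3) (P5.Vn l) (P5.Vp l) (P5.Wn l) (P5.Wp l) S := by
  refine (P5.A_key hl (sub_nonneg.2 hl2) hS (sub_nonneg.2 hS2)).trans_eq ?_
  simp only [gA, P5.Vn, P5.Vp, P5.Wn, P5.Wp]; ring

theorem P5.B_key {l u S v : ℝ} (hl : 0 ≤ l) (hu : 0 ≤ u) (hS : 0 ≤ S) (hv : 0 ≤ v) :
    0 ≤ 
      v ^ 3 * (540 * u ^ 7 + 21735 / 4 * l * u ^ 6 + 101565 / 4 * l ^ 2 * u ^ 5 +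
      524805 / 8 * l ^ 3 * u ^ 4 + 769623 / 8 * l ^ 4 * u ^ 3 + 318089 / 4 * l ^ 5 * u ^ 2 +
      72215 / 2 * l ^ 6 * u + 7685 * l ^ 7) + S * v ^ 2 * (1575 * u ^ 7 +
      101655 / 8 * l * u ^ 6 + 430785 / 8 * l ^ 2 * u ^ 5 + 274509 / 2 * l ^ 3 * u ^ 4 +
      811473 / 4 * l ^ 4 * u ^ 3 + 342129 / 2 * l ^ 5 * u ^ 2 + 82615 * l ^ 6 * u +
      18010 * l ^ 7) + S ^ 2 * v * (1710 * u ^ 7 + 22005 / 2 * l * u ^ 6 +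
      42138 * l ^ 2 * u ^ 5 + 219261 / 2 * l ^ 3 * u ^ 4 + 165636 * l ^ 4 * u ^ 3 +
      138370 * l ^ 5 * u ^ 2 + 67420 * l ^ 6 * u + 14160 * l ^ 7) + S ^ 3 * (675 * u ^ 7 +
      16281 / 4 * l * u ^ 6 + 58501 / 4 * l ^ 2 * u ^ 5 + 73489 / 2 * l ^ 3 * u ^ 4 +
      52235 * l ^ 4 * u ^ 3 + 38890 * l ^ 5 * u ^ 2 + 17640 * l ^ 6 * u + 3600 * l ^ 7) := by
  positivity

theorem P5.B {l S : ℝ} (hl : 0 ≤ l) (hl2 : l ≤ 2) (hS : 0 ≤ S)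
    (hS2 : S ≤ 2) :
    0 ≤ gA 4 49920 l ((2 + l) ^ 3) (P5.Vn l) (P5.Vp l) (P5.Wn l) (P5.Wp l) S +
      S ^ 2 / 4 * gT 4 l (P5.Vn l) (P5.Vp l) (P5.Wn l) (P5.Wp l) S := by
  refine (P5.B_key hl (sub_nonneg.2 hl2) hS (sub_nonneg.2 hS2)).trans_eq ?_
  simp only [gA, gT, P5.Vn, P5.Vp, P5.Wn, P5.Wp]; ring

theorem P5.Q_key {l u S v : ℝ} (hl : 0 ≤ l) (hu : 0 ≤ u) (hS : 0 ≤ S) (hv : 0 ≤ v) :
    0 ≤ (l - S) ^ 2 * 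
      (v ^ 6 * (135 / 2 * l * u ^ 7 + 21735 / 32 * l ^ 2 * u ^ 6 + 101565 / 32 * l ^ 3 * u ^ 5 +
      524805 / 64 * l ^ 4 * u ^ 4 + 769623 / 64 * l ^ 5 * u ^ 3 + 318089 / 32 * l ^ 6 * u ^ 2 +
      72215 / 16 * l ^ 7 * u + 7685 / 8 * l ^ 8) + S * v ^ 5 * (135 * u ^ 8 +
      30285 / 16 * l * u ^ 7 + 725265 / 64 * l ^ 2 * u ^ 6 + 2496045 / 64 * l ^ 3 * u ^ 5 +
      5261307 / 64 * l ^ 4 * u ^ 4 + 6743417 / 64 * l ^ 5 * u ^ 3 +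
      2563563 / 32 * l ^ 6 * u ^ 2 + 557045 / 16 * l ^ 7 * u + 56435 / 8 * l ^ 8) +
      S ^ 2 * v ^ 4 * (21645 / 32 * u ^ 8 + 34425 / 4 * l * u ^ 7 + 379485 / 8 * l ^ 2 * u ^ 6 +
      1196355 / 8 * l ^ 3 * u ^ 5 + 9278085 / 32 * l ^ 4 * u ^ 4 + 694235 / 2 * l ^ 5 * u ^ 3 +
      2017515 / 8 * l ^ 6 * u ^ 2 + 107155 * l ^ 7 * u + 42025 / 2 * l ^ 8) +
      S ^ 3 * v ^ 3 * (91215 / 64 * u ^ 8 + 1105755 / 64 * l * u ^ 7 +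
      5807805 / 64 * l ^ 2 * u ^ 6 + 17359875 / 64 * l ^ 3 * u ^ 5 +
      7987515 / 16 * l ^ 4 * u ^ 4 + 18336775 / 32 * l ^ 5 * u ^ 3 +
      6497465 / 16 * l ^ 6 * u ^ 2 + 1368405 / 8 * l ^ 7 * u + 131115 / 4 * l ^ 8) +
      S ^ 4 * v ^ 2 * (22395 / 16 * u ^ 8 + 265335 / 16 * l * u ^ 7 +
      1360965 / 16 * l ^ 2 * u ^ 6 + 3962865 / 16 * l ^ 3 * u ^ 5 +
      28465755 / 64 * l ^ 4 * u ^ 4 + 32142605 / 64 * l ^ 5 * u ^ 3 +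
      11359275 / 32 * l ^ 6 * u ^ 2 + 2407025 / 16 * l ^ 7 * u + 227015 / 8 * l ^ 8) +
      S ^ 5 * v * (1425 / 2 * u ^ 8 + 8340 * l * u ^ 7 + 42255 * l ^ 2 * u ^ 6 +
      971445 / 8 * l ^ 3 * u ^ 5 + 6903615 / 32 * l ^ 4 * u ^ 4 + 7767059 / 32 * l ^ 5 * u ^ 3 +
      2757447 / 16 * l ^ 6 * u ^ 2 + 146285 / 2 * l ^ 7 * u + 53675 / 4 * l ^ 8) +
      S ^ 6 * (585 / 4 * u ^ 8 + 6795 / 4 * l * u ^ 7 + 34155 / 4 * l ^ 2 * u ^ 6 +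
      194625 / 8 * l ^ 3 * u ^ 5 + 1373121 / 32 * l ^ 4 * u ^ 4 + 1539181 / 32 * l ^ 5 * u ^ 3 +
      545269 / 16 * l ^ 6 * u ^ 2 + 114245 / 8 * l ^ 7 * u + 9995 / 4 * l ^ 8)) := by
  positivity

theorem P5.Q {l S : ℝ} (hl : 0 ≤ l) (hl2 : l ≤ 2) (hS : 0 ≤ S)
    (hS2 : S ≤ 2) :
    0 ≤ l ^ 3 * gA 4 49920 l ((2 + l) ^ 3) (P5.Vn l) (P5.Vp l) (P5.Wn l) (P5.Wp l) S +
      S ^ 2 / 4 * (l ^ 3 * gT 4 l (P5.Vn l) (P5.Vp l) (P5.Wn l) (P5.Wp l) S -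
        (829440 * l - 2 * P5.f (S / 2) / 2) * ((2 + l) ^ 3)) := by
  refine (P5.Q_key hl (sub_nonneg.2 hl2) hS (sub_nonneg.2 hS2)).trans_eq ?_
  simp only [gA, gT, P5.Vn, P5.Vp, P5.Wn, P5.Wp, P5.f]; ring

noncomputable def P5.Un (l : ℝ) : ℝ := 5760 * l ^ 2 + 9600 * l

noncomputable def P5.Up (_l : ℝ) : ℝ := -9600

theorem P5.Ao_key {l t S v : ℝ} (hl : 0 ≤ l) (ht : 0 ≤ t) (hS : 0 ≤ S) (hv : 0 ≤ v) :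
    0 ≤ l ^ 1 * (
      63360 * v ^ 2 + 84480 * S * v + 36480 * S ^ 2 + t * (54240 * v ^ 2 + 75840 * S * v +
      24480 * S ^ 2) + t ^ 2 * (24960 * v + 13440 * S)) := by
  positivity

theorem P5.Ao {l S : ℝ} (hl : 2 ≤ l) (hS : 0 ≤ S) (hS2 : S ≤ 2) :
    0 ≤ gA 4 49920 l (l ^ 2) (P5.Un l) (P5.Up l) 0 0 S := by
  refine (P5.Ao_key (l := l) (by linarith) (sub_nonneg.2 hl) hS (sub_nonneg.2 hS2)).trans_eq ?_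
  simp only [gA, P5.Un, P5.Up]; ring

theorem P5.Bo_key {l t S v : ℝ} (hl : 0 ≤ l) (ht : 0 ≤ t) (hS : 0 ≤ S) (hv : 0 ≤ v) :
    0 ≤ l ^ 1 * (
      63360 * v ^ 2 + 84480 * S * v + 28800 * S ^ 2 + t * (54240 * v ^ 2 + 75840 * S * v +
      23040 * S ^ 2) + t ^ 2 * (24960 * v + 13440 * S)) := by
  positivity

theorem P5.Bo {l S : ℝ} (hl : 2 ≤ l) (hS : 0 ≤ S) (hS2 : S ≤ 2) :
    0 ≤ gA 4 49920 l (l ^ 2) (P5.Un l) (P5.Up l) 0 0 S + S ^ 2 / 4 * gT 4 l (P5.Un l) (P5.Up l) 0 0 S := by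
  refine (P5.Bo_key (l := l) (by linarith) (sub_nonneg.2 hl) hS (sub_nonneg.2 hS2)).trans_eq ?_
  simp only [gA, gT, P5.Un, P5.Up]; ring

theorem P5.Qo_key {l t S v : ℝ} (hl : 0 ≤ l) (ht : 0 ≤ t) (hS : 0 ≤ S) (hv : 0 ≤ v) :
    0 ≤ l ^ 2 * (
      3960 * v ^ 8 + 29040 * S * v ^ 7 + 86400 * S ^ 2 * v ^ 6 + 134640 * S ^ 3 * v ^ 5 +
      116445 * S ^ 4 * v ^ 4 + 109935 / 2 * S ^ 5 * v ^ 3 + 10230 * S ^ 6 * v ^ 2 +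
      t * (470400 * v ^ 2 + 641280 * S * v) + t ^ 2 * (330240 * v ^ 2 + 464640 * S * v +
      147840 * S ^ 2) + t ^ 3 * (104160 * v ^ 2 + 152640 * S * v + 49920 * S ^ 2) +
      t ^ 4 * (24960 * v + 13440 * S)) := by
  positivity

theorem P5.Qo {l S : ℝ} (hl : 2 ≤ l) (hS : 0 ≤ S) (hS2 : S ≤ 2) :
    0 ≤ l ^ 3 * gA 4 49920 l (l ^ 2) (P5.Un l) (P5.Up l) 0 0 S +
      S ^ 2 / 4 * (l ^ 3 * gT 4 l (P5.Un l) (P5.Up l) 0 0 S -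
        (829440 * l - 2 * P5.f (S / 2) / 2) * (l ^ 2)) := by
  refine (P5.Qo_key (l := l) (by linarith) (sub_nonneg.2 hl) hS (sub_nonneg.2 hS2)).trans_eq ?_
  simp only [gA, gT, P5.Un, P5.Up, P5.f]; ring

end Vale.Agent.P219.TP
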