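import Vale.Agent.P219.TP.InMk

/-! # Polynomial inequalities for the certificate in dimension 7 -/

open MeasureTheory Set Metric
open scoped ENNReal ContDiff

set_option linter.unusedSimpArgs false

namespace Vale.Agent.P219.TP

/-- The function `f` of the certificate. -/
noncomputable def P7.f (c : ℝ) : ℝ :=
  1511040 * c + 1420000 * c ^ 3 - 2635776 * c ^ 4 + 1862432 * c ^ 5 - 159744 * c ^ 6

/-- Its derivative. -/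
noncomputable def P7.f1 (c : ℝ) : ℝ :=
  1511040 + 4260000 * c ^ 2 - 10543104 * c ^ 3 + 9312160 * c ^ 4 - 958464 * c ^ 5

theorem P7.f1_nonneg {c : ℝ} (h0 : 0 ≤ c) (h1 : c ≤ 1) : 0 ≤ P7.f1 c := by
  have key : ∀ u : ℝ, 0 ≤ u → 0 ≤
      1511040 * u ^ 5 + 7555200 * c * u ^ 4 + 19370400 * c ^ 2 * u ^ 3 +
      17347296 * c ^ 3 * u ^ 2 + 8561152 * c ^ 4 * u + 3581632 * c ^ 5 := by
    intro u hu; positivity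
  refine (key (1 - c) (sub_nonneg.2 h1)).trans_eq ?_
  simp only [P7.f1]; ring

/-- The second difference of `f`. -/
noncomputable def P7.G (S p : ℝ) : ℝ :=
  (4260000 * S - 9225216 * S ^ 2 + 6984120 * S ^ 3 - 619008 * S ^ 4) +
    (5271552 - 9312160 * S + 1357824 * S ^ 2) * p - 319488 * p ^ 2

theorem P7.f_add (a b : ℝ) : P7.f a + P7.f b =
    2 * P7.f ((a + b) / 2) + ((a + b) ^ 2 / 4 - a * b) * P7.G (a + b) (a * b) := by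
  simp only [P7.f, P7.G]; ring

theorem P7.G0 {S : ℝ} (h0 : 0 ≤ S) (h1 : S ≤ 1) :
    0 ≤ (4260000 * S - 9225216 * S ^ 2 + 6984120 * S ^ 3 - 619008 * S ^ 4) +
      (5271552 - 9312160 * S + 1357824 * S ^ 2) * 0 -
      319488 * 0 ^ 2 := by
  have key : ∀ x u : ℝ, 0 ≤ x → 0 ≤ u → 0 ≤
      4260000 * x * u ^ 3 + 3554784 * x ^ 2 * u ^ 2 + 1313688 * x ^ 3 * u + 1399896 * x ^ 4 := by
    intro x u hx hu; positivity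
  refine (key (S - 0) (1 - S) (sub_nonneg.2 h0) (sub_nonneg.2 h1)).trans_eq ?_
  ring

theorem P7.G1 {S : ℝ} (h0 : 1 ≤ S) (h1 : S ≤ 2) :
    0 ≤ (4260000 * S - 9225216 * S ^ 2 + 6984120 * S ^ 3 - 619008 * S ^ 4) +
      (5271552 - 9312160 * S + 1357824 * S ^ 2) * (S - 1) -
      319488 * (S - 1) ^ 2 := by
  have key : ∀ x u : ℝ, 0 ≤ x → 0 ≤ u → 0 ≤
      1399896 * u ^ 4 + 7202696 * x * u ^ 3 + 14305808 * x ^ 2 * u ^ 2 + 18469024 * x ^ 3 * u +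
      9347008 * x ^ 4 := by
    intro x u hx hu; positivity
  refine (key (S - 1) (2 - S) (sub_nonneg.2 h0) (sub_nonneg.2 h1)).trans_eq ?_
  ring

theorem P7.G2 {S : ℝ} (h0 : 0 ≤ S) (h1 : S ≤ 1) :
    0 ≤ (4260000 * S - 9225216 * S ^ 2 + 6984120 * S ^ 3 - 619008 * S ^ 4) +
      (5271552 - 9312160 * S + 1357824 * S ^ 2) * (S ^ 2 / 4) -
      319488 * (S ^ 2 / 4) ^ 2 := by
  have key : ∀ x u : ℝ, 0 ≤ x → 0 ≤ u → 0 ≤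
      4260000 * x * u ^ 3 + 4872672 * x ^ 2 * u ^ 2 + 1621424 * x ^ 3 * u + 709232 * x ^ 4 := by
    intro x u hx hu; positivity
  refine (key (S - 0) (1 - S) (sub_nonneg.2 h0) (sub_nonneg.2 h1)).trans_eq ?_
  ring

theorem P7.G3 {S : ℝ} (h0 : 1 ≤ S) (h1 : S ≤ 2) :
    0 ≤ (4260000 * S - 9225216 * S ^ 2 + 6984120 * S ^ 3 - 619008 * S ^ 4) +
      (5271552 - 9312160 * S + 1357824 * S ^ 2) * (S ^ 2 / 4) -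
      319488 * (S ^ 2 / 4) ^ 2 := by
  have key : ∀ x u : ℝ, 0 ≤ x → 0 ≤ u → 0 ≤
      709232 * u ^ 4 + 4052432 * x * u ^ 3 + 12165696 * x ^ 2 * u ^ 2 + 18469024 * x ^ 3 * u +
      9347008 * x ^ 4 := by
    intro x u hx hu; positivity
  refine (key (S - 1) (2 - S) (sub_nonneg.2 h0) (sub_nonneg.2 h1)).trans_eq ?_
  ring

theorem P7.G_nonneg (S p : ℝ) (h0 : 0 ≤ S) (h2 : S ≤ 2) (hp : 0 ≤ p) (hp1 : S - 1 ≤ p)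
    (hp2 : p ≤ S ^ 2 / 4) : 0 ≤ P7.G S p := by
  unfold P7.G
  rcases le_total S 1 with h | h
  · exact conc_nonneg (by norm_num) (P7.G0 h0 h) (P7.G2 h0 h) hp hp2
  · exact conc_nonneg (by norm_num) (P7.G1 h h2) (P7.G3 h h2) hp1 hp2

/-- `w D`. -/
noncomputable def P7.M (l : ℝ) : ℝ :=
  2 * (2 - l) * (139724 + 114712 * l + 20579 * l ^ 2 - 1456 * l ^ 3)

noncomputable def P7.M1 (l : ℝ) : ℝ :=
  179400 - 294216 * l - 140946 * l ^ 2 + 11648 * l ^ 3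

noncomputable def P7.Wn (l : ℝ) : ℝ := l ^ 2 * (2 + l) * P7.M l

noncomputable def P7.Wp (l : ℝ) : ℝ :=
  l * (P7.M1 l * l * (2 + l) - P7.M l * (2 + 4 * l))

noncomputable def P7.Vn (l : ℝ) : ℝ :=
  (31480 + 5291 * l ^ 2 - 208 * l ^ 3) * l * (2 + l) ^ 4 + l / 2 * P7.Wn l

noncomputable def P7.Vp (l : ℝ) : ℝ :=
  (-62960 - 208 * l ^ 3) * (2 + l) ^ 4 + P7.Wn l / 2 + l / 2 * P7.Wp l

theorem P7.W_nonneg {l : ℝ} (hl : 0 ≤ l) (hl2 : l ≤ 2) :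
    0 ≤ P7.Wn l := by
  have key : ∀ u : ℝ, 0 ≤ u → 0 ≤ l ^ 2 *
      (34931 * u ^ 5 + 232011 * l * u ^ 4 + 564382 * l ^ 2 * u ^ 3 + 590122 * l ^ 3 * u ^ 2 +
      219908 * l ^ 4 * u) := by
    intro u hu; positivity
  refine (key (2 - l) (sub_nonneg.2 hl2)).trans_eq ?_
  simp only [P7.Vn, P7.Vp, P7.Wn, P7.Wp, P7.M, P7.M1]; ring

theorem P7.WV {l : ℝ} (hl : 0 ≤ l) (hl2 : l ≤ 2) :
    0 ≤ P7.Vn l - 11 / 10 * P7.Wn l := by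
  have key : ∀ u : ℝ, 0 ≤ u → 0 ≤ l ^ 1 *
      (3935 * u ^ 7 + 481459 / 20 * l * u ^ 6 + 739779 / 10 * l ^ 2 * u ^ 5 +
      4184117 / 20 * l ^ 3 * u ^ 4 + 2428629 / 5 * l ^ 4 * u ^ 3 + 1307561 / 2 * l ^ 5 * u ^ 2 +
      2120663 / 5 * l ^ 6 * u + 101960 * l ^ 7) := by
    intro u hu; positivity
  refine (key (2 - l) (sub_nonneg.2 hl2)).trans_eq ?_
  simp only [P7.Vn, P7.Vp, P7.Wn, P7.Wp, P7.M, P7.M1]; ring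

theorem P7.C1 {l : ℝ} (hl : 0 ≤ l) (hl2 : l ≤ 2) :
    0 ≤ P7.Vn l - l * P7.Vp l - l * P7.Wp l - 2 * P7.Wn l := by
  have key : ∀ u : ℝ, 0 ≤ u → 0 ≤ l ^ 1 *
      (23610 * u ^ 6 + 201169 * l * u ^ 5 + 858589 * l ^ 2 * u ^ 4 + 2282950 * l ^ 3 * u ^ 3 +
      3608228 * l ^ 4 * u ^ 2 + 2941300 * l ^ 5 * u + 902232 * l ^ 6) := by
    intro u hu; positivity
  refine (key (2 - l) (sub_nonneg.2 hl2)).trans_eq ?_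
  simp only [P7.Vn, P7.Vp, P7.Wn, P7.Wp, P7.M, P7.M1]; ring

theorem P7.C2 {l : ℝ} (hl : 0 ≤ l) (hl2 : l ≤ 2) :
    0 ≤ P7.Vn l - l * P7.Vp l + l * P7.Wp l - 2 * P7.Wn l := by
  have key : ∀ u : ℝ, 0 ≤ u → 0 ≤ l ^ 1 *
      (23610 * u ^ 6 + 131307 * l * u ^ 5 + 229831 * l ^ 2 * u ^ 4 + 258434 * l ^ 3 * u ^ 3 +
      661752 * l ^ 4 * u ^ 2 + 1020628 * l ^ 5 * u + 462416 * l ^ 6) := by
    intro u hu; positivity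
  refine (key (2 - l) (sub_nonneg.2 hl2)).trans_eq ?_
  simp only [P7.Vn, P7.Vp, P7.Wn, P7.Wp, P7.M, P7.M1]; ring

theorem P7.N1 {l : ℝ} (hl : 0 ≤ l) (hl2 : l ≤ 2) :
    0 ≤ l * P7.Vn l - 2 * l * P7.Wn l + P7.Wn l := by
  have key : ∀ u : ℝ, 0 ≤ u → 0 ≤ l ^ 2 *
      (50671 / 4 * u ^ 7 + 335289 / 4 * l * u ^ 6 + 878751 / 4 * l ^ 2 * u ^ 5 +
      1354213 / 4 * l ^ 3 * u ^ 4 + 914665 / 2 * l ^ 4 * u ^ 3 + 1093503 / 2 * l ^ 5 * u ^ 2 +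
      380151 * l ^ 6 * u + 101960 * l ^ 7) := by
    intro u hu; positivity
  refine (key (2 - l) (sub_nonneg.2 hl2)).trans_eq ?_
  simp only [P7.Vn, P7.Vp, P7.Wn, P7.Wp, P7.M, P7.M1]; ring

theorem P7.N2 {l : ℝ} (hl : 0 ≤ l) (hl2 : l ≤ 2) :
    0 ≤ l * P7.Wp l + 5 * P7.Wn l + 6 * l * P7.Vn l - 12 * l * P7.Wn l := by
  have key : ∀ u : ℝ, 0 ≤ u → 0 ≤ l ^ 2 *
      (58541 * u ^ 7 + 331405 * l * u ^ 6 + 633306 * l ^ 2 * u ^ 5 + 590562 * l ^ 3 * u ^ 4 +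
      1023094 * l ^ 4 * u ^ 3 + 2119570 * l ^ 5 * u ^ 2 + 1875891 * l ^ 6 * u + 556783 * l ^ 7) := by
    intro u hu; positivity
  refine (key (2 - l) (sub_nonneg.2 hl2)).trans_eq ?_
  simp only [P7.Vn, P7.Vp, P7.Wn, P7.Wp, P7.M, P7.M1]; ring

theorem P7.A_key {l u S v : ℝ} (hl : 0 ≤ l) (hu : 0 ≤ u) (hS : 0 ≤ S) (hv : 0 ≤ v) :
    0 ≤ l ^ 1 * 
      (v ^ 3 * (11805 / 16 * u ^ 8 + 35415 / 4 * l * u ^ 7 + 832465 / 16 * l ^ 2 * u ^ 6 +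
      1462265 / 8 * l ^ 3 * u ^ 5 + 6428249 / 16 * l ^ 4 * u ^ 4 + 1119059 / 2 * l ^ 5 * u ^ 3 +
      7822907 / 16 * l ^ 6 * u ^ 2 + 2013137 / 8 * l ^ 7 * u + 474755 / 8 * l ^ 8) +
      S * v ^ 2 * (35415 / 16 * u ^ 8 + 580865 / 32 * l * u ^ 7 + 2528953 / 32 * l ^ 2 * u ^ 6 +
      7544013 / 32 * l ^ 3 * u ^ 5 + 15142917 / 32 * l ^ 4 * u ^ 4 +
      9974913 / 16 * l ^ 5 * u ^ 3 + 2248563 / 4 * l ^ 6 * u ^ 2 + 2789095 / 8 * l ^ 7 * u +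
      433741 / 4 * l ^ 8) + S ^ 2 * v * (59025 / 16 * u ^ 8 + 439205 / 16 * l * u ^ 7 +
      95975 * l ^ 2 * u ^ 6 + 3422443 / 16 * l ^ 3 * u ^ 5 + 1245137 / 4 * l ^ 4 * u ^ 4 +
      2271557 / 8 * l ^ 5 * u ^ 3 + 3358901 / 16 * l ^ 6 * u ^ 2 + 1431493 / 8 * l ^ 7 * u +
      651861 / 8 * l ^ 8) + S ^ 3 * (35415 / 16 * u ^ 8 + 650727 / 32 * l * u ^ 7 +
      2810923 / 32 * l ^ 2 * u ^ 6 + 7276603 / 32 * l ^ 3 * u ^ 5 +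
      11576471 / 32 * l ^ 4 * u ^ 4 + 5485207 / 16 * l ^ 5 * u ^ 3 +
      1608747 / 8 * l ^ 6 * u ^ 2 + 765489 / 8 * l ^ 7 * u + 129567 / 4 * l ^ 8)) := by
  positivity

theorem P7.A {l S : ℝ} (hl : 0 ≤ l) (hl2 : l ≤ 2) (hS : 0 ≤ S)
    (hS2 : S ≤ 2) :
    0 ≤ gA 6 42432 l (l ^ 3 * (2 + l) ^ 4) (P7.Vn l) (P7.Vp l) (P7.Wn l) (P7.Wp l) S := by
  refine (P7.A_key hl (sub_nonneg.2 hl2) hS (sub_nonneg.2 hS2)).trans_eq ?_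
  simp only [gA, P7.Vn, P7.Vp, P7.Wn, P7.Wp, P7.M, P7.M1]; ring

theorem P7.B_key {l u S v : ℝ} (hl : 0 ≤ l) (hu : 0 ≤ u) (hS : 0 ≤ S) (hv : 0 ≤ v) :
    0 ≤ l ^ 1 * 
      (v ^ 3 * (11805 / 16 * u ^ 8 + 35415 / 4 * l * u ^ 7 + 832465 / 16 * l ^ 2 * u ^ 6 +
      1462265 / 8 * l ^ 3 * u ^ 5 + 6428249 / 16 * l ^ 4 * u ^ 4 + 1119059 / 2 * l ^ 5 * u ^ 3 +
      7822907 / 16 * l ^ 6 * u ^ 2 + 2013137 / 8 * l ^ 7 * u + 474755 / 8 * l ^ 8) +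
      S * v ^ 2 * (35415 / 16 * u ^ 8 + 580865 / 32 * l * u ^ 7 + 2528953 / 32 * l ^ 2 * u ^ 6 +
      7544013 / 32 * l ^ 3 * u ^ 5 + 15142917 / 32 * l ^ 4 * u ^ 4 +
      9974913 / 16 * l ^ 5 * u ^ 3 + 2248563 / 4 * l ^ 6 * u ^ 2 + 2789095 / 8 * l ^ 7 * u +
      433741 / 4 * l ^ 8) + S ^ 2 * v * (11805 / 4 * u ^ 8 + 297545 / 16 * l * u ^ 7 +
      993165 / 16 * l ^ 2 * u ^ 6 + 2698085 / 16 * l ^ 3 * u ^ 5 + 5197717 / 16 * l ^ 4 * u ^ 4 +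
      2872393 / 8 * l ^ 5 * u ^ 3 + 1899761 / 8 * l ^ 6 * u ^ 2 + 286215 / 2 * l ^ 7 * u +
      60160 * l ^ 8) + S ^ 3 * (11805 / 8 * u ^ 8 + 131307 / 16 * l * u ^ 7 +
      369033 / 16 * l ^ 2 * u ^ 6 + 1012635 / 16 * l ^ 3 * u ^ 5 + 2148441 / 16 * l ^ 4 * u ^ 4 +
      1131405 / 8 * l ^ 5 * u ^ 3 + 205317 / 4 * l ^ 6 * u ^ 2 + 2358 * l ^ 7 * u +
      4197 * l ^ 8)) := by
  positivity

theorem P7.B {l S : ℝ} (hl : 0 ≤ l) (hl2 : l ≤ 2) (hS : 0 ≤ S)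
    (hS2 : S ≤ 2) :
    0 ≤ gA 6 42432 l (l ^ 3 * (2 + l) ^ 4) (P7.Vn l) (P7.Vp l) (P7.Wn l) (P7.Wp l) S +
      S ^ 2 / 4 * gT 6 l (P7.Vn l) (P7.Vp l) (P7.Wn l) (P7.Wp l) S := by
  refine (P7.B_key hl (sub_nonneg.2 hl2) hS (sub_nonneg.2 hS2)).trans_eq ?_
  simp only [gA, gT, P7.Vn, P7.Vp, P7.Wn, P7.Wp, P7.M, P7.M1]; ring

theorem P7.Q_key {l u S v : ℝ} (hl : 0 ≤ l) (hu : 0 ≤ u) (hS : 0 ≤ S) (hv : 0 ≤ v) :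
    0 ≤ (l - S) ^ 2 * l ^ 3 * 
      (v ^ 6 * (11805 / 128 * l * u ^ 8 + 35415 / 32 * l ^ 2 * u ^ 7 +
      832465 / 128 * l ^ 3 * u ^ 6 + 1462265 / 64 * l ^ 4 * u ^ 5 +
      6428249 / 128 * l ^ 5 * u ^ 4 + 1119059 / 16 * l ^ 6 * u ^ 3 +
      7822907 / 128 * l ^ 7 * u ^ 2 + 2013137 / 64 * l ^ 8 * u + 474755 / 64 * l ^ 9) +
      S * v ^ 5 * (11805 / 64 * u ^ 9 + 11805 / 4 * l * u ^ 8 + 5327325 / 256 * l ^ 2 * u ^ 7 +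
      22551723 / 256 * l ^ 3 * u ^ 6 + 62502309 / 256 * l ^ 4 * u ^ 5 +
      115235295 / 256 * l ^ 5 * u ^ 4 + 70383087 / 128 * l ^ 6 * u ^ 3 +
      56161335 / 128 * l ^ 7 * u ^ 2 + 6902145 / 32 * l ^ 8 * u + 3241257 / 64 * l ^ 9) +
      S ^ 2 * v ^ 4 * (59025 / 64 * u ^ 9 + 439025 / 32 * l * u ^ 8 +
      23204721 / 256 * l ^ 2 * u ^ 7 + 90801825 / 256 * l ^ 3 * u ^ 6 +
      230451421 / 256 * l ^ 4 * u ^ 5 + 389261663 / 256 * l ^ 5 * u ^ 4 +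
      219725387 / 128 * l ^ 6 * u ^ 3 + 82559131 / 64 * l ^ 7 * u ^ 2 +
      39437659 / 64 * l ^ 8 * u + 1160365 / 8 * l ^ 9) + S ^ 3 * v ^ 3 * (516575 / 256 * u ^ 9 +
      7377939 / 256 * l * u ^ 8 + 46693555 / 256 * l ^ 2 * u ^ 7 +
      173414453 / 256 * l ^ 3 * u ^ 6 + 207524131 / 128 * l ^ 4 * u ^ 5 +
      82608485 / 32 * l ^ 5 * u ^ 4 + 176920467 / 64 * l ^ 6 * u ^ 3 +
      128075695 / 64 * l ^ 7 * u ^ 2 + 15107971 / 16 * l ^ 8 * u + 7175653 / 32 * l ^ 9) +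
      S ^ 4 * v ^ 2 * (522957 / 256 * u ^ 9 + 7307285 / 256 * l * u ^ 8 +
      45162405 / 256 * l ^ 2 * u ^ 7 + 163094821 / 256 * l ^ 3 * u ^ 6 +
      189322833 / 128 * l ^ 4 * u ^ 5 + 73234959 / 32 * l ^ 5 * u ^ 4 +
      153594531 / 64 * l ^ 6 * u ^ 3 + 221022911 / 128 * l ^ 7 * u ^ 2 +
      52703367 / 64 * l ^ 8 * u + 12723875 / 64 * l ^ 9) + S ^ 5 * v * (131345 / 128 * u ^ 9 +
      1820121 / 128 * l * u ^ 8 + 11156695 / 128 * l ^ 2 * u ^ 7 +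
      39925091 / 128 * l ^ 3 * u ^ 6 + 91948313 / 128 * l ^ 4 * u ^ 5 +
      141797443 / 128 * l ^ 5 * u ^ 4 + 149452251 / 128 * l ^ 6 * u ^ 3 +
      108968023 / 128 * l ^ 7 * u ^ 2 + 13154551 / 32 * l ^ 8 * u + 6360625 / 64 * l ^ 9) +
      S ^ 6 * (15609 / 64 * u ^ 9 + 432855 / 128 * l * u ^ 8 + 332151 / 16 * l ^ 2 * u ^ 7 +
      9523359 / 128 * l ^ 3 * u ^ 6 + 22000029 / 128 * l ^ 4 * u ^ 5 +
      17075169 / 64 * l ^ 5 * u ^ 4 + 36291783 / 128 * l ^ 6 * u ^ 3 +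
      6614511 / 32 * l ^ 7 * u ^ 2 + 6251337 / 64 * l ^ 8 * u + 725835 / 32 * l ^ 9)) := by
  positivity

theorem P7.Q {l S : ℝ} (hl : 0 ≤ l) (hl2 : l ≤ 2) (hS : 0 ≤ S)
    (hS2 : S ≤ 2) :
    0 ≤ l ^ 5 * gA 6 42432 l (l ^ 3 * (2 + l) ^ 4) (P7.Vn l) (P7.Vp l) (P7.Wn l) (P7.Wp l) S +
      S ^ 2 / 4 * (l ^ 5 * gT 6 l (P7.Vn l) (P7.Vp l) (P7.Wn l) (P7.Wp l) S -
        (1133280 * l - 2 * P7.f (S / 2) / 2) * (l ^ 3 * (2 + l) ^ 4)) := by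
  refine (P7.Q_key hl (sub_nonneg.2 hl2) hS (sub_nonneg.2 hS2)).trans_eq ?_
  simp only [gA, gT, P7.Vn, P7.Vp, P7.Wn, P7.Wp, P7.M, P7.M1, P7.f]; ring

noncomputable def P7.Un (l : ℝ) : ℝ := 18668 * l ^ 2 + 13644 * l

noncomputable def P7.Up (l : ℝ) : ℝ := -18668 * l - 27288

theorem P7.Ao_key {l t S v : ℝ} (hl : 0 ≤ l) (ht : 0 ≤ t) (hS : 0 ≤ S) (hv : 0 ≤ v) :
    0 ≤ l ^ 1 * (
      132433 * v ^ 2 + 111926 * S * v + 37295 * S ^ 2 + t * (145964 * v ^ 2 + 159454 * S * v +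
      32158 * S ^ 2) + t ^ 2 * (127296 * v + 71292 * S) + t ^ 3 * (42432)) := by
  positivity

theorem P7.Ao {l S : ℝ} (hl : 2 ≤ l) (hS : 0 ≤ S) (hS2 : S ≤ 2) :
    0 ≤ gA 6 42432 l (l ^ 3) (P7.Un l) (P7.Up l) 0 0 S := by
  refine (P7.Ao_key (l := l) (by linarith) (sub_nonneg.2 hl) hS (sub_nonneg.2 hS2)).trans_eq ?_
  simp only [gA, P7.Un, P7.Up]; ring

theorem P7.Bo_key {l t S v : ℝ} (hl : 0 ≤ l) (ht : 0 ≤ t) (hS : 0 ≤ S) (hv : 0 ≤ v) :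
    0 ≤ l ^ 1 * (
      132433 * v ^ 2 + 111926 * S * v + 8394 * S ^ 2 + t * (145964 * v ^ 2 + 159454 * S * v +
      22824 * S ^ 2) + t ^ 2 * (127296 * v + 71292 * S) + t ^ 3 * (42432)) := by
  positivity

theorem P7.Bo {l S : ℝ} (hl : 2 ≤ l) (hS : 0 ≤ S) (hS2 : S ≤ 2) :
    0 ≤ gA 6 42432 l (l ^ 3) (P7.Un l) (P7.Up l) 0 0 S + S ^ 2 / 4 * gT 6 l (P7.Un l) (P7.Up l) 0 0 S := by
  refine (P7.Bo_key (l := l) (by linarith) (sub_nonneg.2 hl) hS (sub_nonneg.2 hS2)).trans_eq ?_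
  simp only [gA, gT, P7.Un, P7.Up]; ring

theorem P7.Qo_key {l t S v : ℝ} (hl : 0 ≤ l) (ht : 0 ≤ t) (hS : 0 ≤ S) (hv : 0 ≤ v) :
    0 ≤ l ^ 3 * (
      132433 / 8 * v ^ 8 + 226631 / 2 * S * v ^ 7 + 2595615 / 8 * S ^ 2 * v ^ 6 +
      2000077 / 4 * S ^ 3 * v ^ 5 + 3524575 / 8 * S ^ 4 * v ^ 4 + 1741343 / 8 * S ^ 5 * v ^ 3 +
      195203 / 4 * S ^ 6 * v ^ 2 + t * (2756908 * v ^ 2 + 2618744 * S * v) +
      t ^ 2 * (3055350 * v ^ 2 + 3379356 * S * v + 609420 * S ^ 2) + t ^ 3 * (1856857 * v ^ 2 +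
      2429906 * S * v + 657954 * S ^ 2) + t ^ 4 * (655148 * v ^ 2 + 1009810 * S * v +
      363996 * S ^ 2) + t ^ 5 * (254592 * v + 198588 * S) + t ^ 6 * (42432)) := by
  positivity

theorem P7.Qo {l S : ℝ} (hl : 2 ≤ l) (hS : 0 ≤ S) (hS2 : S ≤ 2) :
    0 ≤ l ^ 5 * gA 6 42432 l (l ^ 3) (P7.Un l) (P7.Up l) 0 0 S +
      S ^ 2 / 4 * (l ^ 5 * gT 6 l (P7.Un l) (P7.Up l) 0 0 S -
        (1133280 * l - 2 * P7.f (S / 2) / 2) * (l ^ 3)) := by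
  refine (P7.Qo_key (l := l) (by linarith) (sub_nonneg.2 hl) hS (sub_nonneg.2 hS2)).trans_eq ?_
  simp only [gA, gT, P7.Un, P7.Up, P7.f]; ring

end Vale.Agent.P219.TP
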