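import Vale.Agent.P219.TP.PolyTen

/-! # Polynomial inequalities for the certificate in dimension 10, second part -/

namespace Vale.Agent.P219.TP

namespace P10

theorem concAux1 {S p p0 : ℝ} (hp0 : 0 ≤ p0) (hp : p0 ≤ p) (hp1 : p ≤ S ^ 2 / 4)
    (hS : S ^ 2 ≤ 1) :
    -22320 - 10080 * S ^ 2 + 37632 * S ^ 4 +
        (10080 - 75264 * S ^ 2) * (p + p0 + (S / 2) ^ 2) +
        37632 * (p ^ 2 + p0 ^ 2 + ((S / 2) ^ 2) ^ 2 + p * p0 + p * (S / 2) ^ 2 +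
          p0 * (S / 2) ^ 2) ≤ 0 := by
  obtain ⟨x, hx⟩ : ∃ x, x = S ^ 2 / 4 := ⟨_, rfl⟩
  have e1 : S ^ 2 = 4 * x := by linarith
  have e2 : S ^ 4 = 16 * x ^ 2 := by
    have : S ^ 4 = (S ^ 2) ^ 2 := by ring
    rw [this, e1]; ring
  have e3 : (S / 2) ^ 2 = x := by rw [hx]; ring
  rw [e1] at hS hp1
  rw [e1, e2, e3]
  have hx4 : x ≤ 1 / 4 := by linarith
  have hpx : p ≤ x := by linarith
  have hx0 : 0 ≤ x := by linarith
  have hp' : 0 ≤ p := by linarith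
  have k1 : p ^ 2 ≤ p * x := by nlinarith
  have k2 : p0 ^ 2 ≤ p0 * x := by nlinarith
  have k3 : p * p0 ≤ p0 * x := by nlinarith
  have k4 : 0 ≤ p * x := by positivity
  have k5 : 0 ≤ p0 * x := by positivity
  have k6 : x ^ 2 ≤ x / 4 := by nlinarith
  nlinarith

theorem concAux2 {S p p0 : ℝ} (hp0 : p0 = S - 1) (hS0 : 0 ≤ S) (hS1 : 1 ≤ S) (hS2 : S ≤ 2)
    (hp : p0 ≤ p) (hp1 : p ≤ S ^ 2 / 4) :
    -22320 - 10080 * S ^ 2 + 37632 * S ^ 4 +
        (10080 - 75264 * S ^ 2) * (p + p0 + (S / 2) ^ 2) +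
        37632 * (p ^ 2 + p0 ^ 2 + ((S / 2) ^ 2) ^ 2 + p * p0 + p * (S / 2) ^ 2 +
          p0 * (S / 2) ^ 2) ≤ 0 := by
  have e : -22320 - 10080 * S ^ 2 + 37632 * S ^ 4 +
        (10080 - 75264 * S ^ 2) * (p + p0 + (S / 2) ^ 2) +
        37632 * (p ^ 2 + p0 ^ 2 + ((S / 2) ^ 2) ^ 2 + p * p0 + p * (S / 2) ^ 2 +
          p0 * (S / 2) ^ 2) =
      (p - p0) * (10080 - 75264 * S ^ 2 + 37632 * (p + 2 * p0 + S ^ 2 / 4)) +
      (-22320 - 10080 * S ^ 2 + 37632 * S ^ 4 +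
        (10080 - 75264 * S ^ 2) * (2 * p0 + S ^ 2 / 4) +
        37632 * (3 * p0 ^ 2 + S ^ 4 / 16 + p0 * S ^ 2 / 2)) := by ring
  rw [e]
  have hS : 1 ≤ S ^ 2 := by nlinarith
  have h1 : (p - p0) * (10080 - 75264 * S ^ 2 + 37632 * (p + 2 * p0 + S ^ 2 / 4)) ≤ 0 := by
    refine mul_nonpos_of_nonneg_of_nonpos (by linarith) ?_
    linarith
  have h2 : -22320 - 10080 * S ^ 2 + 37632 * S ^ 4 +
        (10080 - 75264 * S ^ 2) * (2 * p0 + S ^ 2 / 4) +
        37632 * (3 * p0 ^ 2 + S ^ 4 / 16 + p0 * S ^ 2 / 2) ≤ 0 := by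
    obtain ⟨t, ht⟩ : ∃ t, t = S - 1 := ⟨_, rfl⟩
    have hS' : S = 1 + t := by linarith
    have ht0 : 0 ≤ t := by linarith
    have ht1 : t ≤ 1 := by linarith
    have e2 : -22320 - 10080 * S ^ 2 + 37632 * S ^ 4 +
        (10080 - 75264 * S ^ 2) * (2 * p0 + S ^ 2 / 4) +
        37632 * (3 * p0 ^ 2 + S ^ 4 / 16 + p0 * S ^ 2 / 2) =
        -8712 - 42000 * t - 31080 * t ^ 2 - 47040 * t ^ 3 + 21168 * t ^ 4 := by
      rw [hp0, hS']; ring
    rw [e2]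
    have : t ^ 4 ≤ t ^ 3 := pow_le_pow_of_le_one ht0 ht1 (by norm_num)
    have : 0 ≤ t ^ 3 := by positivity
    have : 0 ≤ t ^ 2 := by positivity
    linarith
  linarith

theorem kS_nonneg {r a b : ℝ} (hr : 0 ≤ r) (ha : 0 ≤ a) (ha1 : a ≤ 1) (hb : 0 ≤ b)
    (hb1 : b ≤ 1) :
    0 ≤ kS r (a + b) (a * b) √((1 - a ^ 2) * (1 - b ^ 2)) ∧
      0 ≤ pS r (a + b) (a * b) √((1 - a ^ 2) * (1 - b ^ 2)) := by
  obtain ⟨h1, h0, h2⟩ := P8.interp_pts ha ha1 hb hb1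
  have hw : (1 - a ^ 2) * (1 - b ^ 2) = (1 + a * b) ^ 2 - (a + b) ^ 2 := by ring
  rw [hw]
  have hS0 : 0 ≤ a + b := by positivity
  have hS2 : a + b ≤ 2 := by linarith
  generalize a + b = S at *
  generalize a * b = p at *
  have hr3 : 0 ≤ r ^ 3 := by positivity
  -- reduce to an upper bound of the angular factor
  have hmono : ∀ w w' : ℝ, w ≤ w' → kS r S p w' ≤ kS r S p w := by
    intro w w' h
    have e : kS r S p w - kS r S p w' = 1 / 2 * (648 * S + 1008 * p * S) * r * (w' - w) := by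
      unfold kS; ring
    have : 0 ≤ 1 / 2 * (648 * S + 1008 * p * S) * r * (w' - w) :=
      mul_nonneg (by positivity) (by linarith)
    linarith
  have hmono' : ∀ w w' : ℝ, w ≤ w' → pS r S p w' ≤ pS r S p w := by
    intro w w' h
    have := hmono w w' h
    unfold pS
    have : r ^ 3 * kS r S p w' ≤ r ^ 3 * kS r S p w := by gcongr
    linarith
  -- polynomials in `p` for the linear bound with slope `c`
  have formk : ∀ p c : ℝ, kS r S p (1 - S ^ 2 / 4 + c * (p - S ^ 2 / 4)) =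
      kS r S 0 (1 - S ^ 2 / 4 - c * (S ^ 2 / 4)) + (-264 * r ^ 4 - 2052 * r ^ 2 - 2820 -
        1 / 2 * r * (3240 * S - 4032 * S) - 504 * S * r * (1 - S ^ 2 / 4 - c * (S ^ 2 / 4)) -
        324 * S * c * r + 9 / 2 * (1296 + 336 * S ^ 2) * r ^ 2) * p +
      (-840 * S * r - 504 * S * r * c - 3024 * r ^ 2) * p ^ 2 + 0 * p ^ 3 := by
    intro p c; unfold kS; ring
  have formp : ∀ p c : ℝ, pS r S p (1 - S ^ 2 / 4 + c * (p - S ^ 2 / 4)) =
      r ^ 3 * kS r S 0 (1 - S ^ 2 / 4 - c * (S ^ 2 / 4)) +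
      (r ^ 3 * (-264 * r ^ 4 - 2052 * r ^ 2 - 2820 -
        1 / 2 * r * (3240 * S - 4032 * S) - 504 * S * r * (1 - S ^ 2 / 4 - c * (S ^ 2 / 4)) -
        324 * S * c * r + 9 / 2 * (1296 + 336 * S ^ 2) * r ^ 2) - 16920 * r + 11280 * S +
        7440 * S ^ 3 + 2016 * S ^ 5 - 5376 * S ^ 7) * p +
      (r ^ 3 * (-840 * S * r - 504 * S * r * c - 3024 * r ^ 2) - 22320 * S - 10080 * S ^ 3 +
        37632 * S ^ 5) * p ^ 2 + (10080 * S - 75264 * S ^ 3) * p ^ 3 + (37632 * S) * p ^ 4 := by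
    intro p c; unfold pS kS; ring
  have dk : 0 ≤ kS r S ((S / 2) ^ 2) (1 - S ^ 2 / 4) := by
    have := kS_diag (r := r) (c := S / 2) hr (by positivity) (by linarith)
    rwa [show 2 * (S / 2) = S by ring, show 1 - (S / 2) ^ 2 = 1 - S ^ 2 / 4 by ring] at this
  have dp : 0 ≤ pS r S ((S / 2) ^ 2) (1 - S ^ 2 / 4) := by
    have := pS_diag (r := r) (c := S / 2) hr (by positivity) (by linarith)
    rwa [show 2 * (S / 2) = S by ring, show 1 - (S / 2) ^ 2 = 1 - S ^ 2 / 4 by ring] at this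
  have hdiag : ∀ c : ℝ, 1 - S ^ 2 / 4 = 1 - S ^ 2 / 4 + c * ((S / 2) ^ 2 - S ^ 2 / 4) := by
    intro c; ring
  have concP : ∀ p0 : ℝ, 0 ≤ p0 → p0 ≤ p → S - 1 ≤ p0 → (S ≤ 1 ∨ p0 = S - 1) → ∀ c : ℝ, 0 ≤ c →
      (r ^ 3 * (-840 * S * r - 504 * S * r * c - 3024 * r ^ 2) - 22320 * S - 10080 * S ^ 3 +
        37632 * S ^ 5) + (10080 * S - 75264 * S ^ 3) * (p + p0 + (S / 2) ^ 2) +
        (37632 * S) * (p ^ 2 + p0 ^ 2 + ((S / 2) ^ 2) ^ 2 + p * p0 + p * (S / 2) ^ 2 +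
          p0 * (S / 2) ^ 2) ≤ 0 := by
    intro p0 hp0 hp hS1 hcase c hc
    have q1 : 0 ≤ r ^ 3 * (840 * S * r + 504 * S * r * c + 3024 * r ^ 2) := by positivity
    have q2 : -22320 - 10080 * S ^ 2 + 37632 * S ^ 4 +
        (10080 - 75264 * S ^ 2) * (p + p0 + (S / 2) ^ 2) +
        37632 * (p ^ 2 + p0 ^ 2 + ((S / 2) ^ 2) ^ 2 + p * p0 + p * (S / 2) ^ 2 +
          p0 * (S / 2) ^ 2) ≤ 0 := by
      have hp1 : p ≤ S ^ 2 / 4 := by linarith [h1, show (S / 2) ^ 2 = S ^ 2 / 4 by ring]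
      have hp01 : p0 ≤ S ^ 2 / 4 := hp.trans hp1
      rcases hcase with hcase | hcase
      · have hS2' : S ^ 2 ≤ 1 := pow_le_one₀ hS0 hcase
        exact concAux1 hp0 hp hp1 hS2'
      · exact concAux2 hcase hS0 (by linarith) hS2 hp hp1
    have q3 := mul_nonpos_of_nonneg_of_nonpos hS0 q2
    nlinarith [q1, q3]
  have hp4 : 4 * p ≤ S ^ 2 := by
    have : (S / 2) ^ 2 = S ^ 2 / 4 := by ring
    linarith
  rcases le_or_gt S 1 with hS1 | hS1
  · have hS2' : S ^ 2 ≤ 1 := pow_le_one₀ hS0 hS1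
    have hwb := w_le_amgm (S := S) (p := p) (by linarith) hp4
    have z1 : 0 ≤ kS r S 0 (1 - S ^ 2 / 4 + 1 * (0 - S ^ 2 / 4)) := by
      have := kS_zero hr hS0 hS1
      rwa [show 1 - S ^ 2 / 4 + 1 * (0 - S ^ 2 / 4) = 1 - S ^ 2 / 2 by ring]
    have z2 : 0 ≤ pS r S 0 (1 - S ^ 2 / 4 + 1 * (0 - S ^ 2 / 4)) := by
      have := pS_zero hr hS0 hS1
      rwa [show 1 - S ^ 2 / 4 + 1 * (0 - S ^ 2 / 4) = 1 - S ^ 2 / 2 by ring]
    constructor
    · refine le_trans ?_ (hmono _ _ hwb)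
      rw [hdiag 1, formk] at dk
      rw [formk] at z1 ⊢
      refine cubic_interp h0 h1 ?_ z1 dk
      have : 0 ≤ 840 * S * r + 504 * S * r * 1 + 3024 * r ^ 2 := by positivity
      linarith
    · refine le_trans ?_ (hmono' _ _ hwb)
      rw [hdiag 1, formp] at dp
      rw [formp] at z2 ⊢
      exact quartic_interp h0 h1 (concP 0 le_rfl h0 (by linarith) (Or.inl hS1) 1 (by norm_num)) z2 dp
  · rcases eq_or_lt_of_le hS2 with hS | hS
    · have hp1 : p = 1 := by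
        apply le_antisymm
        · rw [hS] at h1; linarith
        · rw [hS] at h2; linarith
      subst hS hp1
      have e : √((1 + 1 : ℝ) ^ 2 - 2 ^ 2) = 1 - 2 ^ 2 / 4 := by norm_num
      rw [e]
      norm_num at dk dp ⊢
      exact ⟨dk, dp⟩
    · have hwb := w_le_tangent hS0 hS h2
      set c := (4 + S ^ 2) / (4 - S ^ 2) with hc
      have hD : 0 < 4 - S ^ 2 := by nlinarith
      have hc0 : 0 ≤ c := by rw [hc]; positivity
      have ew : (1 - (S - 1) ^ 2) / (3 + (S - 1)) =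
          1 - S ^ 2 / 4 + c * ((S - 1) - S ^ 2 / 4) := by
        rw [hc]
        have h3 : 3 + (S - 1) ≠ 0 := by linarith
        have h4 : 4 - S ^ 2 ≠ 0 := hD.ne'
        rw [div_eq_iff h3]
        field_simp
        ring
      have z1 : 0 ≤ kS r S (S - 1) (1 - S ^ 2 / 4 + c * ((S - 1) - S ^ 2 / 4)) := by
        have := kS_one (b := S - 1) hr (by linarith) (by linarith)
        rwa [show 1 + (S - 1) = S by ring, ew] at this
      have z2 : 0 ≤ pS r S (S - 1) (1 - S ^ 2 / 4 + c * ((S - 1) - S ^ 2 / 4)) := by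
        have := pS_one (b := S - 1) hr (by linarith) (by linarith)
        rwa [show 1 + (S - 1) = S by ring, ew] at this
      constructor
      · refine le_trans ?_ (hmono _ _ hwb)
        rw [hdiag c, formk] at dk
        rw [formk] at z1 ⊢
        refine cubic_interp h2 h1 ?_ z1 dk
        have : 0 ≤ 840 * S * r + 504 * S * r * c + 3024 * r ^ 2 := by positivity
        linarith
      · refine le_trans ?_ (hmono' _ _ hwb)
        rw [hdiag c, formp] at dp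
        rw [formp] at z2 ⊢
        exact quartic_interp h2 h1 (concP (S - 1) (by linarith) h2 le_rfl (Or.inr rfl) c hc0) z2 dp

end P10

end Vale.Agent.P219.TP
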