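import Vale.Agent.P219.TP.PolyTen2
import Vale.Agent.P219.TP.CertEight

/-! # Polynomial inequalities for the certificate in dimension 10, third part -/

namespace Vale.Agent.P219.TP

namespace P10

/-- The kernel times `r⁶` with angular factor `w`. -/
noncomputable def k10 (r a b w : ℝ) : ℝ :=
  381 * r ^ 6 + 132 * ((7 + (a ^ 2 + b ^ 2)) * r ^ 4 - 9 / 2 * (a + b) * r ^ 5) +
    513 * ((5 + 2 * (a ^ 2 + b ^ 2)) * r ^ 2 - 9 / 2 * (a + b) * r ^ 3) +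
    470 * ((3 + 3 * (a ^ 2 + b ^ 2)) - 9 / 2 * (a + b) * r) -
    1 / 2 * r * (648 * (a * (4 + 5 * b ^ 2) + b * (4 + 5 * a ^ 2)) +
      336 * (a ^ 3 * (4 + 5 * b ^ 2) + b ^ 3 * (4 + 5 * a ^ 2))) -
    1 / 2 * ((648 + 1008 * a ^ 2) * |b| + (648 + 1008 * b ^ 2) * |a|) * w * r +
    9 / 2 * (1296 * (a * b) + 336 * (a * b ^ 3 + a ^ 3 * b)) * r ^ 2

theorem k10_mono {r a b w w' : ℝ} (hr : 0 ≤ r) (h : w ≤ w') : k10 r a b w' ≤ k10 r a b w := by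
  have e : k10 r a b w - k10 r a b w' =
      1 / 2 * ((648 + 1008 * a ^ 2) * |b| + (648 + 1008 * b ^ 2) * |a|) * r * (w' - w) := by
    unfold k10; ring
  have : 0 ≤ 1 / 2 * ((648 + 1008 * a ^ 2) * |b| + (648 + 1008 * b ^ 2) * |a|) * r * (w' - w) :=
    mul_nonneg (by positivity) (by linarith)
  linarith

theorem k10_eq {r a b w : ℝ} (ha : 0 ≤ a) (hb : 0 ≤ b) :
    k10 r a b w = kS r (a + b) (a * b) w := by
  unfold k10 kS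
  rw [abs_of_nonneg ha, abs_of_nonneg hb]
  ring

theorem k10_pos_pos {r a b : ℝ} (hr : 0 ≤ r) (ha : 0 ≤ a) (ha1 : a ≤ 1) (hb : 0 ≤ b)
    (hb1 : b ≤ 1) : 0 ≤ k10 r a b √((1 - a ^ 2) * (1 - b ^ 2)) := by
  rw [k10_eq ha hb]
  exact (kS_nonneg hr ha ha1 hb hb1).1

set_option maxHeartbeats 1000000 in
theorem K4_poly {r a b : ℝ} (hr : 0 ≤ r) (ha : 0 ≤ a) (ha1 : a ≤ 1) (hb : 0 ≤ b) (hb1 : b ≤ 1) :
    0 ≤ k10 r a (-b) (1 - (a ^ 2 + b ^ 2) / 2) := by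
  have hab : ∀ i j : ℕ, 0 ≤ 1 - a ^ i * b ^ j := by
    intro i j
    exact sub_nonneg.2 (mul_le_one₀ (pow_le_one₀ ha ha1) (pow_nonneg hb j) (pow_le_one₀ hb hb1))
  obtain ⟨x, hx⟩ : ∃ x, x = 1 - a ^ 2 := ⟨_, rfl⟩
  obtain ⟨y, hy⟩ : ∃ y, y = 1 - b ^ 2 := ⟨_, rfl⟩
  have hx0 : 0 ≤ x := by rw [hx]; exact sub_nonneg.2 (pow_le_one₀ ha ha1)
  have hy0 : 0 ≤ y := by rw [hy]; exact sub_nonneg.2 (pow_le_one₀ hb hb1)
  obtain ⟨z01, hz01⟩ : ∃ z, z = 1 - a ^ 0 * b ^ 1 := ⟨_, rfl⟩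
  obtain ⟨z02, hz02⟩ : ∃ z, z = 1 - a ^ 0 * b ^ 2 := ⟨_, rfl⟩
  obtain ⟨z03, hz03⟩ : ∃ z, z = 1 - a ^ 0 * b ^ 3 := ⟨_, rfl⟩
  obtain ⟨z06, hz06⟩ : ∃ z, z = 1 - a ^ 0 * b ^ 6 := ⟨_, rfl⟩
  obtain ⟨z10, hz10⟩ : ∃ z, z = 1 - a ^ 1 * b ^ 0 := ⟨_, rfl⟩
  obtain ⟨z11, hz11⟩ : ∃ z, z = 1 - a ^ 1 * b ^ 1 := ⟨_, rfl⟩
  obtain ⟨z14, hz14⟩ : ∃ z, z = 1 - a ^ 1 * b ^ 4 := ⟨_, rfl⟩
  obtain ⟨z20, hz20⟩ : ∃ z, z = 1 - a ^ 2 * b ^ 0 := ⟨_, rfl⟩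
  obtain ⟨z21, hz21⟩ : ∃ z, z = 1 - a ^ 2 * b ^ 1 := ⟨_, rfl⟩
  obtain ⟨z22, hz22⟩ : ∃ z, z = 1 - a ^ 2 * b ^ 2 := ⟨_, rfl⟩
  obtain ⟨z23, hz23⟩ : ∃ z, z = 1 - a ^ 2 * b ^ 3 := ⟨_, rfl⟩
  obtain ⟨z30, hz30⟩ : ∃ z, z = 1 - a ^ 3 * b ^ 0 := ⟨_, rfl⟩
  obtain ⟨z31, hz31⟩ : ∃ z, z = 1 - a ^ 3 * b ^ 1 := ⟨_, rfl⟩
  obtain ⟨z32, hz32⟩ : ∃ z, z = 1 - a ^ 3 * b ^ 2 := ⟨_, rfl⟩
  obtain ⟨z33, hz33⟩ : ∃ z, z = 1 - a ^ 3 * b ^ 3 := ⟨_, rfl⟩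
  obtain ⟨z40, hz40⟩ : ∃ z, z = 1 - a ^ 4 * b ^ 0 := ⟨_, rfl⟩
  have hn01 : 0 ≤ z01 := by rw [hz01]; exact hab 0 1
  have hn02 : 0 ≤ z02 := by rw [hz02]; exact hab 0 2
  have hn03 : 0 ≤ z03 := by rw [hz03]; exact hab 0 3
  have hn06 : 0 ≤ z06 := by rw [hz06]; exact hab 0 6
  have hn10 : 0 ≤ z10 := by rw [hz10]; exact hab 1 0
  have hn11 : 0 ≤ z11 := by rw [hz11]; exact hab 1 1
  have hn14 : 0 ≤ z14 := by rw [hz14]; exact hab 1 4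
  have hn20 : 0 ≤ z20 := by rw [hz20]; exact hab 2 0
  have hn21 : 0 ≤ z21 := by rw [hz21]; exact hab 2 1
  have hn22 : 0 ≤ z22 := by rw [hz22]; exact hab 2 2
  have hn23 : 0 ≤ z23 := by rw [hz23]; exact hab 2 3
  have hn30 : 0 ≤ z30 := by rw [hz30]; exact hab 3 0
  have hn31 : 0 ≤ z31 := by rw [hz31]; exact hab 3 1
  have hn32 : 0 ≤ z32 := by rw [hz32]; exact hab 3 2
  have hn33 : 0 ≤ z33 := by rw [hz33]; exact hab 3 3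
  have hn40 : 0 ≤ z40 := by rw [hz40]; exact hab 4 0
  have key : 36 * k10 r a (-b) (1 - (a ^ 2 + b ^ 2) / 2) =
      (-63 * b ^ 3 + 134 * a ^ 3 + 52 * r * b ^ 2 - 208 * r * a * b - 162 * r * a ^ 2 + 112 * r ^ 2 * b - 121 * r ^ 2 * a + 51 * r ^ 3 + 186 * b - 224 * a + 299 * r) ^ 2 +
      (-26 * b ^ 3 - 505 * a ^ 3 + 11 * r * b ^ 2 + 24 * r * a * b - 156 * r * a ^ 2 + 18 * r ^ 2 * b + 73 * r ^ 2 * a + 11 * r ^ 3 + 76 * b + 549 * a) ^ 2 +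
      (-162 * b ^ 3 + 132 * a ^ 3 + 228 * r * b ^ 2 + 68 * r * a * b + 50 * r * a ^ 2 - 186 * r ^ 2 * b - 103 * r ^ 2 * a - 21 * r ^ 3 + 103 * b) ^ 2 +
      (70 * b ^ 3 + 218 * a ^ 3 - 283 * r * b ^ 2 + 146 * r * a * b - 180 * r * a ^ 2 + 9 * r ^ 2 * b - 85 * r ^ 2 * a + 89 * r ^ 3) ^ 2 +
      (-114 * b ^ 3 + 17 * a ^ 3 + 304 * r * b ^ 2 + 8 * r * a * b - 247 * r * a ^ 2 - 50 * r ^ 2 * b + 146 * r ^ 2 * a) ^ 2 +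
      (28 * b ^ 3 - 120 * a ^ 3 - 143 * r * b ^ 2 - 51 * r * a * b + 113 * r * a ^ 2 + 97 * r ^ 2 * b) ^ 2 +
      (-76 * b ^ 3 - 45 * a ^ 3 - 10 * r * b ^ 2 + 62 * r * a * b + 39 * r * a ^ 2) ^ 2 +
      (-35 * b ^ 3 - 82 * a ^ 3 + 21 * r * b ^ 2 + 63 * r * a ^ 2) ^ 2 +
      4 * ((-26 * b ^ 3 - 6 * a ^ 3 + 37 * r * b ^ 2) ^ 2) +
      (-8 * b ^ 3 + 15 * a ^ 3) ^ 2 +
      1296 * ((b ^ 3) ^ 2) +
      9 * (x * (-192 * a ^ 2 + 73) ^ 2) +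
      30625 * (x * (a ^ 2) ^ 2) +
      60516 * (y * (b ^ 2) ^ 2) +
      121 * (r * b * (-41 * b ^ 2 + 32 * r * b) ^ 2) +
      1681 * (r * b * (b ^ 2) ^ 2) +
      272 * (r ^ 4 * z20) +
      298 * (r ^ 4 * z02) +
      156 * (r ^ 5 * a) +
      150 * (r ^ 5 * b) +
      550 * (r ^ 2 * z20) +
      244 * (r ^ 2 * z02) +
      22 * (r ^ 3 * a) +
      188 * (r ^ 3 * z01) +
      568 * (z20) +
      221 * (z02) +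
      508 * (r * z10) +
      96 * (r * z01) +
      306 * (r * a * b ^ 2) +
      1134 * (r * z32) +
      220 * (r * a ^ 3) +
      148 * (r * a ^ 2 * b) +
      118 * (r * z23) +
      286 * (r * z03) +
      516 * (r * a ^ 4 * b) +
      192 * (r * z14) +
      22 * (r ^ 2 * z11) +
      390 * (r ^ 2 * a ^ 3 * b) +
      456 * (r ^ 2 * a * b ^ 3) +
      120 * (z11) +
      167 * (z40) +
      324 * (a * b ^ 3) +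
      280 * (z31) +
      244 * (b ^ 4) +
      154 * (r ^ 4 * z11) +
      422 * (r ^ 3 * z30) +
      162 * (r ^ 3 * z03) +
      226 * (r ^ 3 * z21) +
      158 * (r ^ 3 * a * b ^ 2) +
      698 * (r ^ 2 * a ^ 4) +
      416 * (r ^ 2 * b ^ 4) +
      61 * (r ^ 2 * z22) +
      496 * (r * a ^ 5) +
      500 * (r * b ^ 5) +
      665 * (a ^ 6) +
      120 * (z33) +
      118 * (z06) +
      1167 * ((r - 1) ^ 2) +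
      499 * (r ^ 2 * (r - 1) ^ 2) +
      38 +
      396 * (r ^ 2) +
      1543 * (r ^ 4) +
      2632 * (r ^ 6) := by
    unfold k10
    rw [abs_neg, abs_of_nonneg ha, abs_of_nonneg hb]
    subst hx hy hz01 hz02 hz03 hz06 hz10 hz11 hz14 hz20 hz21 hz22 hz23 hz30 hz31 hz32 hz33 hz40
    ring
  have h : 0 ≤ 36 * k10 r a (-b) (1 - (a ^ 2 + b ^ 2) / 2) := by
    rw [key]; positivity
  linarith

theorem k10_pos_neg {r a b : ℝ} (hr : 0 ≤ r) (ha : 0 ≤ a) (ha1 : a ≤ 1) (hb : 0 ≤ b)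
    (hb1 : b ≤ 1) : 0 ≤ k10 r a (-b) √((1 - a ^ 2) * (1 - (-b) ^ 2)) := by
  refine (K4_poly hr ha ha1 hb hb1).trans (k10_mono hr ?_)
  have := sqrt_le_aux (a := a) (b := -b) (by rwa [abs_of_nonneg ha])
    (by rwa [abs_neg, abs_of_nonneg hb])
  rwa [neg_sq] at this ⊢

theorem k10_neg_neg {r a b : ℝ} (hr : 0 ≤ r) (ha : 0 ≤ a) (ha1 : a ≤ 1) (hb : 0 ≤ b)
    (hb1 : b ≤ 1) : 0 ≤ k10 r (-a) (-b) √((1 - (-a) ^ 2) * (1 - (-b) ^ 2)) := by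
  have ha2 : a ^ 2 ≤ 1 := pow_le_one₀ ha ha1
  have hb2 : b ^ 2 ≤ 1 := pow_le_one₀ hb hb1
  have hw : √((1 - (-a) ^ 2) * (1 - (-b) ^ 2)) ≤ 1 := by
    rw [Real.sqrt_le_iff, neg_sq, neg_sq]
    refine ⟨by norm_num, ?_⟩
    rw [one_pow]
    exact mul_le_one₀ (by nlinarith) (by linarith) (by nlinarith)
  refine le_trans ?_ (k10_mono hr hw)
  have e : k10 r (-a) (-b) 1 = 381 * r ^ 6 + 132 * ((7 + (a ^ 2 + b ^ 2)) * r ^ 4 +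
      9 / 2 * (a + b) * r ^ 5) + 513 * ((5 + 2 * (a ^ 2 + b ^ 2)) * r ^ 2 +
      9 / 2 * (a + b) * r ^ 3) + 470 * ((3 + 3 * (a ^ 2 + b ^ 2)) + 9 / 2 * (a + b) * r) +
      1 / 2 * r * (648 * (5 * a * b ^ 2 + 5 * b * a ^ 2) +
      336 * (a ^ 3 * (4 + 5 * b ^ 2) + b ^ 3 * (4 + 5 * a ^ 2))) +
      1 / 2 * r * (a * (2592 - (648 + 1008 * b ^ 2)) + b * (2592 - (648 + 1008 * a ^ 2))) +
      9 / 2 * (1296 * (a * b) + 336 * (a * b ^ 3 + a ^ 3 * b)) * r ^ 2 := by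
    unfold k10
    rw [abs_neg, abs_neg, abs_of_nonneg ha, abs_of_nonneg hb]
    ring
  rw [e]
  have h1 : 0 ≤ 2592 - (648 + 1008 * b ^ 2) := by linarith
  have h2 : 0 ≤ 2592 - (648 + 1008 * a ^ 2) := by linarith
  positivity

theorem k10_nonneg {r a b : ℝ} (hr : 0 ≤ r) (ha : |a| ≤ 1) (hb : |b| ≤ 1) :
    0 ≤ k10 r a b √((1 - a ^ 2) * (1 - b ^ 2)) := by
  have hsymm : ∀ a b : ℝ, k10 r a b √((1 - a ^ 2) * (1 - b ^ 2)) =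
      k10 r b a √((1 - b ^ 2) * (1 - a ^ 2)) := by
    intro a b
    rw [mul_comm (1 - b ^ 2) (1 - a ^ 2)]
    unfold k10; ring
  rcases le_total 0 a with h1 | h1 <;> rcases le_total 0 b with h2 | h2
  · rw [abs_of_nonneg h1] at ha
    rw [abs_of_nonneg h2] at hb
    exact k10_pos_pos hr h1 ha h2 hb
  · rw [abs_of_nonneg h1] at ha
    rw [abs_of_nonpos h2] at hb
    have := k10_pos_neg hr h1 ha (neg_nonneg.2 h2) hb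
    rwa [neg_neg] at this
  · rw [abs_of_nonpos h1] at ha
    rw [abs_of_nonneg h2] at hb
    have := k10_pos_neg hr h2 hb (neg_nonneg.2 h1) ha
    rwa [neg_neg, ← hsymm] at this
  · rw [abs_of_nonpos h1] at ha
    rw [abs_of_nonpos h2] at hb
    have := k10_neg_neg hr (neg_nonneg.2 h1) ha (neg_nonneg.2 h2) hb
    rwa [neg_neg, neg_neg] at this

/-- boundary function -/
noncomputable def f (c : ℝ) : ℝ := 22560 * c + 14880 * c ^ 3 + 4032 * c ^ 5 - 10752 * c ^ 7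

theorem pi10 {r a b : ℝ} (hr : 0 ≤ r) (ha : 0 ≤ a) (ha1 : a ≤ 1) (hb : 0 ≤ b) (hb1 : b ≤ 1) :
    a * b * (16920 * r - (f a + f b) / 2) ≤ r ^ 3 * k10 r a b √((1 - a ^ 2) * (1 - b ^ 2)) := by
  have h := (kS_nonneg hr ha ha1 hb hb1).2
  rw [k10_eq ha hb]
  unfold pS at h
  unfold f
  generalize √((1 - a ^ 2) * (1 - b ^ 2)) = w at *
  have e : a * b * (16920 * r - (22560 * a + 14880 * a ^ 3 + 4032 * a ^ 5 - 10752 * a ^ 7 +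
      (22560 * b + 14880 * b ^ 3 + 4032 * b ^ 5 - 10752 * b ^ 7)) / 2) =
      16920 * (a * b) * r - a * b / 2 * (22560 * (a + b) + 14880 * ((a + b) ^ 3 -
      3 * (a * b) * (a + b)) + 4032 * ((a + b) ^ 5 - 5 * (a + b) ^ 3 * (a * b) +
      5 * (a + b) * (a * b) ^ 2) - 10752 * ((a + b) ^ 7 - 7 * (a + b) ^ 5 * (a * b) +
      14 * (a + b) ^ 3 * (a * b) ^ 2 - 7 * (a + b) * (a * b) ^ 3)) := by ring
  rw [e]
  linarith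

theorem f_nonneg {c : ℝ} (h0 : 0 ≤ c) (h1 : c ≤ 1) : 0 ≤ f c := by
  unfold f
  have : c ^ 7 ≤ c := by
    calc c ^ 7 ≤ c ^ 1 := pow_le_pow_of_le_one h0 h1 (by norm_num)
      _ = c := pow_one c
  have : 0 ≤ c ^ 3 := by positivity
  have : 0 ≤ c ^ 5 := by positivity
  linarith

theorem f_mono {x c : ℝ} (h0 : 0 ≤ x) (h : x ≤ c) (h1 : c ≤ 1) : f x ≤ f c := by
  have hc0 : 0 ≤ c := h0.trans h
  have hx1 : x ≤ 1 := h.trans h1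
  have e : f c - f x = (c - x) * (22560 + 14880 * (c ^ 2 + c * x + x ^ 2) +
      4032 * (c ^ 4 + c ^ 3 * x + c ^ 2 * x ^ 2 + c * x ^ 3 + x ^ 4) -
      10752 * (c ^ 6 + c ^ 5 * x + c ^ 4 * x ^ 2 + c ^ 3 * x ^ 3 + c ^ 2 * x ^ 4 + c * x ^ 5 +
        x ^ 6)) := by
    unfold f; ring
  have b0 : 0 ≤ c * x := by positivity
  have hpow : ∀ i j : ℕ, 0 ≤ c ^ i * x ^ j := fun i j => by positivity
  have hc2 : 0 ≤ 1 - c ^ 2 := sub_nonneg.2 (pow_le_one₀ hc0 h1)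
  have hx2 : 0 ≤ 1 - x ^ 2 := sub_nonneg.2 (pow_le_one₀ h0 hx1)
  have hcx : 0 ≤ 1 - c * x := sub_nonneg.2 (mul_le_one₀ h1 h0 hx1)
  have a1 := mul_nonneg (hpow 4 0) hc2
  have a2 := mul_nonneg (hpow 3 1) hc2
  have a3 := mul_nonneg (hpow 2 2) hc2
  have a4 := mul_nonneg (hpow 2 2) hcx
  have a5 := mul_nonneg (hpow 2 2) hx2
  have a6 := mul_nonneg (hpow 1 3) hx2
  have a7 := mul_nonneg (hpow 0 4) hx2
  have d1 := mul_nonneg (hpow 2 0) hc2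
  have d2 := mul_nonneg (hpow 1 1) hc2
  have d3 := mul_nonneg (hpow 1 1) hx2
  have d4 := mul_nonneg (hpow 0 2) hx2
  have d5 := mul_nonneg (hpow 1 1) hcx
  have d6 := sq_nonneg (c - x)
  have : 0 ≤ f c - f x := by
    rw [e]
    refine mul_nonneg (by linarith) ?_
    nlinarith only [a1, a2, a3, a4, a5, a6, a7, d1, d2, d3, d4, d5, d6, hcx, b0]
  linarith

end P10

end Vale.Agent.P219.TP
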