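import Vale.Agent.P219.TP.PolyEleven

set_option linter.all false

/-! # The certificate in dimension 12: positivity of polynomials, by the kernel -/

namespace Vale.Agent.P219.TP.P12

open Kron P11

/-- coefficients of the kernel -/
def lA : List (List (List ℤ)) := [[[17325, 46200, -40356,
  -80724, 71712], [], [46200, -242136, 510996, 286848], [], [-40356, 510996, -717120], [],
  [-80724, 286848], [], [71712]], [[0, -299136, 383104, 962632, -1091832], [-63525, 0, -443916,
  493020], [-299136, 6486528, -10945096, -4367328], [0, 295944, 493020], [383104, -10945096,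
  10918320], [147972, -887436], [962632, -4367328], [-98604], [-1091832]], [[18480, 242781,
  -985909, -414162, 1303920], [0, -822624, 7479384, -8578680], [242781, -8033262, 17799762,
  5215680], [822624, -4986256, -8578680], [-985909, 17799762, -13039200], [-2493128, 15441624],
  [-414162, 5215680], [1715736], [1303920]], [[74784, -29306, 147379, -153455, -283250], [-40656,
  485331, -8254191, 11952600], [-29306, 1495114, -5284945, -1133000], [-485331, 5502794,
  11952600], [147379, -5284945, 2832500], [2751397, -21514680], [-153455, -1133000], [-2390520],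
  [-283250]], [[-39165, 197301, 59893, -94152, -32368], [-137104, -167981, 1230537, -3115750],
  [197301, -644898, -812152, -129472], [167981, -820358, -3115750], [59893, -812152, 323680],
  [-410179, 5608350], [-94152, -129472], [623150], [-32368]], [[-38040, -39081, 78694, 33000],
  [61545, 345213, -309441, -445060], [-39081, 546612, -33000], [-345213, 206294, -445060], [78694,
  -33000], [103147, 801108], [33000], [89012]], [[32364, -49076, 2031, 3230], [52305, -34122,
  363000], [-49076, 112218, -3230], [34122, -242000], [2031, -3230], [-121000], [3230]], [[3010,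
  301], [-39556, -68772, 53295], [301], [68772, -35530], [], [-17765]], [[3502], [-3311]]]

/-- coefficients of the kernel -/
def lB : List (List (List ℤ)) := [[[0, 0, 53808, -53784], [],
  [0, 0, -268920], [], [-53808, 268920], [], [53784]], [[0, 149568, -906592, 935856], [],
  [-149568, 0, 4679280], [], [906592, -4679280], [], [-935856]], [[0, -88242, 1000508, -1303920],
  [], [88242, 0, -6519600], [], [-1000508, 6519600], [], [1303920]], [[0, 30542, -149156, 339900],
  [], [-30542, 0, 1699500], [], [149156, -1699500], [], [-339900]], [[0, -62766, 37508, 48552],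
  [], [62766, 0, 242760], [], [-37508, -242760], [], [-48552]], [[0, 6204, -44000], [], [-6204],
  [], [44000]], [[0, 12504, -6460], [], [-12504], [], [6460]]]

/-- coefficients of `f` -/
def lF : List (List ℤ) := [[0, 0, 2393088, -18234368, 33153216,
  -2779968, -18620800], [277200, 166320, -11121600, 204773184, -690643584, 647688448, -65175552],
  [0, 14358528, -273515520, 928290048, -125098560, -1228972800], [55440, -22243200, 1023865920,
  -6446006784, 9715326720, -1433862144], [2393088, -273515520, 2320725120, -583793280,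
  -9217296000], [-2224320, 614319552, -9669010176, 27202914816, -6452379648], [-18234368,
  928290048, -583793280, -17205619200], [29253312, -2762574336, 19430653440, -8603172864],
  [33153216, -125098560, -9217296000], [-76738176, 3238442240, -3584655360], [-2779968,
  -1228972800], [58880768, -391053312], [-18620800], [-5013504]]

/-- the kernel -/
noncomputable def xK (r c e D W : Ex) : Ex := .add (.mul D (h3 r c e lA)) (.mul W (h3 r c e lB))

/-- the inequality for pairs -/
noncomputable def xP (r c e D W : Ex) : Ex :=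
  .add (.mul (.mul r (.mul r r)) (xK r c e D W))
    (.mul (.mul D (.add (.mul c c) (.mul (.k 0 1) e))) (.add (h2 c e lF) (.mul (.k 0 207900) r)))

theorem ckP1 : ct (sb (xP xR1 .x xE1 xD1 xW1) xw1)
    .o
    ⟨0, 1, 2, 2, 0, 1, 1, 1, 0, 1, 1,
    1⟩ = true := by
  decide +kernel

theorem ckP2 : ct (sb (xP xR1 .x xE2 xD2 xW2) xw2)
    (.y .o (.y .o (.x (.y .o .o) (.y .o (.x .o
    .o)))))
    ⟨1, 2, 2, 2, 0, 1, 1, 1, 0, 1, 1, 1⟩ = true := by
  decide +kernel

theorem ckP3 : ct (sb (xP xR2 .x xE1 xD1 xW1) xw3)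
    (.y .o (.y .o .o))
    ⟨0, 1, 2, 2, 0, 1,
    1, 0, 0, 1, 1, 1⟩ = true := by
  decide +kernel

theorem ckP4 : ct (sb (xP xR2 .x xE2 xD2 xW2) xw4)
    (.x (.y (.x .o .o) (.y .o .o)) .o)
    ⟨1,
    2, 2, 2, 0, 1, 1, 0, 0, 1, 1, 1⟩ = true := by
  decide +kernel

theorem ckK1 : ct (sb (xK xR1 .x xE1 xD1 xW1) (.k 1 0))
    .o
    ⟨0, 1, 2, 2, 0, 1, 1, 1, 0, 1,
    1, 1⟩ = true := by
  decide +kernel

theorem ckK2 : ct (sb (xK xR1 .x xE2 xD2 xW2) (.k 1 0))
    (.y (.x .o .o) (.x (.y .o .o) (.y (.y
    (.x (.x .o .o) .o) .o) (.y .o (.x (.y (.x .o .o) .o) .o)))))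
    ⟨1, 2, 2, 2, 0, 1, 1, 1, 0,
    1, 1, 1⟩ = true := by
  decide +kernel

/-- coefficients of `N` -/
def lN : List (List ℤ) := [[5775, 0, 0, 0, -13452, 0, 8964], [0, 0,
  -74784, 0, 226648, 0, -155976], [3696, 0, 44121, 0, -250127, 0, 217320], [12464, 0, -15271, 0,
  37289, 0, -56650], [-5595, 0, 31383, 0, -9377, 0, -8092], [-4755, 0, -3102, 0, 11000], [3596, 0,
  -6252, 0, 1615], [301]]

/-- coefficients of `-∂N/∂a / a` -/
def lQ : List (List ℤ) := [[0, 0, 53808, 0, -53784], [149568,
  0, -906592, 0, 935856], [-88242, 0, 1000508, 0, -1303920], [30542, 0, -149156, 0, 339900],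
  [-62766, 0, 37508, 0, 48552], [6204, 0, -44000], [12504, 0, -6460]]

/-- coefficients of `8 N - r ∂N/∂r` -/
def lNR : List (List ℤ) := [[46200, 0, 0, 0, -107616, 0,
  71712], [0, 0, -523488, 0, 1586536, 0, -1091832], [22176, 0, 264726, 0, -1500762, 0, 1303920],
  [62320, 0, -76355, 0, 186445, 0, -283250], [-22380, 0, 125532, 0, -37508, 0, -32368], [-14265,
  0, -9306, 0, 33000], [7192, 0, -12504, 0, 3230], [301]]

/-- coefficients of `f c / c` -/
def lf : List ℤ := [277200, 0, 55440, 2393088, -2224320,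
  -18234368, 29253312, 33153216, -76738176, -2779968, 58880768, -18620800, -5013504]

/-- coefficients of `f'` -/
def lf' : List ℤ := [277200, 0, 166320, 9572352, -11121600,
  -109406208, 204773184, 265225728, -690643584, -27799680, 647688448, -223449600, -65175552]

theorem ckA1 : ct (h2 .y .x lQ)
    (.y (.x .o (.y (.x .o .o) (.x (.y (.y .o .o) .o) (.y (.x (.x
    (.y (.x (.y .o (.x .o .o)) .o) .o) .o) .o) .o)))) (.y (.y (.y .o (.y .o (.y (.y .o .o) .o)))
    .o) (.y (.y .o .o) .o)))
    ⟨0, 1, 1, 1, 0, 1, 1, 0, 0, 1, 1, 1⟩ = true := by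
  decide
    +kernel

theorem ckB1 : ct (h2 .y .x lN)
    (.y (.x .o (.y .o .o)) .o)
    ⟨0, 41, 40, 40, 0, 1, 1, 0, 0,
    1, 1, 1⟩ = true := by
  decide +kernel

/-- the regularisation term -/
noncomputable def xX : Ex :=
  .add (.add (h2 .y .x lNR) (h2 .y .z lNR)) (.mul (.k 0 1)
    (.add (.mul (oq .z) (.mul (.mul .x .x) (h2 .y .x lQ)))
      (.mul (oq .x) (.mul (.mul .z .z) (h2 .y .z lQ)))))

theorem ckX1 : ct (xX)
    (.y (.y .o (.x .o (.z .o (.x .o .o)))) (.y (.z .o (.x .o (.y (.z .o
    (.x .o (.y (.z .o (.x .o (.y (.z .o (.x .o .o)) (.z (.x .o .o) (.x .o .o))))) .o))) .o))) (.x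
    .o .o)))
    ⟨0, 1, 1, 1, 0, 1, 1, 0, 0, 1, 1, 1⟩ = true := by
  decide +kernel

theorem ckF0 : ct (h1 .x lf)
    .o
    ⟨0, 1, 1, 1, 0, 1, 1, 0, 0, 1, 1, 1⟩ = true := by
 
    decide +kernel

theorem ckF1 : ct (h1 .x lf')
    (.x .o .o)
    ⟨0, 1, 1, 1, 0, 1, 1, 0, 0, 1, 1, 1⟩ = true :=
    by
  decide +kernel

theorem ckF2 : ct (sb (.k 415800 0) (h1 .x lf))
    (.x .o .o)
    ⟨0, 1, 1, 1, 0, 1, 1, 0, 0, 1,
    1, 1⟩ = true := by
  decide +kernel

end Vale.Agent.P219.TP.P12
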