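import Vale.Agent.P219.TP.PolyTwelve
import Vale.Agent.P219.TP.PolyEleven4

set_option linter.all false

/-! # The certificate in dimension 12: the kernel

`φ(r,a) = r⁻⁷ N(r,a)`, even in `a`, `λ = 3502`, `s = 207900`. -/

namespace Vale.Agent.P219.TP.P12

open Kron P11

/-- `r⁷ φ(r,a)` -/
def N (r a : ℝ) : ℝ := 5775 + 3696 * r ^ 2 - 74784 * r * a ^ 2 + 12464 * r ^
    3 - 13452 * a ^ 4 + 44121 * r ^ 2 * a ^ 2 - 5595 * r ^ 4 + 226648 * r * a ^ 4 - 15271 * r ^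
    3 * a ^ 2 - 4755 * r ^ 5 + 8964 * a ^ 6 - 250127 * r ^ 2 * a ^ 4 + 31383 * r ^ 4 * a ^ 2 +
    3596 * r ^ 6 - 155976 * r * a ^ 6 + 37289 * r ^ 3 * a ^ 4 - 3102 * r ^ 5 * a ^ 2 + 301 * r ^
    7 + 217320 * r ^ 2 * a ^ 6 - 9377 * r ^ 4 * a ^ 4 - 6252 * r ^ 6 * a ^ 2 - 56650 * r ^ 3 * a
    ^ 6 + 11000 * r ^ 5 * a ^ 4 - 8092 * r ^ 4 * a ^ 6 + 1615 * r ^ 6 * a ^ 4

/-- `∂N/∂a = - a Q` -/
def Q (r a : ℝ) : ℝ := 149568 * r + 53808 * a ^ 2 - 88242 * r ^ 2 -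
    906592 * r * a ^ 2 + 30542 * r ^ 3 - 53784 * a ^ 4 + 1000508 * r ^ 2 * a ^ 2 - 62766 * r ^ 4
    + 935856 * r * a ^ 4 - 149156 * r ^ 3 * a ^ 2 + 6204 * r ^ 5 - 1303920 * r ^ 2 * a ^ 4 +
    37508 * r ^ 4 * a ^ 2 + 12504 * r ^ 6 + 339900 * r ^ 3 * a ^ 4 - 44000 * r ^ 5 * a ^ 2 +
    48552 * r ^ 4 * a ^ 4 - 6460 * r ^ 6 * a ^ 2

/-- `8 N - r ∂N/∂r` -/
def NR (r a : ℝ) : ℝ := 46200 + 22176 * r ^ 2 - 523488 * r * a ^ 2 +
    62320 * r ^ 3 - 107616 * a ^ 4 + 264726 * r ^ 2 * a ^ 2 - 22380 * r ^ 4 + 1586536 * r * a ^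
    4 - 76355 * r ^ 3 * a ^ 2 - 14265 * r ^ 5 + 71712 * a ^ 6 - 1500762 * r ^ 2 * a ^ 4 + 125532
    * r ^ 4 * a ^ 2 + 7192 * r ^ 6 - 1091832 * r * a ^ 6 + 186445 * r ^ 3 * a ^ 4 - 9306 * r ^ 5
    * a ^ 2 + 301 * r ^ 7 + 1303920 * r ^ 2 * a ^ 6 - 37508 * r ^ 4 * a ^ 4 - 12504 * r ^ 6 * a
    ^ 2 - 283250 * r ^ 3 * a ^ 6 + 33000 * r ^ 5 * a ^ 4 - 32368 * r ^ 4 * a ^ 6 + 3230 * r ^ 6
    * a ^ 4

/-- polynomial with given coefficients -/
noncomputable def hr1 (e : ℝ) (l : List ℤ) : ℝ := horR (fun n : ℤ => (n : ℝ)) e l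

/-- polynomial with given coefficients -/
noncomputable def hr2 (c e : ℝ) (l : List (List ℤ)) : ℝ := horR (hr1 e) c l

/-- polynomial with given coefficients -/
noncomputable def hr3 (r c e : ℝ) (l : List (List (List ℤ))) : ℝ := horR (hr2 c e) r l

theorem ev_h1 (x y z : ℝ) (A : Ex) (l : List ℤ) : ev x y z (h1 A l) = hr1 (ev x y z A) l := by
  simp only [h1, hr1, ev_hor, ev_ci]

theorem ev_h2 (x y z : ℝ) (A B : Ex) (l : List (List ℤ)) :
    ev x y z (h2 A B l) = hr2 (ev x y z A) (ev x y z B) l := by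
  unfold h2 hr2
  rw [ev_hor]
  congr 1
  funext l
  exact ev_h1 x y z B l

theorem ev_h3 (x y z : ℝ) (A B C : Ex) (l : List (List (List ℤ))) :
    ev x y z (h3 A B C l) = hr3 (ev x y z A) (ev x y z B) (ev x y z C) l := by
  unfold h3 hr3
  rw [ev_hor]
  congr 1
  funext l
  exact ev_h2 x y z B C l

/-- part of the kernel -/
noncomputable def gA (r c e : ℝ) : ℝ := hr3 r c e lA

/-- part of the kernel -/
noncomputable def gB (r c e : ℝ) : ℝ := hr3 r c e lB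

/-- mean value of `f` -/
noncomputable def gF (c e : ℝ) : ℝ := hr2 c e lF

/-- the function `f` -/
def f (c : ℝ) : ℝ := 277200 * c + 55440 * c ^ 3 + 2393088 * c ^ 4 -
    2224320 * c ^ 5 - 18234368 * c ^ 6 + 29253312 * c ^ 7 + 33153216 * c ^ 8 - 76738176 * c ^ 9
    - 2779968 * c ^ 10 + 58880768 * c ^ 11 - 18620800 * c ^ 12 - 5013504 * c ^ 13

/-- `f'` -/
def f' (c : ℝ) : ℝ := 277200 + 166320 * c ^ 2 + 9572352 * c ^ 3 - 11121600 * c ^ 4 -
    109406208 * c ^ 5 + 204773184 * c ^ 6 + 265225728 * c ^ 7 - 690643584 * c ^ 8 - 27799680 * c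
    ^ 9 + 647688448 * c ^ 10 - 223449600 * c ^ 11 - 65175552 * c ^ 12

/-- The kernel times `r⁸` for cosines of absolute values `a`, `b`; `w` is the angular factor. -/
noncomputable def k12 (r a b w : ℝ) : ℝ :=
  3502 * r ^ 8 + 1 / 2 * ((11 * N r a - NR r a * (1 - b ^ 2) - a * Q r a * b * w -
      11 * b * r * N r a) +
    (11 * N r b - NR r b * (1 - a ^ 2) - b * Q r b * a * w - 11 * a * r * N r b))

/-- The inequality for pairs. -/
noncomputable def p12 (r a b w : ℝ) : ℝ :=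
  r ^ 3 * k12 r a b w + a * b * ((f a + f b) / 2 - 207900 * r)

theorem N_neg (r a : ℝ) : N r (-a) = N r a := by unfold N; ring

theorem Q_neg (r a : ℝ) : Q r (-a) = Q r a := by unfold Q; ring

theorem NR_neg (r a : ℝ) : NR r (-a) = NR r a := by unfold NR; ring

theorem N_abs (r a : ℝ) : N r |a| = N r a := by
  rcases abs_choice a with h | h <;> rw [h]
  exact N_neg r a

theorem Q_abs (r a : ℝ) : Q r |a| = Q r a := by
  rcases abs_choice a with h | h <;> rw [h]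
  exact Q_neg r a

theorem NR_abs (r a : ℝ) : NR r |a| = NR r a := by
  rcases abs_choice a with h | h <;> rw [h]
  exact NR_neg r a

theorem N_eq (r a : ℝ) : hr2 r a lN = N r a := by
  simp only [hr2, hr1, lN, horR]
  push_cast
  unfold N
  ring

theorem Q_eq (r a : ℝ) : hr2 r a lQ = Q r a := by
  simp only [hr2, hr1, lQ, horR]
  push_cast
  unfold Q
  ring

theorem NR_eq' (r a : ℝ) : hr2 r a lNR = NR r a := by
  simp only [hr2, hr1, lNR, horR]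
  push_cast
  unfold NR
  ring

theorem ev_lN (x y z : ℝ) (R A : Ex) :
    ev x y z (h2 R A lN) = N (ev x y z R) (ev x y z A) := by rw [ev_h2, N_eq]

theorem ev_lQ (x y z : ℝ) (R A : Ex) :
    ev x y z (h2 R A lQ) = Q (ev x y z R) (ev x y z A) := by rw [ev_h2, Q_eq]

theorem ev_lNR (x y z : ℝ) (R A : Ex) :
    ev x y z (h2 R A lNR) = NR (ev x y z R) (ev x y z A) := by rw [ev_h2, NR_eq']

theorem ev_lA (x y z : ℝ) (R C E : Ex) :
    ev x y z (h3 R C E lA) = gA (ev x y z R) (ev x y z C) (ev x y z E) := ev_h3 _ _ _ _ _ _ _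

theorem ev_lB (x y z : ℝ) (R C E : Ex) :
    ev x y z (h3 R C E lB) = gB (ev x y z R) (ev x y z C) (ev x y z E) := ev_h3 _ _ _ _ _ _ _

theorem ev_lF (x y z : ℝ) (C E : Ex) :
    ev x y z (h2 C E lF) = gF (ev x y z C) (ev x y z E) := ev_h2 _ _ _ _ _ _

theorem k12_eq (r c d w : ℝ) :
    k12 r (c + d) (c - d) w = gA r c (d ^ 2) + w * gB r c (d ^ 2) := by
  simp only [gA, gB, hr3, hr2, hr1, lA, lB, horR]
  push_cast
  unfold k12 N Q NR
  ring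

theorem f_eq (c d : ℝ) : (f (c + d) + f (c - d)) / 2 = gF c (d ^ 2) := by
  simp only [gF, hr2, hr1, lF, horR]
  push_cast
  unfold f
  ring

theorem gB_eq (r c d : ℝ) : gB r c (d ^ 2) =
    -((c + d) * Q r (c + d) * (c - d) + (c - d) * Q r (c - d) * (c + d)) / 2 := by
  simp only [gB, hr3, hr2, hr1, lB, horR]
  push_cast
  unfold Q
  ring

end Vale.Agent.P219.TP.P12
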