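import Vale.Agent.P219.TP.PolyTwelve2

set_option linter.all false

/-! # The certificate in dimension 12: inequalities for the kernel -/

namespace Vale.Agent.P219.TP.P12

open Kron P11

/-- combination used in the checks -/
noncomputable def gK (r c e D W : ℝ) : ℝ := D * gA r c e + W * gB r c e

/-- combination used in the checks -/
noncomputable def gP (r c e D W : ℝ) : ℝ :=
  r ^ 3 * gK r c e D W + D * (c ^ 2 - e) * (gF c e - 207900 * r)

theorem ev_xK (x y z : ℝ) (R C E D W : Ex) : ev x y z (xK R C E D W) =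
    gK (ev x y z R) (ev x y z C) (ev x y z E) (ev x y z D) (ev x y z W) := by
  simp only [xK, ev, ev_lA, ev_lB]
  rfl

theorem ev_xP (x y z : ℝ) (R C E D W : Ex) : ev x y z (xP R C E D W) =
    gP (ev x y z R) (ev x y z C) (ev x y z E) (ev x y z D) (ev x y z W) := by
  simp only [xP, ev, ev_xK, ev_lF]
  unfold gP
  push_cast
  ring

theorem cP1 {c ρ δ : ℝ} (hc : 0 ≤ c) (hc1 : c ≤ 1 / 2) (hρ : 0 ≤ ρ) (hρ1 : ρ ≤ 1) (hδ : 0 ≤ δ)
    (hδ1 : δ ≤ 1) : (2 * c * ρ) ^ 3 * ((1 - ρ) ^ 2 + δ) ≤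
      gP (2 * c * ρ) c (c ^ 2 * δ) (1 - c ^ 2) ((1 - c ^ 2) ^ 2 - c ^ 2 * δ * (1 + c ^ 2)) := by
  have h := cs ckP1 (by norm_num) (x := c) (y := ρ) (z := δ) (by push_cast; linarith)
    (by push_cast; linarith) (by push_cast; linarith) (by push_cast; linarith)
    (by push_cast; linarith) (by push_cast; linarith)
  rw [ev_sb, ev_xP, ev_xR1, ev_xE1, ev_xD1, ev_xW1, ev_xw1] at h
  exact sub_nonneg.1 h

theorem cP2 {c ρ μ : ℝ} (hc : 1 / 2 ≤ c) (hc1 : c ≤ 1) (hρ : 0 ≤ ρ) (hρ1 : ρ ≤ 1) (hμ : 0 ≤ μ)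
    (hμ1 : μ ≤ 1) : (2 * c * ρ) ^ 3 * ((1 - ρ) ^ 2 + (1 - c) * (1 - μ)) ≤
      gP (2 * c * ρ) c ((1 - c) ^ 2 * (1 - μ ^ 2)) (2 * (1 + c))
        ((1 - c) * μ * (2 * (1 + c) ^ 2 - (1 - c) ^ 2 * (1 - μ ^ 2))) := by
  have h := cs ckP2 (by norm_num) (x := c) (y := ρ) (z := μ) (by push_cast; linarith)
    (by push_cast; linarith) (by push_cast; linarith) (by push_cast; linarith)
    (by push_cast; linarith) (by push_cast; linarith)
  rw [ev_sb, ev_xP, ev_xR1, ev_xE2, ev_xD2, ev_xW2, ev_xw2] at h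
  exact sub_nonneg.1 h

theorem cP3 {c y δ : ℝ} (hc : 0 ≤ c) (hc1 : c ≤ 1 / 2) (hy : 0 ≤ y) (hδ : 0 ≤ δ)
    (hδ1 : δ ≤ 1) : y ^ 2 * (y + c) + c ^ 3 * δ ≤
      gP (2 * c + y) c (c ^ 2 * δ) (1 - c ^ 2) ((1 - c ^ 2) ^ 2 - c ^ 2 * δ * (1 + c ^ 2)) := by
  have h := cs ckP3 (by norm_num) (x := c) (y := y) (z := δ) (by push_cast; linarith)
    (by push_cast; linarith) (by push_cast; linarith) (by push_cast; linarith)
    (by push_cast; linarith) (by push_cast; linarith)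
  rw [ev_sb, ev_xP, ev_xR2, ev_xE1, ev_xD1, ev_xW1, ev_xw3] at h
  exact sub_nonneg.1 h

theorem cP4 {c y μ : ℝ} (hc : 1 / 2 ≤ c) (hc1 : c ≤ 1) (hy : 0 ≤ y) (hμ : 0 ≤ μ)
    (hμ1 : μ ≤ 1) : y ^ 2 + (1 - c) * (1 - μ) ≤
      gP (2 * c + y) c ((1 - c) ^ 2 * (1 - μ ^ 2)) (2 * (1 + c))
        ((1 - c) * μ * (2 * (1 + c) ^ 2 - (1 - c) ^ 2 * (1 - μ ^ 2))) := by
  have h := cs ckP4 (by norm_num) (x := c) (y := y) (z := μ) (by push_cast; linarith)
    (by push_cast; linarith) (by push_cast; linarith) (by push_cast; linarith)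
    (by push_cast; linarith) (by push_cast; linarith)
  rw [ev_sb, ev_xP, ev_xR2, ev_xE2, ev_xD2, ev_xW2, ev_xw4] at h
  exact sub_nonneg.1 h

theorem cK1 {c ρ δ : ℝ} (hc : 0 ≤ c) (hc1 : c ≤ 1 / 2) (hρ : 0 ≤ ρ) (hρ1 : ρ ≤ 1) (hδ : 0 ≤ δ)
    (hδ1 : δ ≤ 1) : 1 ≤
      gK (2 * c * ρ) c (c ^ 2 * δ) (1 - c ^ 2) ((1 - c ^ 2) ^ 2 - c ^ 2 * δ * (1 + c ^ 2)) := by
  have h := cs ckK1 (by norm_num) (x := c) (y := ρ) (z := δ) (by push_cast; linarith)
    (by push_cast; linarith) (by push_cast; linarith) (by push_cast; linarith)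
    (by push_cast; linarith) (by push_cast; linarith)
  rw [ev_sb, ev_xK, ev_xR1, ev_xE1, ev_xD1, ev_xW1] at h
  simpa [ev] using h

theorem cK2 {c ρ μ : ℝ} (hc : 1 / 2 ≤ c) (hc1 : c ≤ 1) (hρ : 0 ≤ ρ) (hρ1 : ρ ≤ 1) (hμ : 0 ≤ μ)
    (hμ1 : μ ≤ 1) : 1 ≤
      gK (2 * c * ρ) c ((1 - c) ^ 2 * (1 - μ ^ 2)) (2 * (1 + c))
        ((1 - c) * μ * (2 * (1 + c) ^ 2 - (1 - c) ^ 2 * (1 - μ ^ 2))) := by
  have h := cs ckK2 (by norm_num) (x := c) (y := ρ) (z := μ) (by push_cast; linarith)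
    (by push_cast; linarith) (by push_cast; linarith) (by push_cast; linarith)
    (by push_cast; linarith) (by push_cast; linarith)
  rw [ev_sb, ev_xK, ev_xR1, ev_xE2, ev_xD2, ev_xW2] at h
  simpa [ev] using h

theorem Q_nonneg {r a : ℝ} (hr : 0 ≤ r) (ha : |a| ≤ 1) : 0 ≤ Q r a := by
  rw [← Q_abs]
  have h0 := abs_nonneg a
  have h := cs ckA1 (by norm_num) (x := |a|) (y := r) (z := 0) (by push_cast; linarith)
      (by push_cast; linarith) (by push_cast; linarith) (by push_cast; linarith)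
      (by push_cast; linarith) (by push_cast; linarith)
  rw [ev_lQ] at h
  exact h

theorem N_nonneg {r a : ℝ} (hr : 0 ≤ r) (ha : |a| ≤ 41 / 40) : 0 ≤ N r a := by
  rw [← N_abs]
  have h0 := abs_nonneg a
  have h := cs ckB1 (by norm_num) (x := |a|) (y := r) (z := 0) (by push_cast; linarith)
      (by push_cast; linarith) (by push_cast; linarith) (by push_cast; linarith)
      (by push_cast; linarith) (by push_cast; linarith)
  rw [ev_lN] at h
  exact h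

theorem X_abs {r a b : ℝ} (hr : 0 ≤ r) (ha : |a| ≤ 1) (hb : |b| ≤ 1) :
    0 ≤ NR r a + NR r b - ((1 - b ^ 2) * (a ^ 2 * Q r a) + (1 - a ^ 2) * (b ^ 2 * Q r b)) := by
  rw [← NR_abs r a, ← NR_abs r b, ← Q_abs r a, ← Q_abs r b, ← sq_abs a, ← sq_abs b]
  have h0 := abs_nonneg a
  have h1 := abs_nonneg b
  have h := cs ckX1 (by norm_num) (x := |a|) (y := r) (z := |b|) (by push_cast; linarith)
    (by push_cast; linarith) (by push_cast; linarith) (by push_cast; linarith)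
    (by push_cast; linarith) (by push_cast; linarith)
  simp only [xX, oq, ev, ev_lNR, ev_lQ] at h
  push_cast at h
  refine le_of_le_of_eq h ?_
  ring

theorem f_div {c : ℝ} (hc : 0 ≤ c) (hc1 : c ≤ 1) : ∃ g, f c = c * g ∧ 0 ≤ g ∧ g ≤ 415800 := by
  have h := cs ckF0 (by norm_num) (x := c) (y := 0) (z := 0) (by push_cast; linarith)
    (by push_cast; linarith) (by push_cast; linarith) (by push_cast; linarith)
    (by push_cast; linarith) (by push_cast; linarith)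
  have h' := cs ckF2 (by norm_num) (x := c) (y := 0) (z := 0) (by push_cast; linarith)
    (by push_cast; linarith) (by push_cast; linarith) (by push_cast; linarith)
    (by push_cast; linarith) (by push_cast; linarith)
  rw [ev_sb] at h'
  refine ⟨_, ?_, h, ?_⟩
  · simp only [h1, ev_hor, ev_ci, lf, horR, ev]
    push_cast
    unfold f
    ring
  · simp only [ev] at h'
    push_cast at h'
    linarith

theorem f_nonneg {c : ℝ} (hc : 0 ≤ c) (hc1 : c ≤ 1) : 0 ≤ f c := by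
  obtain ⟨g, h, h1, -⟩ := f_div hc hc1
  rw [h]; exact mul_nonneg hc h1

theorem f_le {c : ℝ} (hc : 0 ≤ c) (hc1 : c ≤ 1) : f c ≤ 415800 * c := by
  obtain ⟨g, h, -, h1⟩ := f_div hc hc1
  rw [h]; nlinarith

theorem f'_nonneg {c : ℝ} (hc : 0 ≤ c) (hc1 : c ≤ 1) : 0 ≤ f' c := by
  have h := cs ckF1 (by norm_num) (x := c) (y := 0) (z := 0) (by push_cast; linarith)
    (by push_cast; linarith) (by push_cast; linarith) (by push_cast; linarith)
    (by push_cast; linarith) (by push_cast; linarith)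
  refine le_of_le_of_eq h ?_
  simp only [h1, ev_hor, ev_ci, lf', horR, ev]
  push_cast
  unfold f'
  ring

theorem gB_nonpos {r a b c d : ℝ} (hr : 0 ≤ r) (ha : 0 ≤ a) (ha1 : a ≤ 1) (hb : 0 ≤ b)
    (hb1 : b ≤ 1) (hac : a = c + d) (hbc : b = c - d) : gB r c (d ^ 2) ≤ 0 := by
  rw [gB_eq, ← hac, ← hbc]
  have h1 := Q_nonneg hr (a := a) (by rwa [abs_of_nonneg ha])
  have h2 := Q_nonneg hr (a := b) (by rwa [abs_of_nonneg hb])
  have h3 : 0 ≤ a * Q r a * b + b * Q r b * a := by positivity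
  linarith

theorem k12_ge {r a b c d D W : ℝ} (hr : 0 ≤ r) (ha : 0 ≤ a) (ha1 : a ≤ 1) (hb : 0 ≤ b)
    (hb1 : b ≤ 1) (hac : a = c + d) (hbc : b = c - d) (hW : D * ww a b ≤ W) :
    gK r c (d ^ 2) D W ≤ D * k12 r a b (ww a b) := by
  have hB := gB_nonpos hr ha ha1 hb hb1 hac hbc
  have hk : k12 r a b (ww a b) = gA r c (d ^ 2) + ww a b * gB r c (d ^ 2) := by
    generalize ww a b = w
    rw [hac, hbc]
    exact k12_eq r c d w
  rw [hk]
  unfold gK
  nlinarith [mul_nonneg_of_nonpos_of_nonpos hB (sub_nonpos.2 hW)]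

theorem p12_ge {r a b c d D W : ℝ} (hr : 0 ≤ r) (ha : 0 ≤ a) (ha1 : a ≤ 1) (hb : 0 ≤ b)
    (hb1 : b ≤ 1) (hac : a = c + d) (hbc : b = c - d) (hW : D * ww a b ≤ W) :
    gP r c (d ^ 2) D W ≤ D * p12 r a b (ww a b) := by
  have h := k12_ge hr ha ha1 hb hb1 hac hbc hW
  have hab : a * b = c ^ 2 - d ^ 2 := by rw [hac, hbc]; ring
  have hf : (f a + f b) / 2 = gF c (d ^ 2) := by rw [hac, hbc]; exact f_eq c d
  unfold gP p12
  rw [hab, hf]
  have h3 := mul_le_mul_of_nonneg_left h (pow_nonneg hr 3)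
  nlinarith

/-- The inequality for pairs, with the case of equality. -/
theorem key {r a b : ℝ} (hr : 0 < r) (ha : 0 ≤ a) (ha1 : a ≤ 1) (hb : 0 ≤ b) (hb1 : b ≤ 1) :
    ∃ D W : ℝ, 0 < D ∧ 0 ≤ W ∧ W ≤ D * p12 r a b (ww a b) ∧ (W = 0 → r = 2 * a ∧ r = 2 * b) ∧
      (a + b < r → 0 < W) := by
  obtain ⟨c, hc⟩ : ∃ c, c = (a + b) / 2 := ⟨_, rfl⟩
  obtain ⟨d, hd⟩ : ∃ d, d = (a - b) / 2 := ⟨_, rfl⟩
  have hac : a = c + d := by rw [hc, hd]; ring
  have hbc : b = c - d := by rw [hc, hd]; ring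
  have hc0 : 0 ≤ c := by rw [hc]; positivity
  have hcs : a + b = 2 * c := by rw [hc]; ring
  have hfin : ∀ {x : ℝ}, x ^ 2 = 0 → r = 2 * c → d ^ 2 = 0 → r = 2 * a ∧ r = 2 * b := by
    intro x _ h1 h2
    have : d = 0 := by simpa using h2
    rw [hac, hbc, this, h1]
    constructor <;> ring
  rcases le_total c (1 / 2) with h | h
  · obtain ⟨δ, g0, g1, g2, g3⟩ := geo1 ha ha1 hb hb1 hac hbc h
    have hP := p12_ge hr.le ha ha1 hb hb1 hac hbc g3
    rw [g2] at hP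
    have hD : 0 < 1 - c ^ 2 := by nlinarith
    rcases le_or_gt r (2 * c) with hrc | hrc
    · have hcp : 0 < c := by linarith
      obtain ⟨ρ, hρ⟩ : ∃ ρ, ρ = r / (2 * c) := ⟨_, rfl⟩
      have hρ0 : 0 < ρ := by rw [hρ]; positivity
      have hρ1 : ρ ≤ 1 := by rw [hρ]; exact (div_le_one (by positivity)).2 hrc
      have hrr : 2 * c * ρ = r := by rw [hρ]; field_simp
      have hm := cP1 hc0 h hρ0.le hρ1 g0 g1
      rw [hrr] at hm
      refine ⟨1 - c ^ 2, r ^ 3 * ((1 - ρ) ^ 2 + δ), hD, by positivity, hm.trans hP, ?_, ?_⟩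
      · intro h0
        have h1 : (1 - ρ) ^ 2 + δ = 0 := by
          rcases mul_eq_zero.1 h0 with h1 | h1
          · exact absurd h1 (by positivity)
          · exact h1
        have h2 : (1 - ρ) ^ 2 = 0 := by nlinarith [sq_nonneg (1 - ρ)]
        have h3 : δ = 0 := by nlinarith [sq_nonneg (1 - ρ)]
        have h4 : ρ = 1 := by
          have : 1 - ρ = 0 := by simpa using h2
          linarith
        refine hfin h2 (by rw [← hrr, h4]; ring) (by rw [g2, h3]; ring)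
      · intro h0; linarith
    · obtain ⟨y, hy⟩ : ∃ y, y = r - 2 * c := ⟨_, rfl⟩
      have hy0 : 0 < y := by linarith
      have hrr : 2 * c + y = r := by linarith
      have hm := cP3 hc0 h hy0.le g0 g1
      rw [hrr] at hm
      have hpos : 0 < y ^ 2 * (y + c) + c ^ 3 * δ := by positivity
      exact ⟨1 - c ^ 2, y ^ 2 * (y + c) + c ^ 3 * δ, hD, hpos.le, hm.trans hP,
        fun h0 => absurd h0 hpos.ne', fun _ => hpos⟩
  · obtain ⟨μ, g0, g1, g2, g3⟩ := geo2 ha ha1 hb hb1 hac hbc h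
    have hP := p12_ge hr.le ha ha1 hb hb1 hac hbc g3
    rw [g2] at hP
    have hD : 0 < 2 * (1 + c) := by positivity
    have hc1 : c ≤ 1 := by linarith
    have k1 : 0 ≤ (1 - c) * (1 - μ) := mul_nonneg (by linarith) (by linarith)
    rcases le_or_gt r (2 * c) with hrc | hrc
    · have hcp : 0 < c := by linarith
      obtain ⟨ρ, hρ⟩ : ∃ ρ, ρ = r / (2 * c) := ⟨_, rfl⟩
      have hρ0 : 0 < ρ := by rw [hρ]; positivity
      have hρ1 : ρ ≤ 1 := by rw [hρ]; exact (div_le_one (by positivity)).2 hrc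
      have hrr : 2 * c * ρ = r := by rw [hρ]; field_simp
      have hm := cP2 h hc1 hρ0.le hρ1 g0 g1
      rw [hrr] at hm
      refine ⟨2 * (1 + c), r ^ 3 * ((1 - ρ) ^ 2 + (1 - c) * (1 - μ)), hD, by positivity,
        hm.trans hP, ?_, ?_⟩
      · intro h0
        have h1 : (1 - ρ) ^ 2 + (1 - c) * (1 - μ) = 0 := by
          rcases mul_eq_zero.1 h0 with h1 | h1
          · exact absurd h1 (by positivity)
          · exact h1
        have h2 : (1 - ρ) ^ 2 = 0 := by nlinarith [sq_nonneg (1 - ρ)]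
        have h3 : (1 - c) * (1 - μ) = 0 := by nlinarith [sq_nonneg (1 - ρ)]
        have h4 : ρ = 1 := by
          have : 1 - ρ = 0 := by simpa using h2
          linarith
        refine hfin h2 (by rw [← hrr, h4]; ring) ?_
        calc d ^ 2 = ((1 - c) * (1 - μ)) * ((1 - c) * (1 + μ)) := by rw [g2]; ring
          _ = 0 := by rw [h3, zero_mul]
      · intro h0; linarith
    · obtain ⟨y, hy⟩ : ∃ y, y = r - 2 * c := ⟨_, rfl⟩
      have hy0 : 0 < y := by linarith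
      have hrr : 2 * c + y = r := by linarith
      have hm := cP4 h hc1 hy0.le g0 g1
      rw [hrr] at hm
      have hpos : 0 < y ^ 2 + (1 - c) * (1 - μ) := by positivity
      exact ⟨2 * (1 + c), y ^ 2 + (1 - c) * (1 - μ), hD, hpos.le, hm.trans hP,
        fun h0 => absurd h0 hpos.ne', fun _ => hpos⟩

theorem p12_nonneg {r a b : ℝ} (hr : 0 < r) (ha : 0 ≤ a) (ha1 : a ≤ 1) (hb : 0 ≤ b)
    (hb1 : b ≤ 1) : 0 ≤ p12 r a b (ww a b) := by
  obtain ⟨D, W, hD, hW, h, -, -⟩ := key hr ha ha1 hb hb1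
  exact nonneg_of_mul_nonneg_right (hW.trans h) hD

theorem p12_eq_zero {r a b : ℝ} (hr : 0 < r) (ha : 0 ≤ a) (ha1 : a ≤ 1) (hb : 0 ≤ b)
    (hb1 : b ≤ 1) (h0 : p12 r a b (ww a b) = 0) : r = 2 * a ∧ r = 2 * b := by
  obtain ⟨D, W, hD, hW, h, h1, -⟩ := key hr ha ha1 hb hb1
  rw [h0, mul_zero] at h
  exact h1 (le_antisymm h hW)

theorem k12_pos {r a b : ℝ} (hr : 0 < r) (ha : 0 ≤ a) (ha1 : a ≤ 1) (hb : 0 ≤ b)
    (hb1 : b ≤ 1) : 0 < k12 r a b (ww a b) := by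
  obtain ⟨c, hc⟩ : ∃ c, c = (a + b) / 2 := ⟨_, rfl⟩
  obtain ⟨d, hd⟩ : ∃ d, d = (a - b) / 2 := ⟨_, rfl⟩
  have hac : a = c + d := by rw [hc, hd]; ring
  have hbc : b = c - d := by rw [hc, hd]; ring
  have hc0 : 0 ≤ c := by rw [hc]; positivity
  have hc1 : c ≤ 1 := by linarith
  rcases le_or_gt r (2 * c) with hrc | hrc
  · have hcp : 0 < c := by linarith
    obtain ⟨ρ, hρ⟩ : ∃ ρ, ρ = r / (2 * c) := ⟨_, rfl⟩
    have hρ0 : 0 < ρ := by rw [hρ]; positivity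
    have hρ1 : ρ ≤ 1 := by rw [hρ]; exact (div_le_one (by positivity)).2 hrc
    have hrr : 2 * c * ρ = r := by rw [hρ]; field_simp
    rcases le_total c (1 / 2) with h | h
    · obtain ⟨δ, g0, g1, g2, g3⟩ := geo1 ha ha1 hb hb1 hac hbc h
      have hP := k12_ge hr.le ha ha1 hb hb1 hac hbc g3
      rw [g2] at hP
      have hD : 0 < 1 - c ^ 2 := by nlinarith
      have hm := cK1 hc0 h hρ0.le hρ1 g0 g1
      rw [hrr] at hm
      have : 0 < (1 - c ^ 2) * k12 r a b (ww a b) := by linarith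
      exact pos_of_mul_pos_right this hD.le
    · obtain ⟨μ, g0, g1, g2, g3⟩ := geo2 ha ha1 hb hb1 hac hbc h
      have hP := k12_ge hr.le ha ha1 hb hb1 hac hbc g3
      rw [g2] at hP
      have hD : 0 < 2 * (1 + c) := by positivity
      have hm := cK2 h hc1 hρ0.le hρ1 g0 g1
      rw [hrr] at hm
      have : 0 < 2 * (1 + c) * k12 r a b (ww a b) := by linarith
      exact pos_of_mul_pos_right this hD.le
  · obtain ⟨D, W, hD, hW, h, -, h1⟩ := key hr ha ha1 hb hb1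
    have h2 := h1 (by linarith)
    have h3 : 0 < p12 r a b (ww a b) := pos_of_mul_pos_right (lt_of_lt_of_le h2 h) hD.le
    have f1 := f_le ha ha1
    have f2 := f_le hb hb1
    have h4 : 0 ≤ a * b * (207900 * r - (f a + f b) / 2) :=
      mul_nonneg (mul_nonneg ha hb) (by linarith)
    have h5 : 0 < r ^ 3 * k12 r a b (ww a b) := by
      unfold p12 at h3
      nlinarith
    exact pos_of_mul_pos_right h5 (by positivity)

/-! ### Other signs -/

/-- The kernel for cosines of any sign. -/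
noncomputable def kk (r a b w : ℝ) : ℝ :=
  3502 * r ^ 8 + 1 / 2 * ((11 * N r a - NR r a * (1 - b ^ 2) - |a| * Q r a * |b| * w -
      11 * b * r * N r a) +
    (11 * N r b - NR r b * (1 - a ^ 2) - |b| * Q r b * |a| * w - 11 * a * r * N r b))

theorem kk_of_nonneg {r a b w : ℝ} (ha : 0 ≤ a) (hb : 0 ≤ b) : kk r a b w = k12 r a b w := by
  unfold kk k12
  rw [abs_of_nonneg ha, abs_of_nonneg hb]

theorem k12_le_kk {r a b : ℝ} (hr : 0 < r) (ha : |a| ≤ 1) (hb : |b| ≤ 1) :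
    k12 r |a| |b| (ww |a| |b|) ≤ kk r a b (ww a b) := by
  have hw : ww |a| |b| = ww a b := by unfold ww; rw [sq_abs, sq_abs]
  rw [hw]
  unfold k12 kk
  rw [N_abs, N_abs, NR_abs, NR_abs, Q_abs, Q_abs, sq_abs, sq_abs]
  have n1 := N_nonneg hr.le (a := a) (ha.trans (by norm_num))
  have n2 := N_nonneg hr.le (a := b) (hb.trans (by norm_num))
  have h1 : 0 ≤ (|b| - b) * (r * N r a) :=
    mul_nonneg (sub_nonneg.2 (le_abs_self b)) (by positivity)
  have h2 : 0 ≤ (|a| - a) * (r * N r b) :=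
    mul_nonneg (sub_nonneg.2 (le_abs_self a)) (by positivity)
  nlinarith

theorem kk_pos {r a b : ℝ} (hr : 0 < r) (ha : |a| ≤ 1) (hb : |b| ≤ 1) :
    0 < kk r a b (ww a b) :=
  lt_of_lt_of_le (k12_pos hr (abs_nonneg a) ha (abs_nonneg b) hb) (k12_le_kk hr ha hb)

/-! ### The regularisation term -/

theorem X_nonneg {r A B a b : ℝ} (hr : 0 ≤ r) (hA : |A| ≤ |a|) (hB : |B| ≤ |b|) (ha : |a| ≤ 1)
    (hb : |b| ≤ 1) :
    0 ≤ NR r A + NR r B - ((1 - b ^ 2) * (A ^ 2 * Q r A) + (1 - a ^ 2) * (B ^ 2 * Q r B)) := by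
  have hA1 : |A| ≤ 1 := hA.trans ha
  have hB1 : |B| ≤ 1 := hB.trans hb
  have nA := Q_nonneg hr hA1
  have nB := Q_nonneg hr hB1
  have hAa : A ^ 2 ≤ a ^ 2 := sq_le_sq.2 hA
  have hBb : B ^ 2 ≤ b ^ 2 := sq_le_sq.2 hB
  have h := X_abs hr hA1 hB1
  have k1 : (1 - b ^ 2) * (A ^ 2 * Q r A) ≤ (1 - B ^ 2) * (A ^ 2 * Q r A) :=
    mul_le_mul_of_nonneg_right (by linarith) (by positivity)
  have k2 : (1 - a ^ 2) * (B ^ 2 * Q r B) ≤ (1 - A ^ 2) * (B ^ 2 * Q r B) :=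
    mul_le_mul_of_nonneg_right (by linarith) (by positivity)
  linarith

end Vale.Agent.P219.TP.P12
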