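import Vale.Agent.P219.TP.Basic

/-! # Quantities along geodesics -/

open MeasureTheory Set Metric
open scoped ENNReal ContDiff

namespace Vale.Agent.P219.TP

variable {n : ℕ}

namespace Geo

variable (G : Geo n)

/-- `k'(t)/‖D h(γ t)‖`, where `γ t = ex x (t u)`, `k = h ∘ γ`. -/
noncomputable def ca (h : E n → ℝ) (x u : E n) (t : ℝ) : ℝ :=
  inner ℝ (G.D h (G.ex x (t • u))) (G.V t x u) / ‖G.D h (G.ex x (t • u))‖

/-- The integrand of the two-point inequality on a geodesic. -/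
noncomputable def gk (κ : ℝ → ℝ → ℝ → ℝ) (h : E n → ℝ) (x u : E n) (s t : ℝ) : ℝ≥0∞ :=
  ENNReal.ofReal (κ (t - s) (G.ca h x u s) (-G.ca h x u t) *
    (‖G.D h (G.ex x (s • u))‖ * ‖G.D h (G.ex x (t • u))‖) * (t - s) ^ (n - 1))

end Geo

end Vale.Agent.P219.TP
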