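import Vale.Agent.P219.TP.CertEight

/-! # Regularisation of fields `(V(ρ) - a W(ρ)) ∇ρ` -/

open MeasureTheory Set Metric Filter Topology
open scoped ENNReal ContDiff

namespace Vale.Agent.P219.TP

/-- Half of the kernel of the field `(V(ρ) - a W(ρ)) ∇ρ`. -/
noncomputable def skx (m : ℕ) (v v' w w' ρ a b : ℝ) : ℝ :=
  (v' - a * w') * (1 - b ^ 2) + (v - a * w) / ρ * (m - 1 + b ^ 2) - m * ((v - a * w) * b) -
    w / ρ * |b| * (1 - (a ^ 2 + b ^ 2) / 2)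

/-- The kernel (without `λ`) of the field `(V(ρ) - a W(ρ)) ∇ρ`. -/
noncomputable def sk (m : ℕ) (v v' w w' ρ a b : ℝ) : ℝ :=
  (skx m v v' w w' ρ a b + skx m v v' w w' ρ b a) / 2

/-- The regularised field. -/
noncomputable def rPhi (V W : ℝ → ℝ) (η : ℝ) (p : ℝ × ℝ) : ℝ :=
  chi (p.2 ^ 2 / (p.1 + η ^ 2)) *
    (V (√(p.1 + η ^ 2)) / √(p.1 + η ^ 2) - W (√(p.1 + η ^ 2)) / (p.1 + η ^ 2) * p.2)

theorem rPhi_contDiff {V W : ℝ → ℝ} {η : ℝ} (hV : ContDiffOn ℝ ∞ V (Ioi 0))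
    (hW : ContDiffOn ℝ ∞ W (Ioi 0)) : ContDiffOn ℝ ∞ (rPhi V W η) {p | -η ^ 2 < p.1} := by
  have hD : ContDiffOn ℝ ∞ (fun p : ℝ × ℝ => p.1 + η ^ 2) {p | -η ^ 2 < p.1} :=
    (contDiff_fst.add contDiff_const).contDiffOn
  have hD0 : ∀ p ∈ {p : ℝ × ℝ | -η ^ 2 < p.1}, 0 < p.1 + η ^ 2 := by
    intro p hp
    have : -η ^ 2 < p.1 := hp
    linarith
  have hD1 : ∀ p ∈ {p : ℝ × ℝ | -η ^ 2 < p.1}, p.1 + η ^ 2 ≠ 0 := fun p hp => (hD0 p hp).ne'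
  have hS : ContDiffOn ℝ ∞ (fun p : ℝ × ℝ => √(p.1 + η ^ 2)) {p | -η ^ 2 < p.1} :=
    hD.sqrt hD1
  have hS0 : MapsTo (fun p : ℝ × ℝ => √(p.1 + η ^ 2)) {p : ℝ × ℝ | -η ^ 2 < p.1} (Ioi 0) :=
    fun p hp => Real.sqrt_pos.2 (hD0 p hp)
  have h2 : ContDiffOn ℝ ∞ (fun p : ℝ × ℝ => p.2) {p | -η ^ 2 < p.1} := contDiff_snd.contDiffOn
  have hVS : ContDiffOn ℝ ∞ (fun p : ℝ × ℝ => V (√(p.1 + η ^ 2))) {p | -η ^ 2 < p.1} :=
    hV.comp hS hS0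
  have hWS : ContDiffOn ℝ ∞ (fun p : ℝ × ℝ => W (√(p.1 + η ^ 2))) {p | -η ^ 2 < p.1} :=
    hW.comp hS hS0
  unfold rPhi
  refine ContDiffOn.mul (contDiff_chi.comp_contDiffOn ((h2.pow 2).div hD hD1)) ?_
  exact (hVS.div hS fun p hp => (hS0 hp).ne').sub ((hWS.div hD hD1).mul h2)

theorem rPhi_nonneg {V W : ℝ → ℝ} {η : ℝ} (hη : 0 < η) (hW : ∀ ρ > 0, 0 ≤ W ρ)
    (hVW : ∀ ρ > 0, 11 / 10 * W ρ ≤ V ρ) {p : ℝ × ℝ} (hp : 0 ≤ p.1) : 0 ≤ rPhi V W η p := by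
  unfold rPhi
  have hD : 0 < p.1 + η ^ 2 := by positivity
  have hρ : 0 < √(p.1 + η ^ 2) := Real.sqrt_pos.2 hD
  have hρ2 : √(p.1 + η ^ 2) ^ 2 = p.1 + η ^ 2 := Real.sq_sqrt hD.le
  rcases le_or_gt (11 / 10) (p.2 ^ 2 / (p.1 + η ^ 2)) with h | h
  · rw [chi_zero h, zero_mul]
  · refine mul_nonneg (chi_nonneg _) ?_
    rw [div_lt_iff₀ hD] at h
    set ρ := √(p.1 + η ^ 2)
    have h1 : p.2 ≤ 11 / 10 * ρ := by
      by_contra hcon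
      push Not at hcon
      nlinarith
    have h2 := hW ρ hρ
    have h3 := hVW ρ hρ
    rw [← hρ2]
    have e : V ρ / ρ - W ρ / ρ ^ 2 * p.2 = (V ρ * ρ - W ρ * p.2) / ρ ^ 2 := by
      field_simp
    rw [e]
    refine div_nonneg ?_ (by positivity)
    nlinarith [mul_le_mul_of_nonneg_left h1 h2, mul_le_mul_of_nonneg_right h3 hρ.le]

theorem rPhi_eventuallyEq {V W : ℝ → ℝ} {η : ℝ} (hη : 0 < η) {r a : ℝ} (ha : |a| ≤ 1) :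
    rPhi V W η =ᶠ[𝓝 (r ^ 2, r * a)] fun p =>
      V (√(p.1 + η ^ 2)) / √(p.1 + η ^ 2) - W (√(p.1 + η ^ 2)) / (p.1 + η ^ 2) * p.2 := by
  have ho : IsOpen {p : ℝ × ℝ | p.2 ^ 2 < p.1 + η ^ 2} :=
    isOpen_lt (by fun_prop) (by fun_prop)
  have hm : (r ^ 2, r * a) ∈ {p : ℝ × ℝ | p.2 ^ 2 < p.1 + η ^ 2} := by
    have ha2 : a ^ 2 ≤ 1 := by nlinarith [sq_abs a, abs_nonneg a]
    have : 0 < η ^ 2 := by positivity
    change (r * a) ^ 2 < r ^ 2 + η ^ 2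
    nlinarith [mul_nonneg (sq_nonneg r) (sub_nonneg.2 ha2)]
  filter_upwards [ho.mem_nhds hm] with p hp
  have hp' : p.2 ^ 2 < p.1 + η ^ 2 := hp
  unfold rPhi
  rw [chi_one, one_mul]
  have hD : 0 < p.1 + η ^ 2 := lt_of_le_of_lt (sq_nonneg _) hp'
  rw [div_le_one hD]
  exact hp'.le

theorem fderiv_lin {g h : ℝ → ℝ} {g' h' s : ℝ} (hg : HasDerivAt g g' s) (hh : HasDerivAt h h' s)
    (c x y : ℝ) :
    fderiv ℝ (fun p : ℝ × ℝ => g p.1 - h p.1 * p.2) (s, c) (x, y) =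
      (g' - h' * c) * x - h s * y := by
  have h1 : HasFDerivAt (fun p : ℝ × ℝ => g p.1)
      ((ContinuousLinearMap.toSpanSingleton ℝ g').comp (ContinuousLinearMap.fst ℝ ℝ ℝ)) (s, c) :=
    HasFDerivAt.comp (g := g) (f := Prod.fst) (s, c) hg.hasFDerivAt hasFDerivAt_fst
  have h2 : HasFDerivAt (fun p : ℝ × ℝ => h p.1)
      ((ContinuousLinearMap.toSpanSingleton ℝ h').comp (ContinuousLinearMap.fst ℝ ℝ ℝ)) (s, c) :=
    HasFDerivAt.comp (g := h) (f := Prod.fst) (s, c) hh.hasFDerivAt hasFDerivAt_fst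
  have h3 : HasFDerivAt (fun p : ℝ × ℝ => p.2) (ContinuousLinearMap.snd ℝ ℝ ℝ) (s, c) :=
    hasFDerivAt_snd
  have h4 : HasFDerivAt (fun p : ℝ × ℝ => g p.1 - h p.1 * p.2) _ (s, c) :=
    h1.sub (h2.mul h3)
  rw [h4.fderiv]
  simp
  ring

theorem hasDerivAt_gV {V : ℝ → ℝ} {η s v' : ℝ} (h : 0 < s + η ^ 2)
    (hV : HasDerivAt V v' (√(s + η ^ 2))) :
    HasDerivAt (fun s => V (√(s + η ^ 2)) / √(s + η ^ 2))
      ((v' / √(s + η ^ 2) - V (√(s + η ^ 2)) / √(s + η ^ 2) ^ 2) / (2 * √(s + η ^ 2))) s := by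
  have hρ : 0 < √(s + η ^ 2) := Real.sqrt_pos.2 h
  have h1 : HasDerivAt (fun s : ℝ => s + η ^ 2) 1 s := (hasDerivAt_id s).add_const _
  have h2 : HasDerivAt (fun s : ℝ => √(s + η ^ 2)) (1 / (2 * √(s + η ^ 2))) s :=
    h1.sqrt h.ne'
  have h3 : HasDerivAt (fun s => V (√(s + η ^ 2))) (v' * (1 / (2 * √(s + η ^ 2)))) s :=
    HasDerivAt.comp s hV h2
  refine (h3.div h2 hρ.ne').congr_deriv ?_
  field_simp

theorem hasDerivAt_hW {W : ℝ → ℝ} {η s w' : ℝ} (h : 0 < s + η ^ 2)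
    (hW : HasDerivAt W w' (√(s + η ^ 2))) :
    HasDerivAt (fun s => W (√(s + η ^ 2)) / (s + η ^ 2))
      ((w' / √(s + η ^ 2) ^ 2 - 2 * W (√(s + η ^ 2)) / √(s + η ^ 2) ^ 3) /
        (2 * √(s + η ^ 2))) s := by
  have hρ : 0 < √(s + η ^ 2) := Real.sqrt_pos.2 h
  have hρ2 : √(s + η ^ 2) ^ 2 = s + η ^ 2 := Real.sq_sqrt h.le
  have h1 : HasDerivAt (fun s : ℝ => s + η ^ 2) 1 s := (hasDerivAt_id s).add_const _
  have h2 : HasDerivAt (fun s : ℝ => √(s + η ^ 2)) (1 / (2 * √(s + η ^ 2))) s :=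
    h1.sqrt h.ne'
  have h3 : HasDerivAt (fun s => W (√(s + η ^ 2))) (w' * (1 / (2 * √(s + η ^ 2)))) s :=
    HasDerivAt.comp s hW h2
  refine (h3.div h1 h.ne').congr_deriv ?_
  set ρ := √(s + η ^ 2)
  rw [← hρ2]
  field_simp

theorem rker_alg (m : ℝ) {V W v' w' ρ q a b B w : ℝ} (hρ : ρ ≠ 0) :
    (m * (V / ρ - W / ρ ^ 2 * (q * ρ * a)) +
      (2 * (q * ρ) ^ 2 * (((v' / ρ - V / ρ ^ 2) / (2 * ρ) -
        (w' / ρ ^ 2 - 2 * W / ρ ^ 3) / (2 * ρ) * (q * ρ * a))) +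
        q * ρ * a * (-(W / ρ ^ 2))) *
        (1 - b ^ 2) - q * ρ * (W / ρ ^ 2) * B * w -
      m * (q * ρ * b * (V / ρ - W / ρ ^ 2 * (q * ρ * a)))) -
      ((v' - q * a * w') * (1 - (q * b) ^ 2) + (V - q * a * W) / ρ * (m - 1 + (q * b) ^ 2) -
        m * ((V - q * a * W) * (q * b)) -
        W / ρ * (q * B) * (1 - ((q * a) ^ 2 + (q * b) ^ 2) / 2)) =
      (1 - q ^ 2) * (V / ρ - v' + q * a * w' - (2 - b ^ 2) * (q * a) * (W / ρ)) +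
        W / ρ * (q * B) * (1 - ((q * a) ^ 2 + (q * b) ^ 2) / 2 - w) := by
  field_simp
  ring

theorem rker_t1 {V W v' w' ρ q a b C : ℝ} (ha : |a| ≤ 1) (hb : b ^ 2 ≤ 2) (hρ : 0 < ρ)
    (hq0 : 0 ≤ q) (hq1 : q ≤ 1) (hW0 : 0 ≤ W) (hH : v' + |w'| + 2 * W / ρ ≤ V / ρ + C * ρ ^ 2) :
    -(C * ρ ^ 2) ≤ V / ρ - v' + q * a * w' - (2 - b ^ 2) * (q * a) * (W / ρ) := by
  have hqa : |q * a| ≤ 1 := by
    rw [abs_mul, abs_of_nonneg hq0]; exact mul_le_one₀ hq1 (abs_nonneg _) ha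
  have h1 : -|w'| ≤ q * a * w' := by
    have : |q * a * w'| ≤ |w'| := by
      rw [abs_mul]
      calc |q * a| * |w'| ≤ 1 * |w'| := by gcongr
        _ = |w'| := one_mul _
    exact (neg_le_neg this).trans (neg_abs_le _)
  have hWρ : 0 ≤ W / ρ := by positivity
  have h2 : (2 - b ^ 2) * (q * a) * (W / ρ) ≤ 2 * (W / ρ) := by
    have : (2 - b ^ 2) * (q * a) ≤ 2 := by
      have h3 : q * a ≤ 1 := (le_abs_self _).trans hqa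
      have h4 : (2 - b ^ 2) * (q * a) ≤ (2 - b ^ 2) * 1 :=
        mul_le_mul_of_nonneg_left h3 (by linarith)
      have := sq_nonneg b
      linarith
    exact mul_le_mul_of_nonneg_right this hWρ
  have h3 : 2 * W / ρ = 2 * (W / ρ) := by ring
  rw [h3] at hH
  linarith

/-- Half of the regularised kernel is bounded below by half of the singular kernel. -/
theorem rker_half {m : ℕ} {V W : ℝ → ℝ} {η : ℝ} (hη : 0 < η) {r a b q ρ v' w' C : ℝ}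
    (ha : |a| ≤ 1) (hb : |b| ≤ 1) (hρ : 0 < ρ) (hρ2 : ρ ^ 2 = r ^ 2 + η ^ 2)
    (hq : r = q * ρ) (hq0 : 0 ≤ q) (hq1 : q ≤ 1) (hV : HasDerivAt V v' ρ)
    (hW : HasDerivAt W w' ρ) (hW0 : 0 ≤ W ρ)
    (hH : v' + |w'| + 2 * W ρ / ρ ≤ V ρ / ρ + C * ρ ^ 2) :
    skx m (V ρ) v' (W ρ) w' ρ (q * a) (q * b) - C * η ^ 2 ≤
      kap m (rPhi V W η) r a b - m * (r * b * rPhi V W η (r ^ 2, r * a)) := by
  have hpos : 0 < r ^ 2 + η ^ 2 := by positivity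
  have hsq : √(r ^ 2 + η ^ 2) = ρ := by rw [← hρ2]; exact Real.sqrt_sq hρ.le
  have e0 : rPhi V W η (r ^ 2, r * a) = V ρ / ρ - W ρ / ρ ^ 2 * (r * a) := by
    have := (rPhi_eventuallyEq (V := V) (W := W) hη (r := r) ha).self_of_nhds
    simp only [hsq] at this
    rw [this, hρ2]
  have e1 : ∀ x y : ℝ, fderiv ℝ (rPhi V W η) (r ^ 2, r * a) (x, y) =
      ((v' / ρ - V ρ / ρ ^ 2) / (2 * ρ) - (w' / ρ ^ 2 - 2 * W ρ / ρ ^ 3) / (2 * ρ) * (r * a)) * x -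
        W ρ / ρ ^ 2 * y := by
    intro x y
    rw [(rPhi_eventuallyEq hη ha).fderiv_eq]
    have h1 := hasDerivAt_gV (V := V) (η := η) (s := r ^ 2) (v' := v') hpos (by rw [hsq]; exact hV)
    have h2 := hasDerivAt_hW (W := W) (η := η) (s := r ^ 2) (w' := w') hpos (by rw [hsq]; exact hW)
    rw [fderiv_lin h1 h2]
    simp only [hsq]
    rw [hρ2]
  have hw := sqrt_le_aux ha hb
  have hqb : |q * b| = q * |b| := by rw [abs_mul, abs_of_nonneg hq0]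
  have hη2 : (1 - q ^ 2) * ρ ^ 2 = η ^ 2 := by
    have : r ^ 2 = q ^ 2 * ρ ^ 2 := by rw [hq]; ring
    linarith
  have hq2 : q ^ 2 ≤ 1 := pow_le_one₀ hq0 hq1
  have hWρ : 0 ≤ W ρ / ρ := by positivity
  have key := rker_alg (m : ℝ) (V := V ρ) (W := W ρ) (v' := v') (w' := w') (q := q) (a := a)
    (b := b) (B := |b|) (w := √((1 - a ^ 2) * (1 - b ^ 2))) hρ.ne'
  have hb2 : b ^ 2 ≤ 2 := by nlinarith [sq_abs b, abs_nonneg b]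
  have t1 := rker_t1 (b := b) ha hb2 hρ hq0 hq1 hW0 hH
  have t2 : -(C * η ^ 2) ≤
      (1 - q ^ 2) * (V ρ / ρ - v' + q * a * w' - (2 - b ^ 2) * (q * a) * (W ρ / ρ)) := by
    have := mul_le_mul_of_nonneg_left t1 (sub_nonneg.2 hq2)
    calc -(C * η ^ 2) = (1 - q ^ 2) * -(C * ρ ^ 2) := by rw [← hη2]; ring
      _ ≤ _ := this
  have t3 : 0 ≤ W ρ / ρ * (q * |b|) * (1 - ((q * a) ^ 2 + (q * b) ^ 2) / 2 -
      √((1 - a ^ 2) * (1 - b ^ 2))) := by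
    refine mul_nonneg (mul_nonneg hWρ (mul_nonneg hq0 (abs_nonneg _))) ?_
    have : (q * a) ^ 2 + (q * b) ^ 2 ≤ a ^ 2 + b ^ 2 := by
      have h1 : (q * a) ^ 2 + (q * b) ^ 2 = q ^ 2 * (a ^ 2 + b ^ 2) := by ring
      rw [h1]
      exact mul_le_of_le_one_left (by positivity) hq2
    linarith
  have habs : |((v' / ρ - V ρ / ρ ^ 2) / (2 * ρ) -
      (w' / ρ ^ 2 - 2 * W ρ / ρ ^ 3) / (2 * ρ) * (r * a)) * 0 - W ρ / ρ ^ 2 * 1| =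
      W ρ / ρ ^ 2 := by
    rw [mul_zero, zero_sub, mul_one, abs_neg, abs_of_nonneg (by positivity)]
  unfold kap skx
  rw [e1, e1, e0, habs, hqb]
  simp only [mul_one, mul_zero, sub_zero, zero_sub]
  rw [← hq] at key
  linarith

theorem rker_ge {m : ℕ} {V W : ℝ → ℝ} {η : ℝ} (hη : 0 < η) {lam r a b q ρ v' w' C : ℝ}
    (ha : |a| ≤ 1) (hb : |b| ≤ 1) (hρ : 0 < ρ) (hρ2 : ρ ^ 2 = r ^ 2 + η ^ 2)
    (hq : r = q * ρ) (hq0 : 0 ≤ q) (hq1 : q ≤ 1) (hV : HasDerivAt V v' ρ)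
    (hW : HasDerivAt W w' ρ) (hW0 : 0 ≤ W ρ)
    (hH : v' + |w'| + 2 * W ρ / ρ ≤ V ρ / ρ + C * ρ ^ 2) :
    lam + sk m (V ρ) v' (W ρ) w' ρ (q * a) (q * b) - C * η ^ 2 ≤
      ker m (rPhi V W η) lam r a b := by
  have h1 := rker_half (m := m) hη ha hb hρ hρ2 hq hq0 hq1 hV hW hW0 hH
  have h2 := rker_half (m := m) hη hb ha hρ hρ2 hq hq0 hq1 hV hW hW0 hH
  unfold ker ker0 sk
  linarith

/-- The data needed for the field `approx` of a certificate. -/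
def RegData (m : ℕ) (lam s : ℝ) (f : ℝ → ℝ) (ε : ℝ) : Prop :=
  ∃ (V W V' W' : ℝ → ℝ) (C : ℝ), 0 ≤ C ∧ ContDiffOn ℝ ∞ V (Ioi 0) ∧ ContDiffOn ℝ ∞ W (Ioi 0) ∧
    (∀ ρ > 0, HasDerivAt V (V' ρ) ρ ∧ HasDerivAt W (W' ρ) ρ ∧ 0 ≤ W ρ ∧ 11 / 10 * W ρ ≤ V ρ ∧
      V' ρ + |W' ρ| + 2 * W ρ / ρ ≤ V ρ / ρ + C * ρ ^ 2) ∧
    (∀ ρ > 0, ∀ a b : ℝ, |a| ≤ 1 → |b| ≤ 1 →
      0 ≤ lam + ε + sk m (V ρ) (V' ρ) (W ρ) (W' ρ) ρ a b) ∧
    (∀ ρ > 0, ∀ a b : ℝ, 0 ≤ a → a ≤ 1 → 0 ≤ b → b ≤ 1 →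
      a * b * (s * ρ - (f a + f b) / 2) ≤
        (lam + ε + sk m (V ρ) (V' ρ) (W ρ) (W' ρ) ρ a b) * ρ ^ m)

theorem reg_approx {m : ℕ} {lam s : ℝ} {f : ℝ → ℝ} (hs : 0 ≤ s) (hf : MonotoneOn f (Icc 0 1))
    (hf0 : 0 ≤ f 0) (H : ∀ ε > 0, RegData m lam s f ε) :
    ∀ ε > 0, ∃ Φ : ℝ × ℝ → ℝ, ∃ δ > 0, ContDiffOn ℝ ∞ Φ {p | -δ < p.1} ∧
    (∀ p : ℝ × ℝ, 0 ≤ p.1 → 0 ≤ Φ p) ∧
    (∀ r a b : ℝ, 0 ≤ r → |a| ≤ 1 → |b| ≤ 1 → 0 ≤ ker m Φ (lam + ε) r a b) ∧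
    (∀ r a b : ℝ, 0 < r → 0 ≤ a → a ≤ 1 → 0 ≤ b → b ≤ 1 →
      a * b * (s * r - (f a + f b) / 2 - ε) ≤ ker m Φ (lam + ε) r a b * r ^ m) := by
  intro ε hε
  obtain ⟨V, W, V', W', C, hC, hVs, hWs, hall, hK, hP⟩ := H (ε / 2) (by positivity)
  -- choice of η
  obtain ⟨η, hη, hη1, hη2⟩ : ∃ η : ℝ, 0 < η ∧ C * η ^ 2 ≤ ε / 2 ∧
      ((m : ℝ) / 2 + 1) * s * η ≤ ε := by
    have hA : 0 < 2 * (C + 1) / ε + 1 := by positivity
    have hB : 0 < ((m : ℝ) / 2 + 1) * s / ε + 1 := by positivity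
    refine ⟨min 1 (min (1 / (2 * (C + 1) / ε + 1)) (1 / (((m : ℝ) / 2 + 1) * s / ε + 1))),
      by positivity, ?_, ?_⟩
    · set x := min 1 (min (1 / (2 * (C + 1) / ε + 1)) (1 / (((m : ℝ) / 2 + 1) * s / ε + 1)))
      have hx0 : 0 < x := by positivity
      have hx1 : x ≤ 1 := min_le_left _ _
      have hx2 : x ≤ 1 / (2 * (C + 1) / ε + 1) := (min_le_right _ _).trans (min_le_left _ _)
      rw [le_div_iff₀ hA] at hx2
      have h1 : x * (2 * (C + 1) / ε) ≤ 1 := by linarith [mul_add x (2 * (C + 1) / ε) 1]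
      have h2 : x * (2 * (C + 1)) ≤ ε := by
        have := mul_le_mul_of_nonneg_right h1 hε.le
        calc x * (2 * (C + 1)) = x * (2 * (C + 1) / ε) * ε := by field_simp
          _ ≤ 1 * ε := this
          _ = ε := one_mul _
      have h3 : x ^ 2 ≤ x := by nlinarith
      nlinarith [mul_le_mul_of_nonneg_left h3 hC]
    · set x := min 1 (min (1 / (2 * (C + 1) / ε + 1)) (1 / (((m : ℝ) / 2 + 1) * s / ε + 1)))
      have hx0 : 0 < x := by positivity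
      have hx2 : x ≤ 1 / (((m : ℝ) / 2 + 1) * s / ε + 1) := (min_le_right _ _).trans (min_le_right _ _)
      rw [le_div_iff₀ hB] at hx2
      have h1 : x * (((m : ℝ) / 2 + 1) * s / ε) ≤ 1 := by
        linarith [mul_add x (((m : ℝ) / 2 + 1) * s / ε) 1]
      have := mul_le_mul_of_nonneg_right h1 hε.le
      calc ((m : ℝ) / 2 + 1) * s * x = x * (((m : ℝ) / 2 + 1) * s / ε) * ε := by field_simp
        _ ≤ 1 * ε := this
        _ = ε := one_mul _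
  have hnn : ∀ r a b : ℝ, 0 ≤ r → |a| ≤ 1 → |b| ≤ 1 →
      0 ≤ ker m (rPhi V W η) (lam + ε) r a b := by
    intro r a b hr ha hb
    obtain ⟨ρ, q, hρ, hρ2, hq, hq0, hq1, -⟩ := P8.exists_rho hη hr
    obtain ⟨d1, d2, d3, d4, d5⟩ := hall ρ hρ
    have h1 := rker_ge (m := m) (lam := lam + ε) hη ha hb hρ hρ2 hq hq0 hq1 d1 d2 d3 d5
    have h2 : |q * a| ≤ 1 := by
      rw [abs_mul, abs_of_nonneg hq0]; exact mul_le_one₀ hq1 (abs_nonneg _) ha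
    have h3 : |q * b| ≤ 1 := by
      rw [abs_mul, abs_of_nonneg hq0]; exact mul_le_one₀ hq1 (abs_nonneg _) hb
    have h4 := hK ρ hρ _ _ h2 h3
    linarith
  refine ⟨rPhi V W η, η ^ 2, by positivity, rPhi_contDiff hVs hWs, ?_, hnn, ?_⟩
  · intro p hp
    exact rPhi_nonneg hη (fun ρ hρ => (hall ρ hρ).2.2.1) (fun ρ hρ => (hall ρ hρ).2.2.2.1) hp
  · intro r a b hr ha ha1 hb hb1
    have haa : |a| ≤ 1 := by rwa [abs_of_nonneg ha]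
    have hbb : |b| ≤ 1 := by rwa [abs_of_nonneg hb]
    obtain ⟨ρ, q, hρ, hρ2, hq, hq0, hq1, -⟩ := P8.exists_rho hη hr.le
    obtain ⟨d1, d2, d3, d4, d5⟩ := hall ρ hρ
    have h1 := rker_ge (m := m) (lam := lam + ε) hη haa hbb hρ hρ2 hq hq0 hq1 d1 d2 d3 d5
    have hK0 := hnn r a b hr.le haa hbb
    have hqa : q * a ≤ a := by nlinarith
    have hqb : q * b ≤ b := by nlinarith
    have hqa0 : 0 ≤ q * a := mul_nonneg hq0 ha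
    have hqb0 : 0 ≤ q * b := mul_nonneg hq0 hb
    have h2 := hP ρ hρ _ _ hqa0 (hqa.trans ha1) hqb0 (hqb.trans hb1)
    have f1 : f (q * a) ≤ f a := hf ⟨hqa0, hqa.trans ha1⟩ ⟨ha, ha1⟩ hqa
    have f2 : f (q * b) ≤ f b := hf ⟨hqb0, hqb.trans hb1⟩ ⟨hb, hb1⟩ hqb
    have f3 : 0 ≤ f a := hf0.trans (hf ⟨le_rfl, zero_le_one⟩ ⟨ha, ha1⟩ ha)
    have f4 : 0 ≤ f b := hf0.trans (hf ⟨le_rfl, zero_le_one⟩ ⟨hb, hb1⟩ hb)
    have key : (q * a) * (q * b) * (s * ρ - (f a + f b) / 2) ≤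
        ker m (rPhi V W η) (lam + ε) r a b * ρ ^ m := by
      calc (q * a) * (q * b) * (s * ρ - (f a + f b) / 2) ≤
          (q * a) * (q * b) * (s * ρ - (f (q * a) + f (q * b)) / 2) :=
            mul_le_mul_of_nonneg_left (by linarith) (by positivity)
        _ ≤ _ := h2
        _ ≤ _ := by
            refine mul_le_mul_of_nonneg_right ?_ (by positivity)
            linarith
    have := regularise (m := m) hs hη hρ hρ2 hr.le hq hq0 hq1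
      (mul_nonneg ha hb) (by linarith) hK0 key
    refine le_trans ?_ this
    refine mul_le_mul_of_nonneg_left ?_ (mul_nonneg ha hb)
    linarith

end Vale.Agent.P219.TP
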