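import Vale.Agent.P219.TP.Reg

/-! # Regularisation of fields `(V(ρ) - a W(ρ)) ∇ρ`, with the exact square root -/

open MeasureTheory Set Metric Filter Topology
open scoped ENNReal ContDiff

namespace Vale.Agent.P219.TP

/-- Half of the kernel of the field `(V(ρ) - a W(ρ)) ∇ρ`; `t` stands for the square root. -/
noncomputable def skxs (m : ℕ) (v v' w w' ρ a b t : ℝ) : ℝ :=
  (v' - a * w') * (1 - b ^ 2) + (v - a * w) / ρ * (m - 1 + b ^ 2) - m * ((v - a * w) * b) -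
    w / ρ * |b| * t

/-- The kernel (without `λ`) of the field `(V(ρ) - a W(ρ)) ∇ρ`. -/
noncomputable def sks (m : ℕ) (v v' w w' ρ a b t : ℝ) : ℝ :=
  (skxs m v v' w w' ρ a b t + skxs m v v' w w' ρ b a t) / 2

/-- the square root -/
noncomputable def srt (a b : ℝ) : ℝ := √((1 - a ^ 2) * (1 - b ^ 2))

theorem srt_comm (a b : ℝ) : srt a b = srt b a := by unfold srt; rw [mul_comm]

theorem srt_mul_le {a b q : ℝ} (ha : |a| ≤ 1) (hb : |b| ≤ 1) (hq0 : 0 ≤ q) (hq1 : q ≤ 1) :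
    √((1 - a ^ 2) * (1 - b ^ 2)) ≤ srt (q * a) (q * b) := by
  have ha2 : a ^ 2 ≤ 1 := by nlinarith [sq_abs a, abs_nonneg a]
  have hb2 : b ^ 2 ≤ 1 := by nlinarith [sq_abs b, abs_nonneg b]
  have hq2 : q ^ 2 ≤ 1 := pow_le_one₀ hq0 hq1
  have h1 : (q * a) ^ 2 ≤ a ^ 2 := by
    rw [mul_pow]; exact mul_le_of_le_one_left (sq_nonneg a) hq2
  have h2 : (q * b) ^ 2 ≤ b ^ 2 := by
    rw [mul_pow]; exact mul_le_of_le_one_left (sq_nonneg b) hq2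
  unfold srt
  refine Real.sqrt_le_sqrt ?_
  exact mul_le_mul (by linarith) (by linarith) (by linarith) (by linarith)

theorem sks_mono {m : ℕ} {v v' w w' ρ a b t t' : ℝ} (hw : 0 ≤ w) (hρ : 0 < ρ) (h : t ≤ t') :
    sks m v v' w w' ρ a b t' ≤ sks m v v' w w' ρ a b t := by
  unfold sks skxs
  have h1 : 0 ≤ w / ρ * |a| := by positivity
  have h2 : 0 ≤ w / ρ * |b| := by positivity
  have h3 := mul_le_mul_of_nonneg_left h h1
  have h4 := mul_le_mul_of_nonneg_left h h2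
  linarith

/-- Half of the regularised kernel is bounded below by half of the singular kernel. -/
theorem rkerS_half {m : ℕ} {V W : ℝ → ℝ} {η : ℝ} (hη : 0 < η) {r a b q ρ v' w' C : ℝ}
    (ha : |a| ≤ 1) (hb : |b| ≤ 1) (hρ : 0 < ρ) (hρ2 : ρ ^ 2 = r ^ 2 + η ^ 2)
    (hq : r = q * ρ) (hq0 : 0 ≤ q) (hq1 : q ≤ 1) (hV : HasDerivAt V v' ρ)
    (hW : HasDerivAt W w' ρ) (hW0 : 0 ≤ W ρ)
    (hH : v' + |w'| + 2 * W ρ / ρ ≤ V ρ / ρ + C * ρ ^ 2) :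
    skxs m (V ρ) v' (W ρ) w' ρ (q * a) (q * b) (srt (q * a) (q * b)) - C * η ^ 2 ≤
      kap m (rPhi V W η) r a b - m * (r * b * rPhi V W η (r ^ 2, r * a)) := by
  have hpos : 0 < r ^ 2 + η ^ 2 := by positivity
  have hsq : √(r ^ 2 + η ^ 2) = ρ := by rw [← hρ2]; exact Real.sqrt_sq hρ.le
  have e0 : rPhi V W η (r ^ 2, r * a) = V ρ / ρ - W ρ / ρ ^ 2 * (r * a) := by
    have := (rPhi_eventuallyEq (V := V) (W := W) hη (r := r) ha).self_of_nhds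
    simp only [hsq] at this
    rw [this, hρ2]
  have e1 : ∀ x y : ℝ, fderiv ℝ (rPhi V W η) (r ^ 2, r * a) (x, y) =
      ((v' / ρ - V ρ / ρ ^ 2) / (2 * ρ) - (w' / ρ ^ 2 - 2 * W ρ / ρ ^ 3) / (2 * ρ) * (r * a)) * x -
        W ρ / ρ ^ 2 * y := by
    intro x y
    rw [(rPhi_eventuallyEq hη ha).fderiv_eq]
    have h1 := hasDerivAt_gV (V := V) (η := η) (s := r ^ 2) (v' := v') hpos (by rw [hsq]; exact hV)
    have h2 := hasDerivAt_hW (W := W) (η := η) (s := r ^ 2) (w' := w') hpos (by rw [hsq]; exact hW)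
    rw [fderiv_lin h1 h2]
    simp only [hsq]
    rw [hρ2]
  have hw := srt_mul_le ha hb hq0 hq1
  have hqb : |q * b| = q * |b| := by rw [abs_mul, abs_of_nonneg hq0]
  have hη2 : (1 - q ^ 2) * ρ ^ 2 = η ^ 2 := by
    have : r ^ 2 = q ^ 2 * ρ ^ 2 := by rw [hq]; ring
    linarith
  have hq2 : q ^ 2 ≤ 1 := pow_le_one₀ hq0 hq1
  have hWρ : 0 ≤ W ρ / ρ := by positivity
  have key := rker_alg (m : ℝ) (V := V ρ) (W := W ρ) (v' := v') (w' := w') (q := q) (a := a)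
    (b := b) (B := |b|) (w := √((1 - a ^ 2) * (1 - b ^ 2))) hρ.ne'
  have hb2 : b ^ 2 ≤ 2 := by nlinarith [sq_abs b, abs_nonneg b]
  have t1 := rker_t1 (b := b) ha hb2 hρ hq0 hq1 hW0 hH
  have t2 : -(C * η ^ 2) ≤
      (1 - q ^ 2) * (V ρ / ρ - v' + q * a * w' - (2 - b ^ 2) * (q * a) * (W ρ / ρ)) := by
    have := mul_le_mul_of_nonneg_left t1 (sub_nonneg.2 hq2)
    calc -(C * η ^ 2) = (1 - q ^ 2) * -(C * ρ ^ 2) := by rw [← hη2]; ring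
      _ ≤ _ := this
  have t3 : 0 ≤ W ρ / ρ * (q * |b|) * (srt (q * a) (q * b) - √((1 - a ^ 2) * (1 - b ^ 2))) :=
    mul_nonneg (mul_nonneg hWρ (mul_nonneg hq0 (abs_nonneg _))) (by linarith)
  have habs : |((v' / ρ - V ρ / ρ ^ 2) / (2 * ρ) -
      (w' / ρ ^ 2 - 2 * W ρ / ρ ^ 3) / (2 * ρ) * (r * a)) * 0 - W ρ / ρ ^ 2 * 1| =
      W ρ / ρ ^ 2 := by
    rw [mul_zero, zero_sub, mul_one, abs_neg, abs_of_nonneg (by positivity)]
  unfold kap skxs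
  rw [e1, e1, e0, habs, hqb]
  simp only [mul_one, mul_zero, sub_zero, zero_sub]
  rw [← hq] at key
  linarith

theorem rkerS_ge {m : ℕ} {V W : ℝ → ℝ} {η : ℝ} (hη : 0 < η) {lam r a b q ρ v' w' C : ℝ}
    (ha : |a| ≤ 1) (hb : |b| ≤ 1) (hρ : 0 < ρ) (hρ2 : ρ ^ 2 = r ^ 2 + η ^ 2)
    (hq : r = q * ρ) (hq0 : 0 ≤ q) (hq1 : q ≤ 1) (hV : HasDerivAt V v' ρ)
    (hW : HasDerivAt W w' ρ) (hW0 : 0 ≤ W ρ)
    (hH : v' + |w'| + 2 * W ρ / ρ ≤ V ρ / ρ + C * ρ ^ 2) :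
    lam + sks m (V ρ) v' (W ρ) w' ρ (q * a) (q * b) (srt (q * a) (q * b)) - C * η ^ 2 ≤
      ker m (rPhi V W η) lam r a b := by
  have h1 := rkerS_half (m := m) hη ha hb hρ hρ2 hq hq0 hq1 hV hW hW0 hH
  have h2 := rkerS_half (m := m) hη hb ha hρ hρ2 hq hq0 hq1 hV hW hW0 hH
  rw [srt_comm (q * b) (q * a)] at h2
  unfold ker ker0 sks
  linarith

/-- The data needed for the field `approx` of a certificate. -/
def RegDataS (m : ℕ) (lam s : ℝ) (f : ℝ → ℝ) : Prop :=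
  ∃ (V W V' W' : ℝ → ℝ) (C : ℝ), 0 ≤ C ∧ ContDiffOn ℝ ∞ V (Ioi 0) ∧ ContDiffOn ℝ ∞ W (Ioi 0) ∧
    (∀ ρ > 0, HasDerivAt V (V' ρ) ρ ∧ HasDerivAt W (W' ρ) ρ ∧ 0 ≤ W ρ ∧ 11 / 10 * W ρ ≤ V ρ ∧
      V' ρ + |W' ρ| + 2 * W ρ / ρ ≤ V ρ / ρ + C * ρ ^ 2) ∧
    (∀ ρ > 0, ∀ a b : ℝ, |a| ≤ 1 → |b| ≤ 1 →
      0 ≤ lam + sks m (V ρ) (V' ρ) (W ρ) (W' ρ) ρ a b (srt a b)) ∧
    (∀ ρ > 0, ∀ a b : ℝ, 0 ≤ a → a ≤ 1 → 0 ≤ b → b ≤ 1 →
      a * b * (s * ρ - (f a + f b) / 2) ≤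
        (lam + sks m (V ρ) (V' ρ) (W ρ) (W' ρ) ρ a b (srt a b)) * ρ ^ m)

theorem regS_approx {m : ℕ} {lam s : ℝ} {f : ℝ → ℝ} (hs : 0 ≤ s) (hf : MonotoneOn f (Icc 0 1))
    (hf0 : 0 ≤ f 0) (H : RegDataS m lam s f) :
    ∀ ε > 0, ∃ Φ : ℝ × ℝ → ℝ, ∃ δ > 0, ContDiffOn ℝ ∞ Φ {p | -δ < p.1} ∧
    (∀ p : ℝ × ℝ, 0 ≤ p.1 → 0 ≤ Φ p) ∧
    (∀ r a b : ℝ, 0 ≤ r → |a| ≤ 1 → |b| ≤ 1 → 0 ≤ ker m Φ (lam + ε) r a b) ∧
    (∀ r a b : ℝ, 0 < r → 0 ≤ a → a ≤ 1 → 0 ≤ b → b ≤ 1 →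
      a * b * (s * r - (f a + f b) / 2 - ε) ≤ ker m Φ (lam + ε) r a b * r ^ m) := by
  intro ε hε
  obtain ⟨V, W, V', W', C, hC, hVs, hWs, hall, hK, hP⟩ := H
  -- choice of η
  obtain ⟨η, hη, hη1, hη2⟩ : ∃ η : ℝ, 0 < η ∧ C * η ^ 2 ≤ ε ∧
      ((m : ℝ) / 2 + 1) * s * η ≤ ε := by
    have hA : 0 < (C + 1) / ε + 1 := by positivity
    have hB : 0 < ((m : ℝ) / 2 + 1) * s / ε + 1 := by positivity
    refine ⟨min 1 (min (1 / ((C + 1) / ε + 1)) (1 / (((m : ℝ) / 2 + 1) * s / ε + 1))),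
      by positivity, ?_, ?_⟩
    · set x := min 1 (min (1 / ((C + 1) / ε + 1)) (1 / (((m : ℝ) / 2 + 1) * s / ε + 1)))
      have hx0 : 0 < x := by positivity
      have hx1 : x ≤ 1 := min_le_left _ _
      have hx2 : x ≤ 1 / ((C + 1) / ε + 1) := (min_le_right _ _).trans (min_le_left _ _)
      rw [le_div_iff₀ hA] at hx2
      have h1 : x * ((C + 1) / ε) ≤ 1 := by linarith [mul_add x ((C + 1) / ε) 1]
      have h2 : x * (C + 1) ≤ ε := by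
        have := mul_le_mul_of_nonneg_right h1 hε.le
        calc x * (C + 1) = x * ((C + 1) / ε) * ε := by field_simp
          _ ≤ 1 * ε := this
          _ = ε := one_mul _
      have h3 : x ^ 2 ≤ x := by nlinarith
      nlinarith [mul_le_mul_of_nonneg_left h3 hC]
    · set x := min 1 (min (1 / ((C + 1) / ε + 1)) (1 / (((m : ℝ) / 2 + 1) * s / ε + 1)))
      have hx0 : 0 < x := by positivity
      have hx2 : x ≤ 1 / (((m : ℝ) / 2 + 1) * s / ε + 1) := (min_le_right _ _).trans (min_le_right _ _)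
      rw [le_div_iff₀ hB] at hx2
      have h1 : x * (((m : ℝ) / 2 + 1) * s / ε) ≤ 1 := by
        linarith [mul_add x (((m : ℝ) / 2 + 1) * s / ε) 1]
      have := mul_le_mul_of_nonneg_right h1 hε.le
      calc ((m : ℝ) / 2 + 1) * s * x = x * (((m : ℝ) / 2 + 1) * s / ε) * ε := by field_simp
        _ ≤ 1 * ε := this
        _ = ε := one_mul _
  have hlam : ∀ r a b : ℝ, ker m (rPhi V W η) (lam + ε) r a b =
      ker m (rPhi V W η) lam r a b + ε := by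
    intro r a b; unfold ker ker0; ring
  have hnn : ∀ r a b : ℝ, 0 ≤ r → |a| ≤ 1 → |b| ≤ 1 →
      0 ≤ ker m (rPhi V W η) (lam + ε) r a b := by
    intro r a b hr ha hb
    obtain ⟨ρ, q, hρ, hρ2, hq, hq0, hq1, -⟩ := P8.exists_rho hη hr
    obtain ⟨d1, d2, d3, d4, d5⟩ := hall ρ hρ
    have h1 := rkerS_ge (m := m) (lam := lam) hη ha hb hρ hρ2 hq hq0 hq1 d1 d2 d3 d5
    have h2 : |q * a| ≤ 1 := by
      rw [abs_mul, abs_of_nonneg hq0]; exact mul_le_one₀ hq1 (abs_nonneg _) ha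
    have h3 : |q * b| ≤ 1 := by
      rw [abs_mul, abs_of_nonneg hq0]; exact mul_le_one₀ hq1 (abs_nonneg _) hb
    have h4 := hK ρ hρ _ _ h2 h3
    rw [hlam]
    linarith
  refine ⟨rPhi V W η, η ^ 2, by positivity, rPhi_contDiff hVs hWs, ?_, hnn, ?_⟩
  · intro p hp
    exact rPhi_nonneg hη (fun ρ hρ => (hall ρ hρ).2.2.1) (fun ρ hρ => (hall ρ hρ).2.2.2.1) hp
  · intro r a b hr ha ha1 hb hb1
    have haa : |a| ≤ 1 := by rwa [abs_of_nonneg ha]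
    have hbb : |b| ≤ 1 := by rwa [abs_of_nonneg hb]
    obtain ⟨ρ, q, hρ, hρ2, hq, hq0, hq1, -⟩ := P8.exists_rho hη hr.le
    obtain ⟨d1, d2, d3, d4, d5⟩ := hall ρ hρ
    have h1 := rkerS_ge (m := m) (lam := lam) hη haa hbb hρ hρ2 hq hq0 hq1 d1 d2 d3 d5
    have hK0 := hnn r a b hr.le haa hbb
    have hqa : q * a ≤ a := by nlinarith
    have hqb : q * b ≤ b := by nlinarith
    have hqa0 : 0 ≤ q * a := mul_nonneg hq0 ha
    have hqb0 : 0 ≤ q * b := mul_nonneg hq0 hb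
    have h2 := hP ρ hρ _ _ hqa0 (hqa.trans ha1) hqb0 (hqb.trans hb1)
    have f1 : f (q * a) ≤ f a := hf ⟨hqa0, hqa.trans ha1⟩ ⟨ha, ha1⟩ hqa
    have f2 : f (q * b) ≤ f b := hf ⟨hqb0, hqb.trans hb1⟩ ⟨hb, hb1⟩ hqb
    have f3 : 0 ≤ f a := hf0.trans (hf ⟨le_rfl, zero_le_one⟩ ⟨ha, ha1⟩ ha)
    have f4 : 0 ≤ f b := hf0.trans (hf ⟨le_rfl, zero_le_one⟩ ⟨hb, hb1⟩ hb)
    have key : (q * a) * (q * b) * (s * ρ - (f a + f b) / 2) ≤
        ker m (rPhi V W η) (lam + ε) r a b * ρ ^ m := by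
      calc (q * a) * (q * b) * (s * ρ - (f a + f b) / 2) ≤
          (q * a) * (q * b) * (s * ρ - (f (q * a) + f (q * b)) / 2) :=
            mul_le_mul_of_nonneg_left (by linarith) (by positivity)
        _ ≤ _ := h2
        _ ≤ _ := by
            refine mul_le_mul_of_nonneg_right ?_ (by positivity)
            rw [hlam]
            linarith
    have := regularise (m := m) hs hη hρ hρ2 hr.le hq hq0 hq1
      (mul_nonneg ha hb) (by linarith) hK0 key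
    refine le_trans ?_ this
    refine mul_le_mul_of_nonneg_left ?_ (mul_nonneg ha hb)
    linarith

end Vale.Agent.P219.TP
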