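import Vale.Agent.P219.TP.Basic

/-! # The radial field -/

open MeasureTheory Set Metric
open scoped ENNReal ContDiff

namespace Vale.Agent.P219.TP

variable {n : ℕ} (G : Geo n)

/-- `w X`, where `X = θ(lg p x) A(x)(-lg x p)` is the radial field; `-X` is the initial velocity
of `Psi`. -/
noncomputable def Geo.Xf (Φ : ℝ × ℝ → ℝ) (R : ℝ) (ν p : E n) (x : E n) : E n :=
  (G.w x * th Φ R ν (G.lg p x)) • G.A x (-G.lg x p)

/-- Euclidean divergence of `w X`. -/
noncomputable def Geo.dvX (Φ : ℝ × ℝ → ℝ) (R : ℝ) (ν p : E n) (x : E n) : ℝ :=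
  ∑ i, fderiv ℝ (G.Xf Φ R ν p) x (EuclideanSpace.single i 1) i

end Vale.Agent.P219.TP
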